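import Vale.Agent.P205F.Expand.Good

/-!
# P205, expansions: setting the fast variable to `M x`

`rl p Φ z = Φ z (M z.2 0)`. A derivative in the first coordinate becomes `D0 = ∂x + M ∂t`.
-/

namespace Vale.Agent.P205F.Expand

open scoped ContDiff

variable {d : ℕ} {X : Type} [NormedAddCommGroup X] [NormedSpace ℝ X]

/-- The phase. -/
noncomputable def phase (d : ℕ) (p : Ix) : Zv d →L[ℝ] ℝ :=
  (p.M : ℝ) • ((EuclideanSpace.proj (0 : Fin 2)).comp (ContinuousLinearMap.snd ℝ (Fin d → ℝ) E2))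

lemma phase_apply (p : Ix) (z : Zv d) : phase d p z = p.M * z.2 0 := rfl

lemma norm_phase_le (p : Ix) : ‖phase d p‖ ≤ p.M := by
  refine ContinuousLinearMap.opNorm_le_bound _ (Nat.cast_nonneg _) fun z => ?_
  rw [phase_apply, norm_mul, Real.norm_natCast]
  exact mul_le_mul_of_nonneg_left ((PiLp.norm_apply_le z.2 0).trans (norm_snd_le z))
    (Nat.cast_nonneg _)

/-- The realisation of a family. -/
noncomputable def rl (Φ : Fm d X) (p : Ix) : Zv d → X := fun z => Φ p z (phase d p z)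

/-- `∂x + M ∂t`. -/
noncomputable def D0 (Φ : Fm d X) : Fm d X :=
  fun p z t => dx (ev 0) Φ p z t + (p.M : ℝ) • dtF Φ p z t

/-- `∂y`. -/
noncomputable def D1 (Φ : Fm d X) : Fm d X := dx (ev 1) Φ

lemma ev0_zero : ev 0 0 = (1 : ℝ) := by simp [ev]

lemma ev1_zero : ev 1 0 = (0 : ℝ) := by simp [ev]

lemma contDiff_rl {Φ : Fm d X} (h : ∀ p, Js (Φ p)) (p : Ix) : ContDiff ℝ ∞ (rl Φ p) :=
  ContDiff.comp (g := fun q : Zv d × ℝ => Φ p q.1 q.2) (h p)
    (contDiff_id.prodMk (phase d p).contDiff)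

lemma fderiv_rl {Φ : Fm d X} (h : ∀ p, Js (Φ p)) (p : Ix) (z v : Zv d) :
    fderiv ℝ (rl Φ p) z v =
      dir v (Φ p) z (phase d p z) + phase d p v • dt (Φ p) z (phase d p z) := by
  have h1 := ((h p).hasFDerivAt_joint z (phase d p z)).comp (f := fun y => (y, phase d p y)) z
    ((hasFDerivAt_id z).prodMk (phase d p).hasFDerivAt)
  rw [show rl Φ p = (fun q : Zv d × ℝ => Φ p q.1 q.2) ∘ (fun y => (y, phase d p y)) from rfl,
    h1.fderiv, (h p).dir_eq, (h p).dt_eq]
  simp only [ContinuousLinearMap.comp_apply, ContinuousLinearMap.prod_apply,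
    ContinuousLinearMap.id_apply]
  rw [← map_smul, ← map_add]
  simp

lemma pd_rl {Φ : Fm d X} (h : ∀ p, Js (Φ p)) (p : Ix) (l : Fin d → ℝ) (x : E2) (i : Fin 2) :
    pd i (fun y => rl Φ p (l, y)) x = rl (if i = 0 then D0 Φ else D1 Φ) p (l, x) := by
  have hd := (contDiff_rl h p).differentiable (by norm_num) (l, x)
  have e : fderiv ℝ (fun y => rl Φ p (l, y)) x =
      (fderiv ℝ (rl Φ p) (l, x)).comp (ContinuousLinearMap.inr ℝ (Fin d → ℝ) E2) :=
    (hd.hasFDerivAt.comp (f := fun y : E2 => (l, y)) x (hasFDerivAt_prodMk_right l x)).fderiv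
  rw [pd, e, ContinuousLinearMap.comp_apply, fderiv_rl h, phase_apply,
    ContinuousLinearMap.inr_apply]
  fin_cases i
  · simp [rl, D0, dx, dtF, phase_apply, ev0_zero]
  · simp [rl, D1, dx, phase_apply, ev1_zero]

lemma D0_js {Φ : Fm d X} (h : ∀ p, Js (Φ p)) (p : Ix) : Js (D0 Φ p) :=
  ((h p).dir _).add ((h p).dt.clm ((p.M : ℝ) • ContinuousLinearMap.id ℝ X))

lemma D1_js {Φ : Fm d X} (h : ∀ p, Js (Φ p)) (p : Ix) : Js (D1 Φ p) := (h p).dir _

lemma D1_iter_js {Φ : Fm d X} (h : ∀ p, Js (Φ p)) : ∀ j p, Js (D1^[j] Φ p)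
  | 0, p => h p
  | j + 1, p => by rw [Function.iterate_succ_apply']; exact D1_js (D1_iter_js h j) p

lemma D0_iter_js {Φ : Fm d X} (h : ∀ p, Js (Φ p)) : ∀ j p, Js (D0^[j] Φ p)
  | 0, p => h p
  | j + 1, p => by rw [Function.iterate_succ_apply']; exact D0_js (D0_iter_js h j) p

/-- Mixed partial derivatives of a realisation. -/
theorem pd_iter_rl {Φ : Fm d X} (h : ∀ p, Js (Φ p)) (p : Ix) (l : Fin d → ℝ) (i j : ℕ) :
    (pd 0)^[i] ((pd 1)^[j] fun y => rl Φ p (l, y)) =
      fun x => rl (D0^[i] (D1^[j] Φ)) p (l, x) := by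
  induction i with
  | zero =>
    induction j with
    | zero => rfl
    | succ j ih =>
      simp only [Function.iterate_zero, id_eq] at ih ⊢
      rw [Function.iterate_succ_apply', ih, Function.iterate_succ_apply']
      funext x
      rw [pd_rl (D1_iter_js h j)]
      simp
  | succ i ih =>
    rw [Function.iterate_succ_apply', ih, Function.iterate_succ_apply']
    funext x
    rw [pd_rl (D0_iter_js (D1_iter_js h j) i)]
    simp

/-- All derivatives of a realisation. -/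
theorem norm_rl_le : ∀ (n : ℕ) {X : Type} [NormedAddCommGroup X] [NormedSpace ℝ X]
    (π : Zv d →L[ℝ] ℝ) (Φ : Zv d → ℝ → X), Js Φ → ∀ (z : Zv d) (B : ℝ),
    (∀ a i, a + i ≤ n → ∀ t, ‖iteratedFDeriv ℝ a (fun y => dt^[i] Φ y t) z‖ ≤ B) →
    ‖iteratedFDeriv ℝ n (fun y => Φ y (π y)) z‖ ≤ (1 + ‖π‖) ^ n * B := by
  intro n
  induction n with
  | zero =>
    intro X _ _ π Φ _ z B hB
    simpa using hB 0 0 le_rfl (π z)
  | succ n ih =>
    intro X _ _ π Φ h z B hB
    set A : Zv d → ℝ → (Zv d →L[ℝ] X) := fun y t => fderiv ℝ (fun y => Φ y t) y with hA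
    set L : X →L[ℝ] (Zv d →L[ℝ] X) := ContinuousLinearMap.smulRightL ℝ (Zv d) X π with hL
    have hAj : Js A := by
      have e : A = fun y t => (joint Φ y t).comp (ContinuousLinearMap.inl ℝ (Zv d) ℝ) := by
        funext y t; exact (h.hasFDerivAt_slow y t).fderiv
      rw [e]
      exact (h.fderiv_right (m := ∞) (by exact_mod_cast le_top)).clm_comp contDiff_const
    have hAi : ∀ i, dt^[i] A = fun y t => fderiv ℝ (fun y => dt^[i] Φ y t) y := by
      intro i
      funext y t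
      refine ContinuousLinearMap.ext fun v => ?_
      have e := congrFun (congrFun (hAj.dt_iter_clm i (ContinuousLinearMap.apply ℝ X v)) y) t
      simp only [ContinuousLinearMap.apply_apply] at e
      rw [← e]
      exact congrFun (congrFun (h.dt_iter_dir v i) y) t
    have hLn : ‖L‖ ≤ ‖π‖ := ContinuousLinearMap.opNorm_le_bound _ (norm_nonneg _) fun x => by
      rw [hL, ContinuousLinearMap.smulRightL_apply_apply, ContinuousLinearMap.norm_smulRight_apply]
    set Φ1 : Zv d → ℝ → (Zv d →L[ℝ] X) := A + fun y t => L (dt Φ y t) with hΦ1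
    have hj1 : Js Φ1 := hAj.add (h.dt.clm L)
    have e : fderiv ℝ (fun y => Φ y (π y)) = fun y => Φ1 y (π y) := by
      funext y
      refine ContinuousLinearMap.ext fun v => ?_
      have h1 := (h.hasFDerivAt_joint y (π y)).comp (f := fun y => (y, π y)) y
        ((hasFDerivAt_id y).prodMk π.hasFDerivAt)
      rw [show (fun y => Φ y (π y)) = (fun q : Zv d × ℝ => Φ q.1 q.2) ∘ fun y => (y, π y) from rfl,
        h1.fderiv]
      simp only [hΦ1, hL, hA, Pi.add_apply, add_apply,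
        ContinuousLinearMap.smulRightL_apply_apply, ContinuousLinearMap.smulRight_apply,
        ContinuousLinearMap.comp_apply, ContinuousLinearMap.prod_apply,
        ContinuousLinearMap.id_apply, (h.hasFDerivAt_slow y (π y)).fderiv,
        ContinuousLinearMap.inl_apply, h.dt_eq]
      rw [← map_smul, ← map_add]
      simp
    rw [← norm_iteratedFDeriv_fderiv, e, pow_succ, mul_assoc]
    refine ih π Φ1 hj1 z _ fun a i hai t => ?_
    rw [hΦ1, hAj.dt_iter_add i (h.dt.clm L), hAi, h.dt.dt_iter_clm i L]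
    simp only [Pi.add_apply]
    have hs := (h.dt_iter i).slow t
    rw [fun_iteratedFDeriv_add_apply (f := fun y => fderiv ℝ (fun y => dt^[i] Φ y t) y)
      (g := fun y => L (dt^[i] (dt Φ) y t))
      ((hs.fderiv_right (m := ∞) (by exact_mod_cast le_top)).of_le (by exact_mod_cast le_top)).contDiffAt
      ((L.contDiff.comp ((h.dt.dt_iter i).slow t)).of_le (by exact_mod_cast le_top)).contDiffAt]
    refine (norm_add_le _ _).trans ?_
    rw [add_mul, one_mul]
    refine add_le_add ?_ ?_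
    · rw [norm_iteratedFDeriv_fderiv]
      exact hB (a + 1) i (by omega) t
    · refine (L.norm_iteratedFDeriv_comp_left (h.dt.contDiffAt_dt a i t z) le_rfl).trans ?_
      refine mul_le_mul hLn ?_ (norm_nonneg _) (norm_nonneg _)
      rw [← Function.iterate_succ_apply]
      exact hB a (i + 1) (by omega) t

/-- Bounds on a realisation from a class: the weight must be monotone. -/
theorem Cls.rl_bound {wt : Ix → ℕ → ℝ} {N : ℕ∞} {Φ : Fm d X} (h : Cls wt N Φ) (n : ℕ)
    (hn : (n : ℕ∞) ≤ N) (h0 : ∀ p i, 0 ≤ wt p i)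
    (hw : ∀ p i, Adm p → i ≤ n → wt p i ≤ wt p n) :
    ∃ C, 0 ≤ C ∧ ∀ p, Adm p → ∀ z ∈ dom d,
      ‖iteratedFDeriv ℝ n (rl Φ p) z‖ ≤ C * (p.M : ℝ) ^ n * wt p n := by
  have hb : ∀ a i, i ≤ n → ∃ C, 0 ≤ C ∧ ∀ p, Adm p → ∀ z ∈ dom d, ∀ t,
      ‖iteratedFDeriv ℝ a (fun y => dt^[i] (Φ p) y t) z‖ ≤ C * wt p n := fun a i hi => by
    obtain ⟨C, hC, hb⟩ := h.bd a i (le_trans (WithTop.coe_le_coe.2 hi) hn)
    exact ⟨C, hC, fun p hp z hz t =>
      (hb p hp z hz t).trans (mul_le_mul_of_nonneg_left (hw p i hp hi) hC)⟩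
  choose C hC0 hC using hb
  set S := ∑ a ∈ Finset.range (n + 1), ∑ i : Fin (n + 1), C a i (Nat.lt_succ_iff.1 i.2) with hS
  have hS0 : 0 ≤ S := Finset.sum_nonneg fun a _ => Finset.sum_nonneg fun i _ => hC0 _ _ _
  refine ⟨2 ^ n * S, by positivity, fun p hp z hz => ?_⟩
  have hwn : 0 ≤ S * wt p n := mul_nonneg hS0 (h0 p n)
  refine (norm_rl_le n (phase d p) (Φ p) (h.js p) z (S * wt p n) fun a i hai t => ?_).trans ?_
  · refine (hC a i (by omega) p hp z hz t).trans ?_
    refine mul_le_mul_of_nonneg_right ?_ (h0 p n)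
    refine le_trans ?_ (Finset.single_le_sum (f := fun a => ∑ i : Fin (n + 1),
      C a i (Nat.lt_succ_iff.1 i.2)) (fun a _ => Finset.sum_nonneg fun i _ => hC0 _ _ _)
      (Finset.mem_range.2 (show a < n + 1 by omega)))
    exact Finset.single_le_sum (f := fun i : Fin (n + 1) => C a i (Nat.lt_succ_iff.1 i.2))
      (fun i _ => hC0 _ _ _) (Finset.mem_univ (⟨i, by omega⟩ : Fin (n + 1)))
  · have h1 : (1 + ‖phase d p‖) ^ n ≤ 2 ^ n * (p.M : ℝ) ^ n := by
      rw [← mul_pow]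
      refine pow_le_pow_left₀ (by positivity) ?_ n
      linarith [norm_phase_le (d := d) p, hp.one_le_M]
    calc (1 + ‖phase d p‖) ^ n * (S * wt p n) ≤ 2 ^ n * (p.M : ℝ) ^ n * (S * wt p n) :=
          mul_le_mul_of_nonneg_right h1 hwn
      _ = _ := by ring

/-- Derivatives in the point alone. -/
lemma norm_iteratedFDeriv_slice_le {g : Zv d → X} (hg : ContDiff ℝ ∞ g) (n : ℕ) (l : Fin d → ℝ)
    (x : E2) : ‖iteratedFDeriv ℝ n (fun y => g (l, y)) x‖ ≤ ‖iteratedFDeriv ℝ n g (l, x)‖ := by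
  have e : (fun y => g (l, y)) =
      (fun z => g (z + (l, 0))) ∘ ContinuousLinearMap.inr ℝ (Fin d → ℝ) E2 := by
    funext y; simp
  have hg' : ContDiff ℝ ∞ fun z => g (z + (l, 0)) := hg.comp (contDiff_id.add contDiff_const)
  rw [e, ContinuousLinearMap.iteratedFDeriv_comp_right _ hg' _ (by exact_mod_cast le_top),
    iteratedFDeriv_comp_add_right' (f := g) n]
  refine (ContinuousMultilinearMap.norm_compContinuousLinearMap_le _ _).trans ?_
  refine le_trans (mul_le_of_le_one_right (norm_nonneg _) (Finset.prod_le_one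
    (fun _ _ => ContinuousLinearMap.opNorm_nonneg _)
    fun _ _ => ContinuousLinearMap.opNorm_le_bound _ zero_le_one fun y => by simp [Prod.norm_def])) ?_
  simp

/-! ### `D0`, `D1` on classes -/

variable {wt w₂ : Ix → ℕ → ℝ} {N N' : ℕ∞} {Φ : Fm d X}

theorem Cls.D1 (h : Cls wt N Φ) : Cls wt N (Expand.D1 Φ) := h.dir _

theorem Cls.D0 (h : Cls wt N Φ) (hN : ∀ i : ℕ, (i : ℕ∞) ≤ N' → ((i + 1 : ℕ) : ℕ∞) ≤ N)
    (hN' : N' ≤ N)
    (hw : ∀ p i, Adm p → wt p i ≤ w₂ p i ∧ (p.M : ℝ) * wt p (i + 1) ≤ w₂ p i) :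
    Cls w₂ N' (Expand.D0 Φ) := by
  have h1 : Cls w₂ N' (Expand.dx (ev 0) Φ) :=
    Cls.mono (h.dir _) hN' fun i _ => ⟨1, zero_le_one, fun p hp => by
      rw [one_mul]; exact (hw p i hp).1⟩
  have h2 : Cls (fun p i => wt p (i + 1)) N' (dtF Φ) :=
    h.deriv hN fun _ _ => ⟨1, zero_le_one, fun _ _ => by rw [one_mul]⟩
  have h3 : Cls w₂ N' fun p z t => (p.M : ℝ) • dtF Φ p z t :=
    Cls.smul_ix h2 _ fun p i hp => by rw [Nat.abs_cast]; exact (hw p i hp).2
  exact h1.add h3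

end Vale.Agent.P205F.Expand
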