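import Vale.Agent.P205F.Expand.Rop
import Vale.Agent.P205F.Expand.Real

/-!
# P205, expansions: the data of a twist and the error of an expansion

`Base` collects what the iteration uses: cut-off tangent fields, the loop, the linear solver for the
oscillating equations and the inverse of the linearised base. `e0, e1, e2` are the components of the
error of `G`; `r0, r1, r2` are what is left of them once the multiples of `ν²` are absorbed.
-/

namespace Vale.Agent.P205F.Expand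

open scoped ContDiff RealInnerProductSpace Topology
open Filter Set

variable {d : ℕ} {W : Wts d} {i j : ℕ}

/-- The inner product as a bilinear map. -/
noncomputable def ipL : R4 →L[ℝ] R4 →L[ℝ] ℝ := innerSL ℝ

/-- Inner product of two families. -/
noncomputable def ip (Φ Ψ : Fm d R4) : Fm d ℝ := mulF ipL Φ Ψ

/-- Product of a scalar family with a family. -/
noncomputable def sm {X : Type} [NormedAddCommGroup X] [NormedSpace ℝ X] (a : Fm d ℝ)
    (Φ : Fm d X) : Fm d X := mulF (ContinuousLinearMap.lsmul ℝ ℝ) a Φ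

lemma ip_apply (Φ Ψ : Fm d R4) (p : Ix) (z : Zv d) (t : ℝ) :
    ip Φ Ψ p z t = ⟪Φ p z t, Ψ p z t⟫ := rfl

lemma sm_apply {X : Type} [NormedAddCommGroup X] [NormedSpace ℝ X] (a : Fm d ℝ) (Φ : Fm d X)
    (p : Ix) (z : Zv d) (t : ℝ) : sm a Φ p z t = a p z t • Φ p z t := rfl

lemma Up.ip {Φ Ψ : Fm d R4} (h : Up W i Φ) (h' : Up W j Ψ) : Up W (i + j) (Expand.ip Φ Ψ) :=
  h.mul ipL h'

lemma Low.ip {Φ Ψ : Fm d R4} (h : Low W i Φ) (h' : Low W j Ψ) :
    Low W (i + j) (Expand.ip Φ Ψ) := h.mul ipL h'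

lemma Up.sm {X : Type} [NormedAddCommGroup X] [NormedSpace ℝ X] {a : Fm d ℝ} {Φ : Fm d X}
    (h : Up W i a) (h' : Up W j Φ) : Up W (i + j) (Expand.sm a Φ) := h.mul _ h'

lemma Low.sm {X : Type} [NormedAddCommGroup X] [NormedSpace ℝ X] {a : Fm d ℝ} {Φ : Fm d X}
    (h : Low W i a) (h' : Low W j Φ) : Low W (i + j) (Expand.sm a Φ) := h.mul _ h'

/-- A coefficient field as a family. -/
def cf {X : Type} (d : ℕ) (c : E2 → ℝ → X) : Fm d X := fun _ z t => c z.2 t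

/-- A coefficient: smooth, periodic, with compact support in the point. -/
structure Coef {X : Type} [NormedAddCommGroup X] [NormedSpace ℝ X] (c : E2 → ℝ → X) : Prop where
  js : Js c
  per : Per c
  supp : ∃ K, IsCompact K ∧ ∀ x ∉ K, ∀ t, c x t = 0

lemma Coef.of_slow {X : Type} [NormedAddCommGroup X] [NormedSpace ℝ X] {c : E2 → X}
    (h : ContDiff ℝ ∞ c) (hc : HasCompactSupport c) : Coef fun x (_ : ℝ) => c x :=
  ⟨h.comp contDiff_fst, fun _ _ => rfl,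
    ⟨tsupport c, hc, fun _ hx _ => image_eq_zero_of_notMem_tsupport hx⟩⟩

lemma Up.cf {X : Type} [NormedAddCommGroup X] [NormedSpace ℝ X] {c : E2 → ℝ → X} (h : Coef c) :
    Up W 0 (Expand.cf d c) := by
  obtain ⟨K, hK, h0⟩ := h.supp
  exact Up.coef h.js h.per hK h0

/-- The data of a twist. -/
structure Base where
  /-- carrier of all corrections -/
  S : Set E2
  /-- where the identities hold -/
  N : Set E2
  /-- cut-off `∂x f` -/
  X0 : E2 → R4
  /-- cut-off `∂y f` -/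
  X1 : E2 → R4
  /-- cut-off normal field of the third equation -/
  V : E2 → R4
  /-- amplitude -/
  a : E2 → ℝ
  /-- loop -/
  g0 : E2 → ℝ → R4
  /-- cut-off `ν₀/ν₁` -/
  r : E2 → ℝ
  /-- `1` when no error in the direction of `ν` is allowed -/
  χ : ℝ
  /-- local part of the solver -/
  A : Fin 3 → E2 → ℝ → R4
  /-- functionals of the solver -/
  Dm : Fin 2 → Fin 3 → E2 → ℝ → ℝ
  /-- fields of the solver -/
  Cv : Fin 2 → E2 → ℝ → R4
  /-- inverse of the linearised base -/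
  R : SOp
  S_compact : IsCompact S
  N_open : IsOpen N
  S_sub : S ⊆ N
  X0_coef : Coef fun x (_ : ℝ) => X0 x
  X1_coef : Coef fun x (_ : ℝ) => X1 x
  V_coef : Coef fun x (_ : ℝ) => V x
  a_coef : Coef fun x (_ : ℝ) => a x
  r_coef : Coef fun x (_ : ℝ) => r x
  g0_coef : Coef g0
  A_coef : ∀ k, Coef (A k)
  Dm_coef : ∀ c k, Coef (Dm c k)
  Cv_coef : ∀ c, Coef (Cv c)
  a_zero : ∀ x ∉ S, a x = 0
  g0_zero : ∀ x ∉ S, ∀ t, g0 x t = 0
  g0_mean : ∀ x, mean g0 x = 0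
  χ_or : χ = 0 ∨ (χ = 1 ∧ ∀ x, r x = 0)
  loop_len : ∀ x t, 2 * ⟪X0 x, g0 x t⟫ + ⟪g0 x t, g0 x t⟫ = a x ^ 2
  loop_perp : ∀ x t, ⟪X1 x, g0 x t⟫ = 0
  loop_perp' : ∀ x t, ⟪V x, g0 x t⟫ = 0
  V_eq : χ ≠ 0 → ∀ x ∈ N, ∃ c : ℝ, pd 1 X1 x = V x + c • X1 x
  solve : ∀ x ∈ N, ∀ R' : Fin 3 → ℝ → ℝ, (∀ k, Continuous (R' k)) →
    (∀ k t, R' k (t + 1) = R' k t) → (∀ k, ∫ t in (0 : ℝ)..1, R' k t = 0) →
    let u : ℝ → R4 := fun t => (∑ k, R' k t • A k x t) +
      ∑ c, (∫ s in (0 : ℝ)..1, ∑ k, R' k s * Dm c k x s) • Cv c x t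
    (∫ t in (0 : ℝ)..1, u t = 0) ∧ ∀ t, ⟪X0 x + g0 x t, u t⟫ = R' 0 t ∧
      ⟪X1 x, u t⟫ = R' 1 t ∧ ⟪V x, u t⟫ = R' 2 t
  rop : ∀ q : E2 → S3, ContDiff ℝ ∞ q → (∀ x ∉ S, q x = 0) → ∀ x,
    ![2 * ⟪X0 x, pd 0 (R.app q) x⟫, ⟪X0 x, pd 1 (R.app q) x⟫ + ⟪X1 x, pd 0 (R.app q) x⟫,
      2 * ⟪X1 x, pd 1 (R.app q) x⟫] = q x

variable (B : Base)

/-- `∂x (F - f)`. -/
noncomputable def h0 (G : Fm d R4) : Fm d R4 :=
  dtF G + fun p z t => eps p • dx (ev 0) G p z t

/-- `∂y (F - f)`. -/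
noncomputable def h1 (G : Fm d R4) : Fm d R4 := fun p z t => eps p • dx (ev 1) G p z t

/-- The loop as a family. -/
noncomputable def gF (d : ℕ) (B : Base) : Fm d R4 := cf d B.g0

/-- Error in `dx²`. -/
noncomputable def e0 (G : Fm d R4) : Fm d ℝ := fun p z t =>
  2 * ⟪B.X0 z.2, h0 G p z t⟫ + ⟪h0 G p z t, h0 G p z t⟫ - B.a z.2 ^ 2

/-- Error in `dx dy`. -/
noncomputable def e1 (G : Fm d R4) : Fm d ℝ := fun p z t =>
  ⟪B.X0 z.2, h1 G p z t⟫ + ⟪B.X1 z.2, h0 G p z t⟫ + ⟪h0 G p z t, h1 G p z t⟫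

/-- Error in `dy²`. -/
noncomputable def e2 (G : Fm d R4) : Fm d ℝ := fun p z t =>
  2 * ⟪B.X1 z.2, h1 G p z t⟫ + ⟪h1 G p z t, h1 G p z t⟫

/-- Reduced error in `dx²`. -/
noncomputable def r0 (G : Fm d R4) : Fm d ℝ := fun p z t =>
  e0 B G p z t - B.r z.2 ^ 2 * e2 B G p z t

/-- Reduced error in `dx dy`. -/
noncomputable def r1 (G : Fm d R4) : Fm d ℝ := fun p z t =>
  e1 B G p z t - B.r z.2 * e2 B G p z t

/-- Reduced error in `dy²`. -/
noncomputable def r2 (G : Fm d R4) : Fm d ℝ := fun p z t => B.χ * e2 B G p z t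

/-! ### Supports -/

/-- Vanishing off `S`. -/
def Off {X : Type} [Zero X] (S : Set E2) (Φ : Fm d X) : Prop :=
  ∀ p z t, z.2 ∉ S → Φ p z t = 0

section Off

variable {X Y : Type} [NormedAddCommGroup X] [NormedSpace ℝ X] [NormedAddCommGroup Y]
  [NormedSpace ℝ Y] {S : Set E2} {Φ Φ' : Fm d X}

lemma Off.add (h : Off S Φ) (h' : Off S Φ') : Off S (Φ + Φ') := fun p z t hz => by
  simp [h p z t hz, h' p z t hz]

lemma Off.sub (h : Off S Φ) (h' : Off S Φ') : Off S (Φ - Φ') := fun p z t hz => by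
  simp [h p z t hz, h' p z t hz]

lemma Off.clm (h : Off S Φ) (L : X →L[ℝ] Y) : Off S fun p z t => L (Φ p z t) := fun p z t hz => by
  simp [h p z t hz]

lemma Off.smul (h : Off S Φ) (c : Ix → Zv d → ℝ → ℝ) : Off S fun p z t => c p z t • Φ p z t :=
  fun p z t hz => by simp [h p z t hz]

lemma Off.dx (h : Off S Φ) (hS : IsClosed S) (v : E2) : Off S (Expand.dx v Φ) := fun p z t hz => by
  have e : (fun y => Φ p y t) =ᶠ[𝓝 z] fun _ => (0 : X) := by
    filter_upwards [(hS.isOpen_compl.preimage continuous_snd).mem_nhds hz] with y hy using h p y t hy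
  simp [Expand.dx, Expand.dir, e.fderiv_eq]

lemma Off.dt (h : Off S Φ) : Off S (dtF Φ) := fun p z t hz => by
  simp [dtF, Expand.dt, show Φ p z = fun _ => (0 : X) from funext fun s => h p z s hz]

variable [CompleteSpace X]

lemma Off.mean (h : Off S Φ) : Off S (meanF Φ) := fun p z t hz => by
  simp [meanF, Expand.mean, show Φ p z = fun _ => (0 : X) from funext fun s => h p z s hz]

lemma Off.prim (h : Off S Φ) : Off S (primF Φ) := fun p z t hz => by
  simp [primF, Expand.prim, int0, Expand.mean,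
    show Φ p z = fun _ => (0 : X) from funext fun s => h p z s hz]

end Off

variable {B}

lemma Base.S_closed (B : Base) : IsClosed B.S := B.S_compact.isClosed

lemma Off.h0 {G : Fm d R4} (h : Off B.S G) : Off B.S (Expand.h0 G) :=
  h.dt.add ((h.dx B.S_closed _).smul fun p _ _ => eps p)

lemma Off.h1 {G : Fm d R4} (h : Off B.S G) : Off B.S (Expand.h1 G) :=
  (h.dx B.S_closed _).smul fun p _ _ => eps p

lemma Off.e2 {G : Fm d R4} (h : Off B.S G) : Off B.S (Expand.e2 B G) := fun p z t hz => by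
  simp [Expand.e2, h.h1 p z t hz]

lemma Off.r0 {G : Fm d R4} (h : Off B.S G) : Off B.S (Expand.r0 B G) := fun p z t hz => by
  simp [Expand.r0, e0, h.h0 p z t hz, h.e2 p z t hz, B.a_zero z.2 hz]

lemma Off.r1 {G : Fm d R4} (h : Off B.S G) : Off B.S (Expand.r1 B G) := fun p z t hz => by
  simp [Expand.r1, e1, h.h0 p z t hz, h.h1 p z t hz, h.e2 p z t hz]

lemma Off.r2 {G : Fm d R4} (h : Off B.S G) : Off B.S (Expand.r2 B G) := fun p z t hz => by
  simp [Expand.r2, h.e2 p z t hz]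

/-! ### Increments -/

lemma h0_add {G D : Fm d R4} (h : ∀ p, Js (G p)) (h' : ∀ p, Js (D p)) :
    h0 (G + D) = h0 G + h0 D := by
  funext p z t
  simp only [h0, dtF_add h h', Pi.add_apply, dx, (h p).dir_add (h' p), smul_add]
  abel

lemma h1_add {G D : Fm d R4} (h : ∀ p, Js (G p)) (h' : ∀ p, Js (D p)) :
    h1 (G + D) = h1 G + h1 D := by
  funext p z t
  simp [h1, dx, (h p).dir_add (h' p), smul_add]

lemma e0_add {G D : Fm d R4} (h : ∀ p, Js (G p)) (h' : ∀ p, Js (D p)) (p : Ix) (z : Zv d) (t : ℝ) :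
    e0 B (G + D) p z t = e0 B G p z t + (2 * ⟪B.X0 z.2, h0 D p z t⟫ +
      2 * ⟪h0 G p z t, h0 D p z t⟫ + ⟪h0 D p z t, h0 D p z t⟫) := by
  simp only [e0, h0_add h h', Pi.add_apply, inner_add_left, inner_add_right]
  rw [real_inner_comm (h0 G p z t) (h0 D p z t)]
  ring

lemma e1_add {G D : Fm d R4} (h : ∀ p, Js (G p)) (h' : ∀ p, Js (D p)) (p : Ix) (z : Zv d) (t : ℝ) :
    e1 B (G + D) p z t = e1 B G p z t + (⟪B.X0 z.2, h1 D p z t⟫ + ⟪B.X1 z.2, h0 D p z t⟫ +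
      ⟪h0 G p z t, h1 D p z t⟫ + ⟪h1 G p z t, h0 D p z t⟫ + ⟪h0 D p z t, h1 D p z t⟫) := by
  simp only [e1, h0_add h h', h1_add h h', Pi.add_apply, inner_add_left, inner_add_right]
  rw [real_inner_comm (h0 D p z t) (h1 G p z t)]
  ring

lemma e2_add {G D : Fm d R4} (h : ∀ p, Js (G p)) (h' : ∀ p, Js (D p)) (p : Ix) (z : Zv d) (t : ℝ) :
    e2 B (G + D) p z t = e2 B G p z t + (2 * ⟪B.X1 z.2, h1 D p z t⟫ +
      2 * ⟪h1 G p z t, h1 D p z t⟫ + ⟪h1 D p z t, h1 D p z t⟫) := by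
  simp only [e2, h1_add h h', Pi.add_apply, inner_add_left, inner_add_right]
  rw [real_inner_comm (h1 G p z t) (h1 D p z t)]
  ring

lemma Up.dx0_smul {G : Fm d R4} (h : Up W j G) :
    Up W (j + 1) fun p z t => eps p • Expand.dx (ev 0) G p z t := (h.dx _).eps_smul

lemma Up.h0 {G : Fm d R4} (h : Up W j G) : Low W j (Expand.h0 G) :=
  h.dt.add (h.dx0_smul.low.mono (Nat.le_succ _))

lemma Up.h1 {G : Fm d R4} (h : Up W j G) : Up W (j + 1) (Expand.h1 G) := (h.dx _).eps_smul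

end Vale.Agent.P205F.Expand
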