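import Vale.Agent.P205F.Expand.AssemblyKeep

/-!
# P205, expansions: the expansion statements from their modules
-/

namespace Vale.Agent.P205F.Expand

open scoped ContDiff RealInnerProductSpace Topology
open Filter Set

variable {d : ℕ}

lemma inv_bound_mono {C C' r : ℝ} (h : 0 < C) (hC : C ≤ C') (hr : C⁻¹ ≤ r) : C'⁻¹ ≤ r :=
  (inv_anti₀ h hC).trans hr

/-- `ExpandStmt` from the modules. -/
theorem expandStmt_of (hF : FamilyStmt) (hS : SetupStmt) (hV : VFieldStmt) (hG : GeomStmt)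
    (hC : GdChartStmt.{0}) (hT : TransposeStmt) (b : Bool) : ExpandStmt b := by
  intro f a ν U K K' hf hi ha _ hν hU hK hK' haK hKK' hK'U hgd hb q
  have hII : b = true → ∀ x ∈ U, II f x (ev 1) ≠ 0 := fun h => by simpa [h] using hb
  have hν1 : b = false → ∀ x ∈ U, ν x 1 ≠ 0 := fun h => by simpa [h] using hb
  obtain ⟨V, W, hVs, hW, hK'W, hWU, hVH, -⟩ :=
    hV b false f U K' hf hi hU hK' hK'U hII (by simp)
  have haK' : tsupport a ⊆ K' := fun x hx => interior_subset (hKK' (interior_subset (haK hx)))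
  have hν1W : b = false → ∀ x ∈ W, ν x 1 ≠ 0 := fun h x hx => hν1 h x (hWU hx)
  obtain ⟨D⟩ := hS hC hT b f a ν W K' V hf hi ha hν hW hK' hK'W haK' hVs hVH
    (fun x hx => hgd x (hWU hx)) hν1W
  obtain ⟨e₁, hF1⟩ := hF b f a ν W K K' V D hf hK hKK' haK (max q 2) (le_max_right _ _)
  refine ⟨max e₁ 12, fun κ => ?_⟩
  obtain ⟨e₂, hF2⟩ := hF1 κ
  refine ⟨e₂, fun m => ?_⟩
  obtain ⟨d, Wt, J, G, hJ, hκ, hth, hQ, hSt, hGb, -, L0, M₁, C₁, hL0, hresp⟩ :=
    hF2 (κ + m) 0 (Or.inl rfl)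
  obtain ⟨C, M₂, hC₁, hC1, hcore⟩ := assembly_core hG D hf hi (hν 1) hν1W hK
    (fun x hx => interior_subset (hKK' hx)) haK (q := q) (m := m) (e₁ := max e₁ 12) hκ
    ((le_max_left _ _).trans hth) ((le_max_left _ _).trans hQ) (by omega) (by omega)
    (le_max_right _ _) hSt hGb C₁
  refine ⟨d, C, max (max M₁ M₂) (max 2 L0), fun M hM => ?_⟩
  let p : Ix := ⟨M, L0, by omega⟩
  have hp : Adm p := ⟨show 2 ≤ M by omega, hL0, show L0 ≤ M by omega⟩
  obtain ⟨hslow, hfine⟩ := hresp p hp rfl (show M₁ ≤ M by omega)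
  obtain ⟨hfam, hrest⟩ := hcore p hp (show M₂ ≤ M by omega)
  exact ⟨famF f G p, famδ b D.B ν G p,
    hfam e₂ (hslow.mono (by linarith) hC₁ (le_max_left _ _) (show 1 ≤ M by omega))
      (hfine.mono (by linarith) hC₁ (le_max_left _ _) (show 1 ≤ M by omega)), hrest⟩

/-- `ExpandKeepStmt` from the modules. -/
theorem expandKeep_of (hF : FamilyStmt) (hS : SetupStmt) (hV : VFieldStmt) (hG : GeomStmt)
    (hC : GdChartStmt.{0}) (hT : TransposeStmt) (hK : KeepGeomStmt) : ExpandKeepStmt := by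
  intro f a ν U K K' hf hi ha _ hν hU hKc hK' haK hKK' hK'U hgd hν1 hν0 hII q
  obtain ⟨V, W, hVs, hW, hK'W, hWU, hVH, hpos⟩ :=
    hV false true f U K' hf hi hU hK' hK'U (by simp) fun _ => ⟨rfl, hII⟩
  have haK' : tsupport a ⊆ K' := fun x hx => interior_subset (hKK' (interior_subset (haK hx)))
  have hKK : K ⊆ K' := fun x hx => interior_subset (hKK' hx)
  obtain ⟨D⟩ := hS hC hT false f a ν W K' V hf hi ha hν hW hK' hK'W haK' hVs hVH
    (fun x hx => hgd x (hWU hx)) fun _ x hx => hν1 x (hWU hx)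
  obtain ⟨e₁, hF1⟩ := hF false f a ν W K K' V D hf hKc hKK' haK (max q 2) (le_max_right _ _)
  refine ⟨max e₁ 12, fun κ => ?_⟩
  obtain ⟨e₂, hF2⟩ := hF1 κ
  refine ⟨e₂, fun m => ?_⟩
  obtain ⟨d, Wt, J, G, hJ, hκ, hth, hQ, hSt, hGb, hVt, L0, M₁, C₁, hL0, hresp⟩ :=
    hF2 (κ + m + 1) (keepU D.B)
      (Or.inr ⟨rfl, keepU_off D.B (isClosed_tsupport a) D.hga, fun _ => keepU_up D.B⟩)
  obtain ⟨Uv, hUv, hVt⟩ := hVt rfl
  obtain ⟨Ck, Mk, hCk, hkeep⟩ := keep_core D hG hK hf ha (fun x hx => hν1 x (hWU hx))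
    (fun x hx => hν0 x (hWU hx)) (hpos rfl) hVs (by omega) ((le_max_right q 2).trans hQ) hSt hUv hVt
  obtain ⟨C, M₂, hC₁, hC1, hcore⟩ := assembly_core hG D hf hi (hν 1)
    (fun _ x hx => hν1 x (hWU hx)) hKc hKK haK (q := q) (m := m) (e₁ := max e₁ 12) hκ
    ((le_max_left _ _).trans hth) ((le_max_left _ _).trans hQ) (by omega) (by omega)
    (le_max_right _ _) hSt hGb (max C₁ Ck)
  refine ⟨d, C, max (max M₁ M₂) (max Mk (max 2 L0)), fun M hM => ?_⟩
  let p : Ix := ⟨M, L0, by omega⟩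
  have hp : Adm p := ⟨show 2 ≤ M by omega, hL0, show L0 ≤ M by omega⟩
  obtain ⟨hslow, hfine⟩ := hresp p hp rfl (show M₁ ≤ M by omega)
  obtain ⟨hfam, hrest⟩ := hcore p hp (show M₂ ≤ M by omega)
  have hC' : C₁ ≤ C := (le_max_left _ _).trans hC₁
  refine ⟨famF f G p, famδ false D.B ν G p,
    hfam e₂ (hslow.mono (by linarith) hC' (le_max_left _ _) (show 1 ≤ M by omega))
      (hfine.mono (by linarith) hC' (le_max_left _ _) (show 1 ≤ M by omega)), fun l hl => ?_⟩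
  obtain ⟨h1, h2, h3, -, h5, h6, h7, h8⟩ := hrest l hl
  exact ⟨h1, h2, h3, h5, h6, h7, h8, fun x hx => inv_bound_mono (by linarith)
    ((le_max_right _ _).trans hC₁) (hkeep p hp (show Mk ≤ M by omega) l hl x (hKK hx))⟩

end Vale.Agent.P205F.Expand
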