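import Vale.Agent.P205F.Expand.FamSpec

/-!
# P205, expansions: variations of a family and its linearised metric

`dlam (famF f G p) l v` is `(1/M) ∑ v k (dk k G)` on the phase, and `Lin` of it is read from the
linear forms `l0F, l1F, l2F` of the error.
-/

namespace Vale.Agent.P205F.Expand

open scoped ContDiff RealInnerProductSpace Topology
open Filter

variable {d : ℕ} {f : E2 → R4} {G : Fm d R4}

/-- The variation of the phase family along `v`. -/
noncomputable def dirF (G : Fm d R4) (v : Fin d → ℝ) : Fm d R4 :=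
  fun p z t => ∑ k, v k • dk k G p z t

lemma dirF_js (h : ∀ p, Js (G p)) (v : Fin d → ℝ) (p : Ix) : Js (dirF G v p) :=
  ContDiff.sum fun k _ => ((h p).dir (pv k)).const_smul (v k)

lemma dirF_eq (v : Fin d → ℝ) (p : Ix) (z : Zv d) (t : ℝ) :
    dirF G v p z t = dir ((v, 0) : Zv d) (G p) z t := by
  have e : ((v, 0) : Zv d) = ∑ k, v k • pv k := by
    refine Prod.ext ?_ ?_
    · funext i
      simp [pv, Prod.fst_sum, Finset.sum_apply, Pi.single_apply]
    · simp [pv, Prod.snd_sum]
  show _ = fderiv ℝ (fun y => G p y t) z _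
  rw [e, map_sum]
  simp only [map_smul]
  rfl

/-- The family of maps is smooth in all variables. -/
lemma famF_smooth (hf : ContDiff ℝ ∞ f) (h : ∀ p, Js (G p)) (p : Ix) :
    ContDiff ℝ ∞ (Function.uncurry (famF f G p)) :=
  (hf.comp contDiff_snd).add ((contDiff_rl h p).const_smul (eps p))

/-- The variation of the family of maps. -/
theorem dlam_famF (h : ∀ p, Js (G p)) (p : Ix) (l v : Fin d → ℝ) :
    dlam (famF f G p) l v = fun x => eps p • rl (dirF G v) p (l, x) := by
  funext x
  show fderiv ℝ (fun l' => f x + eps p • rl G p (l', x)) l v = _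
  have hd := (contDiff_rl h p).differentiable (by norm_num) (l, x)
  have h1 := ((hd.hasFDerivAt.comp (f := fun l' : Fin d → ℝ => (l', x)) l
    (hasFDerivAt_prodMk_left l x)).fun_const_smul (eps p)).const_add (f x)
  erw [h1.fderiv]
  show eps p • fderiv ℝ (rl G p) (l, x) ((v, 0) : Zv d) = _
  rw [fderiv_rl h, rl, dirF_eq]
  simp [phase_apply]

lemma eps_D0 {Φ : Fm d R4} (p : Ix) (z : Zv d) (t : ℝ) :
    eps p • D0 Φ p z t = h0 Φ p z t := by
  have e : eps p * (p.M : ℝ) = 1 := inv_mul_cancel₀ (Nat.cast_ne_zero.2 p.M_ne)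
  simp only [D0, h0, smul_add, smul_smul, e, one_smul, Pi.add_apply]
  abel

/-- First derivatives of the family. -/
theorem pd_famF (hf : ContDiff ℝ ∞ f) (h : ∀ p, Js (G p)) (p : Ix) (l : Fin d → ℝ) (x : E2) :
    pd 0 (famF f G p l) x = pd 0 f x + rl (h0 G) p (l, x) ∧
      pd 1 (famF f G p l) x = pd 1 f x + rl (h1 G) p (l, x) := by
  have hs : ContDiff ℝ ∞ fun y => rl G p (l, y) :=
    (contDiff_rl h p).comp (contDiff_const.prodMk contDiff_id)
  have e : ∀ i : Fin 2, pd i (famF f G p l) x =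
      pd i f x + eps p • rl (if i = 0 then D0 G else D1 G) p (l, x) := fun i => by
    rw [← pd_rl h p l x i]
    show fderiv ℝ (fun y => f y + eps p • rl G p (l, y)) x (ev i) = _
    rw [fderiv_fun_add (hf.differentiable (by norm_num) x)
      ((hs.differentiable (by norm_num) x).fun_const_smul _),
      fderiv_fun_const_smul (hs.differentiable (by norm_num) x)]
    rfl
  refine ⟨?_, ?_⟩
  · rw [e 0, if_pos rfl]; simp only [rl, eps_D0]
  · rw [e 1, if_neg (by decide : ¬(1 : Fin 2) = 0)]; rfl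

/-- The variation of the error along `v`, as seen by `Lin`. -/
theorem Lin_famF {B : Base} (hf : ContDiff ℝ ∞ f) (h : ∀ p, Js (G p)) (p : Ix) (l v : Fin d → ℝ)
    {x : E2} (h0' : B.X0 x = pd 0 f x) (h1' : B.X1 x = pd 1 f x) :
    Lin (famF f G p l) (dlam (famF f G p) l v) x = fun c => rl (![l0F B G (dirF G v),
      l1F B G (dirF G v), l2F B G (dirF G v)] c) p (l, x) := by
  rw [dlam_famF h]
  have hS := dirF_js h v
  obtain ⟨a0, a1⟩ := pd_famF hf h p l x
  have hs : ContDiff ℝ ∞ fun y => rl (dirF G v) p (l, y) :=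
    (contDiff_rl hS p).comp (contDiff_const.prodMk contDiff_id)
  have b : ∀ i : Fin 2, pd i (fun y => eps p • rl (dirF G v) p (l, y)) x =
      eps p • rl (if i = 0 then D0 (dirF G v) else D1 (dirF G v)) p (l, x) := fun i => by
    rw [← pd_rl hS p l x i]
    show fderiv ℝ _ x (ev i) = _
    rw [fderiv_fun_const_smul (hs.differentiable (by norm_num) x)]
    rfl
  have b0 : pd 0 (fun y => eps p • rl (dirF G v) p (l, y)) x = rl (h0 (dirF G v)) p (l, x) := by
    rw [b 0, if_pos rfl]; simp only [rl, eps_D0]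
  have b1 : pd 1 (fun y => eps p • rl (dirF G v) p (l, y)) x = rl (h1 (dirF G v)) p (l, x) := by
    rw [b 1, if_neg (by decide : ¬(1 : Fin 2) = 0)]; rfl
  unfold Lin
  rw [a0, a1, b0, b1, ← h0', ← h1']
  funext c
  fin_cases c <;> simp [rl, l0F, l1F, l2F, ip_apply, cf, two_mul]

/-- The linear forms are linear. -/
theorem h_dirF (h : ∀ p, Js (G p)) (v : Fin d → ℝ) (p : Ix) (z : Zv d) (t : ℝ) :
    h0 (dirF G v) p z t = ∑ k, v k • h0 (dk k G) p z t ∧
      h1 (dirF G v) p z t = ∑ k, v k • h1 (dk k G) p z t := by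
  have hk : ∀ k, Js (dk k G p) := fun k => (h p).dir (pv k)
  have e0 : dt (dirF G v p) z t = ∑ k, v k • dt (dk k G p) z t := by
    show deriv (fun s => ∑ k, v k • dk k G p z s) t = _
    have hd : ∀ k, DifferentiableAt ℝ (dk k G p z) t := fun k =>
      ((hk k).fast z).differentiable (by norm_num) t
    rw [deriv_fun_sum fun k _ => (hd k).fun_const_smul (v k)]
    exact Finset.sum_congr rfl fun k _ => deriv_fun_const_smul (v k) (hd k)
  have ex : ∀ e, dx e (dirF G v) p z t = ∑ k, v k • dx e (dk k G) p z t := fun e => by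
    show fderiv ℝ (fun y => ∑ k, v k • dk k G p y t) z _ = _
    have hd : ∀ k, DifferentiableAt ℝ (fun y => dk k G p y t) z := fun k =>
      ((hk k).slow t).differentiable (by norm_num) z
    rw [fderiv_fun_sum fun k _ => (hd k).fun_const_smul (v k)]
    simp only [FunLike.coe_sum, Finset.sum_apply, fun k => fderiv_fun_const_smul (hd k) (v k)]
    rfl
  refine ⟨?_, ?_⟩
  · simp only [h0, Pi.add_apply, dtF, e0, ex, Finset.smul_sum, smul_add, Finset.sum_add_distrib,
      smul_comm (eps p)]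
  · simp only [h1, ex, Finset.smul_sum, smul_comm (eps p)]

/-- The reduced components of the linearised metric of the family: variations of the reduced
errors. -/
theorem Lin_red {B : Base} {W : Wts d} (hf : ContDiff ℝ ∞ f) (hG : Up W 0 G) (p : Ix)
    (l v : Fin d → ℝ) {x : E2} (h0' : B.X0 x = pd 0 f x) (h1' : B.X1 x = pd 1 f x) :
    let q := Lin (famF f G p l) (dlam (famF f G p) l v) x
    q 0 - B.r x ^ 2 * q 2 = ∑ k, v k * rl (dk k (r0 B G)) p (l, x) ∧
      q 1 - B.r x * q 2 = ∑ k, v k * rl (dk k (r1 B G)) p (l, x) ∧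
      B.χ * q 2 = ∑ k, v k * rl (dk k (r2 B G)) p (l, x) := by
  intro q
  have h := hG.val.js
  have hq : ∀ c, q c = _ := fun c => congrFun (Lin_famF hf h p l v h0' h1') c
  have hl : ∀ (z : Zv d) (t : ℝ),
      l0F B G (dirF G v) p z t = ∑ k, v k * l0F B G (dk k G) p z t ∧
      l1F B G (dirF G v) p z t = ∑ k, v k * l1F B G (dk k G) p z t ∧
      l2F B G (dirF G v) p z t = ∑ k, v k * l2F B G (dk k G) p z t := fun z t => by
    obtain ⟨e0, e1⟩ := h_dirF h v p z t
    refine ⟨?_, ?_, ?_⟩ <;>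
      simp only [l0F, l1F, l2F, Pi.add_apply, ip_apply, e0, e1, inner_sum, inner_smul_right,
        mul_add, Finset.sum_add_distrib]
  have hk : ∀ k, rl (dk k (r0 B G)) p (l, x) = rl (m0F B G (dk k G)) p (l, x) ∧
      rl (dk k (r1 B G)) p (l, x) = rl (m1F B G (dk k G)) p (l, x) ∧
      rl (dk k (r2 B G)) p (l, x) = rl (m2F B G (dk k G)) p (l, x) := fun k => by
    obtain ⟨a, b, c⟩ := dk_r (B := B) hG k
    rw [a, b, c]
    exact ⟨rfl, rfl, rfl⟩
  obtain ⟨u0, u1, u2⟩ := hl (l, x) (phase d p (l, x))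
  simp only [hq, fun k => (hk k).1, fun k => (hk k).2.1, fun k => (hk k).2.2]
  simp only [Matrix.cons_val_zero, Matrix.cons_val_one, Matrix.cons_val, rl, m0F, m1F, m2F,
    Pi.sub_apply, sm_apply, rF, cf, smul_eq_mul, u0, u1, u2, Finset.mul_sum]
  refine ⟨?_, ?_, ?_⟩
  · rw [← Finset.sum_sub_distrib]
    exact Finset.sum_congr rfl fun k _ => by ring
  · rw [← Finset.sum_sub_distrib]
    exact Finset.sum_congr rfl fun k _ => by ring
  · exact Finset.sum_congr rfl fun k _ => by ring

end Vale.Agent.P205F.Expand
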