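import Vale.Agent.P205F.Expand.AssemblyTools
import Vale.Agent.P205F.Expand.LinF

/-!
# P205, expansions: the family near the data and the form of its error

`famδ` is the error along `ν`; the remaining error is the realisation of the reduced errors.
-/

namespace Vale.Agent.P205F.Expand

open scoped ContDiff RealInnerProductSpace Topology
open Filter Set

variable {d : ℕ} {W : Wts d} {b : Bool} {f V : E2 → R4} {a : E2 → ℝ} {ν : E2 → Fin 2 → ℝ}
  {U K' : Set E2} {G : Fm d R4} {J : ℕ}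

/-- The error along `ν`. -/
noncomputable def famδ (b : Bool) (B : Base) (ν : E2 → Fin 2 → ℝ) (G : Fm d R4) (p : Ix)
    (l : Fin d → ℝ) (x : E2) : ℝ :=
  if b then 0 else rl (e2 B G) p (l, x) / ν x 1 ^ 2

/-- The reduced errors as a tensor. -/
noncomputable def rvF (B : Base) (G : Fm d R4) : Fm d S3 :=
  (fun p z t => ContinuousLinearMap.single ℝ (fun _ : Fin 3 => ℝ) 0 (r0 B G p z t)) +
    (fun p z t => ContinuousLinearMap.single ℝ (fun _ : Fin 3 => ℝ) 1 (r1 B G p z t)) +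
    fun p z t => ContinuousLinearMap.single ℝ (fun _ : Fin 3 => ℝ) 2 (r2 B G p z t)

lemma rvF_apply (B : Base) (G : Fm d R4) (p : Ix) (z : Zv d) (t : ℝ) :
    rvF B G p z t = ![r0 B G p z t, r1 B G p z t, r2 B G p z t] := by
  funext k
  fin_cases k <;> simp [rvF]

lemma St.rvF_vc {B : Base} (h : St B W J J (J + 1) J G) : Vc W J (rvF B G) :=
  ((h.l0.val.clm _).add (h.l1.val.clm _)).add (h.u2.val.clm _)

/-- The error in `dy²` is at level one. -/
lemma e2_up {B : Base} (hG : Up W 0 G) : Up W 1 (e2 B G) := by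
  set X1F : Fm d R4 := cf d fun x _ => B.X1 x with hX1F
  have h1U : Up W 1 (h1 G) := hG.h1
  have e : e2 B G = ip X1F (h1 G) + ip X1F (h1 G) + ip (h1 G) (h1 G) := by
    funext p z t
    simp only [e2, Pi.add_apply, ip_apply, hX1F, cf]
    ring
  rw [e]
  exact ((((Up.cf B.X1_coef).ip h1U).mono (by omega)).add
    (((Up.cf B.X1_coef).ip h1U).mono (by omega))).add ((h1U.ip h1U).mono (by omega))

lemma rl_slice_smooth {X : Type} [NormedAddCommGroup X] [NormedSpace ℝ X] {Φ : Fm d X}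
    (hj : ∀ p, Js (Φ p)) (p : Ix) (l : Fin d → ℝ) : ContDiff ℝ ∞ fun y => rl Φ p (l, y) :=
  (contDiff_rl hj p).comp (contDiff_const.prodMk contDiff_id)

lemma pdm_famF (hf : ContDiff ℝ ∞ f) (hj : ∀ p, Js (G p)) (p : Ix) (l : Fin d → ℝ) (i j : ℕ)
    (x : E2) :
    pdm i j (famF f G p l) x = pdm i j f x + eps p • rl (D0^[i] (D1^[j] G)) p (l, x) := by
  have hs := rl_slice_smooth hj p l
  show pdm i j (fun y => f y + eps p • rl G p (l, y)) x = _
  rw [Start.Generic.pdm_add hf (hs.const_smul (eps p)), Start.Generic.pdm_const_smul hs]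
  simp only [pdm_rl hj]

lemma eps_mul_M (p : Ix) : eps p * (p.M : ℝ) = 1 :=
  inv_mul_cancel₀ (Nat.cast_ne_zero.2 p.M_ne)

lemma pd0_famF (hf : ContDiff ℝ ∞ f) (hj : ∀ p, Js (G p)) (p : Ix) (l : Fin d → ℝ) (x : E2) :
    pd 0 (famF f G p l) x = pd 0 f x + rl (h0 G) p (l, x) := by
  have e := pdm_famF hf hj p l 1 0 x
  simp only [pdm, Function.iterate_one, Function.iterate_zero, id_eq] at e
  rw [e]
  simp only [rl, D0, h0, Pi.add_apply, smul_add, smul_smul, eps_mul_M, one_smul]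
  abel

lemma pd1_famF (hf : ContDiff ℝ ∞ f) (hj : ∀ p, Js (G p)) (p : Ix) (l : Fin d → ℝ) (x : E2) :
    pd 1 (famF f G p l) x = pd 1 f x + rl (h1 G) p (l, x) := by
  have e := pdm_famF hf hj p l 0 1 x
  simp only [pdm, Function.iterate_one, Function.iterate_zero, id_eq] at e
  rw [e]
  rfl

variable (D : Setup b f a ν U K' V)

lemma Setup.off_sub : K' ⊆ D.B.N := by
  have := D.B.S_sub
  rwa [D.hS] at this

lemma Setup.r_zero_of_true (hb : b = true) (x : E2) : D.B.r x = 0 := by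
  rcases D.B.χ_or with h | ⟨-, h⟩
  · rw [D.hχ, hb] at h; simp at h
  · exact h x

lemma Setup.pd_fam (hf : ContDiff ℝ ∞ f) (hj : ∀ p, Js (G p)) (p : Ix) (l : Fin d → ℝ) {x : E2}
    (hx : x ∈ D.B.N) :
    pd 0 (famF f G p l) x = D.B.X0 x + rl (h0 G) p (l, x) ∧
      pd 1 (famF f G p l) x = D.B.X1 x + rl (h1 G) p (l, x) := by
  rw [pd0_famF hf hj, pd1_famF hf hj, (D.hX x hx).1, (D.hX x hx).2.1]
  exact ⟨rfl, rfl⟩

lemma Setup.met_fam (hf : ContDiff ℝ ∞ f) (hj : ∀ p, Js (G p)) (p : Ix) (l : Fin d → ℝ) {x : E2}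
    (hx : x ∈ D.B.N) :
    met (famF f G p l) x - met f x - a x ^ 2 • sq ![1, 0] =
      ![rl (e0 D.B G) p (l, x), rl (e1 D.B G) p (l, x), rl (e2 D.B G) p (l, x)] := by
  obtain ⟨q0, q1⟩ := D.pd_fam hf hj p l hx
  have k0 : ∀ X u : R4, ⟪X + u, X + u⟫ - ⟪X, X⟫ = 2 * ⟪X, u⟫ + ⟪u, u⟫ := fun X u => by
    rw [inner_add_left, inner_add_right, inner_add_right, real_inner_comm u X]; ring
  have k1 : ∀ X Y u w : R4, ⟪X + u, Y + w⟫ - ⟪X, Y⟫ = ⟪X, w⟫ + ⟪Y, u⟫ + ⟪u, w⟫ := fun X Y u w => by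
    rw [inner_add_left, inner_add_right, inner_add_right, real_inner_comm u Y]; ring
  have ha := congrFun D.ha x
  funext k
  fin_cases k
  · show ⟪_, _⟫ - ⟪_, _⟫ - a x ^ 2 * (1 ^ 2) = 2 * _ + _ - _
    rw [q0, ← (D.hX x hx).1, k0, ha]
    simp [rl]
  · show ⟪_, _⟫ - ⟪_, _⟫ - a x ^ 2 * (1 * 0) = _
    rw [q0, q1, ← (D.hX x hx).1, ← (D.hX x hx).2.1, k1]
    simp [e1, rl]
  · show ⟪_, _⟫ - ⟪_, _⟫ - a x ^ 2 * (0 ^ 2) = _
    rw [q1, ← (D.hX x hx).2.1, k0]
    simp [e2, rl]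

lemma famF_eq_base {B : Base} (hoff : Off B.S G) (p : Ix) (l : Fin d → ℝ) {x : E2} (hx : x ∉ B.S) :
    famF f G p l x = f x := by
  simp [famF, rl, hoff p (l, x) _ hx]

lemma Setup.famF_off (hoff : Off D.B.S G) (p : Ix) (l : Fin d → ℝ) {x : E2} (hx : x ∉ K') :
    famF f G p l =ᶠ[𝓝 x] f := by
  filter_upwards [(D.hS ▸ D.B.S_closed : IsClosed K').isOpen_compl.mem_nhds hx] with y hy
  exact famF_eq_base hoff p l (D.hS.symm ▸ hy)

/-- The error of the family, everywhere. -/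
lemma Setup.err_eq (hf : ContDiff ℝ ∞ f) (hν : b = false → ∀ x ∈ U, ν x 1 ≠ 0)
    (hj : ∀ p, Js (G p)) (hoff : Off D.B.S G) (p : Ix) (l : Fin d → ℝ) (x : E2) :
    met (famF f G p l) x - met f x - a x ^ 2 • sq ![1, 0] - famδ b D.B ν G p l x • sq (ν x) =
      rl (rvF D.B G) p (l, x) := by
  show _ = rvF D.B G p (l, x) (phase d p (l, x))
  rw [rvF_apply]
  set t := phase d p (l, x)
  by_cases hx : x ∈ D.B.N
  · rw [D.met_fam hf hj p l hx]
    show ![e0 D.B G p (l, x) t, e1 D.B G p (l, x) t, e2 D.B G p (l, x) t] - _ = _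
    cases b
    · have h := D.hr rfl x hx
      have hn := hν rfl x (D.hN hx)
      have hr' : D.B.r x = ν x 0 / ν x 1 := by rw [eq_div_iff hn, h]
      funext k
      fin_cases k <;>
        simp [famδ, sq, r0, r1, r2, rl, D.hχ, hr', t] <;> field_simp <;> ring
    · funext k
      fin_cases k <;> simp [famδ, r0, r1, r2, D.hχ, D.r_zero_of_true rfl x]
  · have hS : x ∉ D.B.S := fun h => hx (D.B.S_sub h)
    have hK : x ∉ K' := D.hS ▸ hS
    have e : pd 0 (famF f G p l) x = pd 0 f x ∧ pd 1 (famF f G p l) x = pd 1 f x := by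
      simp [pd, (D.famF_off hoff p l hK).fderiv_eq]
    have ha : a x = 0 := by rw [← D.ha]; exact D.B.a_zero x hS
    have hδ : famδ b D.B ν G p l x = 0 := by
      cases b <;> simp [famδ, rl, hoff.e2 p (l, x) _ hS]
    funext k
    fin_cases k <;> simp [met, e.1, e.2, ha, hδ, hoff.r0 p (l, x) t hS, hoff.r1 p (l, x) t hS,
      hoff.r2 p (l, x) t hS]

lemma Setup.famδ_smooth (hν1 : ContDiff ℝ ∞ fun x => ν x 1) (hν : b = false → ∀ x ∈ U, ν x 1 ≠ 0)
    (hG : Up W 0 G) (hoff : Off D.B.S G) (p : Ix) (l : Fin d → ℝ) :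
    ContDiff ℝ ∞ (famδ b D.B ν G p l) := by
  cases b
  · show ContDiff ℝ ∞ fun x => rl (e2 D.B G) p (l, x) / ν x 1 ^ 2
    refine contDiff_iff_contDiffAt.2 fun x => ?_
    by_cases hx : x ∈ D.B.N
    · exact ((rl_slice_smooth (e2_up hG).val.js p l).contDiffAt).div (hν1.contDiffAt.pow 2)
        (pow_ne_zero 2 (hν rfl x (D.hN hx)))
    · refine (contDiffAt_const (c := (0 : ℝ))).congr_of_eventuallyEq ?_
      filter_upwards [D.B.S_closed.isOpen_compl.mem_nhds fun h => hx (D.B.S_sub h)] with y hy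
      simp [rl, hoff.e2 p (l, y) _ hy]
  · exact contDiff_const

end Vale.Agent.P205F.Expand
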