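import Vale.Agent.P205F.Twist.Assembly
import Vale.Agent.P205F.Expand.AssemblyCore

/-!
# P205, expansions: the bounds of the family

Everything `ExpandStmt` asks, for all large frequencies, given the response clauses.
-/

namespace Vale.Agent.P205F.Expand

open scoped ContDiff RealInnerProductSpace Topology
open Filter Set

variable {d : ℕ} {W : Wts d} {b : Bool} {f V : E2 → R4} {a : E2 → ℝ} {ν : E2 → Fin 2 → ℝ}
  {U K K' : Set E2} {G : Fm d R4} {J : ℕ}

/-- What an expansion provides at one parameter. -/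
def Concl (b : Bool) (F : (Fin d → ℝ) → E2 → R4) (δ : (Fin d → ℝ) → E2 → ℝ) (f : E2 → R4)
    (a : E2 → ℝ) (ν : E2 → Fin 2 → ℝ) (K K' : Set E2) (C : ℝ) (κ m q M : ℕ) : Prop :=
  ∀ l ∈ Box d,
    let err : E2 → S3 := fun x =>
      met (F l) x - met f x - a x ^ 2 • sq ![1, 0] - δ l x • sq (ν x)
    ContDiff ℝ ∞ (δ l) ∧ IsImm (F l) ∧
    (∀ x, x ∉ K' → F l x = f x ∧ δ l x = 0) ∧
    (b = true → ∀ x, δ l x = 0) ∧
    (∀ x, ‖F l x - f x‖ ≤ C / M ∧ |δ l x| ≤ C / M) ∧
    (∀ x ∈ K', ∀ n ≤ m,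
      ‖iteratedFDeriv ℝ n (F l) x‖ ≤ C * ((M : ℝ) ^ (κ + 2)) ^ n ∧
      ‖iteratedFDeriv ℝ n err x‖ ≤ C * ((M : ℝ) ^ (κ + 2)) ^ n / (M : ℝ) ^ m) ∧
    (∀ x, x ∉ interior K → ∀ n < q,
      ‖iteratedFDeriv ℝ n (fun z => F l z - f z) x‖ ≤ C / (M : ℝ) ^ (q - n)) ∧
    ∀ x w, nrm f x w = w → ‖w‖ ≤ C * ‖nrm (F l) x w‖

/-- The geometry holds for all large frequencies. -/
lemma Setup.near (D : Setup b f a ν U K' V) (hf : ContDiff ℝ ∞ f)
    (hSt : St D.B W J J (J + 1) J G) : ∃ C, 0 ≤ C ∧ ∀ p, Adm p → ∀ l ∈ Box d, ∀ x ∈ D.B.N,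
      NearLead b D.B (famF f G p l) x (phase d p (l, x)) (C * eps p) := by
  have hj := hSt.up.val.js
  have hR : Vc W 1 (h0 G - gF d D.B) := by
    have e : h0 G - gF d D.B =
        (dtF G - gF d D.B) + fun p z t => eps p • Expand.dx (ev 0) G p z t := by
      funext p z t
      simp only [h0, Pi.add_apply, Pi.sub_apply]
      abel
    rw [e]
    exact Cls.add hSt.g.val hSt.up.dx0_smul.val
  obtain ⟨C0, hC0, hb0⟩ := hR.rl_zero
  obtain ⟨C1, hC1, hb1⟩ := hSt.up.h1.val.rl_zero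
  obtain ⟨C2, hC2, hb2⟩ := hSt.up.val.pdm_bound (Nat.zero_le W.th) 2
  refine ⟨C0 + C1 + C2, by positivity, fun p hp l hl x hx => ?_⟩
  obtain ⟨q0, q1⟩ := D.pd_fam hf hj p l hx
  have he : ∀ c, c ≤ C0 + C1 + C2 → c * eps p ≤ (C0 + C1 + C2) * eps p := fun c hc =>
    mul_le_mul_of_nonneg_right hc (eps_nonneg p)
  refine ⟨?_, ?_, fun hb => ?_⟩
  · rw [q0, show D.B.X0 x + rl (h0 G) p (l, x) - (D.B.X0 x + D.B.g0 x (phase d p (l, x))) =
      rl (h0 G - gF d D.B) p (l, x) by simp [rl, gF, cf]]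
    refine ((hb0 p hp (l, x) hl).trans ?_)
    rw [pow_one]; exact he _ (by linarith)
  · rw [q1, add_sub_cancel_left]
    refine ((hb1 p hp (l, x) hl).trans ?_)
    rw [zero_add, pow_one]; exact he _ (by linarith)
  · have e : pd 1 D.B.X1 x = pd 1 (pd 1 f) x := by
      have : D.B.X1 =ᶠ[𝓝 x] pd 1 f := by
        filter_upwards [D.B.N_open.mem_nhds hx] with y hy using (D.hX y hy).2.1
      simp [pd, this.fderiv_eq]
    have e2 := pdm_famF hf hj p l 0 2 x
    have hb2' := hb2 p hp l hl x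
    rw [pdm_rl hj] at hb2'
    rw [show pd 1 (pd 1 (famF f G p l)) x = pdm 0 2 (famF f G p l) x from rfl, e2, e,
      show pdm 0 2 f x = pd 1 (pd 1 f) x from rfl, add_sub_cancel_left, norm_smul,
      Real.norm_of_nonneg (eps_nonneg p), mul_comm]
    simp only [pow_zero, mul_one] at hb2'
    exact mul_le_mul_of_nonneg_right (hb2'.trans (by linarith)) (eps_nonneg p)

lemma mul_eps_le {p : Ix} {C C' : ℝ} (h : C ≤ C') : C * eps p ≤ C' / p.M :=
  mul_le_mul_of_nonneg_right h (eps_nonneg p)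

/-- The bounds of the family. -/
theorem assembly_core (hG : GeomStmt) (D : Setup b f a ν U K' V) (hf : ContDiff ℝ ∞ f)
    (hi : IsImm f) (hν1 : ContDiff ℝ ∞ fun x => ν x 1) (hν : b = false → ∀ x ∈ U, ν x 1 ≠ 0)
    (hK : IsCompact K) (hKK' : K ⊆ K') (haK : tsupport a ⊆ interior K) {q κ m e₁ : ℕ}
    (hκ : W.κ = κ) (hqt : q ≤ W.th) (hqQ : q ≤ W.Q) (hJm : m ≤ J) (hJκ : κ ≤ J) (he : 12 ≤ e₁)
    (hSt : St D.B W J J (J + 1) J G)
    (hGb : ∃ Gb : Fm d R4, Up W W.Q (G - Gb) ∧ Off (tsupport a) Gb) (C₀ : ℝ) :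
    ∃ (C : ℝ) (M₀ : ℕ), C₀ ≤ C ∧ 1 ≤ C ∧ ∀ p : Ix, Adm p → M₀ ≤ p.M →
      (∀ e₂ : ℕ, SlowResp b (famF f G p) K C e₁ p.M → FineResp b (famF f G p) K C e₁ κ e₂ p.M →
        Fam b (famF f G p) K C e₁ κ e₂ p.M) ∧
      Concl b (famF f G p) (famδ b D.B ν G p) f a ν K K' C κ m q p.M := by
  classical
  have hj := hSt.up.val.js
  have hKc' : IsCompact K' := D.hS ▸ D.B.S_compact
  have hK'N : K' ⊆ D.B.N := D.off_sub
  have hV0 : Vc W 0 G := hSt.up.val
  obtain ⟨Gb, hGb, hoffb⟩ := hGb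
  -- geometry
  obtain ⟨Cg, η₀, hCg, hη₀, hgeo⟩ := hG b D.B D.Lp D.hg D.hχ D.hV K' hKc' hK'N
  obtain ⟨Cn, hCn, hnear⟩ := D.near hf hSt
  -- joint derivatives of order at most 12
  obtain ⟨Cf, hCf, hfb⟩ := exists_iter_bound hf (hK.cthickening (r := 1)) 12
  choose A hA hA' using fun n : Fin 13 =>
    hV0.rl_low (n := (n : ℕ)) (by have := n.2; have := W.th_le; omega)
  -- mixed partials of order at most 3
  choose Bf hBf using fun ij : Fin 4 × Fin 4 => hK.exists_bound_of_continuousOn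
    (Start.Generic.smooth_pdm hf ij.1 ij.2).continuous.continuousOn
  choose Bg hBg hBg' using fun ij : Fin 4 × Fin 4 =>
    hV0.pdm_bound (i := (ij.1 : ℕ)) (by have := ij.1.2; have := W.th_le; omega) ij.2
  -- variation of the metric
  choose Cv hCv hCv' using fun ij : Fin 11 × Fin 11 =>
    hSt.rvF_vc.var_bound (i := (ij.1 : ℕ)) (by have := ij.1.2; have := W.th_le; omega) ij.2
  -- values
  obtain ⟨CG, hCG, hG0⟩ := hV0.rl_zero
  obtain ⟨Ce, hCe, he2⟩ := (e2_up (B := D.B) hSt.up).val.rl_zero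
  obtain ⟨Cν, hν2⟩ : ∃ Cν, ∀ x ∈ K', b = false → ‖(ν x 1 ^ 2)⁻¹‖ ≤ Cν := by
    cases b
    · obtain ⟨c, hc⟩ := hKc'.exists_bound_of_continuousOn ((hν1.continuous.pow 2).continuousOn.inv₀
        fun x hx => pow_ne_zero 2 (hν rfl x (D.hN (hK'N hx))))
      exact ⟨c, fun x hx _ => hc x hx⟩
    · exact ⟨0, fun x _ h => absurd h (by simp)⟩
  -- high derivatives
  obtain ⟨Cf', hCf', hfb'⟩ := exists_iter_bound hf hKc' m
  choose Hn hHn hHn' using fun n : Fin (m + 1) => hV0.rl_all (n : ℕ)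
  choose Rn hRn hRn' using fun n : Fin (m + 1) => hSt.rvF_vc.rl_all (n : ℕ)
  choose On hOn hOn' using fun n : Fin q =>
    hGb.val.rl_low (n := (n : ℕ)) (by have := n.2; omega)
  set C : ℝ := |C₀| + 1 + Cg + (Cf + ∑ n, A n) + ∑ ij, (|Bf ij| + Bg ij) + ∑ ij, Cv ij + CG +
    Ce * |Cν| + (Cf' + ∑ n, Hn n) + ∑ n, Rn n + ∑ n, On n with hC
  have sA : 0 ≤ ∑ n, A n := Finset.sum_nonneg fun n _ => hA n
  have sB : 0 ≤ ∑ ij, (|Bf ij| + Bg ij) :=
    Finset.sum_nonneg fun n _ => add_nonneg (abs_nonneg _) (hBg n)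
  have sV : 0 ≤ ∑ ij, Cv ij := Finset.sum_nonneg fun n _ => hCv n
  have sH : 0 ≤ ∑ n, Hn n := Finset.sum_nonneg fun n _ => hHn n
  have sR : 0 ≤ ∑ n, Rn n := Finset.sum_nonneg fun n _ => hRn n
  have sO : 0 ≤ ∑ n, On n := Finset.sum_nonneg fun n _ => hOn n
  have sν : 0 ≤ Ce * |Cν| := mul_nonneg hCe (abs_nonneg _)
  have aC : 0 ≤ |C₀| := abs_nonneg _
  have hC1 : 1 ≤ C := by rw [hC]; linarith
  have hCgC : Cg ≤ C := by rw [hC]; linarith
  obtain ⟨M₀, hM₀⟩ := exists_nat_ge (Cn / η₀)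
  refine ⟨C, max M₀ 1, by rw [hC]; linarith [le_abs_self C₀], hC1, fun p hp hM => ?_⟩
  have hM1 : (1 : ℝ) ≤ p.M := hp.one_le_M
  have hMpos : (0 : ℝ) < p.M := hp.M_pos
  have heη : Cn * eps p ≤ η₀ := by
    show Cn * (p.M : ℝ)⁻¹ ≤ η₀
    rw [← div_eq_mul_inv, div_le_iff₀ hMpos]
    rw [div_le_iff₀ hη₀] at hM₀
    have : (M₀ : ℝ) ≤ p.M := by exact_mod_cast le_of_max_le_left hM
    nlinarith
  have geo := fun (l : Fin d → ℝ) (hl : l ∈ Box d) (x : E2) (hx : x ∈ K') =>
    hgeo (famF f G p l) (contDiff_slice (famF_smooth hf hj p) l) x hx _ _ heη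
      (hnear p hp l hl x (hK'N hx))
  refine ⟨fun e₂ hslow hfine => ?_, fun l hl => ?_⟩
  · refine ⟨famF_smooth hf hj p, fun l hl x hx n hn => ?_, fun l hl x hx w => ?_,
      fun l hl x hx i j hij => ?_, fun hb l hl x hx => ⟨?_, fun v i j hij => ?_⟩, hslow, hfine⟩
    · have hs1 : ContDiff ℝ ∞ fun z : Zv d => f z.2 := hf.comp contDiff_snd
      rw [show Function.uncurry (famF f G p) =
          (fun z : Zv d => f z.2) + (eps p • rl G p : Zv d → R4) from rfl,
        iteratedFDeriv_add_apply (hs1.of_le (by exact_mod_cast le_top)).contDiffAt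
          (g := eps p • rl G p) (((contDiff_rl hj p).const_smul (eps p)).of_le (by exact_mod_cast le_top)).contDiffAt,
        iteratedFDeriv_const_smul_apply ((contDiff_rl hj p).of_le
          (by exact_mod_cast le_top)).contDiffAt]
      refine (norm_add_le _ _).trans ?_
      rw [norm_smul, Real.norm_of_nonneg (eps_nonneg p)]
      have q1 := (norm_iter_snd hf n ((l, x) : Zv d)).trans (hfb x hx n hn)
      have q2 := hA' ⟨n, by omega⟩ p hp (l, x) hl
      simp only [pow_zero, mul_one] at q2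
      have q3 : A ⟨n, by omega⟩ ≤ ∑ n, A n :=
        Finset.single_le_sum (fun n _ => hA n) (Finset.mem_univ _)
      have hp1 : (1 : ℝ) ≤ (p.M : ℝ) ^ e₁ := one_le_pow₀ hM1
      have hpn : (p.M : ℝ) ^ n ≤ (p.M : ℝ) ^ e₁ := pow_le_pow_right₀ hM1 (by omega)
      calc _ + eps p * _ ≤ Cf * (p.M : ℝ) ^ e₁ + 1 * ((∑ n, A n) * (p.M : ℝ) ^ e₁) :=
            add_le_add (q1.trans (le_mul_of_one_le_right hCf hp1)) (mul_le_mul (eps_le_one hp)
              (q2.trans (mul_le_mul q3 hpn (by positivity) sA)) (norm_nonneg _) zero_le_one)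
        _ ≤ C * (p.M : ℝ) ^ e₁ := by
            rw [one_mul, ← add_mul]
            exact mul_le_mul_of_nonneg_right (by rw [hC]; linarith) (by positivity)
    · exact ((geo l hl x (hKK' hx)).1 w).trans (mul_le_mul_of_nonneg_right hCgC (norm_nonneg _))
    · rw [pdm_famF hf hj]
      refine (norm_add_le _ _).trans ?_
      let ij : Fin 4 × Fin 4 := (⟨i, by omega⟩, ⟨j, by omega⟩)
      have q1 := hBf ij x hx
      have q2 := hBg' ij p hp l hl x
      rw [pdm_rl hj] at q2
      simp only [pow_zero, mul_one] at q2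
      have q3 : |Bf ij| + Bg ij ≤ ∑ ij, (|Bf ij| + Bg ij) :=
        Finset.single_le_sum (fun n _ => add_nonneg (abs_nonneg _) (hBg n)) (Finset.mem_univ ij)
      have hp1 : (1 : ℝ) ≤ (p.M : ℝ) ^ (i - 1) := one_le_pow₀ hM1
      have hpi : eps p * (p.M : ℝ) ^ i ≤ (p.M : ℝ) ^ (i - 1) := by
        cases i with
        | zero => simpa using eps_le_one hp
        | succ i => rw [pow_succ', ← mul_assoc, eps_mul_M, one_mul, Nat.succ_sub_one]
      rw [norm_smul, Real.norm_of_nonneg (eps_nonneg p)]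
      calc ‖pdm i j f x‖ + eps p * _
          ≤ |Bf ij| * (p.M : ℝ) ^ (i - 1) + Bg ij * (p.M : ℝ) ^ (i - 1) :=
            add_le_add (q1.trans ((le_abs_self _).trans (le_mul_of_one_le_right (abs_nonneg _) hp1)))
              ((mul_le_mul_of_nonneg_left q2 (eps_nonneg p)).trans (by
                rw [mul_left_comm]; exact mul_le_mul_of_nonneg_left hpi (hBg ij)))
        _ ≤ C * (p.M : ℝ) ^ (i - 1) := by
            rw [← add_mul]
            exact mul_le_mul_of_nonneg_right (q3.trans (by rw [hC]; linarith)) (by positivity)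
    · exact le_trans (inv_anti₀ (by linarith) hCgC) ((geo l hl x (hKK' hx)).2.2.1 hb)
    · let c : E2 → S3 := fun y => met f y + a y ^ 2 • sq ![1, 0]
      have e : Lin (famF f G p l) (dlam (famF f G p) l v) =ᶠ[𝓝 x]
          fun y => fderiv ℝ (fun l' => rl (rvF D.B G) p (l', y)) l v := by
        filter_upwards [D.B.N_open.mem_nhds (hK'N (hKK' hx))] with y hy
        rw [← fderiv_met (famF_smooth hf hj p),
          show (fun l' => met (famF f G p l') y) = fun l' => c y + rl (rvF D.B G) p (l', y) from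
            funext fun l' => by
              rw [← D.err_eq hf hν hj hSt.off p l' y]
              simp [c, famδ, hb],
          fderiv_const_add]
      rw [(Start.Generic.pdm_congr e i j).eq_of_nhds]
      let ij : Fin 11 × Fin 11 := (⟨i, by omega⟩, ⟨j, by omega⟩)
      refine (hCv' ij p hp l hl v x).trans (mul_le_mul_of_nonneg_right ?_ (norm_nonneg v))
      have q3 : Cv ij ≤ C :=
        (Finset.single_le_sum (fun n _ => hCv n) (Finset.mem_univ ij)).trans (by rw [hC]; linarith)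
      rw [← mul_one_div (C * (p.M : ℝ) ^ e₁)]
      refine mul_le_mul (mul_le_mul q3 (pow_le_pow_right₀ hM1 (show (i : ℕ) ≤ e₁ by omega))
        (by positivity) (by linarith)) (eps_pow_div hp hJκ) (pow_nonneg (eps_nonneg p) _)
        (by positivity)
  · intro err
    have hFl : ContDiff ℝ ∞ (famF f G p l) := contDiff_slice (famF_smooth hf hj p) l
    have hδK : ∀ x, x ∉ K' → famδ b D.B ν G p l x = 0 := fun x hx => by
      cases b <;> simp [famδ, rl, hSt.off.e2 p (l, x) _ (by rw [D.hS]; exact hx)]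
    refine ⟨D.famδ_smooth hν1 hν hSt.up hSt.off p l, fun x => ?_,
      fun x hx => ⟨famF_eq_base hSt.off p l (by rw [D.hS]; exact hx), hδK x hx⟩,
      fun hb x => by simp [famδ, hb], fun x => ⟨?_, ?_⟩, fun x hx n hn => ⟨?_, ?_⟩,
      fun x hx n hn => ?_, fun x w hw => ?_⟩
    · by_cases hx : x ∈ K'
      · intro v w hvw
        have h := (geo l hl x hx).1 (v - w)
        rw [map_sub, hvw, sub_self, norm_zero, mul_zero] at h
        exact sub_eq_zero.1 (norm_le_zero_iff.1 h)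
      · rw [(D.famF_off hSt.off p l hx).fderiv_eq]; exact hi x
    · rw [show famF f G p l x - f x = eps p • rl G p (l, x) by simp [famF],
        norm_smul, Real.norm_of_nonneg (eps_nonneg p), mul_comm]
      have q := hG0 p hp (l, x) hl
      rw [pow_zero, mul_one] at q
      exact (mul_le_mul_of_nonneg_right q (eps_nonneg p)).trans (mul_eps_le (by rw [hC]; linarith))
    · cases b
      · by_cases hx : x ∈ K'
        · show |rl (e2 D.B G) p (l, x) / ν x 1 ^ 2| ≤ _
          have q := he2 p hp (l, x) hl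
          rw [pow_one, Real.norm_eq_abs] at q
          rw [div_eq_mul_inv, abs_mul]
          refine (mul_le_mul q ((hν2 x hx rfl).trans (le_abs_self Cν)) (abs_nonneg _)
            (mul_nonneg hCe (eps_nonneg p))).trans ?_
          rw [mul_right_comm]
          exact mul_eps_le (by rw [hC]; linarith)
        · rw [hδK x hx, abs_zero]; positivity
      · simp [famδ]; positivity
    · rw [show famF f G p l = f + eps p • fun y => rl G p (l, y) from rfl,
        iteratedFDeriv_add_apply (hf.of_le (by exact_mod_cast le_top)).contDiffAt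
          (g := eps p • fun y => rl G p (l, y)) (((rl_slice_smooth hj p l).const_smul (eps p)).of_le
            (by exact_mod_cast le_top)).contDiffAt,
        iteratedFDeriv_const_smul_apply ((rl_slice_smooth hj p l).of_le
          (by exact_mod_cast le_top)).contDiffAt]
      refine (norm_add_le _ _).trans ?_
      rw [norm_smul, Real.norm_of_nonneg (eps_nonneg p)]
      have q1 := hfb' x hx n hn
      have q2 := ((norm_iteratedFDeriv_slice_le (contDiff_rl hj p) n l x).trans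
        (hHn' ⟨n, by omega⟩ p hp (l, x) hl))
      simp only [pow_zero, mul_one, hκ] at q2
      have q3 : Hn ⟨n, by omega⟩ ≤ ∑ n, Hn n :=
        Finset.single_le_sum (fun n _ => hHn n) (Finset.mem_univ _)
      have hp1 : (1 : ℝ) ≤ ((p.M : ℝ) ^ (κ + 2)) ^ n := one_le_pow₀ (one_le_pow₀ hM1)
      calc _ + eps p * _
          ≤ Cf' * ((p.M : ℝ) ^ (κ + 2)) ^ n + 1 * ((∑ n, Hn n) * ((p.M : ℝ) ^ (κ + 2)) ^ n) :=
            add_le_add (q1.trans (le_mul_of_one_le_right hCf' hp1)) (mul_le_mul (eps_le_one hp)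
              (q2.trans (mul_le_mul_of_nonneg_right q3 (by positivity))) (norm_nonneg _) zero_le_one)
        _ ≤ C * ((p.M : ℝ) ^ (κ + 2)) ^ n := by
            rw [one_mul, ← add_mul]
            exact mul_le_mul_of_nonneg_right (by rw [hC]; linarith) (by positivity)
    · rw [show err = fun y => rl (rvF D.B G) p (l, y) from
        funext fun y => D.err_eq hf hν hj hSt.off p l y]
      refine ((norm_iteratedFDeriv_slice_le (contDiff_rl hSt.rvF_vc.js p) n l x).trans
        (hRn' ⟨n, by omega⟩ p hp (l, x) hl)).trans ?_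
      have q3 : Rn ⟨n, by omega⟩ ≤ C :=
        (Finset.single_le_sum (fun n _ => hRn n) (Finset.mem_univ _)).trans (by rw [hC]; linarith)
      rw [hκ, ← mul_one_div (C * _)]
      exact mul_le_mul (mul_le_mul_of_nonneg_right q3 (by positivity)) (eps_pow_div hp hJm)
        (pow_nonneg (eps_nonneg p) _) (by positivity)
    · have hxa : x ∈ (tsupport a)ᶜ := fun h => hx (haK h)
      have e : (fun z => famF f G p l z - f z) =ᶠ[𝓝 x]
          eps p • fun y => rl (G - Gb) p (l, y) := by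
        filter_upwards [(isClosed_tsupport a).isOpen_compl.mem_nhds hxa] with y hy
        simp [famF, rl, hoffb p (l, y) _ hy]
      rw [(e.iteratedFDeriv ℝ n).eq_of_nhds, iteratedFDeriv_const_smul_apply
        ((rl_slice_smooth hGb.val.js p l).of_le (by exact_mod_cast le_top)).contDiffAt, norm_smul,
        Real.norm_of_nonneg (eps_nonneg p)]
      refine (mul_le_mul_of_nonneg_left ((norm_iteratedFDeriv_slice_le
        (contDiff_rl hGb.val.js p) n l x).trans (hOn' ⟨n, hn⟩ p hp (l, x) hl))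
        (eps_nonneg p)).trans ?_
      have q3 : On ⟨n, hn⟩ ≤ C :=
        (Finset.single_le_sum (fun n _ => hOn n) (Finset.mem_univ _)).trans (by rw [hC]; linarith)
      have key : eps p * ((p.M : ℝ) ^ n * eps p ^ W.Q) ≤ 1 / (p.M : ℝ) ^ (q - n) := by
        rw [mul_left_comm, ← pow_succ', eps_pow_eq, mul_one_div, div_le_div_iff₀ (by positivity)
          (by positivity), one_mul, ← pow_add]
        exact pow_le_pow_right₀ hM1 (by omega)
      calc eps p * (On ⟨n, hn⟩ * (p.M : ℝ) ^ n * eps p ^ W.Q)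
          = On ⟨n, hn⟩ * (eps p * ((p.M : ℝ) ^ n * eps p ^ W.Q)) := by ring
        _ ≤ C * (1 / (p.M : ℝ) ^ (q - n)) := mul_le_mul q3 key
            (mul_nonneg (eps_nonneg p) (mul_nonneg (by positivity) (pow_nonneg (eps_nonneg p) _)))
            (by linarith)
        _ = C / (p.M : ℝ) ^ (q - n) := by ring
    · by_cases hx : x ∈ K'
      · have o : ∀ i, ⟪pd i f x, w⟫ = 0 := fun i => by rw [← hw]; exact nrm_mem f x w (ev i)
        refine ((geo l hl x hx).2.1 w ?_ ?_).trans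
          (mul_le_mul_of_nonneg_right hCgC (norm_nonneg _))
        · rw [(D.hX x (hK'N hx)).1]; exact o 0
        · rw [(D.hX x (hK'N hx)).2.1]; exact o 1
      · have e : nrm (famF f G p l) x w = nrm f x w := by
          simp only [nrm, (D.famF_off hSt.off p l hx).fderiv_eq]
        rw [e, hw]
        exact le_mul_of_one_le_left (norm_nonneg w) hC1

end Vale.Agent.P205F.Expand
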