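import Vale.Agent.P205F.Expand.AssemblyBounds
import Vale.Agent.P205F.Crest.Defs

/-!
# P205, expansions: keeping the second fundamental form along the phase

With `V` the unit `II(∂x,∂x)` and `keepU` the perturbation at level one, the component of
`∂x∂x F` along `V` is that of `∂x∂x f` up to `O(1/M)`.
-/

namespace Vale.Agent.P205F.Expand

open scoped ContDiff RealInnerProductSpace Topology
open Filter Set

variable {d : ℕ} {W : Wts d} {W₀ : Wts 0} {f V : E2 → R4} {a : E2 → ℝ} {ν : E2 → Fin 2 → ℝ}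
  {U K' : Set E2} {G : Fm d R4} {J : ℕ}

/-- The part of the slow derivative of the loop along `V`. -/
noncomputable def keepψ (B : Base) : Fm 0 ℝ :=
  ip (dx (ev 0) (gF 0 B)) (cf 0 fun x (_ : ℝ) => B.V x)

/-- Its second primitive. -/
noncomputable def keepP (B : Base) : Fm 0 ℝ := primF (primF (keepψ B))

/-- The perturbation at level one. -/
noncomputable def keepU (B : Base) : Fm 0 R4 := fun p z t =>
  eps p • ((-2 * keepP B p z t) • B.V z.2)

lemma keepψ_up (B : Base) : Up W₀ 0 (keepψ B) :=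
  ((Up.cf B.g0_coef).dx _).ip (Up.cf B.V_coef)

lemma keepψ_mean (B : Base) (p : Ix) (z : Zv 0) : Expand.mean (keepψ B p) z = 0 := by
  set W' : Wts 0 := ⟨0, 0, fun _ _ => 1, fun _ _ => 0, 14, le_rfl, fun _ _ => le_rfl,
    fun _ _ _ => le_rfl⟩
  have hs : Up W' 0 (start 0 B) := start_up
  have hd : Up W' 0 (dx (ev 0) (start 0 B)) := hs.dx _
  have e : keepψ B = ip (dtF (dx (ev 0) (start 0 B))) (cf 0 fun x (_ : ℝ) => B.V x) := by
    rw [keepψ, dtF_dx _ hs.val.js, dtF_start]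
  have h := meanF_ip_dt (w := cf 0 fun x (_ : ℝ) => B.V x) hd.val.js hd.val.per fun _ _ _ => rfl
  rw [e]
  exact congrFun (congrFun (congrFun h p) z) 0

lemma keepP1_up (B : Base) : Up W₀ 0 (primF (keepψ B)) :=
  (keepψ_up B).low.prim (keepψ_mean B)

lemma keepP_up (B : Base) : Up W₀ 0 (keepP B) :=
  (keepP1_up B).low.prim fun p z => mean_prim ((keepψ_up (W₀ := W₀) B).val.js p) z

lemma keepU_up (B : Base) : Up W₀ 1 (keepU B) := by
  have h : Up W₀ 0 (sm (fun p z t => (-2 : ℝ) • keepP B p z t) (cf 0 fun x (_ : ℝ) => B.V x)) :=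
    ((keepP_up B).csmul _).sm (Up.cf B.V_coef)
  exact h.eps_smul

lemma keepU_off (B : Base) {S : Set E2} (hS : IsClosed S) (hg : ∀ x ∉ S, ∀ t, B.g0 x t = 0) :
    Off S (keepU B) := by
  have h0 : Off S (gF 0 B) := fun p z t hz => hg z.2 hz t
  have h1 := h0.dx hS (ev 0)
  have h2 : Off S (keepψ B) := fun p z t hz => by simp [keepψ, ip_apply, h1 p z t hz]
  intro p z t hz
  simp [keepU, keepP, h2.prim.prim p z t hz]

lemma hasDerivAt_keepP (B : Base) (p : Ix) (z : Zv 0) (t : ℝ) :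
    HasDerivAt (fun s => keepP B p z s) (primF (keepψ B) p z t) t ∧
      HasDerivAt (fun s => primF (keepψ B) p z s) (keepψ B p z t) t := by
  set W' : Wts 0 := ⟨0, 0, fun _ _ => 1, fun _ _ => 0, 14, le_rfl, fun _ _ => le_rfl,
    fun _ _ _ => le_rfl⟩
  have h1 := (keepP1_up (W₀ := W') B).val.js
  have h2 := (keepP_up (W₀ := W') B).val.js
  refine ⟨?_, ?_⟩
  · rw [← show dtF (keepP B) p z t = primF (keepψ B) p z t by rw [keepP, dtF_primF h1]]
    exact (((h2 p).fast z).differentiable (by norm_num) t).hasDerivAt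
  · rw [← show dtF (primF (keepψ B)) p z t = keepψ B p z t by
      rw [dtF_primF (keepψ_up (W₀ := W') B).val.js]]
    exact (((h1 p).fast z).differentiable (by norm_num) t).hasDerivAt

/-- The second fast derivative along `V`. -/
lemma keep_dtt {B : Base} {G U : Fm d R4} (hG : ∀ p, Js (G p)) (hU : ∀ p, Js (U p))
    (hV : ∀ p z t, ⟪B.V z.2, dtF G p z t⟫ = ⟪B.V z.2, dtF (liftF d (keepU B) + U) p z t⟫)
    (p : Ix) (z : Zv d) (t : ℝ) :
    ⟪B.V z.2, dtF (dtF G) p z t⟫ =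
      -2 * eps p * ⟪B.V z.2, B.V z.2⟫ * keepψ B p (0, z.2) t +
        ⟪B.V z.2, dtF (dtF U) p z t⟫ := by
  set W' : Wts 0 := ⟨0, 0, fun _ _ => 1, fun _ _ => 0, 14, le_rfl, fun _ _ => le_rfl,
    fun _ _ _ => le_rfl⟩
  have hK : ∀ s, dtF (keepU B) p (0, z.2) s =
      eps p • ((-2 * primF (keepψ B) p (0, z.2) s) • B.V z.2) := fun s =>
    (((hasDerivAt_keepP B p (0, z.2) s).1.const_mul (-2 : ℝ)).smul_const (B.V z.2)
      |>.const_smul (eps p)).deriv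
  have e : ∀ s, ⟪B.V z.2, dtF G p z s⟫ =
      -2 * eps p * ⟪B.V z.2, B.V z.2⟫ * primF (keepψ B) p (0, z.2) s +
        ⟪B.V z.2, dtF U p z s⟫ := fun s => by
    rw [hV, dtF_add (Φ := liftF d (keepU B))
      (fun q => (((keepU_up (W₀ := W') B).val).js q).pull (liftL d)) hU, dtF_lift]
    simp only [Pi.add_apply, liftF, hK, inner_add_right, real_inner_smul_right]
    ring
  have dG : HasDerivAt (fun s => ⟪B.V z.2, dtF G p z s⟫) ⟪B.V z.2, dtF (dtF G) p z t⟫ t := by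
    simpa [dtF, Expand.dt] using (hasDerivAt_const t (B.V z.2)).inner ℝ
      (((((hG p).dt).fast z).differentiable (by norm_num) t).hasDerivAt)
  have dU : HasDerivAt (fun s => ⟪B.V z.2, dtF U p z s⟫) ⟪B.V z.2, dtF (dtF U) p z t⟫ t := by
    simpa [dtF, Expand.dt] using (hasDerivAt_const t (B.V z.2)).inner ℝ
      (((((hU p).dt).fast z).differentiable (by norm_num) t).hasDerivAt)
  exact dG.unique ((((hasDerivAt_keepP B p (0, z.2) t).2.const_mul _).add dU).congr_of_eventuallyEq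
    (Eventually.of_forall e))

variable (D : Setup false f a ν U K' V)

/-- With `ν₀ = 0`, the errors in `dx²` and `dx dy` are the reduced ones. -/
lemma Setup.r_zero (hν1 : ∀ x ∈ U, ν x 1 ≠ 0) (hν0 : ∀ x ∈ U, ν x 0 = 0) {x : E2}
    (hx : x ∈ D.B.N) : D.B.r x = 0 := by
  have h := D.hr rfl x hx
  rw [hν0 x (D.hN hx)] at h
  exact (mul_eq_zero.1 h).resolve_right (hν1 x (D.hN hx))

/-- The tangential components of `∂x∂x F` stay bounded. -/
lemma Setup.keep_tangent (hf : ContDiff ℝ ∞ f) (ha : ContDiff ℝ ∞ a) (hν1 : ∀ x ∈ U, ν x 1 ≠ 0)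
    (hν0 : ∀ x ∈ U, ν x 0 = 0) (hJ : 1 ≤ J) (hSt : St D.B W J J (J + 1) J G) :
    ∃ C, 0 ≤ C ∧ ∀ p, Adm p → ∀ l ∈ Box d, ∀ x ∈ K',
      |⟪pd 0 (pd 0 (famF f G p l)) x, pd 0 (famF f G p l) x⟫| ≤ C ∧
      |⟪pd 0 (pd 0 (famF f G p l)) x, pd 1 (famF f G p l) x⟫| ≤ C := by
  have hj := hSt.up.val.js
  have hKc : IsCompact K' := D.hS ▸ D.B.S_compact
  let g0 : E2 → ℝ := fun y => met f y 0 + a y ^ 2
  let g1 : E2 → ℝ := fun y => met f y 1
  have hg0 : ContDiff ℝ ∞ g0 := (contDiff_met hf 0).add (ha.pow 2)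
  have hg1 : ContDiff ℝ ∞ g1 := contDiff_met hf 1
  obtain ⟨A0, hA0⟩ := hKc.exists_bound_of_continuousOn
    (Vale.Agent.P205F.contDiff_pd hg0 0).continuous.continuousOn
  obtain ⟨A1, hA1⟩ := hKc.exists_bound_of_continuousOn
    (Vale.Agent.P205F.contDiff_pd hg0 1).continuous.continuousOn
  obtain ⟨A2, hA2⟩ := hKc.exists_bound_of_continuousOn
    (Vale.Agent.P205F.contDiff_pd hg1 0).continuous.continuousOn
  obtain ⟨C0, hC0, hb0⟩ := hSt.l0.val.pdm_bound (show 1 ≤ W.th by linarith [W.th_le]) 0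
  obtain ⟨C1, hC1, hb1⟩ := hSt.l1.val.pdm_bound (show 1 ≤ W.th by linarith [W.th_le]) 0
  obtain ⟨C2, hC2, hb2⟩ := hSt.l0.val.pdm_bound (Nat.zero_le W.th) 1
  refine ⟨|A0| + |A1| + |A2| + C0 + C1 + C2, by positivity, fun p hp l hl x hx => ?_⟩
  set F := famF f G p l with hF
  have hFs : ContDiff ℝ ∞ F := contDiff_slice (famF_smooth hf hj p) l
  have hN : D.B.N ∈ 𝓝 x := D.B.N_open.mem_nhds (D.off_sub hx)
  have e0' : (fun y => met F y 0) =ᶠ[𝓝 x] fun y => g0 y + rl (r0 D.B G) p (l, y) := by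
    filter_upwards [hN] with y hy
    have h := congrFun (D.met_fam hf hj p l hy) 0
    simp [sq] at h
    simp [hF, g0, rl, r0, D.r_zero hν1 hν0 hy] at h ⊢
    linarith
  have e1' : (fun y => met F y 1) =ᶠ[𝓝 x] fun y => g1 y + rl (r1 D.B G) p (l, y) := by
    filter_upwards [hN] with y hy
    have h := congrFun (D.met_fam hf hj p l hy) 1
    simp [sq] at h
    simp [hF, g1, rl, r1, D.r_zero hν1 hν0 hy] at h ⊢
    linarith
  have hM : eps p ^ J * (p.M : ℝ) ≤ 1 := by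
    calc eps p ^ J * (p.M : ℝ) ≤ eps p ^ 1 * p.M :=
          mul_le_mul_of_nonneg_right (eps_pow_le hp hJ) (Nat.cast_nonneg _)
      _ = 1 := by rw [pow_one, eps_mul_M]
  have small : ∀ {c : ℝ}, 0 ≤ c → c * (p.M : ℝ) ^ 1 * eps p ^ J ≤ c := fun {c} hc => by
    rw [pow_one, mul_assoc, mul_comm (p.M : ℝ)]
    exact mul_le_of_le_one_right hc hM
  have b0 : |pd 0 (fun y => met F y 0) x| ≤ |A0| + C0 := by
    rw [show pd 0 (fun y => met F y 0) x = pd 0 (fun y => g0 y + rl (r0 D.B G) p (l, y)) x by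
      simp only [pd, e0'.fderiv_eq], pd_add hg0 (rl_slice_smooth hSt.l0.val.js p l)]
    exact (abs_add_le _ _).trans (add_le_add ((hA0 x hx).trans (le_abs_self _))
      ((hb0 p hp l hl x).trans (small hC0)))
  have b1 : |pd 1 (fun y => met F y 0) x| ≤ |A1| + C2 := by
    rw [show pd 1 (fun y => met F y 0) x = pd 1 (fun y => g0 y + rl (r0 D.B G) p (l, y)) x by
      simp only [pd, e0'.fderiv_eq], pd_add hg0 (rl_slice_smooth hSt.l0.val.js p l)]
    refine (abs_add_le _ _).trans (add_le_add ((hA1 x hx).trans (le_abs_self _))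
      ((hb2 p hp l hl x).trans ?_))
    rw [pow_zero, mul_one]
    exact mul_le_of_le_one_right hC2 (pow_le_one₀ (eps_nonneg p) (eps_le_one hp))
  have b2 : |pd 0 (fun y => met F y 1) x| ≤ |A2| + C1 := by
    rw [show pd 0 (fun y => met F y 1) x = pd 0 (fun y => g1 y + rl (r1 D.B G) p (l, y)) x by
      simp only [pd, e1'.fderiv_eq], pd_add hg1 (rl_slice_smooth hSt.l1.val.js p l)]
    exact (abs_add_le _ _).trans (add_le_add ((hA2 x hx).trans (le_abs_self _))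
      ((hb1 p hp l hl x).trans (small hC1)))
  have d0 := (Vale.Agent.P205F.contDiff_pd hFs 0).differentiable (by norm_num) x
  have d1 := (Vale.Agent.P205F.contDiff_pd hFs 1).differentiable (by norm_num) x
  have h00 : pd 0 (fun y => met F y 0) x = 2 * ⟪pd 0 (pd 0 F) x, pd 0 F x⟫ := by
    show fderiv ℝ (fun y => ⟪pd 0 F y, pd 0 F y⟫) x (ev 0) = _
    rw [fderiv_inner_apply ℝ d0 d0, real_inner_comm (fderiv ℝ (pd 0 F) x (ev 0))]
    simp only [pd]
    ring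
  have h10 : pd 1 (fun y => met F y 0) x = 2 * ⟪pd 0 (pd 1 F) x, pd 0 F x⟫ := by
    rw [pd_comm hFs 0 1 x]
    show fderiv ℝ (fun y => ⟪pd 0 F y, pd 0 F y⟫) x (ev 1) = _
    rw [fderiv_inner_apply ℝ d0 d0, real_inner_comm (fderiv ℝ (pd 0 F) x (ev 1))]
    simp only [pd]
    ring
  have h01 : pd 0 (fun y => met F y 1) x =
      ⟪pd 0 (pd 1 F) x, pd 0 F x⟫ + ⟪pd 0 (pd 0 F) x, pd 1 F x⟫ := by
    show fderiv ℝ (fun y => ⟪pd 0 F y, pd 1 F y⟫) x (ev 0) = _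
    rw [fderiv_inner_apply ℝ d0 d1, real_inner_comm (pd 0 F x)]
    rfl
  rw [h00, abs_mul, abs_two] at b0
  rw [h10] at b1
  rw [h01] at b2
  rw [abs_le] at b1 b2
  have n0 := abs_nonneg ⟪pd 0 (pd 0 F) x, pd 0 F x⟫
  refine ⟨?_, abs_le.2 ⟨?_, ?_⟩⟩ <;>
    linarith [b1.1, b1.2, b2.1, b2.2, abs_nonneg A0, abs_nonneg A1, abs_nonneg A2]

/-- The component along `V` of `∂x∂x F`. -/
lemma Setup.keep_normal (hf : ContDiff ℝ ∞ f) (hSt : St D.B W J J (J + 1) J G) (hQ : 2 ≤ W.Q)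
    {Uv : Fm d R4} (hUv : Up W W.Q Uv)
    (hV : ∀ p z t, ⟪D.B.V z.2, dtF G p z t⟫ =
      ⟪D.B.V z.2, dtF (liftF d (keepU D.B) + Uv) p z t⟫) :
    ∃ C, 0 ≤ C ∧ ∀ p, Adm p → ∀ l ∈ Box d, ∀ x ∈ D.B.N,
      |⟪D.B.V x, pd 0 (pd 0 (famF f G p l)) x⟫ - ⟪D.B.V x, pd 0 (pd 0 f) x⟫| ≤ C * eps p := by
  have hj := hSt.up.val.js
  set R : Fm d R4 := dtF G - gF d D.B with hR
  obtain ⟨C1, hC1, hb1⟩ := (Cls.dir hSt.g.val ((0 : Fin d → ℝ), ev 0)).bd 0 0 bot_le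
  obtain ⟨C2, hC2, hb2⟩ := ((hSt.up.dx (ev 0)).dx (ev 0)).val.bd 0 0 bot_le
  obtain ⟨C3, hC3, hb3⟩ := hUv.dval.dt12.bd 0 0 bot_le
  refine ⟨2 * C1 + C2 + C3, by positivity, fun p hp l hl x hx => ?_⟩
  set t := phase d p (l, x) with ht
  obtain ⟨hn, -⟩ := (D.hV x hx).2.2 rfl
  have e : pd 0 (pd 0 (famF f G p l)) x =
      pdm 2 0 f x + eps p • rl (D0^[2] (D1^[0] G)) p (l, x) := pdm_famF hf hj p l 2 0 x
  have hj1 : ∀ q, Js (dx (ev 0) G q) := fun q => (hj q).dir _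
  have hj2 : ∀ q, Js ((fun p z t => (p.M : ℝ) • dtF G p z t : Fm d R4) q) := fun q =>
    ((hj q).dt.clm ((q.M : ℝ) • ContinuousLinearMap.id ℝ R4))
  have hjt : ∀ q, Js (dtF G q) := fun q => (hj q).dt
  have hg : ∀ q, Js (gF d D.B q) := (Up.cf (W := W) D.B.g0_coef).val.js
  have hjR : ∀ q, Js ((dtF G - gF d D.B) q) := fun q => (hjt q).sub (hg q)
  have hg0 : ∀ q, Js (gF 0 D.B q) :=
    fun q => D.B.g0_coef.js.pull (ContinuousLinearMap.snd ℝ (Fin 0 → ℝ) E2)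
  have eD : D0 G = dx (ev 0) G + fun p z t => (p.M : ℝ) • dtF G p z t := rfl
  have hdx : dx (ev 0) (D0 G) p (l, x) t =
      dx (ev 0) (dx (ev 0) G) p (l, x) t + (p.M : ℝ) • dx (ev 0) (dtF G) p (l, x) t := by
    rw [eD]
    show Expand.dir _ (dx (ev 0) G p + (fun p z t => (p.M : ℝ) • dtF G p z t : Fm d R4) p)
      (l, x) t = _
    rw [(hj1 p).dir_add (hj2 p)]
    show _ + Expand.dir _ (fun z t => ((p.M : ℝ) • ContinuousLinearMap.id ℝ R4) (dtF G p z t))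
      (l, x) t = _
    rw [(hjt p).dir_clm]
    rfl
  have hdt : dtF (D0 G) p (l, x) t =
      dx (ev 0) (dtF G) p (l, x) t + (p.M : ℝ) • dtF (dtF G) p (l, x) t := by
    rw [eD, dtF_add hj1 hj2, dtF_dx _ hj, dtF_smul_ix hjt fun q => (q.M : ℝ)]
    rfl
  have hD : eps p • rl (D0^[2] (D1^[0] G)) p (l, x) =
      eps p • dx (ev 0) (dx (ev 0) G) p (l, x) t + (2 : ℝ) • dx (ev 0) (dtF G) p (l, x) t +
        (p.M : ℝ) • dtF (dtF G) p (l, x) t := by
    show eps p • (dx (ev 0) (D0 G) p (l, x) t + (p.M : ℝ) • dtF (D0 G) p (l, x) t) = _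
    rw [hdx, hdt]
    simp only [smul_add, smul_smul, ← mul_assoc, eps_mul_M, one_mul]
    module
  have hsplit : dx (ev 0) (dtF G) p (l, x) t =
      dx (ev 0) (dtF G - gF d D.B) p (l, x) t + dx (ev 0) (gF d D.B) p (l, x) t := by
    show _ = Expand.dir _ ((dtF G - gF d D.B) p) (l, x) t + Expand.dir _ (gF d D.B p) (l, x) t
    rw [show dx (ev 0) (dtF G) p = Expand.dir _ ((dtF G - gF d D.B) p + gF d D.B p) by
      rw [Pi.sub_apply, sub_add_cancel]; rfl,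
      (hjR p).dir_add (hg p)]
    rfl
  have hψ : ⟪D.B.V x, dx (ev 0) (gF d D.B) p (l, x) t⟫ = keepψ D.B p (0, x) t := by
    rw [show gF d D.B = liftF d (gF 0 D.B) from rfl,
      dx_lift hg0, keepψ, ip_apply, real_inner_comm]
    rfl
  rw [e, show pdm 2 0 f x = pd 0 (pd 0 f) x from rfl, hD, hsplit]
  simp only [inner_add_right, real_inner_smul_right, smul_add]
  rw [keep_dtt hj hUv.val.js hV p (l, x) t, hψ]
  simp only
  rw [real_inner_self_eq_norm_sq, hn, one_pow, mul_one]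
  have a1 := abs_real_inner_le_norm (D.B.V x) (dx (ev 0) (dtF G - gF d D.B) p (l, x) t)
  have a2 := abs_real_inner_le_norm (D.B.V x) (dx (ev 0) (dx (ev 0) G) p (l, x) t)
  have a3 := abs_real_inner_le_norm (D.B.V x) (dtF (dtF Uv) p (l, x) t)
  rw [hn, one_mul] at a1 a2 a3
  have q1 : ‖dx (ev 0) (dtF G - gF d D.B) p (l, x) t‖ ≤ C1 * eps p := by
    have h := hb1 p hp (l, x) hl t
    simp only [norm_iteratedFDeriv_zero, Function.iterate_zero, id_eq] at h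
    rw [vw_small (Nat.zero_le _), pow_one] at h
    exact h
  have q2 : ‖dx (ev 0) (dx (ev 0) G) p (l, x) t‖ ≤ C2 := by
    have h := hb2 p hp (l, x) hl t
    simp only [norm_iteratedFDeriv_zero, Function.iterate_zero, id_eq] at h
    rw [vw_small (Nat.zero_le _), pow_zero, mul_one] at h
    exact h
  have q3 : ‖dtF (dtF Uv) p (l, x) t‖ ≤ C3 * eps p ^ 2 := by
    have h := hb3 p hp (l, x) hl t
    simp only [norm_iteratedFDeriv_zero, Function.iterate_zero, id_eq] at h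
    rw [vw_small (Nat.zero_le _)] at h
    exact h.trans (mul_le_mul_of_nonneg_left (eps_pow_le hp hQ) hC3)
  set A := ⟪D.B.V x, dx (ev 0) (dtF G - gF d D.B) p (l, x) t⟫
  set B := ⟪D.B.V x, dx (ev 0) (dx (ev 0) G) p (l, x) t⟫
  set E := ⟪D.B.V x, dtF (dtF Uv) p (l, x) t⟫
  set ψ := keepψ D.B p (0, x) t
  have em := eps_mul_M p
  have e1 : eps p * B + (2 * A + 2 * ψ) + (p.M : ℝ) * (-2 * eps p * ψ + E) =
      eps p * B + 2 * A + (p.M : ℝ) * E := by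
    linear_combination (-2 * ψ) * em
  rw [add_sub_cancel_left, e1]
  have b1 := a1.trans q1
  have b2 := mul_le_mul_of_nonneg_left (a2.trans q2) (eps_nonneg p)
  have b3 : (p.M : ℝ) * |E| ≤ C3 * eps p := by
    refine (mul_le_mul_of_nonneg_left (a3.trans q3) (Nat.cast_nonneg p.M)).trans (le_of_eq ?_)
    linear_combination (C3 * eps p) * em
  refine (abs_add_three _ _ _).trans ?_
  rw [abs_mul, abs_mul, abs_mul, abs_two, abs_of_nonneg (eps_nonneg p), Nat.abs_cast]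
  linarith

/-- `II(∂x,∂x)` stays away from zero. -/
theorem keep_core (hG : GeomStmt) (hKG : KeepGeomStmt) (hf : ContDiff ℝ ∞ f)
    (ha : ContDiff ℝ ∞ a) (hν1 : ∀ x ∈ U, ν x 1 ≠ 0) (hν0 : ∀ x ∈ U, ν x 0 = 0)
    (hpos : ∀ x ∈ U, 0 < ⟪pd 0 (pd 0 f) x, V x⟫) (hV : ContDiff ℝ ∞ V) (hJ : 1 ≤ J)
    (hQ : 2 ≤ W.Q) (hSt : St D.B W J J (J + 1) J G) {Uv : Fm d R4} (hUv : Up W W.Q Uv)
    (hVt : ∀ p z t, ⟪D.B.V z.2, dtF G p z t⟫ =
      ⟪D.B.V z.2, dtF (liftF d (keepU D.B) + Uv) p z t⟫) :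
    ∃ (C : ℝ) (M₀ : ℕ), 1 ≤ C ∧ ∀ p : Ix, Adm p → M₀ ≤ p.M → ∀ l ∈ Box d, ∀ x ∈ K',
      C⁻¹ ≤ ‖II (famF f G p l) x (ev 0)‖ := by
  have hKc : IsCompact K' := D.hS ▸ D.B.S_compact
  have hj := hSt.up.val.js
  obtain ⟨Cg, η₀, hCg, hη₀, hgeo⟩ := hG false D.B D.Lp D.hg D.hχ D.hV K' hKc D.off_sub
  obtain ⟨Cn, hCn, hnear⟩ := D.near hf hSt
  obtain ⟨Ct, hCt, htan⟩ := D.keep_tangent hf ha hν1 hν0 hJ hSt
  obtain ⟨Cv, hCv, hnor⟩ := D.keep_normal hf hSt hQ hUv hVt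
  obtain ⟨Ci, hCi⟩ := hKc.exists_bound_of_continuousOn
    (((Vale.Agent.P205F.contDiff_pd (Vale.Agent.P205F.contDiff_pd hf 0) 0).inner ℝ
      hV).continuous.continuousOn.inv₀ fun x hx => (hpos x (D.hN (D.off_sub hx))).ne')
  set C₁ : ℝ := Cg + Ct + 2 * (|Ci| + 1) with hC₁
  have hC₁1 : 1 ≤ C₁ := by linarith [abs_nonneg Ci]
  obtain ⟨C, η₁, hC, hη₁, hkeep⟩ := hKG C₁ hC₁1
  set δ : ℝ := min (min η₀ η₁) (1 / (2 * (|Ci| + 1)))
  have hδ : 0 < δ := lt_min (lt_min hη₀ hη₁) (by positivity)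
  obtain ⟨M₀, hM₀⟩ := exists_nat_ge ((Cn + Cv) / δ)
  refine ⟨C, M₀, hC, fun p hp hM l hl x hx => ?_⟩
  have hN := D.off_sub hx
  set F := famF f G p l with hF
  set η : ℝ := (Cn + Cv) * eps p with hηdef
  have hηle : η ≤ δ := by
    show (Cn + Cv) * (p.M : ℝ)⁻¹ ≤ δ
    rw [← div_eq_mul_inv, div_le_iff₀ hp.M_pos]
    rw [div_le_iff₀ hδ] at hM₀
    have : (M₀ : ℝ) ≤ p.M := by exact_mod_cast hM
    nlinarith
  have hd0 : η ≤ η₀ := hηle.trans ((min_le_left _ _).trans (min_le_left _ _))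
  have hd1 : η ≤ η₁ := hηle.trans ((min_le_left _ _).trans (min_le_right _ _))
  have hd2 : η ≤ 1 / (2 * (|Ci| + 1)) := hηle.trans (min_le_right _ _)
  have hnη : Cn * eps p ≤ η := mul_le_mul_of_nonneg_right (by linarith) (eps_nonneg p)
  have hn := hnear p hp l hl x hN
  have g := hgeo F (contDiff_slice (famF_smooth hf hj p) l) x hx _ _ (hnη.trans hd0) hn
  obtain ⟨hX1, -, hXV⟩ := D.hV x hN
  obtain ⟨hnorm, hX0⟩ := hXV rfl
  have tiny : ∀ v X : R4, ⟪X, D.B.V x⟫ = 0 → ‖v - X‖ ≤ Cn * eps p → |⟪v, D.B.V x⟫| ≤ η :=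
    fun v X h0 hv => by
      have h := abs_real_inner_le_norm (v - X) (D.B.V x)
      rw [inner_sub_left, h0, sub_zero, hnorm, mul_one] at h
      exact h.trans (hv.trans hnη)
  obtain ⟨t0, t1⟩ := htan p hp l hl x hx
  refine hkeep F x (D.B.V x) η (contDiff_slice (famF_smooth hf hj p) l) hd1 (hnorm.le.trans hC₁1)
    (fun w => (g.1 w).trans (mul_le_mul_of_nonneg_right (by linarith [abs_nonneg Ci])
      (norm_nonneg _))) (tiny _ _ ?_ hn.1) (tiny _ _ hX1 hn.2.1)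
    (t0.trans (by linarith [abs_nonneg Ci])) (t1.trans (by linarith [abs_nonneg Ci])) ?_
  · rw [inner_add_left, hX0, real_inner_comm (D.B.V x), D.B.loop_perp', add_zero]
  · have h1 := hnor p hp l hl x hN
    rw [real_inner_comm (pd 0 (pd 0 F) x), real_inner_comm (pd 0 (pd 0 f) x), (D.hX x hN).2.2,
      abs_le] at h1
    have hp0 := hpos x (D.hN hN)
    have h2 := hCi x hx
    rw [Pi.inv_apply, Real.norm_of_nonneg (inv_nonneg.2 hp0.le)] at h2
    have h3 : (|Ci| + 1)⁻¹ ≤ ⟪pd 0 (pd 0 f) x, V x⟫ :=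
      inv_le_of_inv_le₀ hp0 (h2.trans (by linarith [le_abs_self Ci]))
    have h4 : Cv * eps p ≤ (|Ci| + 1)⁻¹ / 2 := by
      refine (mul_le_mul_of_nonneg_right (by linarith) (eps_nonneg p)).trans (hd2.trans (le_of_eq ?_))
      rw [one_div, mul_inv]
      ring
    rw [(D.hX x hN).2.2]
    refine le_trans ?_ (le_abs_self _)
    calc C₁⁻¹ ≤ (2 * (|Ci| + 1))⁻¹ := inv_anti₀ (by positivity) (by linarith)
      _ = (|Ci| + 1)⁻¹ / 2 := by rw [mul_inv]; ring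
      _ ≤ _ := by linarith [h1.1]

end Vale.Agent.P205F.Expand
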