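import Vale.Agent.P205F.Expand.FamSpec
import Vale.Agent.P205F.Start.Generic.Jets
import Vale.Agent.P205F.GoodProb.Param

/-!
# P205, expansions: tools for the assembly

Bounds on realisations of classes of values, their mixed partials and their variations in the
parameters; monotonicity of the response clauses; the variation of the induced metric.
-/

namespace Vale.Agent.P205F.Expand

open scoped ContDiff RealInnerProductSpace Topology
open Filter Set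

variable {d : ℕ} {X : Type} [NormedAddCommGroup X] [NormedSpace ℝ X] {W : Wts d} {j : ℕ}
  {Φ : Fm d X}

lemma eps_pow_eq (p : Ix) (j : ℕ) : eps p ^ j = 1 / (p.M : ℝ) ^ j := by
  rw [eps, inv_pow, one_div]

lemma eps_pow_div {p : Ix} (hp : Adm p) {m J : ℕ} (h : m ≤ J) :
    eps p ^ J ≤ 1 / (p.M : ℝ) ^ m := by
  rw [← eps_pow_eq]; exact eps_pow_le hp h

lemma Vc.rl_low (h : Vc W j Φ) {n : ℕ} (hn : n ≤ W.th) : ∃ C, 0 ≤ C ∧ ∀ p, Adm p → ∀ z ∈ dom d,
    ‖iteratedFDeriv ℝ n (rl Φ p) z‖ ≤ C * (p.M : ℝ) ^ n * eps p ^ j := by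
  obtain ⟨C, hC, hb⟩ := Cls.rl_bound h n le_top (vw_nonneg j) fun p i hp hi => vw_mono le_rfl hi hp
  exact ⟨C, hC, fun p hp z hz => (hb p hp z hz).trans (by rw [vw_small hn])⟩

lemma Vc.rl_zero (h : Vc W j Φ) : ∃ C, 0 ≤ C ∧ ∀ p, Adm p → ∀ z ∈ dom d,
    ‖rl Φ p z‖ ≤ C * eps p ^ j := by
  obtain ⟨C, hC, hb⟩ := h.rl_low (Nat.zero_le W.th)
  exact ⟨C, hC, fun p hp z hz => by simpa using hb p hp z hz⟩

lemma Vc.rl_all (h : Vc W j Φ) (n : ℕ) : ∃ C, 0 ≤ C ∧ ∀ p, Adm p → ∀ z ∈ dom d,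
    ‖iteratedFDeriv ℝ n (rl Φ p) z‖ ≤ C * ((p.M : ℝ) ^ (W.κ + 2)) ^ n * eps p ^ j := by
  obtain ⟨C, hC, hb⟩ := Cls.rl_bound h n le_top (vw_nonneg j) fun p i hp hi => vw_mono le_rfl hi hp
  refine ⟨C, hC, fun p hp z hz => (hb p hp z hz).trans ?_⟩
  rw [vw, mul_assoc C, mul_assoc C]
  refine mul_le_mul_of_nonneg_left ?_ hC
  have h1 : Lam W.κ p ^ (n - W.th) ≤ Lam W.κ p ^ n :=
    pow_le_pow_right₀ (one_le_Lam _ hp) (Nat.sub_le _ _)
  have e : ((p.M : ℝ) ^ (W.κ + 2)) ^ n = (p.M : ℝ) ^ n * Lam W.κ p ^ n := by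
    rw [Lam, ← mul_pow, ← pow_succ']
  rw [e, mul_comm (eps p ^ j), ← mul_assoc]
  exact mul_le_mul_of_nonneg_right (mul_le_mul_of_nonneg_left h1 (pow_nonneg (Nat.cast_nonneg _) _))
    (pow_nonneg (eps_nonneg p) _)

lemma Vc.D_iter (h : Vc W j Φ) (k : ℕ) : ∀ i, i ≤ W.th →
    Cls (fun p _ => eps p ^ j * (p.M : ℝ) ^ i) ((W.th - i : ℕ) : ℕ∞) (D0^[i] (D1^[k] Φ)) := by
  have h1 : ∀ k, Vc W j (D1^[k] Φ) := fun k => by
    induction k with
    | zero => exact h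
    | succ k ih => rw [Function.iterate_succ_apply']; exact Cls.D1 ih
  intro i
  induction i with
  | zero =>
    intro _
    exact Cls.mono (h1 k) le_top fun a ha => ⟨1, zero_le_one, fun p _ => by
      have : a ≤ W.th := WithTop.coe_le_coe.1 ha
      simp [vw_small this]⟩
  | succ i ih =>
    intro hi
    rw [Function.iterate_succ_apply']
    refine Cls.D0 (ih (by omega)) (fun a ha => ?_) ?_ fun p a hp => ⟨?_, le_of_eq ?_⟩
    · have : a ≤ W.th - (i + 1) := WithTop.coe_le_coe.1 ha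
      exact WithTop.coe_le_coe.2 (show a + 1 ≤ W.th - i by omega)
    · exact WithTop.coe_le_coe.2 (show W.th - (i + 1) ≤ W.th - i by omega)
    · exact mul_le_mul_of_nonneg_left (pow_le_pow_right₀ hp.one_le_M i.le_succ)
        (pow_nonneg (eps_nonneg p) _)
    · rw [pow_succ]; ring

lemma pdm_rl (h : ∀ p, Js (Φ p)) (p : Ix) (l : Fin d → ℝ) (i k : ℕ) (x : E2) :
    pdm i k (fun y => rl Φ p (l, y)) x = rl (D0^[i] (D1^[k] Φ)) p (l, x) :=
  congrFun (pd_iter_rl h p l i k) x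

lemma Vc.pdm_bound (h : Vc W j Φ) {i : ℕ} (hi : i ≤ W.th) (k : ℕ) : ∃ C, 0 ≤ C ∧ ∀ p, Adm p →
    ∀ l ∈ Box d, ∀ x, ‖pdm i k (fun y => rl Φ p (l, y)) x‖ ≤ C * (p.M : ℝ) ^ i * eps p ^ j := by
  obtain ⟨C, hC, hb⟩ := (h.D_iter k i hi).bd 0 0 bot_le
  refine ⟨C, hC, fun p hp l hl x => ?_⟩
  rw [pdm_rl h.js, mul_assoc, mul_comm ((p.M : ℝ) ^ i)]
  simpa [rl] using hb p hp (l, x) hl (phase d p (l, x))

lemma Vc.dk_vc (h : Vc W j Φ) (k : Fin d) : Vc W j (Expand.dk k Φ) := Cls.dir h _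

lemma rl_dlam (h : ∀ p, Js (Φ p)) (p : Ix) (l v : Fin d → ℝ) (y : E2) :
    fderiv ℝ (fun l' => rl Φ p (l', y)) l v = ∑ k, v k • rl (dk k Φ) p (l, y) := by
  have hd := (contDiff_rl h p).differentiable (by norm_num) (l, y)
  have e : fderiv ℝ (fun l' => rl Φ p (l', y)) l =
      (fderiv ℝ (rl Φ p) (l, y)).comp (ContinuousLinearMap.inl ℝ (Fin d → ℝ) E2) :=
    (hd.hasFDerivAt.comp (f := fun l' : Fin d → ℝ => (l', y)) l
      (hasFDerivAt_prodMk_left l y)).fderiv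
  have ev' : ((v, 0) : Zv d) = ∑ k, v k • pv k := by
    refine Prod.ext ?_ ?_
    · funext i; simp [pv, Prod.fst_sum, Finset.sum_apply, Pi.single_apply]
    · simp [pv, Prod.snd_sum]
  rw [e, ContinuousLinearMap.comp_apply, ContinuousLinearMap.inl_apply, ev', map_sum]
  refine Finset.sum_congr rfl fun k _ => ?_
  rw [map_smul, fderiv_rl h, phase_apply]
  simp [pv, rl, Expand.dk, phase_apply]

lemma Vc.var_bound (h : Vc W j Φ) {i : ℕ} (hi : i ≤ W.th) (k : ℕ) : ∃ C, 0 ≤ C ∧ ∀ p, Adm p →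
    ∀ l ∈ Box d, ∀ v x, ‖pdm i k (fun y => fderiv ℝ (fun l' => rl Φ p (l', y)) l v) x‖ ≤
      C * (p.M : ℝ) ^ i * eps p ^ j * ‖v‖ := by
  choose C hC hb using fun c => (h.dk_vc c).pdm_bound hi k
  refine ⟨∑ c, C c, Finset.sum_nonneg fun c _ => hC c, fun p hp l hl v x => ?_⟩
  have hs : ∀ c, ContDiff ℝ ∞ fun y => rl (dk c Φ) p (l, y) := fun c =>
    (contDiff_rl (h.dk_vc c).js p).comp (contDiff_const.prodMk contDiff_id)
  rw [show (fun y => fderiv ℝ (fun l' => rl Φ p (l', y)) l v) =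
      fun y => ∑ c, v c • rl (dk c Φ) p (l, y) from funext fun y => rl_dlam h.js p l v y,
    Start.Generic.pdm_sum _ (fun c _ => (hs c).const_smul (v c)), Finset.sum_mul, Finset.sum_mul,
    Finset.sum_mul]
  refine (norm_sum_le _ _).trans (Finset.sum_le_sum fun c _ => ?_)
  rw [Start.Generic.pdm_const_smul (hs c), norm_smul, mul_comm]
  exact mul_le_mul (hb c p hp l hl x) (norm_le_pi_norm v c) (norm_nonneg _)
    (mul_nonneg (mul_nonneg (hC c) (pow_nonneg (Nat.cast_nonneg _) _))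
      (pow_nonneg (eps_nonneg p) _))

lemma norm_iter_snd {g : E2 → X} (hg : ContDiff ℝ ∞ g) (n : ℕ) (z : Zv d) :
    ‖iteratedFDeriv ℝ n (fun y : Zv d => g y.2) z‖ ≤ ‖iteratedFDeriv ℝ n g z.2‖ := by
  rw [show (fun y : Zv d => g y.2) = g ∘ ContinuousLinearMap.snd ℝ (Fin d → ℝ) E2 from rfl,
    ContinuousLinearMap.iteratedFDeriv_comp_right _ hg _ (by exact_mod_cast le_top)]
  refine (ContinuousMultilinearMap.norm_compContinuousLinearMap_le _ _).trans ?_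
  exact mul_le_of_le_one_right (norm_nonneg _) (Finset.prod_le_one
    (fun _ _ => ContinuousLinearMap.opNorm_nonneg _)
    fun _ _ => ContinuousLinearMap.norm_snd_le _ _ _)

lemma exists_iter_bound {g : E2 → X} (hg : ContDiff ℝ ∞ g) {S : Set E2} (hS : IsCompact S)
    (m : ℕ) : ∃ C, 0 ≤ C ∧ ∀ x ∈ S, ∀ n ≤ m, ‖iteratedFDeriv ℝ n g x‖ ≤ C := by
  choose C hC using fun n : ℕ => hS.exists_bound_of_continuousOn
    (hg.continuous_iteratedFDeriv (m := n) (by exact_mod_cast le_top)).continuousOn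
  refine ⟨∑ n ∈ Finset.range (m + 1), max (C n) 0, Finset.sum_nonneg fun _ _ => le_max_right _ _,
    fun x hx n hn => (hC n x hx).trans ((le_max_left _ 0).trans ?_)⟩
  exact Finset.single_le_sum (f := fun n => max (C n) 0) (fun _ _ => le_max_right _ _)
    (Finset.mem_range.2 (Nat.lt_succ_of_le hn))

/-- The variation of the induced metric. -/
lemma fderiv_met {F : (Fin d → ℝ) → E2 → R4} (hF : ContDiff ℝ ∞ (Function.uncurry F))
    (l v : Fin d → ℝ) (x : E2) :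
    fderiv ℝ (fun l' => met (F l') x) l v = Lin (F l) (dlam F l v) x := by
  have h0 := pdm_param hF 1 0
  have h1 := pdm_param hF 0 1
  have s0 : ContDiff ℝ ∞ fun l' => pd 0 (F l') x := h0.1.comp (contDiff_id.prodMk contDiff_const)
  have s1 : ContDiff ℝ ∞ fun l' => pd 1 (F l') x := h1.1.comp (contDiff_id.prodMk contDiff_const)
  have d0 := s0.differentiable (by norm_num) l
  have d1 := s1.differentiable (by norm_num) l
  have e0 : fderiv ℝ (fun l' => pd 0 (F l') x) l v = pd 0 (dlam F l v) x := h0.2 l v x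
  have e1 : fderiv ℝ (fun l' => pd 1 (F l') x) l v = pd 1 (dlam F l v) x := h1.2 l v x
  have hd : ∀ k, DifferentiableAt ℝ (fun l' => met (F l') x k) l := by
    intro k
    fin_cases k
    · exact d0.inner ℝ d0
    · exact d0.inner ℝ d1
    · exact d1.inner ℝ d1
  rw [fderiv_pi hd]
  funext k
  rw [ContinuousLinearMap.pi_apply]
  fin_cases k
  · show fderiv ℝ (fun l' => ⟪pd 0 (F l') x, pd 0 (F l') x⟫) l v = 2 * ⟪pd 0 (F l) x, _⟫
    rw [fderiv_inner_apply ℝ d0 d0, e0, real_inner_comm (pd 0 (F l) x)]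
    ring
  · show fderiv ℝ (fun l' => ⟪pd 0 (F l') x, pd 1 (F l') x⟫) l v =
      ⟪pd 0 (F l) x, _⟫ + ⟪pd 1 (F l) x, _⟫
    rw [fderiv_inner_apply ℝ d0 d1, e0, e1, real_inner_comm (pd 1 (F l) x)]
  · show fderiv ℝ (fun l' => ⟪pd 1 (F l') x, pd 1 (F l') x⟫) l v = 2 * ⟪pd 1 (F l) x, _⟫
    rw [fderiv_inner_apply ℝ d1 d1, e1, real_inner_comm (pd 1 (F l) x)]
    ring

lemma SlowResp.mono {b : Bool} {F : (Fin d → ℝ) → E2 → R4} {K : Set E2} {C C' : ℝ} {e e' M : ℕ}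
    (h : SlowResp b F K C e M) (hC0 : 0 ≤ C') (hC : C ≤ C') (he : e ≤ e') (hM : 1 ≤ M) :
    SlowResp b F K C' e' M := fun l hl x hx τ hτ => by
  obtain ⟨v, hv, h1, h2⟩ := h l hl x hx τ hτ
  have hM' : (1 : ℝ) ≤ M := by exact_mod_cast hM
  exact ⟨v, hv.trans (mul_le_mul hC (pow_le_pow_right₀ hM' he) (by positivity) hC0), h1,
    fun h i j hij => (h2 h i j hij).trans (div_le_div_of_nonneg_right hC (by positivity))⟩

lemma FineResp.mono {b : Bool} {F : (Fin d → ℝ) → E2 → R4} {K : Set E2} {C C' : ℝ}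
    {e e' κ e₂ M : ℕ} (h : FineResp b F K C e κ e₂ M) (hC0 : 0 ≤ C') (hC : C ≤ C') (he : e ≤ e')
    (hM : 1 ≤ M) : FineResp b F K C' e' κ e₂ M := by
  intro l hl x hx n i hn hn' hi τ hτ hτ'
  have hM' : (1 : ℝ) ≤ M := by exact_mod_cast hM
  have hp : C * (M : ℝ) ^ e ≤ C' * (M : ℝ) ^ e' :=
    mul_le_mul hC (pow_le_pow_right₀ hM' he) (by positivity) hC0
  have hη : C * (M : ℝ) ^ e / (M : ℝ) ^ κ ≤ C' * (M : ℝ) ^ e' / (M : ℝ) ^ κ := div_le_div_of_nonneg_right hp (by positivity)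
  obtain ⟨v, h0, h1, h2, h3, h4, h5⟩ := h l hl x hx n i hn hn' hi τ hτ hτ'
  exact ⟨v, h0.trans (mul_le_mul_of_nonneg_right hC (by positivity)),
    fun a c hac => (h1 a c hac).trans hp, fun a c hac => (h2 a c hac).trans hη,
    fun a ha σ hσ hσ' => (h3 a ha σ hσ hσ').trans hη, fun a c hac => (h4 a c hac).trans hη,
    fun hb => ⟨fun a ha => ((h5 hb).1 a ha).trans hη, fun a ha => ((h5 hb).2 a ha).trans hη⟩⟩

end Vale.Agent.P205F.Expand
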