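import Mathlib

/-!
# P205, expansions: functions of a slow variable `z` and a periodic fast variable `t`

`dt` differentiates in `t`, `dir v` in `z` along `v`; `mean` and `prim` are the mean over a period
(period `1`) and the primitive with vanishing mean.
-/

namespace Vale.Agent.P205F.Expand

open MeasureTheory
open scoped ContDiff Interval

variable {Z X Y : Type} [NormedAddCommGroup Z] [NormedSpace ℝ Z] [NormedAddCommGroup X]
  [NormedSpace ℝ X] [NormedAddCommGroup Y] [NormedSpace ℝ Y]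

/-- Jointly smooth. -/
def Js (Φ : Z → ℝ → X) : Prop := ContDiff ℝ ∞ fun p : Z × ℝ => Φ p.1 p.2

/-- One-periodic in the fast variable. -/
def Per (Φ : Z → ℝ → X) : Prop := ∀ z t, Φ z (t + 1) = Φ z t

/-- Derivative in the fast variable. -/
noncomputable def dt (Φ : Z → ℝ → X) : Z → ℝ → X := fun z t => deriv (Φ z) t

/-- Derivative in the slow variable along `v`. -/
noncomputable def dir (v : Z) (Φ : Z → ℝ → X) : Z → ℝ → X :=
  fun z t => fderiv ℝ (fun y => Φ y t) z v

/-- The joint derivative. -/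
noncomputable def joint (Φ : Z → ℝ → X) (z : Z) (t : ℝ) : Z × ℝ →L[ℝ] X :=
  fderiv ℝ (fun p : Z × ℝ => Φ p.1 p.2) (z, t)

namespace Js

variable {Φ Ψ : Z → ℝ → X}

lemma slow (h : Js Φ) (t : ℝ) : ContDiff ℝ ∞ fun z => Φ z t :=
  h.comp (contDiff_id.prodMk contDiff_const)

lemma fast (h : Js Φ) (z : Z) : ContDiff ℝ ∞ (Φ z) :=
  h.comp (contDiff_const.prodMk contDiff_id)

lemma hasFDerivAt_joint (h : Js Φ) (z : Z) (t : ℝ) :
    HasFDerivAt (fun p : Z × ℝ => Φ p.1 p.2) (joint Φ z t) (z, t) :=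
  (h.differentiable (by norm_num) (z, t)).hasFDerivAt

lemma hasDerivAt_fast (h : Js Φ) (z : Z) (t : ℝ) : HasDerivAt (Φ z) (joint Φ z t (0, 1)) t := by
  have := (h.hasFDerivAt_joint z t).comp_hasDerivAt t
    ((hasDerivAt_const t z).prodMk (hasDerivAt_id t))
  exact this

lemma hasFDerivAt_slow (h : Js Φ) (z : Z) (t : ℝ) :
    HasFDerivAt (fun y => Φ y t) ((joint Φ z t).comp (ContinuousLinearMap.inl ℝ Z ℝ)) z :=
  (h.hasFDerivAt_joint z t).comp (f := fun y => (y, t)) z (hasFDerivAt_prodMk_left (𝕜 := ℝ) z t)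

lemma dt_eq (h : Js Φ) : dt Φ = fun z t => joint Φ z t (0, 1) := by
  funext z t; exact (h.hasDerivAt_fast z t).deriv

lemma dir_eq (h : Js Φ) (v : Z) : dir v Φ = fun z t => joint Φ z t (v, 0) := by
  funext z t; simp [dir, (h.hasFDerivAt_slow z t).fderiv]

lemma smooth_joint (h : Js Φ) (w : Z × ℝ) : Js fun z t => joint Φ z t w :=
  (h.fderiv_right (m := ∞) (by exact_mod_cast le_top)).clm_apply contDiff_const

protected lemma dt (h : Js Φ) : Js (dt Φ) := by rw [h.dt_eq]; exact h.smooth_joint _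

protected lemma dir (h : Js Φ) (v : Z) : Js (dir v Φ) := by rw [h.dir_eq]; exact h.smooth_joint _

protected lemma add (h : Js Φ) (h' : Js Ψ) : Js (Φ + Ψ) := ContDiff.add h h'

protected lemma sub (h : Js Φ) (h' : Js Ψ) : Js (Φ - Ψ) := ContDiff.sub h h'

lemma dt_iter (h : Js Φ) : ∀ i, Js (Expand.dt^[i] Φ)
  | 0 => h
  | i + 1 => by rw [Function.iterate_succ_apply']; exact (dt_iter h i).dt

lemma dt_dir (h : Js Φ) (v : Z) : Expand.dt (Expand.dir v Φ) = Expand.dir v (Expand.dt Φ) := by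
  funext z t
  set F := fun p : Z × ℝ => Φ p.1 p.2
  have h2 : ContDiffAt ℝ 2 F (z, t) := (h.of_le (by norm_cast)).contDiffAt
  have hd : HasFDerivAt (fderiv ℝ F) (fderiv ℝ (fderiv ℝ F) (z, t)) (z, t) :=
    ((h.fderiv_right (m := ∞) (by exact_mod_cast le_top)).differentiable (by norm_num)
      (z, t)).hasFDerivAt
  rw [h.dir_eq, h.dt_eq]
  have e1 : HasDerivAt (fun s => joint Φ z s (v, 0))
      (fderiv ℝ (fderiv ℝ F) (z, t) (0, 1) (v, 0)) t := by
    have := (((ContinuousLinearMap.apply ℝ X ((v, (0 : ℝ)) : Z × ℝ)).hasFDerivAt).comp (z, t)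
      hd).comp_hasDerivAt t ((hasDerivAt_const t z).prodMk (hasDerivAt_id t))
    exact this
  have e2 : HasFDerivAt (fun y => joint Φ y t (0, 1))
      (((ContinuousLinearMap.apply ℝ X ((0 : Z), (1 : ℝ))).comp
        (fderiv ℝ (fderiv ℝ F) (z, t))).comp (ContinuousLinearMap.inl ℝ Z ℝ)) z :=
    (((ContinuousLinearMap.apply ℝ X ((0 : Z), (1 : ℝ))).hasFDerivAt).comp (z, t) hd).comp
      (f := fun y => (y, t)) z (hasFDerivAt_prodMk_left (𝕜 := ℝ) z t)
  show deriv (fun s => joint Φ z s (v, 0)) t = fderiv ℝ (fun y => joint Φ y t (0, 1)) z v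
  rw [e1.deriv, e2.fderiv]
  simpa using (h2.isSymmSndFDerivAt (by simp)).eq ((0 : Z), (1 : ℝ)) (v, (0 : ℝ))

lemma dt_iter_dir (h : Js Φ) (v : Z) : ∀ i,
    Expand.dt^[i] (Expand.dir v Φ) = Expand.dir v (Expand.dt^[i] Φ)
  | 0 => rfl
  | i + 1 => by
      rw [Function.iterate_succ_apply', Function.iterate_succ_apply', dt_iter_dir h v i,
        (h.dt_iter i).dt_dir v]

lemma dt_add (h : Js Φ) (h' : Js Ψ) : Expand.dt (Φ + Ψ) = Expand.dt Φ + Expand.dt Ψ := by
  funext z t; exact ((h.hasDerivAt_fast z t).differentiableAt.hasDerivAt.add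
    (h'.hasDerivAt_fast z t).differentiableAt.hasDerivAt).deriv

lemma dt_iter_add : ∀ (i : ℕ) {Φ Ψ : Z → ℝ → X}, Js Φ → Js Ψ →
    Expand.dt^[i] (Φ + Ψ) = Expand.dt^[i] Φ + Expand.dt^[i] Ψ
  | 0, _, _, _, _ => rfl
  | i + 1, _, _, h, h' => by
      simp only [Function.iterate_succ_apply, dt_add h h']
      exact dt_iter_add i h.dt h'.dt

lemma dt_clm (h : Js Φ) (L : X →L[ℝ] Y) :
    Expand.dt (fun z t => L (Φ z t)) = fun z t => L (Expand.dt Φ z t) := by
  funext z t
  exact (L.hasFDerivAt.comp_hasDerivAt t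
    (h.hasDerivAt_fast z t).differentiableAt.hasDerivAt).deriv

protected lemma clm (h : Js Φ) (L : X →L[ℝ] Y) : Js fun z t => L (Φ z t) := L.contDiff.comp h

lemma dt_iter_clm : ∀ (i : ℕ) {Φ : Z → ℝ → X}, Js Φ → ∀ L : X →L[ℝ] Y,
    Expand.dt^[i] (fun z t => L (Φ z t)) = fun z t => L (Expand.dt^[i] Φ z t)
  | 0, _, _, _ => rfl
  | i + 1, _, h, L => by
      simp only [Function.iterate_succ_apply, dt_clm h L]
      exact dt_iter_clm i h.dt L

end Js

/-- Slices of the joint derivatives. -/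
lemma Js.iteratedFDeriv_slow {Φ : Z → ℝ → X} (h : Js Φ) (a : ℕ) (z : Z) (t : ℝ) :
    iteratedFDeriv ℝ a (fun y => Φ y t) z = (iteratedFDeriv ℝ a (fun p : Z × ℝ => Φ p.1 p.2)
      (z, t)).compContinuousLinearMap fun _ => ContinuousLinearMap.inl ℝ Z ℝ := by
  have e : (fun y => Φ y t) =
      (fun q : Z × ℝ => (fun p : Z × ℝ => Φ p.1 p.2) (q + (0, t))) ∘
        ContinuousLinearMap.inl ℝ Z ℝ := by
    funext y; simp
  have h' : ContDiff ℝ ∞ fun q : Z × ℝ => (fun p : Z × ℝ => Φ p.1 p.2) (q + (0, t)) :=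
    h.comp (contDiff_id.add contDiff_const)
  rw [e, ContinuousLinearMap.iteratedFDeriv_comp_right _ h' _ (by exact_mod_cast le_top),
    iteratedFDeriv_comp_add_right' (f := fun p : Z × ℝ => Φ p.1 p.2) a]
  simp

lemma Js.continuous_slice {Φ : Z → ℝ → X} (h : Js Φ) (a : ℕ) :
    Continuous fun p : Z × ℝ => iteratedFDeriv ℝ a (fun y => Φ y p.2) p.1 := by
  simp only [h.iteratedFDeriv_slow]
  exact (ContinuousMultilinearMap.compContinuousLinearMapL (𝕜 := ℝ) (F := X)
    fun _ : Fin a => ContinuousLinearMap.inl ℝ Z ℝ).continuous.comp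
    (h.continuous_iteratedFDeriv (by exact_mod_cast le_top))

lemma Js.bilin {W : Type} [NormedAddCommGroup W] [NormedSpace ℝ W] (B : X →L[ℝ] Y →L[ℝ] W)
    {Φ : Z → ℝ → X} {Ψ : Z → ℝ → Y} (h : Js Φ) (h' : Js Ψ) :
    Js fun z t => B (Φ z t) (Ψ z t) :=
  (B.contDiff.comp h).clm_apply h'

lemma Js.dt_bilin {W : Type} [NormedAddCommGroup W] [NormedSpace ℝ W] (B : X →L[ℝ] Y →L[ℝ] W)
    {Φ : Z → ℝ → X} {Ψ : Z → ℝ → Y} (h : Js Φ) (h' : Js Ψ) :
    Expand.dt (fun z t => B (Φ z t) (Ψ z t)) =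
      (fun z t => B (Expand.dt Φ z t) (Ψ z t)) + fun z t => B (Φ z t) (Expand.dt Ψ z t) := by
  funext z t
  have h1 := (h.hasDerivAt_fast z t).differentiableAt.hasDerivAt
  have h2 := (h'.hasDerivAt_fast z t).differentiableAt.hasDerivAt
  refine (B.hasFDerivAt.comp_hasDerivAt t h1 |>.clm_apply h2).deriv.trans ?_
  simp [Expand.dt]

/-! ### Periodicity, mean, primitive -/

omit [NormedAddCommGroup Z] [NormedSpace ℝ Z] in
lemma Per.dt {Φ : Z → ℝ → X} (h : Per Φ) : Per (Expand.dt Φ) := fun z t => by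
  have : (fun s => Φ z (s + 1)) = Φ z := funext (h z)
  calc deriv (Φ z) (t + 1) = deriv (fun s => Φ z (s + 1)) t := (deriv_comp_add_const _ _ _).symm
    _ = deriv (Φ z) t := by rw [this]

lemma Per.dir {Φ : Z → ℝ → X} (h : Per Φ) (v : Z) : Per (Expand.dir v Φ) := fun z t => by
  have : (fun y => Φ y (t + 1)) = fun y => Φ y t := funext fun y => h y t
  simp only [Expand.dir, this]

omit [NormedAddCommGroup Z] [NormedSpace ℝ Z] in
lemma Per.dt_iter {Φ : Z → ℝ → X} (h : Per Φ) : ∀ i, Per (Expand.dt^[i] Φ)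
  | 0 => h
  | i + 1 => by rw [Function.iterate_succ_apply']; exact (Per.dt_iter h i).dt

omit [NormedAddCommGroup Z] [NormedSpace ℝ Z] [NormedAddCommGroup X] [NormedSpace ℝ X] in
lemma Per.periodic {Φ : Z → ℝ → X} (h : Per Φ) (z : Z) : Function.Periodic (Φ z) 1 := h z

/-- Integral over `[0, t]`. -/
noncomputable def int0 (Φ : Z → ℝ → X) : Z → ℝ → X := fun z t => ∫ s in (0 : ℝ)..t, Φ z s

/-- Mean over a period. -/
noncomputable def mean (Φ : Z → ℝ → X) : Z → X := fun z => ∫ s in (0 : ℝ)..1, Φ z s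

/-- The primitive with vanishing mean. -/
noncomputable def prim (Φ : Z → ℝ → X) : Z → ℝ → X := fun z t => int0 Φ z t - mean (int0 Φ) z

variable [CompleteSpace X]

omit [CompleteSpace X] in
/-- Differentiation under the integral over a fixed interval. -/
lemma hasFDerivAt_intInt [ProperSpace Z] {Φ : Z → ℝ → X} (h : Js Φ) (a b : ℝ) (z : Z) :
    HasFDerivAt (fun y => ∫ s in a..b, Φ y s)
      (∫ s in a..b, (joint Φ z s).comp (ContinuousLinearMap.inl ℝ Z ℝ)) z := by
  have hc : Continuous fun p : Z × ℝ =>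
      (joint Φ p.1 p.2).comp (ContinuousLinearMap.inl ℝ Z ℝ) :=
    (h.continuous_fderiv (by norm_num)).clm_comp continuous_const
  obtain ⟨C, hC⟩ := ((isCompact_closedBall z 1).prod (isCompact_uIcc (a := a) (b := b))).exists_bound_of_continuousOn
    hc.continuousOn
  exact intervalIntegral.hasFDerivAt_integral_of_dominated_of_fderiv_le (bound := fun _ => C)
    (F := fun y s => Φ y s)
    (F' := fun y s => (joint Φ y s).comp (ContinuousLinearMap.inl ℝ Z ℝ))
    (s := Metric.closedBall z 1)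
    (Metric.closedBall_mem_nhds z one_pos)
    (.of_forall fun y => (h.fast y).continuous.aestronglyMeasurable)
    ((h.fast z).continuous.intervalIntegrable a b)
    (hc.comp (continuous_const.prodMk continuous_id)).aestronglyMeasurable
    (.of_forall fun s hs y hy => hC (y, s) ⟨hy, Set.uIoc_subset_uIcc hs⟩)
    intervalIntegrable_const
    (.of_forall fun s _ y _ => h.hasFDerivAt_slow y s)

lemma contDiff_intInt [ProperSpace Z] (a b : ℝ) (n : ℕ) : ∀ {X : Type} [NormedAddCommGroup X]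
    [NormedSpace ℝ X] [CompleteSpace X] {Φ : Z → ℝ → X}, Js Φ →
    ContDiff ℝ n (fun y => ∫ s in a..b, Φ y s) ∧ ∀ z M, 0 ≤ M →
      (∀ s ∈ [[a, b]], ‖iteratedFDeriv ℝ n (fun y => Φ y s) z‖ ≤ M) →
      ‖iteratedFDeriv ℝ n (fun y => ∫ s in a..b, Φ y s) z‖ ≤ M * |b - a| := by
  induction n with
  | zero =>
    intro X _ _ _ Φ h
    refine ⟨contDiff_zero.2 (continuous_iff_continuousAt.2 fun z =>
      (hasFDerivAt_intInt h a b z).continuousAt), fun z M hM hb => ?_⟩
    rw [norm_iteratedFDeriv_zero]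
    refine intervalIntegral.norm_integral_le_of_norm_le_const fun s hs => ?_
    simpa using hb s (Set.uIoc_subset_uIcc hs)
  | succ n ih =>
    intro X _ _ _ Φ h
    have e : fderiv ℝ (fun y => ∫ s in a..b, Φ y s) =
        fun y => ∫ s in a..b, (joint Φ y s).comp (ContinuousLinearMap.inl ℝ Z ℝ) :=
      funext fun y => (hasFDerivAt_intInt h a b y).fderiv
    have h' : Js fun y s => (joint Φ y s).comp (ContinuousLinearMap.inl ℝ Z ℝ) :=
      (h.fderiv_right (m := ∞) (by exact_mod_cast le_top)).clm_comp contDiff_const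
    have e' : ∀ s, fderiv ℝ (fun y => Φ y s) =
        fun y => (joint Φ y s).comp (ContinuousLinearMap.inl ℝ Z ℝ) :=
      fun s => funext fun y => (h.hasFDerivAt_slow y s).fderiv
    refine ⟨?_, fun z M hM hb => ?_⟩
    · rw [Nat.cast_succ, contDiff_succ_iff_fderiv]
      exact ⟨fun y => (hasFDerivAt_intInt h a b y).differentiableAt, by simp,
        e ▸ (ih h').1⟩
    · rw [← norm_iteratedFDeriv_fderiv, e]
      refine (ih h').2 z M hM fun s hs => ?_
      rw [← e', norm_iteratedFDeriv_fderiv]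
      exact hb s hs

lemma int0_js [ProperSpace Z] {Φ : Z → ℝ → X} (h : Js Φ) : Js (int0 Φ) := by
  have e : (fun p : Z × ℝ => int0 Φ p.1 p.2) =
      fun p => ∫ u in (0 : ℝ)..1, p.2 • Φ p.1 (u * p.2) := by
    funext p
    rw [intervalIntegral.integral_smul, intervalIntegral.smul_integral_comp_mul_right]
    simp [int0]
  have hj : Js fun (p : Z × ℝ) (u : ℝ) => p.2 • Φ p.1 (u * p.2) := by
    exact (contDiff_snd.comp contDiff_fst).smul (ContDiff.comp (g := fun q : Z × ℝ => Φ q.1 q.2)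
      (f := fun q : (Z × ℝ) × ℝ => (q.1.1, q.2 * q.1.2)) h
      ((contDiff_fst.comp contDiff_fst).prodMk (contDiff_snd.mul (contDiff_snd.comp contDiff_fst))))
  rw [Js, e]
  exact contDiff_infty.2 fun n => (contDiff_intInt 0 1 n hj).1

lemma mean_smooth [ProperSpace Z] {Φ : Z → ℝ → X} (h : Js Φ) : ContDiff ℝ ∞ (mean Φ) :=
  contDiff_infty.2 fun n => (contDiff_intInt 0 1 n h).1

lemma Js.prim [ProperSpace Z] {Φ : Z → ℝ → X} (h : Js Φ) : Js (Expand.prim Φ) :=
  (int0_js h).sub ((mean_smooth (int0_js h)).comp contDiff_fst)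

lemma dt_int0 {Φ : Z → ℝ → X} (h : Js Φ) : dt (int0 Φ) = Φ := by
  funext z t
  exact ((h.fast z).continuous.integral_hasStrictDerivAt 0 t).hasDerivAt.deriv

lemma dt_prim {Φ : Z → ℝ → X} (h : Js Φ) : dt (prim Φ) = Φ := by
  funext z t
  exact (((h.fast z).continuous.integral_hasStrictDerivAt 0 t).hasDerivAt.sub_const _).deriv

omit [CompleteSpace X] in
lemma Per.prim {Φ : Z → ℝ → X} (h : Per Φ) (hj : Js Φ) (h0 : ∀ z, mean Φ z = 0) :
    Per (Expand.prim Φ) := fun z t => by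
  have hi := fun a b : ℝ => (hj.fast z).continuous.intervalIntegrable (μ := volume) a b
  have e : ∫ s in t..(t + 1), Φ z s = 0 := by
    rw [(h.periodic z).intervalIntegral_add_eq t 0, zero_add]; exact h0 z
  simp only [Expand.prim, int0]
  rw [← intervalIntegral.integral_add_adjacent_intervals (hi 0 t) (hi t (t + 1)), e, add_zero]

lemma mean_prim [ProperSpace Z] {Φ : Z → ℝ → X} (h : Js Φ) (z : Z) :
    mean (prim Φ) z = 0 := by
  simp only [mean, prim]
  rw [intervalIntegral.integral_sub (((int0_js h).fast z).continuous.intervalIntegrable 0 1)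
    intervalIntegrable_const]
  simp

lemma mean_dt {Φ : Z → ℝ → X} (h : Js Φ) (hp : Per Φ) (z : Z) : mean (dt Φ) z = 0 := by
  show ∫ s in (0 : ℝ)..1, deriv (Φ z) s = 0
  rw [intervalIntegral.integral_deriv_eq_sub (fun t _ => (h.hasDerivAt_fast z t).differentiableAt)
    ((h.dt.fast z).continuous.intervalIntegrable 0 1)]
  rw [show Φ z 1 = Φ z 0 by simpa using hp z 0, sub_self]

lemma norm_mean_le [ProperSpace Z] {Φ : Z → ℝ → X} (h : Js Φ) (a : ℕ) {z : Z} {M : ℝ}
    (hM : 0 ≤ M) (hb : ∀ t, ‖iteratedFDeriv ℝ a (fun y => Φ y t) z‖ ≤ M) :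
    ‖iteratedFDeriv ℝ a (mean Φ) z‖ ≤ M := by
  have := (contDiff_intInt 0 1 a h).2 z M hM fun s _ => hb s
  rw [sub_zero, abs_one, mul_one] at this
  exact this

lemma norm_int0_le [ProperSpace Z] {Φ : Z → ℝ → X} (h : Js Φ) (a : ℕ) {z : Z} {M : ℝ}
    (hM : 0 ≤ M) (hb : ∀ t, ‖iteratedFDeriv ℝ a (fun y => Φ y t) z‖ ≤ M) (t : ℝ) :
    ‖iteratedFDeriv ℝ a (fun y => int0 Φ y t) z‖ ≤ M * |t| := by
  simpa [int0] using (contDiff_intInt 0 t a h).2 z M hM fun s _ => hb s

lemma norm_prim_le [ProperSpace Z] {Φ : Z → ℝ → X} (h : Js Φ) (hp : Per Φ)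
    (h0 : ∀ z, mean Φ z = 0) (a : ℕ) {z : Z} {M : ℝ} (hM : 0 ≤ M)
    (hb : ∀ t, ‖iteratedFDeriv ℝ a (fun y => Φ y t) z‖ ≤ M) (t : ℝ) :
    ‖iteratedFDeriv ℝ a (fun y => prim Φ y t) z‖ ≤ 2 * M := by
  have hper : (fun y => prim Φ y t) = fun y => prim Φ y (Int.fract t) := by
    funext y
    exact ((hp.prim h h0).periodic y).sub_int_mul_eq ⌊t⌋ |>.symm.trans (by rw [mul_one]; rfl)
  rw [hper]
  set s := Int.fract t
  have hs : |s| ≤ 1 := by
    rw [abs_of_nonneg (Int.fract_nonneg t)]; exact (Int.fract_lt_one t).le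
  have hI := int0_js h
  have h1 : ContDiffAt ℝ a (fun y => int0 Φ y s) z :=
    ((hI.slow s).of_le (by exact_mod_cast le_top)).contDiffAt
  have h2 : ContDiffAt ℝ a (mean (int0 Φ)) z :=
    ((mean_smooth hI).of_le (by exact_mod_cast le_top)).contDiffAt
  simp only [prim]
  rw [fun_iteratedFDeriv_sub_apply h1 h2]
  refine (norm_sub_le _ _).trans ?_
  have e1 := (norm_int0_le h a hM hb s).trans (mul_le_of_le_one_right hM hs)
  have e2 : ‖iteratedFDeriv ℝ a (mean (int0 Φ)) z‖ ≤ M := by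
    have := (contDiff_intInt 0 1 a hI).2 z M hM fun r hr => by
      refine (norm_int0_le h a hM hb r).trans (mul_le_of_le_one_right hM ?_)
      rw [Set.uIcc_of_le zero_le_one] at hr
      rw [abs_of_nonneg hr.1]; exact hr.2
    rw [sub_zero, abs_one, mul_one] at this
    exact this
  linarith

/-! ### Linearity, and commutation with the slow derivatives -/

omit [CompleteSpace X] in
lemma Js.dir_add {Φ Ψ : Z → ℝ → X} (h : Js Φ) (h' : Js Ψ) (v : Z) :
    Expand.dir v (Φ + Ψ) = Expand.dir v Φ + Expand.dir v Ψ := by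
  funext z t
  simp only [Expand.dir, Pi.add_apply]
  rw [fderiv_fun_add ((h.slow t).differentiable (by norm_num) z)
    ((h'.slow t).differentiable (by norm_num) z)]
  rfl

omit [CompleteSpace X] in
lemma Js.dir_clm {Φ : Z → ℝ → X} (h : Js Φ) (L : X →L[ℝ] Y) (v : Z) :
    Expand.dir v (fun z t => L (Φ z t)) = fun z t => L (Expand.dir v Φ z t) := by
  funext z t
  show fderiv ℝ (L ∘ fun y => Φ y t) z v = _
  rw [fderiv_comp z L.differentiableAt ((h.slow t).differentiable (by norm_num) z), L.fderiv]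
  rfl

omit [CompleteSpace X] in
lemma Js.dir_bilin {W : Type} [NormedAddCommGroup W] [NormedSpace ℝ W] (B : X →L[ℝ] Y →L[ℝ] W)
    {Φ : Z → ℝ → X} {Ψ : Z → ℝ → Y} (h : Js Φ) (h' : Js Ψ) (v : Z) :
    Expand.dir v (fun z t => B (Φ z t) (Ψ z t)) =
      (fun z t => B (Expand.dir v Φ z t) (Ψ z t)) + fun z t => B (Φ z t) (Expand.dir v Ψ z t) := by
  funext z t
  have h1 := ((h.slow t).differentiable (by norm_num) z).hasFDerivAt
  have h2 := ((h'.slow t).differentiable (by norm_num) z).hasFDerivAt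
  simp only [Expand.dir, Pi.add_apply]
  have := (B.hasFDerivAt.comp z h1).clm_apply h2
  simp only [Function.comp_def] at this
  rw [this.fderiv]
  simp [add_comm]

omit [CompleteSpace X] in
lemma Js.dir_dir {Φ : Z → ℝ → X} (h : Js Φ) (v w : Z) :
    Expand.dir v (Expand.dir w Φ) = Expand.dir w (Expand.dir v Φ) := by
  funext z t
  have hs := h.slow t
  have h2 : ContDiffAt ℝ 2 (fun y => Φ y t) z := (hs.of_le (by norm_cast)).contDiffAt
  have hd := (hs.fderiv_right (m := ∞) (by exact_mod_cast le_top)).differentiable (by norm_num) z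
  simp only [Expand.dir]
  rw [fderiv_clm_apply hd (differentiableAt_const _), fderiv_clm_apply hd (differentiableAt_const _)]
  simpa using (h2.isSymmSndFDerivAt (by simp)).eq v w

omit [CompleteSpace X] in
lemma mean_add {Φ Ψ : Z → ℝ → X} (h : Js Φ) (h' : Js Ψ) : mean (Φ + Ψ) = mean Φ + mean Ψ := by
  funext z
  exact intervalIntegral.integral_add ((h.fast z).continuous.intervalIntegrable 0 1)
    ((h'.fast z).continuous.intervalIntegrable 0 1)

lemma mean_clm [CompleteSpace Y] {Φ : Z → ℝ → X} (h : Js Φ) (L : X →L[ℝ] Y) (z : Z) :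
    mean (fun z t => L (Φ z t)) z = L (mean Φ z) :=
  L.intervalIntegral_comp_comm ((h.fast z).continuous.intervalIntegrable 0 1)

omit [NormedAddCommGroup Z] [NormedSpace ℝ Z] in
lemma mean_slow (g : Z → X) (z : Z) : mean (fun z (_ : ℝ) => g z) z = g z := by
  simp [mean]

omit [CompleteSpace X] in
lemma int0_add {Φ Ψ : Z → ℝ → X} (h : Js Φ) (h' : Js Ψ) : int0 (Φ + Ψ) = int0 Φ + int0 Ψ := by
  funext z t
  exact intervalIntegral.integral_add ((h.fast z).continuous.intervalIntegrable 0 t)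
    ((h'.fast z).continuous.intervalIntegrable 0 t)

lemma prim_add [ProperSpace Z] {Φ Ψ : Z → ℝ → X} (h : Js Φ) (h' : Js Ψ) :
    prim (Φ + Ψ) = prim Φ + prim Ψ := by
  funext z t
  simp only [prim, Pi.add_apply, int0_add h h', mean_add (int0_js h) (int0_js h')]
  abel

lemma prim_dt [ProperSpace Z] {Φ : Z → ℝ → X} (h : Js Φ) (z : Z) (t : ℝ) :
    prim (dt Φ) z t = Φ z t - mean Φ z := by
  have e : ∀ s, int0 (dt Φ) z s = Φ z s - Φ z 0 := fun s =>
    intervalIntegral.integral_deriv_eq_sub (fun u _ => (h.hasDerivAt_fast z u).differentiableAt)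
      ((h.dt.fast z).continuous.intervalIntegrable 0 s)
  simp only [prim, mean, e]
  rw [intervalIntegral.integral_sub ((h.fast z).continuous.intervalIntegrable 0 1)
    intervalIntegrable_const]
  simp

omit [CompleteSpace X] in
lemma dir_intInt [ProperSpace Z] {Φ : Z → ℝ → X} [CompleteSpace X] (h : Js Φ) (a b : ℝ) (v z : Z) :
    fderiv ℝ (fun y => ∫ s in a..b, Φ y s) z v = ∫ s in a..b, Expand.dir v Φ z s := by
  have hc : Continuous fun s => (joint Φ z s).comp (ContinuousLinearMap.inl ℝ Z ℝ) := by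
    have hj : Continuous fun p : Z × ℝ => joint Φ p.1 p.2 := h.continuous_fderiv (by norm_num)
    exact (hj.comp (continuous_const.prodMk continuous_id)).clm_comp continuous_const
  rw [(hasFDerivAt_intInt h a b z).fderiv,
    ContinuousLinearMap.intervalIntegral_apply (hc.intervalIntegrable a b), h.dir_eq]
  simp

lemma dir_mean [ProperSpace Z] {Φ : Z → ℝ → X} (h : Js Φ) (v z : Z) :
    fderiv ℝ (mean Φ) z v = mean (Expand.dir v Φ) z :=
  dir_intInt h 0 1 v z

lemma dir_prim [ProperSpace Z] {Φ : Z → ℝ → X} (h : Js Φ) (v : Z) :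
    Expand.dir v (prim Φ) = prim (Expand.dir v Φ) := by
  funext z t
  have hI := int0_js h
  have e : Expand.dir v (int0 Φ) = int0 (Expand.dir v Φ) := by
    funext y s; exact dir_intInt h 0 s v y
  show fderiv ℝ (fun y => int0 Φ y t - mean (int0 Φ) y) z v = _
  rw [fderiv_fun_sub ((hI.slow t).differentiable (by norm_num) z)
    ((mean_smooth hI).differentiable (by norm_num) z)]
  show Expand.dir v (int0 Φ) z t - fderiv ℝ (mean (int0 Φ)) z v = _
  rw [dir_mean hI, e]
  rfl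

/-! ### Pullback along a linear map of the slow variable -/

variable {Z' : Type} [NormedAddCommGroup Z'] [NormedSpace ℝ Z']

omit [CompleteSpace X] in
lemma Js.pull {Φ : Z → ℝ → X} (h : Js Φ) (L : Z' →L[ℝ] Z) : Js fun z t => Φ (L z) t :=
  ContDiff.comp (g := fun p : Z × ℝ => Φ p.1 p.2) (f := fun p : Z' × ℝ => (L p.1, p.2)) h
    ((L.contDiff.comp contDiff_fst).prodMk contDiff_snd)

omit [CompleteSpace X] in
lemma dt_iter_pull (Φ : Z → ℝ → X) (L : Z' →L[ℝ] Z) : ∀ i,
    dt^[i] (fun z t => Φ (L z) t) = fun z t => dt^[i] Φ (L z) t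
  | 0 => rfl
  | i + 1 => by rw [Function.iterate_succ_apply', dt_iter_pull Φ L i, Function.iterate_succ_apply']; rfl

end Vale.Agent.P205F.Expand
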