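import Vale.Agent.P205F.Defs
import Vale.Agent.P205F.Expand.Per

/-!
# P205, expansions: weighted classes of periodic families indexed by the frequencies

`Cls wt N Φ`: for every `a` and every `i ≤ N`, the `a`-th slow derivative of the `i`-th fast
derivative of `Φ M` is `O(wt M i)` for parameters in the box, uniformly in the point and in `M`.
-/

namespace Vale.Agent.P205F.Expand

open scoped ContDiff

/-- Parameters and points. -/
abbrev Zv (d : ℕ) : Type := (Fin d → ℝ) × E2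

variable {d : ℕ} {X Y W : Type} [NormedAddCommGroup X] [NormedSpace ℝ X]
  [NormedAddCommGroup Y] [NormedSpace ℝ Y] [NormedAddCommGroup W] [NormedSpace ℝ W]

/-- An index: the frequency `M` and the auxiliary frequency `L₀` of the slow parameters. -/
structure Ix where
  /-- main frequency -/
  M : ℕ
  /-- frequency of the slow parameters -/
  L0 : ℕ
  M_ne : M ≠ 0

/-- Admissible indices. -/
def Adm (p : Ix) : Prop := 2 ≤ p.M ∧ 1 ≤ p.L0 ∧ p.L0 ≤ p.M

/-- A family indexed by the frequencies. -/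
abbrev Fm (d : ℕ) (X : Type) : Type := Ix → Zv d → ℝ → X

/-- The parameter box times the plane. -/
def dom (d : ℕ) : Set (Zv d) := {z | ∀ i, |z.1 i| ≤ 1}

/-- The weighted class. -/
structure Cls (wt : Ix → ℕ → ℝ) (N : ℕ∞) (Φ : Fm d X) : Prop where
  js : ∀ M, Js (Φ M)
  per : ∀ M, Per (Φ M)
  bd : ∀ (a i : ℕ), (i : ℕ∞) ≤ N → ∃ C, 0 ≤ C ∧ ∀ M, Adm M → ∀ z ∈ dom d, ∀ t,
    ‖iteratedFDeriv ℝ a (fun y => dt^[i] (Φ M) y t) z‖ ≤ C * wt M i

variable {wt w₁ w₂ w₃ : Ix → ℕ → ℝ} {N : ℕ∞} {Φ Φ' : Fm d X}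

lemma Cls.mono (h : Cls wt N Φ) {N' : ℕ∞} (hN : N' ≤ N)
    (hwt : ∀ i : ℕ, (i : ℕ∞) ≤ N' → ∃ c, 0 ≤ c ∧ ∀ M, Adm M → wt M i ≤ c * w₂ M i) :
    Cls w₂ N' Φ := by
  refine ⟨h.js, h.per, fun a i hi => ?_⟩
  obtain ⟨C, hC, hb⟩ := h.bd a i (hi.trans hN)
  obtain ⟨c, hc, hc'⟩ := hwt i hi
  refine ⟨C * c, by positivity, fun M hM z hz t => (hb M hM z hz t).trans ?_⟩
  rw [mul_assoc]
  exact mul_le_mul_of_nonneg_left (hc' M hM) hC

lemma Cls.mono_le (h : Cls wt N Φ) (hwt : ∀ (M : Ix) (i : ℕ), Adm M → wt M i ≤ w₂ M i) : Cls w₂ N Φ :=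
  h.mono le_rfl fun i _ => ⟨1, zero_le_one, fun M hM => by simpa using hwt M i hM⟩

lemma Js.contDiffAt_dt {Φ : Zv d → ℝ → X} (h : Js Φ) (a i : ℕ) (t : ℝ) (z : Zv d) :
    ContDiffAt ℝ a (fun y => dt^[i] Φ y t) z :=
  (((h.dt_iter i).slow t).of_le (by exact_mod_cast le_top)).contDiffAt

lemma Cls.add (h : Cls wt N Φ) (h' : Cls wt N Φ') : Cls wt N (Φ + Φ') := by
  refine ⟨fun M => (h.js M).add (h'.js M), fun M z t => ?_, fun a i hi => ?_⟩
  · simp [h.per M z t, h'.per M z t]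
  obtain ⟨C, hC, hb⟩ := h.bd a i hi
  obtain ⟨C', hC', hb'⟩ := h'.bd a i hi
  refine ⟨C + C', by positivity, fun M hM z hz t => ?_⟩
  rw [Pi.add_apply, (h.js M).dt_iter_add i (h'.js M)]
  simp only [Pi.add_apply]
  rw [fun_iteratedFDeriv_add_apply ((h.js M).contDiffAt_dt a i t z) ((h'.js M).contDiffAt_dt a i t z),
    add_mul]
  exact (norm_add_le _ _).trans (add_le_add (hb M hM z hz t) (hb' M hM z hz t))

lemma Cls.clm (h : Cls wt N Φ) (L : X →L[ℝ] Y) : Cls wt N fun M z t => L (Φ M z t) := by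
  refine ⟨fun M => (h.js M).clm L, fun M z t => by simp only [h.per M z t], fun a i hi => ?_⟩
  obtain ⟨C, hC, hb⟩ := h.bd a i hi
  refine ⟨‖L‖ * C, mul_nonneg L.opNorm_nonneg hC, fun M hM z hz t => ?_⟩
  rw [(h.js M).dt_iter_clm i L]
  refine (L.norm_iteratedFDeriv_comp_left ((h.js M).contDiffAt_dt a i t z) le_rfl).trans ?_
  rw [mul_assoc]
  exact mul_le_mul_of_nonneg_left (hb M hM z hz t) L.opNorm_nonneg

lemma Cls.neg (h : Cls wt N Φ) : Cls wt N (-Φ) := by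
  have := h.clm (-ContinuousLinearMap.id ℝ X)
  exact this

lemma Cls.sub (h : Cls wt N Φ) (h' : Cls wt N Φ') : Cls wt N (Φ - Φ') := by
  simpa only [sub_eq_add_neg] using h.add h'.neg

omit [NormedAddCommGroup W] in
lemma zero_dt_iter {X : Type} [NormedAddCommGroup X] [NormedSpace ℝ X] (i : ℕ) :
    dt^[i] (0 : Zv d → ℝ → X) = 0 := by
  induction i with
  | zero => rfl
  | succ i ih =>
    rw [Function.iterate_succ_apply', ih]
    funext z t
    exact deriv_const t (0 : X)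

lemma Cls.zero : Cls wt N (0 : Fm d X) := by
  refine ⟨fun M => contDiff_const, fun M z t => rfl, fun a i _ => ⟨0, le_rfl, fun M _ z _ t => ?_⟩⟩
  simp [zero_dt_iter]

/-- Bound for the derivatives of a product at one point. -/
lemma bilin_bound (B : X →L[ℝ] Y →L[ℝ] W) : ∀ (i : ℕ) (a : ℕ) {Φ : Zv d → ℝ → X}
    {Ψ : Zv d → ℝ → Y}, Js Φ → Js Ψ → ∀ (z : Zv d) (t : ℝ) (u : ℕ → ℝ) (v : ℕ → ℝ) (q : ℝ),
    (∀ b ≤ a, ∀ j ≤ i, ‖iteratedFDeriv ℝ b (fun y => dt^[j] Φ y t) z‖ ≤ u j) →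
    (∀ b ≤ a, ∀ j ≤ i, ‖iteratedFDeriv ℝ b (fun y => dt^[j] Ψ y t) z‖ ≤ v j) →
    (∀ j k, j + k = i → u j * v k ≤ q) →
    ‖iteratedFDeriv ℝ a (fun y => dt^[i] (fun z t => B (Φ z t) (Ψ z t)) y t) z‖ ≤
      ‖B‖ * 2 ^ a * 2 ^ i * q := by
  intro i
  induction i with
  | zero =>
    intro a Φ Ψ hΦ hΨ z t u v q hu hv hq
    simp only [Function.iterate_zero, id_eq, pow_zero, mul_one]
    refine (B.norm_iteratedFDeriv_le_of_bilinear (hΦ.slow t) (hΨ.slow t) z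
      (by exact_mod_cast le_top)).trans ?_
    rw [mul_assoc]
    refine mul_le_mul_of_nonneg_left ?_ B.opNorm_nonneg
    calc ∑ b ∈ Finset.range (a + 1), (a.choose b : ℝ) * ‖iteratedFDeriv ℝ b (fun y => Φ y t) z‖ *
          ‖iteratedFDeriv ℝ (a - b) (fun y => Ψ y t) z‖
        ≤ ∑ b ∈ Finset.range (a + 1), (a.choose b : ℝ) * q := by
          refine Finset.sum_le_sum fun b hb => ?_
          have hb' : b ≤ a := Nat.lt_succ_iff.1 (Finset.mem_range.1 hb)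
          rw [mul_assoc]
          refine mul_le_mul_of_nonneg_left (le_trans ?_ (hq 0 0 rfl)) (Nat.cast_nonneg _)
          exact mul_le_mul (hu b hb' 0 le_rfl) (hv (a - b) (a.sub_le b) 0 le_rfl) (norm_nonneg _)
            ((norm_nonneg _).trans (hu b hb' 0 le_rfl))
      _ = 2 ^ a * q := by
          rw [← Finset.sum_mul]
          congr 1
          exact_mod_cast Nat.sum_range_choose a
  | succ i ih =>
    intro a Φ Ψ hΦ hΨ z t u v q hu hv hq
    rw [Function.iterate_succ_apply, Js.dt_bilin B hΦ hΨ, Js.dt_iter_add i (hΦ.dt.bilin B hΨ)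
      (hΦ.bilin B hΨ.dt)]
    simp only [Pi.add_apply]
    rw [fun_iteratedFDeriv_add_apply ((hΦ.dt.bilin B hΨ).contDiffAt_dt a i t z)
      ((hΦ.bilin B hΨ.dt).contDiffAt_dt a i t z)]
    refine (norm_add_le _ _).trans ?_
    have e1 := ih a hΦ.dt hΨ z t (fun j => u (j + 1)) v q
      (fun b hb j hj => by rw [← Function.iterate_succ_apply]; exact hu b hb (j + 1) (by omega))
      (fun b hb j hj => hv b hb j (by omega)) (fun j k h => hq (j + 1) k (by omega))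
    have e2 := ih a hΦ hΨ.dt z t u (fun j => v (j + 1)) q (fun b hb j hj => hu b hb j (by omega))
      (fun b hb j hj => by rw [← Function.iterate_succ_apply]; exact hv b hb (j + 1) (by omega))
      (fun j k h => hq j (k + 1) (by omega))
    calc _ ≤ ‖B‖ * 2 ^ a * 2 ^ i * q + ‖B‖ * 2 ^ a * 2 ^ i * q := add_le_add e1 e2
      _ = _ := by ring

lemma Cls.uniform (h : Cls wt N Φ) (hwt : ∀ M i, 0 ≤ wt M i) (a i : ℕ) (hi : (i : ℕ∞) ≤ N) :
    ∃ C, 0 ≤ C ∧ ∀ M, Adm M → ∀ z ∈ dom d, ∀ t, ∀ b ≤ a, ∀ j ≤ i,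
      ‖iteratedFDeriv ℝ b (fun y => dt^[j] (Φ M) y t) z‖ ≤ C * wt M j := by
  have hj : ∀ b j, j ≤ i → ∃ C, 0 ≤ C ∧ ∀ M, Adm M → ∀ z ∈ dom d, ∀ t,
      ‖iteratedFDeriv ℝ b (fun y => dt^[j] (Φ M) y t) z‖ ≤ C * wt M j := fun b j hji =>
    h.bd b j ((WithTop.coe_le_coe.2 hji).trans hi)
  choose C hC0 hC using hj
  refine ⟨∑ b ∈ Finset.range (a + 1), ∑ j : Fin (i + 1), C b j (Nat.lt_succ_iff.1 j.2),
    Finset.sum_nonneg fun b _ => Finset.sum_nonneg fun j _ => hC0 _ _ _,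
    fun M hM z hz t b hb j hj => (hC b j hj M hM z hz t).trans
      (mul_le_mul_of_nonneg_right ?_ (hwt M j))⟩
  refine le_trans ?_ (Finset.single_le_sum (f := fun b => ∑ j : Fin (i + 1), C b j
    (Nat.lt_succ_iff.1 j.2)) (fun b _ => Finset.sum_nonneg fun j _ => hC0 _ _ _)
    (Finset.mem_range.2 (show b < a + 1 by omega)))
  exact Finset.single_le_sum (f := fun j : Fin (i + 1) => C b j (Nat.lt_succ_iff.1 j.2))
    (fun j _ => hC0 _ _ _) (Finset.mem_univ (⟨j, Nat.lt_succ_iff.2 hj⟩ : Fin (i + 1)))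

/-- Products. -/
theorem Cls.bilin {Ψ : Fm d Y} (B : X →L[ℝ] Y →L[ℝ] W) {N₁ N₂ : ℕ∞} (h : Cls w₁ N₁ Φ)
    (h' : Cls w₂ N₂ Ψ) (h1 : ∀ M i, 0 ≤ w₁ M i) (h2 : ∀ M i, 0 ≤ w₂ M i)
    (hN₁ : N ≤ N₁) (hN₂ : N ≤ N₂)
    (hw : ∀ (M : Ix) (j k : ℕ), Adm M → ((j + k : ℕ) : ℕ∞) ≤ N → w₁ M j * w₂ M k ≤ w₃ M (j + k)) :
    Cls w₃ N fun M z t => B (Φ M z t) (Ψ M z t) := by
  refine ⟨fun M => (h.js M).bilin B (h'.js M), fun M z t => by simp only [h.per M z t, h'.per M z t],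
    fun a i hi => ?_⟩
  obtain ⟨C, hC, hb⟩ := h.uniform h1 a i (hi.trans hN₁)
  obtain ⟨C', hC', hb'⟩ := h'.uniform h2 a i (hi.trans hN₂)
  refine ⟨‖B‖ * 2 ^ a * 2 ^ i * (C * C'), ?_, fun M hM z hz t => ?_⟩
  · have := B.opNorm_nonneg; positivity
  rw [mul_assoc _ (C * C')]
  refine bilin_bound B i a (h.js M) (h'.js M) z t (fun j => C * w₁ M j) (fun j => C' * w₂ M j) _
    (hb M hM z hz t) (hb' M hM z hz t) fun j k hjk => ?_
  rw [mul_mul_mul_comm]
  subst hjk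
  exact mul_le_mul_of_nonneg_left (hw M j k hM hi) (by positivity)

/-- Slow derivatives. -/
theorem Cls.dir (h : Cls wt N Φ) (v : Zv d) : Cls wt N fun M => Expand.dir v (Φ M) := by
  refine ⟨fun M => (h.js M).dir v, fun M => (h.per M).dir v, fun a i hi => ?_⟩
  obtain ⟨C, hC, hb⟩ := h.bd (a + 1) i hi
  refine ⟨‖v‖ * C, by positivity, fun M hM z hz t => ?_⟩
  rw [(h.js M).dt_iter_dir v i]
  have hs := ((h.js M).dt_iter i).slow t
  have e : (fun y => Expand.dir v (dt^[i] (Φ M)) y t) =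
      (ContinuousLinearMap.apply ℝ X v) ∘ fderiv ℝ (fun y => dt^[i] (Φ M) y t) := rfl
  rw [e]
  refine ((ContinuousLinearMap.apply ℝ X v).norm_iteratedFDeriv_comp_left
    ((hs.fderiv_right (m := ∞) (by exact_mod_cast le_top)).contDiffAt)
    (by exact_mod_cast le_top)).trans ?_
  rw [norm_iteratedFDeriv_fderiv, mul_assoc]
  refine mul_le_mul ?_ (hb M hM z hz t) (norm_nonneg _) (norm_nonneg v)
  refine ContinuousLinearMap.opNorm_le_bound _ (norm_nonneg v) fun L => ?_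
  rw [ContinuousLinearMap.apply_apply, mul_comm]
  exact L.le_opNorm v

/-- Fast derivatives. -/
theorem Cls.deriv {N' : ℕ∞} (h : Cls wt N Φ)
    (hN : ∀ i : ℕ, (i : ℕ∞) ≤ N' → ((i + 1 : ℕ) : ℕ∞) ≤ N)
    (hwt : ∀ i : ℕ, (i : ℕ∞) ≤ N' → ∃ c, 0 ≤ c ∧ ∀ M, Adm M → wt M (i + 1) ≤ c * w₂ M i) :
    Cls w₂ N' fun M => dt (Φ M) := by
  refine ⟨fun M => (h.js M).dt, fun M => (h.per M).dt, fun a i hi => ?_⟩
  obtain ⟨C, hC, hb⟩ := h.bd a (i + 1) (hN i hi)
  obtain ⟨c, hc, hc'⟩ := hwt i hi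
  refine ⟨C * c, by positivity, fun M hM z hz t => ?_⟩
  rw [← Function.iterate_succ_apply, mul_assoc]
  exact (hb M hM z hz t).trans (mul_le_mul_of_nonneg_left (hc' M hM) hC)

variable [CompleteSpace X]

/-- Means. -/
theorem Cls.mean (h : Cls wt N Φ) (h0 : ∀ M, 0 ≤ wt M 0)
    (hwt : ∀ M, Adm M → wt M 0 ≤ w₂ M 0) :
    Cls w₂ ⊤ fun M z _ => Expand.mean (Φ M) z := by
  refine ⟨fun M => (mean_smooth (h.js M)).comp contDiff_fst, fun M z t => rfl, fun a i _ => ?_⟩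
  cases i with
  | zero =>
    obtain ⟨C, hC, hb⟩ := h.bd a 0 bot_le
    refine ⟨C, hC, fun M hM z hz t => ?_⟩
    exact (norm_mean_le (h.js M) a (mul_nonneg hC (h0 M)) (hb M hM z hz)).trans
      (mul_le_mul_of_nonneg_left (hwt M hM) hC)
  | succ i =>
    refine ⟨0, le_rfl, fun M hM z hz t => ?_⟩
    have e : dt (fun z (_ : ℝ) => Expand.mean (Φ M) z) = 0 := by
      funext z t; exact deriv_const t _
    rw [Function.iterate_succ_apply, e, zero_dt_iter, zero_mul]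
    simp

/-- Primitives of families with vanishing mean. -/
theorem Cls.prim (h : Cls wt N Φ) (hm : ∀ M z, Expand.mean (Φ M) z = 0) (h0 : ∀ M i, 0 ≤ wt M i)
    {N' : ℕ∞} (hN : ∀ i : ℕ, ((i + 1 : ℕ) : ℕ∞) ≤ N' → (i : ℕ∞) ≤ N)
    (hw0 : ∀ M, Adm M → wt M 0 ≤ w₂ M 0)
    (hwt : ∀ i : ℕ, ((i + 1 : ℕ) : ℕ∞) ≤ N' → ∃ c, 0 ≤ c ∧ ∀ M, Adm M → wt M i ≤ c * w₂ M (i + 1)) :
    Cls w₂ N' fun M => Expand.prim (Φ M) := by
  refine ⟨fun M => (h.js M).prim, fun M => (h.per M).prim (h.js M) (hm M), fun a i hi => ?_⟩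
  cases i with
  | zero =>
    obtain ⟨C, hC, hb⟩ := h.bd a 0 bot_le
    refine ⟨2 * C, by positivity, fun M hM z hz t => ?_⟩
    refine (norm_prim_le (h.js M) (h.per M) (hm M) a (mul_nonneg hC (h0 M 0)) (hb M hM z hz) t).trans ?_
    rw [← mul_assoc]
    exact mul_le_mul_of_nonneg_left (hw0 M hM) (by positivity)
  | succ i =>
    obtain ⟨C, hC, hb⟩ := h.bd a i (hN i hi)
    obtain ⟨c, hc, hc'⟩ := hwt i hi
    refine ⟨C * c, by positivity, fun M hM z hz t => ?_⟩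
    rw [Function.iterate_succ_apply, dt_prim (h.js M), mul_assoc]
    exact (hb M hM z hz t).trans (mul_le_mul_of_nonneg_left (hc' M hM) hC)

omit [CompleteSpace X] in
/-- Coefficients: fixed smooth periodic functions with compact support in the point. -/
theorem Cls.coef {h : E2 → ℝ → X} (hs : Js h) (hp : Per h) {K : Set E2} (hK : IsCompact K)
    (h0 : ∀ x ∉ K, ∀ t, h x t = 0) :
    Cls (fun _ _ => 1) ⊤ fun (_ : Ix) (z : Zv d) t => h z.2 t := by
  have hj : Js fun (z : Zv d) t => h z.2 t :=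
    ContDiff.comp (g := fun p : E2 × ℝ => h p.1 p.2) (f := fun p : Zv d × ℝ => (p.1.2, p.2)) hs
      ((contDiff_snd.comp contDiff_fst).prodMk contDiff_snd)
  refine ⟨fun _ => hj, fun _ z t => hp z.2 t, fun a i _ => ?_⟩
  have hsi := hs.dt_iter i
  have hpi := hp.dt_iter i
  have e : ∀ i, dt^[i] (fun (z : Zv d) t => h z.2 t) = fun z t => dt^[i] h z.2 t := by
    intro i
    induction i with
    | zero => rfl
    | succ i ih => rw [Function.iterate_succ_apply', ih, Function.iterate_succ_apply']; rfl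
  have h0i : ∀ i, ∀ x ∉ K, ∀ t, dt^[i] h x t = 0 := by
    intro i
    induction i with
    | zero => exact h0
    | succ i ih =>
      intro x hx t
      rw [Function.iterate_succ_apply']
      simp only [dt, show dt^[i] h x = fun _ => (0 : X) from funext (ih x hx), deriv_const]
  let G : E2 × ℝ → ℝ := fun q => ‖iteratedFDeriv ℝ a (fun y => dt^[i] h y q.2) q.1‖
  have hG : Continuous G := (Js.continuous_slice hsi a).norm
  obtain ⟨C, hC⟩ := (hK.prod (isCompact_Icc (a := (0 : ℝ)) (b := 1))).exists_bound_of_continuousOn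
    hG.continuousOn
  refine ⟨max C 0, le_max_right _ _, fun M _ z _ t => ?_⟩
  rw [mul_one, e]
  have hc : (fun y : Zv d => dt^[i] h y.2 t) =
      (fun x => dt^[i] h x t) ∘ ContinuousLinearMap.snd ℝ (Fin d → ℝ) E2 := rfl
  rw [hc, ContinuousLinearMap.iteratedFDeriv_comp_right _ (hsi.slow t) _ (by exact_mod_cast le_top)]
  refine (ContinuousMultilinearMap.norm_compContinuousLinearMap_le _ _).trans ?_
  refine le_trans (mul_le_of_le_one_right (norm_nonneg _) (Finset.prod_le_one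
    (fun _ _ => ContinuousLinearMap.opNorm_nonneg _)
    fun _ _ => ContinuousLinearMap.norm_snd_le _ _ _)) ?_
  show ‖iteratedFDeriv ℝ a (fun y => dt^[i] h y t) z.2‖ ≤ max C 0
  by_cases hx : z.2 ∈ K
  · have hper : (fun y => dt^[i] h y t) = fun y => dt^[i] h y (Int.fract t) := by
      funext y
      exact (Function.Periodic.sub_int_mul_eq (hpi y) ⌊t⌋).symm.trans (by rw [mul_one]; rfl)
    rw [hper]
    refine le_trans ?_ (le_max_left _ _)
    have := hC (z.2, Int.fract t) ⟨hx, Int.fract_nonneg t, (Int.fract_lt_one t).le⟩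
    simpa [G] using this
  · refine le_trans (le_of_eq ?_) (le_max_right _ _)
    have : (fun y => dt^[i] h y t) =ᶠ[nhds z.2] fun _ => (0 : X) := by
      filter_upwards [hK.isClosed.isOpen_compl.mem_nhds hx] with y hy using h0i i y hy t
    rw [(this.iteratedFDeriv ℝ a).eq_of_nhds]
    simp

end Vale.Agent.P205F.Expand
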