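import Vale.Agent.P205F.Expand.LoopSpec
import Vale.Agent.P205F.InterfacesTwist

/-!
# P205, expansions: specification of the geometry near the leading term

A map whose first derivatives are close to `X0 + g0, X1` (and, for a final twist, `∂y∂y` close to
`∂y X1`) is uniformly immersed and has uniformly good normal frames.
-/

namespace Vale.Agent.P205F.Expand

open scoped ContDiff RealInnerProductSpace Topology

/-- The free normal part of a vector. -/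
noncomputable def freePart (b : Bool) (F : E2 → R4) (x : E2) (v : R4) : R4 :=
  if b then nrm F x v -
      (⟪nrm F x v, II F x (ev 1)⟫ / ⟪II F x (ev 1), II F x (ev 1)⟫) • II F x (ev 1)
    else nrm F x v

/-- The second free field: the third direction `V` when errors along `ν` are allowed. -/
noncomputable def free2 (b : Bool) (B : Base) (F : E2 → R4) (x : E2) : R4 :=
  if b then 0 else freePart b F x (B.V x)

/-- Closeness of `F` to the leading term at one point and phase. -/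
def NearLead (b : Bool) (B : Base) (F : E2 → R4) (x : E2) (t η : ℝ) : Prop :=
  ‖pd 0 F x - (B.X0 x + B.g0 x t)‖ ≤ η ∧ ‖pd 1 F x - B.X1 x‖ ≤ η ∧
    (b = true → ‖pd 1 (pd 1 F) x - pd 1 B.X1 x‖ ≤ η)

/-- THE GEOMETRY MODULE. -/
def GeomStmt : Prop :=
  ∀ (b : Bool) (B : Base) (Lp : Loop B.S B.N B.X0 B.X1 B.V B.a), Lp.g0 = B.g0 →
    B.χ = (if b then 1 else 0) →
    (∀ x ∈ B.N, ⟪B.X1 x, B.V x⟫ = 0 ∧ LinearIndependent ℝ ![B.X0 x, B.X1 x, B.V x] ∧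
      (b = false → ‖B.V x‖ = 1 ∧ ⟪B.X0 x, B.V x⟫ = 0)) →
    ∀ K : Set E2, IsCompact K → K ⊆ B.N → ∃ C η₀ : ℝ, 1 ≤ C ∧ 0 < η₀ ∧
      ∀ F : E2 → R4, ContDiff ℝ ∞ F → ∀ x ∈ K, ∀ t η : ℝ, η ≤ η₀ → NearLead b B F x t η →
        let s1 := freePart b F x (Lp.σ x t)
        let s2 := free2 b B F x
        (∀ w, ‖w‖ ≤ C * ‖fderiv ℝ F x w‖) ∧
        (∀ w, ⟪B.X0 x, w⟫ = 0 → ⟪B.X1 x, w⟫ = 0 → ‖w‖ ≤ C * ‖nrm F x w‖) ∧
        (b = true → C⁻¹ ≤ ‖II F x (ev 1)‖) ∧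
        (Free b F x s1 ∧ Free b F x s2 ∧ ‖s1 - Lp.σ x t‖ ≤ C * η ∧
          (b = false → ‖s2 - B.V x‖ ≤ C * η)) ∧
        (∀ τ, Free b F x τ → ∃ a c : ℝ, τ = a • s1 + c • s2 ∧ |a| ≤ C * ‖τ‖ ∧ |c| ≤ C * ‖τ‖) ∧
        (b = true → ∀ τ, nrm F x τ = τ → ∃ a c : ℝ,
          τ = a • s1 + c • II F x (ev 1) ∧ |a| ≤ C * ‖τ‖ ∧ |c| ≤ C * ‖τ‖) ∧
        ∀ v : R4, ‖v‖ ≤ C * (|⟪pd 0 F x, v⟫| + |⟪pd 1 F x, v⟫| +
          |B.χ * ⟪pd 1 (pd 1 F) x, v⟫| + (|⟪s1, v⟫| + |⟪s2, v⟫|))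

/-- A nearly normal field seeing `∂x∂x F` keeps `II(∂x,∂x)` away from zero, although `∂x∂x F` is
large, when its pairings with the tangent vectors stay bounded. -/
def KeepGeomStmt : Prop :=
  ∀ C₀ : ℝ, 1 ≤ C₀ → ∃ C η₀ : ℝ, 1 ≤ C ∧ 0 < η₀ ∧
    ∀ (F : E2 → R4) (x : E2) (m : R4) (η : ℝ), ContDiff ℝ ∞ F → η ≤ η₀ → ‖m‖ ≤ C₀ →
      (∀ w, ‖w‖ ≤ C₀ * ‖fderiv ℝ F x w‖) →
      |⟪pd 0 F x, m⟫| ≤ η → |⟪pd 1 F x, m⟫| ≤ η →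
      |⟪pd 0 (pd 0 F) x, pd 0 F x⟫| ≤ C₀ → |⟪pd 0 (pd 0 F) x, pd 1 F x⟫| ≤ C₀ →
      C₀⁻¹ ≤ |⟪pd 0 (pd 0 F) x, m⟫| → C⁻¹ ≤ ‖II F x (ev 0)‖

end Vale.Agent.P205F.Expand
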