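import Vale.Agent.P205F.Twist.Assembly
import Vale.Agent.P205F.Expand.GeomSpec
import Vale.Agent.P205F.Chart.Frame

/-!
# P205, expansions: the geometry near the leading term

Four vectors `∂x F, ∂y F, W, σ` (with `W` the absorber `∂y∂y F` or the field `V`) are uniformly
independent near the leading term, by compactness of one period. Everything else follows from this
bound on the coefficients.
-/

namespace Vale.Agent.P205F.Expand

open Set Filter
open scoped ContDiff RealInnerProductSpace Topology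

namespace Geom

/-- Independence on a compact set is uniform and survives a small perturbation. -/
lemma exists_uniform {P X : Type} [TopologicalSpace P] [NormedAddCommGroup X] [NormedSpace ℝ X]
    {n : ℕ} {K : Set P} (hK : IsCompact K) {vs : Fin n → P → X}
    (hc : ∀ i, ContinuousOn (vs i) K)
    (hind : ∀ p ∈ K, ∀ a : Fin n → ℝ, ∑ i, a i • vs i p = 0 → a = 0) :
    ∃ C ε : ℝ, 1 ≤ C ∧ 0 < ε ∧ ∀ p ∈ K, ∀ ws : Fin n → X, (∀ i, ‖ws i - vs i p‖ ≤ ε) →
      ∀ a : Fin n → ℝ, ‖a‖ ≤ C * ‖∑ i, a i • ws i‖ := by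
  obtain ⟨m, hm, hb⟩ := (hK.prod (isCompact_sphere (0 : Fin n → ℝ) 1)).exists_forall_le'
    (f := fun q : P × (Fin n → ℝ) => ‖∑ i, q.2 i • vs i q.1‖) (a := 0)
    (ContinuousOn.norm (continuousOn_finsetSum _ fun i _ =>
      ((continuous_apply i).comp continuous_snd).continuousOn.smul
        ((hc i).comp continuousOn_fst fun q hq => hq.1)))
    (fun q hq => norm_pos_iff.2 fun h => by
      have h0 := hind q.1 hq.1 q.2 h
      simp [h0] at hq)
  refine ⟨max 1 (2 / m), m / (2 * (n + 1)), le_max_left _ _, by positivity,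
    fun p hp ws hws a => ?_⟩
  rcases eq_or_ne a 0 with rfl | ha
  · simp
  have ha' : 0 < ‖a‖ := norm_pos_iff.2 ha
  have h1 : m * ‖a‖ ≤ ‖∑ i, a i • vs i p‖ := by
    have h := hb (p, ‖a‖⁻¹ • a) ⟨hp, by simp [norm_smul, ha'.ne']⟩
    have e : ∑ i, (‖a‖⁻¹ • a) i • vs i p = ‖a‖⁻¹ • ∑ i, a i • vs i p := by
      rw [Finset.smul_sum]
      exact Finset.sum_congr rfl fun i _ => by rw [Pi.smul_apply, smul_assoc]
    simp only at h
    rw [e, norm_smul, norm_inv, norm_norm] at h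
    rwa [inv_mul_eq_div, le_div_iff₀ ha'] at h
  have h2 : ‖∑ i, a i • vs i p‖ ≤ ‖∑ i, a i • ws i‖ + n * (‖a‖ * (m / (2 * (n + 1)))) := by
    have e : ∑ i, a i • vs i p = (∑ i, a i • ws i) - ∑ i, a i • (ws i - vs i p) := by
      rw [← Finset.sum_sub_distrib]
      exact Finset.sum_congr rfl fun i _ => by module
    rw [e]
    refine (norm_sub_le _ _).trans (add_le_add le_rfl ?_)
    refine (norm_sum_le _ _).trans
      ((Finset.sum_le_card_nsmul _ _ (‖a‖ * (m / (2 * (n + 1)))) fun i _ => ?_).trans ?_)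
    · rw [norm_smul]
      exact mul_le_mul (norm_le_pi_norm a i) (hws i) (norm_nonneg _) (norm_nonneg _)
    · simp
  have h3 : (n : ℝ) * (‖a‖ * (m / (2 * (n + 1)))) ≤ m / 2 * ‖a‖ := by
    have hn : (n : ℝ) * (m / (2 * (n + 1))) ≤ m / 2 := by
      rw [mul_div_assoc', div_le_div_iff₀ (by positivity) two_pos]
      nlinarith [hm.le, (Nat.cast_nonneg n : (0 : ℝ) ≤ n)]
    calc (n : ℝ) * (‖a‖ * (m / (2 * (n + 1)))) = n * (m / (2 * (n + 1))) * ‖a‖ := by ring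
      _ ≤ _ := mul_le_mul_of_nonneg_right hn ha'.le
  calc ‖a‖ ≤ 2 / m * ‖∑ i, a i • ws i‖ := by
        rw [div_mul_eq_mul_div, le_div_iff₀ hm]
        nlinarith
    _ ≤ _ := mul_le_mul_of_nonneg_right (le_max_right _ _) (norm_nonneg _)

lemma per_fract {X : Type} {c : E2 → ℝ → X} (h : Per c) (x : E2) (t : ℝ) :
    c x (Int.fract t) = c x t := by
  have hp : Function.Periodic (c x) 1 := h x
  have e := hp.sub_int_mul_eq ⌊t⌋ (x := t)
  rwa [mul_one] at e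

variable {F : E2 → R4} {x : E2}

lemma nrm_orth (F : E2 → R4) (x : E2) (z : R4) (i : Fin 2) : ⟪pd i F x, nrm F x z⟫ = 0 :=
  nrm_mem F x z (ev i)

lemma nrm_self {z : R4} (h0 : ⟪pd 0 F x, z⟫ = 0) (h1 : ⟪pd 1 F x, z⟫ = 0) : nrm F x z = z :=
  nrm_self_of_orth F x fun v => by
    rw [apply_eq_pd F x v, inner_add_left, real_inner_smul_left, real_inner_smul_left, h0, h1]
    ring

lemma nrm_decomp (F : E2 → R4) (x : E2) (z : R4) :
    ∃ a c : ℝ, z = nrm F x z + (a • pd 0 F x + c • pd 1 F x) := by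
  obtain ⟨v, hv⟩ := Twist.mem_range_of_nrm_eq_zero (f := F) (x := x) (w := z - nrm F x z) (by
    have := nrm_idem F x z
    simp only [nrm, map_sub] at this ⊢
    rw [this, sub_self])
  rw [apply_eq_pd F x v] at hv
  exact ⟨v 0, v 1, by rw [hv]; abel⟩

lemma II_decomp (F : E2 → R4) (x : E2) :
    ∃ a c : ℝ, pd 1 (pd 1 F) x = II F x (ev 1) + (a • pd 0 F x + c • pd 1 F x) :=
  nrm_decomp F x _

lemma II_orth (F : E2 → R4) (x v : E2) (i : Fin 2) : ⟪pd i F x, II F x v⟫ = 0 := nrm_orth F x _ i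

/-- On normal vectors `∂y∂y F` is the absorber. -/
lemma inner_II {s : R4} (h0 : ⟪pd 0 F x, s⟫ = 0) (h1 : ⟪pd 1 F x, s⟫ = 0) :
    ⟪pd 1 (pd 1 F) x, s⟫ = ⟪II F x (ev 1), s⟫ := by
  obtain ⟨a, c, e⟩ := II_decomp F x
  rw [e]
  simp [inner_add_left, real_inner_smul_left, h0, h1]

/-- A vector is its free part plus a combination of the other directions. -/
lemma freePart_spec (b : Bool) (z : R4) (hII : b = true → II F x (ev 1) ≠ 0) :
    ∃ a c e : ℝ, z = freePart b F x z + (a • pd 0 F x + c • pd 1 F x + e • pd 1 (pd 1 F) x) ∧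
      (b = false → e = 0) ∧ ⟪pd 0 F x, freePart b F x z⟫ = 0 ∧
      ⟪pd 1 F x, freePart b F x z⟫ = 0 ∧
      (b = true → ⟪pd 1 (pd 1 F) x, freePart b F x z⟫ = 0) := by
  obtain ⟨a, c, hz⟩ := nrm_decomp F x z
  cases b with
  | false =>
    refine ⟨a, c, 0, ?_, fun _ => rfl, ?_, ?_, by simp⟩
    · rw [freePart, if_neg Bool.false_ne_true]
      simpa using hz
    · simpa [freePart] using nrm_orth F x z 0
    · simpa [freePart] using nrm_orth F x z 1
  | true =>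
    obtain ⟨a', c', hw⟩ := II_decomp F x
    have h0 := hII rfl
    set k := ⟪nrm F x z, II F x (ev 1)⟫ / ⟪II F x (ev 1), II F x (ev 1)⟫ with hk
    have hfp : freePart true F x z = nrm F x z - k • II F x (ev 1) := by rw [freePart, if_pos rfl]
    have o0 : ⟪pd 0 F x, freePart true F x z⟫ = 0 := by
      rw [hfp, inner_sub_right, real_inner_smul_right, nrm_orth, II_orth]; ring
    have o1 : ⟪pd 1 F x, freePart true F x z⟫ = 0 := by
      rw [hfp, inner_sub_right, real_inner_smul_right, nrm_orth, II_orth]; ring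
    refine ⟨a - k * a', c - k * c', k, ?_, by simp, o0, o1, fun _ => ?_⟩
    · rw [hfp]
      conv_lhs => rw [hz]
      rw [hw]
      module
    · rw [inner_II o0 o1, hfp, inner_sub_right, real_inner_smul_right, hk,
        div_mul_cancel₀ _ (inner_self_ne_zero.2 h0), real_inner_comm (II F x (ev 1)) (nrm F x z),
        sub_self]

/-- A combination of the directions annihilated by `s` is small if `z = s + w` hardly sees them. -/
lemma rest_small {s z u v w : R4} {a c e A η : ℝ} (hz : z = s + (a • u + c • v + e • w))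
    (hu : ⟪u, s⟫ = 0) (hv : ⟪v, s⟫ = 0) (hw : e * ⟪w, s⟫ = 0) (hzu : |⟪u, z⟫| ≤ η)
    (hzv : |⟪v, z⟫| ≤ η) (hzw : |e * ⟪w, z⟫| ≤ |e| * η) (hη : 0 ≤ η) (hA : 0 ≤ A)
    (ha : |a| ≤ A * ‖a • u + c • v + e • w‖) (hc : |c| ≤ A * ‖a • u + c • v + e • w‖)
    (he : |e| ≤ A * ‖a • u + c • v + e • w‖) :
    ‖a • u + c • v + e • w‖ ≤ 3 * A * η ∧ ‖a • u + c • v + e • w‖ ≤ ‖z‖ := by
  set r := a • u + c • v + e • w with hr
  have hrs : ⟪r, s⟫ = 0 := by
    rw [hr, inner_add_left, inner_add_left, real_inner_smul_left, real_inner_smul_left,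
      real_inner_smul_left, hu, hv]
    linarith
  have hrr : ‖r‖ * ‖r‖ = ⟪r, z⟫ := by
    rw [hz, inner_add_right, hrs, zero_add, real_inner_self_eq_norm_mul_norm]
  have hr1 : ⟪r, z⟫ = a * ⟪u, z⟫ + c * ⟪v, z⟫ + e * ⟪w, z⟫ := by
    rw [hr, inner_add_left, inner_add_left, real_inner_smul_left, real_inner_smul_left,
      real_inner_smul_left]
  have h1 : ⟪r, z⟫ ≤ (A * ‖r‖) * η + (A * ‖r‖) * η + (A * ‖r‖) * η := by
    rw [hr1]
    refine add_le_add (add_le_add ?_ ?_) ?_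
    · exact (le_abs_self _).trans (by rw [abs_mul]; exact mul_le_mul ha hzu (abs_nonneg _) (by positivity))
    · exact (le_abs_self _).trans (by rw [abs_mul]; exact mul_le_mul hc hzv (abs_nonneg _) (by positivity))
    · exact ((le_abs_self _).trans hzw).trans (mul_le_mul_of_nonneg_right he hη)
  refine ⟨?_, ?_⟩
  · rcases eq_or_ne ‖r‖ 0 with h | h
    · rw [h]; positivity
    · exact le_of_mul_le_mul_left (by rw [hrr]; linarith)
        (lt_of_le_of_ne (norm_nonneg _) (Ne.symm h))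
  · rcases eq_or_ne ‖r‖ 0 with h | h
    · rw [h]; positivity
    · exact le_of_mul_le_mul_left (by rw [hrr]; exact real_inner_le_norm _ _)
        (lt_of_le_of_ne (norm_nonneg _) (Ne.symm h))

/-- Bound of a pairing with a combination. -/
lemma abs_comb_le {s u v w z : R4} {a c e A K : ℝ} (ha : |a| ≤ A) (hc : |c| ≤ A)
    (he : |e * ⟪w, z⟫| ≤ K) :
    |⟪s + (a • u + c • v + e • w), z⟫| ≤
      |⟪s, z⟫| + (A * |⟪u, z⟫| + A * |⟪v, z⟫| + K) := by
  simp only [inner_add_left, real_inner_smul_left]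
  refine (abs_add_le _ _).trans (add_le_add le_rfl ((abs_add_le _ _).trans (add_le_add
    ((abs_add_le _ _).trans (add_le_add ?_ ?_)) he)))
  · rw [abs_mul]; exact mul_le_mul_of_nonneg_right ha (abs_nonneg _)
  · rw [abs_mul]; exact mul_le_mul_of_nonneg_right hc (abs_nonneg _)

/-- The pairings with a controlled basis control a vector. -/
lemma dual_bound {u v W σ s1 s2 z : R4} {a c e f a₁ c₁ e₁ A q : ℝ} (hA : 1 ≤ A)
    (hz : z = a • u + c • v + e • W + f • σ) (ba : |a| ≤ A * ‖z‖) (bc : |c| ≤ A * ‖z‖)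
    (be : |e| ≤ A * ‖z‖) (bf : |f| ≤ A * ‖z‖) (hσ : σ = s1 + (a₁ • u + c₁ • v + e₁ • W))
    (h1 : |a₁| ≤ A) (h2 : |c₁| ≤ A) (h3 : |e₁ * ⟪W, z⟫| ≤ A * |q|)
    (hW : |⟪W, z⟫| = |q| ∨ ∃ a₂ c₂ : ℝ, W = s2 + (a₂ • u + c₂ • v) ∧ |a₂| ≤ A ∧ |c₂| ≤ A) :
    ‖z‖ ≤ 8 * A ^ 2 * (|⟪u, z⟫| + |⟪v, z⟫| + |q| + (|⟪s1, z⟫| + |⟪s2, z⟫|)) := by
  set S := |⟪u, z⟫| + |⟪v, z⟫| + |q| + (|⟪s1, z⟫| + |⟪s2, z⟫|) with hS
  have p0 := abs_nonneg ⟪u, z⟫
  have p1 := abs_nonneg ⟪v, z⟫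
  have p2 := abs_nonneg q
  have p3 := abs_nonneg ⟪s1, z⟫
  have p4 := abs_nonneg ⟪s2, z⟫
  have hA0 : 0 ≤ A := by linarith
  have hS0 : 0 ≤ S := by positivity
  have hS2 : S ≤ 2 * A * S := le_mul_of_one_le_left hS0 (by linarith)
  have hu : |⟪u, z⟫| ≤ 2 * A * S := le_trans (by linarith) hS2
  have hv : |⟪v, z⟫| ≤ 2 * A * S := le_trans (by linarith) hS2
  have hσz : |⟪σ, z⟫| ≤ 2 * A * S := by
    rw [hσ]
    refine (abs_comb_le h1 h2 h3).trans ?_
    linarith [mul_le_mul_of_nonneg_right hA p3, mul_nonneg hA0 hS0,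
      mul_le_mul_of_nonneg_left (show |⟪u, z⟫| + |⟪v, z⟫| + |q| + |⟪s1, z⟫| ≤ S by linarith) hA0]
  have hWz : |⟪W, z⟫| ≤ 2 * A * S := by
    rcases hW with h | ⟨a₂, c₂, h, b0, b1⟩
    · rw [h]; exact le_trans (by linarith) hS2
    · have := abs_comb_le (s := s2) (u := u) (v := v) (w := (0 : R4)) (z := z) (e := 0) (K := 0)
        b0 b1 (by simp)
      rw [zero_smul, add_zero, ← h] at this
      linarith [mul_le_mul_of_nonneg_right hA p4, mul_nonneg hA0 hS0,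
        mul_le_mul_of_nonneg_left (show |⟪u, z⟫| + |⟪v, z⟫| + |⟪s2, z⟫| ≤ S by linarith) hA0]
  have hzz : ‖z‖ * ‖z‖ ≤ ‖z‖ * (8 * A ^ 2 * S) := by
    have e0 : ‖z‖ * ‖z‖ = a * ⟪u, z⟫ + c * ⟪v, z⟫ + e * ⟪W, z⟫ + f * ⟪σ, z⟫ := by
      rw [← real_inner_self_eq_norm_mul_norm]
      conv_lhs => arg 2; rw [hz]
      simp only [inner_add_left, real_inner_smul_left]
    have key : ∀ k y : ℝ, |k| ≤ A * ‖z‖ → |y| ≤ 2 * A * S → k * y ≤ A * ‖z‖ * (2 * A * S) :=
      fun k y hk hy => (le_abs_self _).trans (by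
        rw [abs_mul]; exact mul_le_mul hk hy (abs_nonneg _) (by positivity))
    linarith [key _ _ ba hu, key _ _ bc hv, key _ _ be hWz, key _ _ bf hσz]
  rcases eq_or_ne ‖z‖ 0 with h | h
  · rw [h]; positivity
  · exact le_of_mul_le_mul_left hzz (lt_of_le_of_ne (norm_nonneg _) (Ne.symm h))

/-- What the leading term provides at one point and phase. -/
structure Lead (b : Bool) (B : Base) (σ : R4) (x : E2) (t : ℝ) : Prop where
  ind : ∀ a : Fin 4 → ℝ, ∑ i, a i • (![B.X0 x + B.g0 x t, B.X1 x,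
    (if b then pd 1 B.X1 x else B.V x), σ] : Fin 4 → R4) i = 0 → a = 0
  ind2 : ∀ a : Fin 2 → ℝ, ∑ i, a i • (![![⟪B.X0 x + B.g0 x t, B.X0 x⟫,
    ⟪B.X0 x + B.g0 x t, B.X1 x⟫], ![⟪B.X1 x, B.X0 x⟫, ⟪B.X1 x, B.X1 x⟫]] :
      Fin 2 → Fin 2 → ℝ) i = 0 → a = 0
  σ_unit : ‖σ‖ = 1
  σ_u : ⟪B.X0 x + B.g0 x t, σ⟫ = 0
  σ_v : ⟪B.X1 x, σ⟫ = 0
  σ_w : ⟪(if b then pd 1 B.X1 x else B.V x), σ⟫ = 0
  v_u : b = false → ⟪B.X0 x + B.g0 x t, B.V x⟫ = 0
  v_v : ⟪B.X1 x, B.V x⟫ = 0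
  v_unit : b = false → ‖B.V x‖ = 1

lemma lead {b : Bool} {B : Base} (Lp : Loop B.S B.N B.X0 B.X1 B.V B.a) (hg : Lp.g0 = B.g0)
    (hχ : B.χ = (if b then 1 else 0))
    (hN : ∀ x ∈ B.N, ⟪B.X1 x, B.V x⟫ = 0 ∧ LinearIndependent ℝ ![B.X0 x, B.X1 x, B.V x] ∧
      (b = false → ‖B.V x‖ = 1 ∧ ⟪B.X0 x, B.V x⟫ = 0))
    {x : E2} (hx : x ∈ B.N) (t : ℝ) : Lead b B (Lp.σ x t) x t := by
  obtain ⟨hXV, hli, hVf⟩ := hN x hx
  obtain ⟨hρ1, hσ1, hρσ, hXρ, hVρ, hXσ, hVσ, huσ⟩ := Lp.frame x hx t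
  rw [hg] at huσ
  obtain ⟨hrpos, -⟩ := Lp.radius x hx t
  rw [hg] at hrpos
  have hfw := Lp.forward x hx t
  rw [hg] at hfw
  have hX0 : B.X1 x ≠ 0 := by simpa using hli.ne_zero (1 : Fin 3)
  have hV0 : B.V x ≠ 0 := by simpa using hli.ne_zero (2 : Fin 3)
  have huX : ⟪B.X0 x + B.g0 x t, B.X1 x⟫ = ⟪B.X0 x, B.X1 x⟫ := by
    rw [inner_add_left, real_inner_comm (B.X1 x) (B.g0 x t), B.loop_perp, add_zero]
  have huV : ⟪B.X0 x + B.g0 x t, B.V x⟫ = ⟪B.X0 x, B.V x⟫ := by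
    rw [inner_add_left, real_inner_comm (B.V x) (B.g0 x t), B.loop_perp', add_zero]
  have hY : ∃ k : ℝ, (if b then pd 1 B.X1 x else B.V x) = B.V x + k • B.X1 x := by
    cases b with
    | false => exact ⟨0, by simp⟩
    | true => simpa using B.V_eq (by rw [hχ]; simp) x hx
  obtain ⟨k, hk⟩ := hY
  refine ⟨fun a ha => ?_, fun a ha => ?_, hσ1, huσ, hXσ, ?_, fun h => ?_, hXV,
    fun h => (hVf h).1⟩
  · simp only [Fin.sum_univ_four, Matrix.cons_val_zero, Matrix.cons_val_one, Matrix.cons_val] at ha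
    rw [hk] at ha
    have e3 := congrArg (fun z => ⟪z, Lp.σ x t⟫) ha
    simp only [inner_add_left, real_inner_smul_left, huσ, hXσ, hVσ, inner_zero_left,
      real_inner_self_eq_norm_mul_norm, hσ1] at e3
    have h3 : a 3 = 0 := by linarith
    have e0 := congrArg (fun z => ⟪z, Lp.ρ x t⟫) ha
    simp only [h3, zero_smul, add_zero, inner_add_left, real_inner_smul_left, hXρ, hVρ,
      inner_zero_left, mul_zero] at e0
    have h0 : a 0 = 0 := by
      rcases mul_eq_zero.1 e0 with h | h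
      · exact h
      · rw [← inner_add_left] at h
        exact absurd h hrpos.ne'
    simp only [h0, h3, zero_smul, add_zero, zero_add] at ha
    have e2 := congrArg (fun z => ⟪z, B.V x⟫) ha
    simp only [inner_add_left, real_inner_smul_left, hXV, inner_zero_left, mul_zero, add_zero,
      zero_add] at e2
    have h2 : a 2 = 0 := (mul_eq_zero.1 e2).resolve_right (inner_self_ne_zero.2 hV0)
    simp only [h2, zero_smul, add_zero, smul_eq_zero, hX0, or_false] at ha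
    funext i
    fin_cases i <;> assumption
  · simp only [Fin.sum_univ_two, Matrix.cons_val_zero, Matrix.cons_val_one] at ha
    have e0 := congrFun ha 0
    have e1 := congrFun ha 1
    simp only [Pi.add_apply, Pi.smul_apply, Matrix.cons_val_zero, Matrix.cons_val_one,
      smul_eq_mul, Pi.zero_apply] at e0 e1
    rw [huX] at e1
    rw [inner_sub_right, inner_sub_right, real_inner_smul_right, real_inner_smul_right, huX,
      huV] at hfw
    have hXX : (0 : ℝ) < ⟪B.X1 x, B.X1 x⟫ := real_inner_self_pos.2 hX0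
    have hVV : (0 : ℝ) < ⟪B.V x, B.V x⟫ := real_inner_self_pos.2 hV0
    have hp : 0 < ⟪B.X0 x + B.g0 x t, B.X0 x⟫ * ⟪B.X1 x, B.X1 x⟫ -
        ⟪B.X1 x, B.X0 x⟫ * ⟪B.X0 x, B.X1 x⟫ := by
      have h' : 0 < ⟪B.X0 x + B.g0 x t, B.X0 x⟫ -
          ⟪B.X1 x, B.X0 x⟫ / ⟪B.X1 x, B.X1 x⟫ * ⟪B.X0 x, B.X1 x⟫ := by
        have h2 : 0 ≤ ⟪B.V x, B.X0 x⟫ / ⟪B.V x, B.V x⟫ * ⟪B.X0 x, B.V x⟫ := by
          rw [real_inner_comm (B.X0 x) (B.V x), div_mul_eq_mul_div]
          exact div_nonneg (mul_self_nonneg _) hVV.le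
        linarith
      have := mul_pos h' hXX
      rwa [sub_mul, div_mul_eq_mul_div, div_mul_cancel₀ _ hXX.ne'] at this
    have h0 : a 0 = 0 := by
      refine (mul_eq_zero.1 (?_ : a 0 * (⟪B.X0 x + B.g0 x t, B.X0 x⟫ * ⟪B.X1 x, B.X1 x⟫ -
        ⟪B.X1 x, B.X0 x⟫ * ⟪B.X0 x, B.X1 x⟫) = 0)).resolve_right hp.ne'
      linear_combination ⟪B.X1 x, B.X1 x⟫ * e0 - ⟪B.X1 x, B.X0 x⟫ * e1
    rw [h0, zero_mul, zero_add] at e1
    have h1 : a 1 = 0 := (mul_eq_zero.1 e1).resolve_right hXX.ne'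
    funext i
    fin_cases i <;> assumption
  · rw [hk, inner_add_left, real_inner_smul_left, hVσ, hXσ]; ring
  · rw [huV, (hVf h).2]

/-- The consequences at one point, from the bound on the coefficients. -/
lemma point {b : Bool} {B : Base} {σ : R4} {t η A : ℝ} (hA : 1 ≤ A) (hη : η ≤ 1)
    (hχ : B.χ = (if b then 1 else 0)) (L : Lead b B σ x t) (hn : NearLead b B F x t η)
    (co : ∀ a : Fin 4 → ℝ, ‖a‖ ≤ A * ‖∑ i, a i • (![pd 0 F x, pd 1 F x,
      (if b then pd 1 (pd 1 F) x else B.V x), σ] : Fin 4 → R4) i‖) :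
    (∀ w, ‖w‖ ≤ 2 * A * ‖fderiv ℝ F x w‖) ∧
    (b = true → A⁻¹ ≤ ‖II F x (ev 1)‖) ∧
    (Free b F x (freePart b F x σ) ∧ Free b F x (free2 b B F x) ∧
      ‖freePart b F x σ - σ‖ ≤ 3 * A * η ∧
      (b = false → ‖free2 b B F x - B.V x‖ ≤ 3 * A * η)) ∧
    (∀ τ, Free b F x τ → ∃ a c : ℝ, τ = a • freePart b F x σ + c • free2 b B F x ∧
      |a| ≤ 2 * A ^ 2 * ‖τ‖ ∧ |c| ≤ 2 * A ^ 2 * ‖τ‖) ∧
    (b = true → ∀ τ, nrm F x τ = τ → ∃ a c : ℝ,
      τ = a • freePart b F x σ + c • II F x (ev 1) ∧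
      |a| ≤ 2 * A ^ 2 * ‖τ‖ ∧ |c| ≤ 2 * A ^ 2 * ‖τ‖) ∧
    ∀ v : R4, ‖v‖ ≤ 8 * A ^ 2 * (|⟪pd 0 F x, v⟫| + |⟪pd 1 F x, v⟫| +
      |B.χ * ⟪pd 1 (pd 1 F) x, v⟫| +
      (|⟪freePart b F x σ, v⟫| + |⟪free2 b B F x, v⟫|)) := by
  set u := pd 0 F x with hu_def
  set v' := pd 1 F x with hv_def
  set W := (if b then pd 1 (pd 1 F) x else B.V x) with hW
  obtain ⟨hn0, hn1, hn2⟩ := hn
  have hη0 : 0 ≤ η := (norm_nonneg _).trans hn0
  have hA0 : 0 ≤ A := by linarith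
  have co4 : ∀ a c e f : ℝ, |a| ≤ A * ‖a • u + c • v' + e • W + f • σ‖ ∧
      |c| ≤ A * ‖a • u + c • v' + e • W + f • σ‖ ∧
      |e| ≤ A * ‖a • u + c • v' + e • W + f • σ‖ ∧
      |f| ≤ A * ‖a • u + c • v' + e • W + f • σ‖ := fun a c e f => by
    have h := co ![a, c, e, f]
    simp only [Fin.sum_univ_four, Matrix.cons_val_zero, Matrix.cons_val_one, Matrix.cons_val] at h
    exact ⟨(norm_le_pi_norm ![a, c, e, f] 0).trans h, (norm_le_pi_norm ![a, c, e, f] 1).trans h,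
      (norm_le_pi_norm ![a, c, e, f] 2).trans h, (norm_le_pi_norm ![a, c, e, f] 3).trans h⟩
  -- the immersion
  have h1 : ∀ w, ‖w‖ ≤ 2 * A * ‖fderiv ℝ F x w‖ := fun w => by
    obtain ⟨h, h', -, -⟩ := co4 (w 0) (w 1) 0 0
    simp only [zero_smul, add_zero] at h h'
    rw [← apply_eq_pd F x w] at h h'
    have hw : ‖w‖ ≤ |w 0| + |w 1| := by
      rw [EuclideanSpace.norm_eq, Fin.sum_univ_two, Real.norm_eq_abs, Real.norm_eq_abs]
      exact Real.sqrt_le_iff.2 ⟨by positivity,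
        by nlinarith [abs_nonneg (w 0), abs_nonneg (w 1)]⟩
    linarith
  -- the absorber
  have h3 : b = true → A⁻¹ ≤ ‖II F x (ev 1)‖ := fun hb => by
    obtain ⟨a, c, e⟩ := II_decomp F x
    obtain ⟨-, -, h, -⟩ := co4 (-a) (-c) 1 0
    have e' : (-a) • u + (-c) • v' + (1 : ℝ) • W + (0 : ℝ) • σ = II F x (ev 1) := by
      rw [hW, if_pos hb, e]; module
    rw [e', abs_one] at h
    rw [inv_le_iff_one_le_mul₀' (by linarith)]
    exact h
  have hII : b = true → II F x (ev 1) ≠ 0 := fun hb h => by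
    have := h3 hb
    rw [h, norm_zero] at this
    have : (0 : ℝ) < A⁻¹ := by positivity
    linarith
  -- the free part of `σ`
  obtain ⟨a₁, c₁, e₁, hσ, he₁, o0, o1, o2⟩ := freePart_spec b σ hII
  set s1 := freePart b F x σ with hs1
  have heW : e₁ • pd 1 (pd 1 F) x = e₁ • W := by
    cases b with
    | true => rfl
    | false => simp [he₁ rfl]
  rw [heW] at hσ
  have o2' : e₁ * ⟪W, s1⟫ = 0 := by
    cases b with
    | true => rw [show ⟪W, s1⟫ = 0 from o2 rfl, mul_zero]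
    | false => rw [he₁ rfl, zero_mul]
  have hzu : |⟪u, σ⟫| ≤ η := by
    have e : ⟪u, σ⟫ = ⟪u - (B.X0 x + B.g0 x t), σ⟫ := by rw [inner_sub_left, L.σ_u, sub_zero]
    rw [e]
    exact (abs_real_inner_le_norm _ _).trans (by rw [L.σ_unit, mul_one]; exact hn0)
  have hzv : |⟪v', σ⟫| ≤ η := by
    have e : ⟪v', σ⟫ = ⟪v' - B.X1 x, σ⟫ := by rw [inner_sub_left, L.σ_v, sub_zero]
    rw [e]
    exact (abs_real_inner_le_norm _ _).trans (by rw [L.σ_unit, mul_one]; exact hn1)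
  have hzw : |e₁ * ⟪W, σ⟫| ≤ |e₁| * η := by
    rw [abs_mul]
    cases b with
    | false => simp [he₁ rfl]
    | true =>
      have e : ⟪W, σ⟫ = ⟪pd 1 (pd 1 F) x - pd 1 B.X1 x, σ⟫ := by
        have := L.σ_w
        simp only [↓reduceIte] at this
        rw [inner_sub_left, this, sub_zero]
        rfl
      rw [e]
      exact mul_le_mul_of_nonneg_left
        ((abs_real_inner_le_norm _ _).trans (by rw [L.σ_unit, mul_one]; exact hn2 rfl))
        (abs_nonneg _)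
  obtain ⟨ca, cc, ce, -⟩ := co4 a₁ c₁ e₁ 0
  rw [zero_smul, add_zero] at ca cc ce
  obtain ⟨hr, hr'⟩ := rest_small hσ o0 o1 o2' hzu hzv hzw hη0 hA0 ca cc ce
  rw [L.σ_unit] at hr'
  have bco : |a₁| ≤ A ∧ |c₁| ≤ A ∧ |e₁| ≤ A := ⟨ca.trans (mul_le_of_le_one_right hA0 hr'),
    cc.trans (mul_le_of_le_one_right hA0 hr'), ce.trans (mul_le_of_le_one_right hA0 hr')⟩
  have hs1f : Free b F x s1 := ⟨nrm_self o0 o1, fun hb => by
    rw [real_inner_comm, ← inner_II o0 o1]; exact o2 hb⟩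
  have hs1' : s1 = σ - (a₁ • u + c₁ • v' + e₁ • W) := eq_sub_of_add_eq hσ.symm
  have hs1d : ‖s1 - σ‖ ≤ 3 * A * η := by
    rw [norm_sub_rev, show σ - s1 = a₁ • u + c₁ • v' + e₁ • W from by rw [hσ]; abel]
    exact hr
  -- the second free field
  have h2 : ∃ a₂ c₂ : ℝ, ⟪u, free2 b B F x⟫ = 0 ∧ ⟪v', free2 b B F x⟫ = 0 ∧
      (b = true → free2 b B F x = 0) ∧
      (b = false → B.V x = free2 b B F x + (a₂ • u + c₂ • v') ∧ |a₂| ≤ A ∧ |c₂| ≤ A ∧
        ‖free2 b B F x - B.V x‖ ≤ 3 * A * η) := by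
    cases b with
    | true => exact ⟨0, 0, by simp [free2], by simp [free2], fun _ => by simp [free2], by simp⟩
    | false =>
      obtain ⟨a₂, c₂, e₂, hV, he₂, p0, p1, -⟩ := freePart_spec (F := F) (x := x) false (B.V x)
        (by simp)
      have hf2 : free2 false B F x = freePart false F x (B.V x) := by simp [free2]
      rw [hf2]
      rw [he₂ rfl, zero_smul] at hV
      have hVu : |⟪u, B.V x⟫| ≤ η := by
        have e : ⟪u, B.V x⟫ = ⟪u - (B.X0 x + B.g0 x t), B.V x⟫ := by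
          rw [inner_sub_left, L.v_u rfl, sub_zero]
        rw [e]
        exact (abs_real_inner_le_norm _ _).trans (by rw [L.v_unit rfl, mul_one]; exact hn0)
      have hVv : |⟪v', B.V x⟫| ≤ η := by
        have e : ⟪v', B.V x⟫ = ⟪v' - B.X1 x, B.V x⟫ := by rw [inner_sub_left, L.v_v, sub_zero]
        rw [e]
        exact (abs_real_inner_le_norm _ _).trans (by rw [L.v_unit rfl, mul_one]; exact hn1)
      obtain ⟨da, dc, de, -⟩ := co4 a₂ c₂ 0 0
      rw [zero_smul ℝ σ, add_zero] at da dc de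
      obtain ⟨hq, hq'⟩ := rest_small (e := 0) (w := W)
        (z := B.V x) (s := freePart false F x (B.V x)) (by simpa using hV) p0 p1 (zero_mul _)
        hVu hVv (by simp) hη0 hA0 da dc de
      rw [L.v_unit rfl] at hq'
      rw [add_zero] at hV
      refine ⟨a₂, c₂, p0, p1, by simp, fun _ => ⟨hV, da.trans (mul_le_of_le_one_right hA0 hq'),
        dc.trans (mul_le_of_le_one_right hA0 hq'), ?_⟩⟩
      rw [norm_sub_rev, show B.V x - freePart false F x (B.V x) =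
        a₂ • u + c₂ • v' + (0 : ℝ) • W from by
          conv_lhs => arg 1; rw [hV]
          simp [hu_def, hv_def]]
      exact hq
  obtain ⟨a₂, c₂, q0, q1, ht2, hf2⟩ := h2
  have hs2f : Free b F x (free2 b B F x) := ⟨nrm_self q0 q1, fun hb => by rw [ht2 hb]; simp⟩
  -- every vector in the basis
  have hbasis : ∀ z : R4, ∃ a c e f : ℝ, z = a • u + c • v' + e • W + f • σ ∧
      |a| ≤ A * ‖z‖ ∧ |c| ≤ A * ‖z‖ ∧ |e| ≤ A * ‖z‖ ∧ |f| ≤ A * ‖z‖ := fun z => by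
    set Φ : (Fin 4 → ℝ) →ₗ[ℝ] R4 := Fintype.linearCombination ℝ ![u, v', W, σ] with hΦ
    have hΦa : ∀ a, Φ a = ∑ i, a i • (![u, v', W, σ] : Fin 4 → R4) i := fun a => by
      rw [hΦ, Fintype.linearCombination_apply]
    have hi : Function.Injective Φ := (injective_iff_map_eq_zero Φ).2 fun a ha => by
      have h := co a
      rw [← hΦa, ha, norm_zero, mul_zero] at h
      exact norm_le_zero_iff.1 h
    obtain ⟨a, ha⟩ := (LinearMap.injective_iff_surjective_of_finrank_eq_finrank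
      (by simp)).1 hi z
    rw [hΦa] at ha
    simp only [Fin.sum_univ_four, Matrix.cons_val_zero, Matrix.cons_val_one, Matrix.cons_val] at ha
    obtain ⟨k0, k1, k2, k3⟩ := co4 (a 0) (a 1) (a 2) (a 3)
    rw [ha] at k0 k1 k2 k3
    exact ⟨a 0, a 1, a 2, a 3, ha.symm, k0, k1, k2, k3⟩
  -- a vector of the tangent plane which is normal vanishes
  have hzero : ∀ r : R4, (∃ a c : ℝ, r = a • u + c • v') → ⟪u, r⟫ = 0 → ⟪v', r⟫ = 0 → r = 0 := by
    rintro r ⟨a, c, hr⟩ k0 k1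
    refine inner_self_eq_zero (𝕜 := ℝ) |>.1 ?_
    conv_lhs => arg 2; rw [hr]
    rw [inner_add_left, real_inner_smul_left, real_inner_smul_left, k0, k1]
    ring
  refine ⟨h1, h3, ⟨hs1f, hs2f, hs1d, fun hb => (hf2 hb).2.2.2⟩, fun τ hτ => ?_, fun hb τ hτ => ?_,
    fun v => ?_⟩
  · obtain ⟨a, c, e, f, hz, -, -, be, bf⟩ := hbasis τ
    have t0 : ⟪u, τ⟫ = 0 := by rw [← hτ.1]; exact nrm_orth F x τ 0
    have t1 : ⟪v', τ⟫ = 0 := by rw [← hτ.1]; exact nrm_orth F x τ 1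
    have hb2 : A * ‖τ‖ ≤ 2 * A ^ 2 * ‖τ‖ :=
      mul_le_mul_of_nonneg_right (by nlinarith) (norm_nonneg _)
    cases b with
    | true =>
      refine ⟨f, 0, ?_, bf.trans hb2, by simp; positivity⟩
      rw [ht2 rfl, smul_zero, add_zero]
      have w0 : ⟪W, τ⟫ = 0 := by
        show ⟪pd 1 (pd 1 F) x, τ⟫ = 0
        rw [inner_II t0 t1, real_inner_comm]; exact hτ.2 rfl
      have r0 : ⟪u, τ - f • s1⟫ = 0 := by rw [inner_sub_right, real_inner_smul_right, t0, o0]; ring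
      have r1 : ⟪v', τ - f • s1⟫ = 0 := by rw [inner_sub_right, real_inner_smul_right, t1, o1]; ring
      have r2 : ⟪W, τ - f • s1⟫ = 0 := by
        rw [inner_sub_right, real_inner_smul_right, w0, show ⟪W, s1⟫ = 0 from o2 rfl]; ring
      have hr : τ - f • s1 = (a + f * a₁) • u + (c + f * c₁) • v' + (e + f * e₁) • W := by
        rw [hz, hs1']
        module
      rw [← sub_eq_zero]
      refine inner_self_eq_zero (𝕜 := ℝ) |>.1 ?_
      conv_lhs => arg 2; rw [hr]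
      simp only [inner_add_left, real_inner_smul_left, r0, r1, r2]
      ring
    | false =>
      refine ⟨f, e, ?_, bf.trans hb2, be.trans hb2⟩
      rw [← sub_eq_zero]
      obtain ⟨hV, -, -, -⟩ := hf2 rfl
      refine hzero _ ⟨a + f * a₁ + e * a₂, c + f * c₁ + e * c₂, ?_⟩ ?_ ?_
      · have hWV : W = free2 false B F x + (a₂ • u + c₂ • v') := hV
        rw [hz, hs1', he₁ rfl, hWV]
        module
      · rw [inner_sub_right, inner_add_right, real_inner_smul_right, real_inner_smul_right, t0,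
          o0, q0]; ring
      · rw [inner_sub_right, inner_add_right, real_inner_smul_right, real_inner_smul_right, t1,
          o1, q1]; ring
  · subst hb
    obtain ⟨a, c, e, f, hz, -, -, be, bf⟩ := hbasis τ
    have t0 : ⟪u, τ⟫ = 0 := by rw [← hτ]; exact nrm_orth F x τ 0
    have t1 : ⟪v', τ⟫ = 0 := by rw [← hτ]; exact nrm_orth F x τ 1
    obtain ⟨a', c', hw⟩ := II_decomp F x
    refine ⟨f, e + f * e₁, ?_, bf.trans (mul_le_mul_of_nonneg_right (by nlinarith) (norm_nonneg _)),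
      ?_⟩
    · rw [← sub_eq_zero]
      refine hzero _ ⟨a + f * a₁ + (e + f * e₁) * a', c + f * c₁ + (e + f * e₁) * c', ?_⟩ ?_ ?_
      · have hWw : W = II F x (ev 1) + (a' • u + c' • v') := hw
        rw [hz, hs1', hWw]
        module
      · rw [inner_sub_right, inner_add_right, real_inner_smul_right, real_inner_smul_right, t0,
          o0, II_orth]; ring
      · rw [inner_sub_right, inner_add_right, real_inner_smul_right, real_inner_smul_right, t1,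
          o1, II_orth]; ring
    · calc |e + f * e₁| ≤ |e| + |f| * |e₁| := by rw [← abs_mul]; exact abs_add_le _ _
        _ ≤ A * ‖τ‖ + A * ‖τ‖ * A :=
          add_le_add be (mul_le_mul bf bco.2.2 (abs_nonneg _) (by positivity))
        _ ≤ _ := by nlinarith [mul_nonneg (norm_nonneg τ) (mul_nonneg hA0 (sub_nonneg.2 hA))]
  · obtain ⟨a, c, e, f, hz, ba, bc, be, bf⟩ := hbasis v
    refine (dual_bound hA hz ba bc be bf (s1 := s1) (s2 := free2 b B F x)
      (q := B.χ * ⟪pd 1 (pd 1 F) x, v⟫) hσ bco.1 bco.2.1 ?_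
      ?_).trans_eq (by ring)
    · cases b with
      | false => rw [he₁ rfl, zero_mul, abs_zero]; positivity
      | true =>
        rw [show B.χ = 1 from hχ, one_mul, abs_mul]
        exact mul_le_mul_of_nonneg_right bco.2.2 (abs_nonneg _)
    · cases b with
      | true => exact Or.inl (by rw [show B.χ = 1 from hχ, one_mul]; rfl)
      | false => exact Or.inr ⟨a₂, c₂, (hf2 rfl).1, (hf2 rfl).2.1, (hf2 rfl).2.2.1⟩

/-- Vectors normal to the base have large normal parts. -/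
lemma normal_lower {B : Base} {t η A R : ℝ} (hA : 0 ≤ A) (hR : 1 ≤ R) (hη : η ≤ 1)
    (hu : ‖B.X0 x + B.g0 x t‖ ≤ R) (hX0 : ‖B.X0 x‖ ≤ R) (hX1 : ‖B.X1 x‖ ≤ R)
    (h0 : ‖pd 0 F x - (B.X0 x + B.g0 x t)‖ ≤ η) (h1 : ‖pd 1 F x - B.X1 x‖ ≤ η)
    (co : ∀ a : Fin 2 → ℝ, ‖a‖ ≤ A * ‖∑ i, a i • (![![⟪pd 0 F x, B.X0 x⟫,
      ⟪pd 0 F x, B.X1 x⟫], ![⟪pd 1 F x, B.X0 x⟫, ⟪pd 1 F x, B.X1 x⟫]] :
        Fin 2 → Fin 2 → ℝ) i‖)
    (w : R4) (w0 : ⟪B.X0 x, w⟫ = 0) (w1 : ⟪B.X1 x, w⟫ = 0) :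
    ‖w‖ ≤ (1 + 4 * A * R ^ 2) * ‖nrm F x w‖ := by
  obtain ⟨a, c, hw⟩ := nrm_decomp F x w
  set n := nrm F x w with hn
  have h := co ![a, c]
  have e : ∑ i, (![a, c] : Fin 2 → ℝ) i • (![![⟪pd 0 F x, B.X0 x⟫,
      ⟪pd 0 F x, B.X1 x⟫], ![⟪pd 1 F x, B.X0 x⟫, ⟪pd 1 F x, B.X1 x⟫]] :
        Fin 2 → Fin 2 → ℝ) i = ![-⟪n, B.X0 x⟫, -⟪n, B.X1 x⟫] := by
    rw [hw, inner_add_right, inner_add_right, real_inner_smul_right, real_inner_smul_right,
      real_inner_comm n, real_inner_comm (pd 0 F x), real_inner_comm (pd 1 F x)] at w0 w1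
    funext i
    fin_cases i <;> simp [Fin.sum_univ_two] <;> linarith
  rw [e] at h
  have hN : ‖(![-⟪n, B.X0 x⟫, -⟪n, B.X1 x⟫] : Fin 2 → ℝ)‖ ≤ R * ‖n‖ := by
    refine (pi_norm_le_iff_of_nonneg (by positivity)).2 fun i => ?_
    fin_cases i <;> simp <;> refine (abs_real_inner_le_norm _ _).trans ?_ <;>
      rw [mul_comm] <;> gcongr
  have hac : |a| ≤ A * (R * ‖n‖) ∧ |c| ≤ A * (R * ‖n‖) :=
    ⟨((norm_le_pi_norm ![a, c] 0).trans h).trans (mul_le_mul_of_nonneg_left hN hA),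
      ((norm_le_pi_norm ![a, c] 1).trans h).trans (mul_le_mul_of_nonneg_left hN hA)⟩
  have bu : ‖pd 0 F x‖ ≤ 2 * R := by
    calc ‖pd 0 F x‖ = ‖(pd 0 F x - (B.X0 x + B.g0 x t)) + (B.X0 x + B.g0 x t)‖ := by simp
      _ ≤ η + R := (norm_add_le _ _).trans (add_le_add h0 hu)
      _ ≤ _ := by linarith
  have bv : ‖pd 1 F x‖ ≤ 2 * R := by
    calc ‖pd 1 F x‖ = ‖(pd 1 F x - B.X1 x) + B.X1 x‖ := by simp
      _ ≤ η + R := (norm_add_le _ _).trans (add_le_add h1 hX1)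
      _ ≤ _ := by linarith
  calc ‖w‖ ≤ ‖n‖ + (|a| * ‖pd 0 F x‖ + |c| * ‖pd 1 F x‖) := by
        rw [hw]
        refine (norm_add_le _ _).trans (add_le_add le_rfl ((norm_add_le _ _).trans ?_))
        rw [norm_smul, norm_smul, Real.norm_eq_abs, Real.norm_eq_abs]
    _ ≤ ‖n‖ + (A * (R * ‖n‖) * (2 * R) + A * (R * ‖n‖) * (2 * R)) :=
        add_le_add le_rfl (add_le_add (mul_le_mul hac.1 bu (norm_nonneg _) (by positivity))
          (mul_le_mul hac.2 bv (norm_nonneg _) (by positivity)))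
    _ = _ := by ring

end Geom

/-- THE GEOMETRY NEAR THE LEADING TERM. -/
theorem geomStmt : GeomStmt := by
  intro b B Lp hg hχ hN K hK hKN
  have hP : IsCompact (K ×ˢ Icc (0 : ℝ) 1) := hK.prod isCompact_Icc
  have sX0 : ContDiff ℝ ∞ B.X0 := B.X0_coef.js.slow 0
  have sX1 : ContDiff ℝ ∞ B.X1 := B.X1_coef.js.slow 0
  have sV : ContDiff ℝ ∞ B.V := B.V_coef.js.slow 0
  have cu : Continuous fun q : E2 × ℝ => B.X0 q.1 + B.g0 q.1 q.2 :=
    (sX0.continuous.comp continuous_fst).add B.g0_coef.js.continuous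
  have cσ : Continuous fun q : E2 × ℝ => Lp.σ q.1 q.2 := Lp.σ_coef.js.continuous
  have cv : Continuous fun q : E2 × ℝ => B.X1 q.1 := sX1.continuous.comp continuous_fst
  have cW : Continuous fun q : E2 × ℝ => (if b then pd 1 B.X1 q.1 else B.V q.1) := by
    cases b
    · exact sV.continuous.comp continuous_fst
    · exact ((sX1.continuous_fderiv (by simp)).clm_apply continuous_const).comp continuous_fst
  have cX0 : Continuous fun q : E2 × ℝ => B.X0 q.1 := sX0.continuous.comp continuous_fst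
  obtain ⟨A, ε, hA, hε, hco⟩ := Geom.exists_uniform hP
    (vs := ![fun q => B.X0 q.1 + B.g0 q.1 q.2, fun q => B.X1 q.1,
      fun q => (if b then pd 1 B.X1 q.1 else B.V q.1), fun q => Lp.σ q.1 q.2])
    (fun i => by
      fin_cases i
      · exact cu.continuousOn
      · exact cv.continuousOn
      · exact cW.continuousOn
      · exact cσ.continuousOn)
    (fun q hq a ha => (Geom.lead Lp hg hχ hN (hKN hq.1) q.2).ind a <| by
      rw [← ha]
      exact Finset.sum_congr rfl fun i _ => by fin_cases i <;> rfl)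
  obtain ⟨A₂, ε₂, hA₂, hε₂, hco₂⟩ := Geom.exists_uniform hP
    (vs := ![fun q => ![⟪B.X0 q.1 + B.g0 q.1 q.2, B.X0 q.1⟫, ⟪B.X0 q.1 + B.g0 q.1 q.2, B.X1 q.1⟫],
      fun q => ![⟪B.X1 q.1, B.X0 q.1⟫, ⟪B.X1 q.1, B.X1 q.1⟫]])
    (fun i => by
      fin_cases i <;> refine (continuous_pi fun j => ?_).continuousOn <;> fin_cases j <;>
        first | exact cu.inner cX0 | exact cu.inner cv | exact cv.inner cX0 | exact cv.inner cv)
    (fun q hq a ha => (Geom.lead Lp hg hχ hN (hKN hq.1) q.2).ind2 a <| by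
      rw [← ha]
      exact Finset.sum_congr rfl fun i _ => by fin_cases i <;> rfl)
  obtain ⟨R₀, hR₀⟩ := hP.exists_bound_of_continuousOn
    (f := fun q : E2 × ℝ => (B.X0 q.1 + B.g0 q.1 q.2, B.X0 q.1, B.X1 q.1))
    (cu.prodMk (cX0.prodMk cv)).continuousOn
  set R := max 1 R₀
  have hR : 1 ≤ R := le_max_left _ _
  refine ⟨8 * A ^ 2 + (1 + 4 * A₂ * R ^ 2), min (min 1 ε) (ε₂ / R), by nlinarith,
    by positivity, fun F hF x hx t η hη hn => ?_⟩
  obtain ⟨hη1, hηε⟩ := le_min_iff.1 (hη.trans (min_le_left _ _))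
  have hηε₂ : η ≤ ε₂ / R := hη.trans (min_le_right _ _)
  have hη0 : 0 ≤ η := (norm_nonneg _).trans hn.1
  set t₀ := Int.fract t with ht₀
  have hq : (x, t₀) ∈ K ×ˢ Icc (0 : ℝ) 1 :=
    ⟨hx, Int.fract_nonneg t, (Int.fract_lt_one t).le⟩
  have eg : B.g0 x t₀ = B.g0 x t := Geom.per_fract B.g0_coef.per x t
  have eσ : Lp.σ x t₀ = Lp.σ x t := Geom.per_fract Lp.σ_coef.per x t
  have hb := hR₀ (x, t₀) hq
  simp only [eg, Prod.norm_def, max_le_iff] at hb
  have hRb : R₀ ≤ R := le_max_right _ _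
  have co := hco (x, t₀) hq (![pd 0 F x, pd 1 F x,
      (if b then pd 1 (pd 1 F) x else B.V x), Lp.σ x t]) (fun i => by
    fin_cases i <;> simp [eg, eσ]
    · exact hn.1.trans hηε
    · exact hn.2.1.trans hηε
    · cases b
      · simpa using hε.le
      · simpa using (hn.2.2 rfl).trans hηε
    · exact hε.le)
  have co₂ := hco₂ (x, t₀) hq (![![⟪pd 0 F x, B.X0 x⟫, ⟪pd 0 F x, B.X1 x⟫],
      ![⟪pd 1 F x, B.X0 x⟫, ⟪pd 1 F x, B.X1 x⟫]]) (fun i => by
    refine (pi_norm_le_iff_of_nonneg hε₂.le).2 fun j => ?_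
    have hs : ∀ p p₀ z : R4, ‖p - p₀‖ ≤ η → ‖z‖ ≤ R → |⟪p, z⟫ - ⟪p₀, z⟫| ≤ ε₂ :=
      fun p p₀ z h1 h2 => by
        rw [← inner_sub_left]
        refine (abs_real_inner_le_norm _ _).trans ((mul_le_mul h1 h2 (norm_nonneg _) hη0).trans ?_)
        exact (le_div_iff₀ (lt_of_lt_of_le one_pos hR)).1 hηε₂
    fin_cases i <;> fin_cases j
    · simpa [eg] using hs _ _ _ hn.1 (hb.2.1.trans hRb)
    · simpa [eg] using hs _ _ _ hn.1 (hb.2.2.trans hRb)
    · simpa [eg] using hs _ _ _ hn.2.1 (hb.2.1.trans hRb)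
    · simpa [eg] using hs _ _ _ hn.2.1 (hb.2.2.trans hRb))
  obtain ⟨p1, p3, ⟨q1, q2, q3, q4⟩, p5, p6, p7⟩ := Geom.point hA hη1 hχ
    (Geom.lead Lp hg hχ hN (hKN hx) t) hn co
  set C := 8 * A ^ 2 + (1 + 4 * A₂ * R ^ 2) with hC
  have hA2 : 0 ≤ 4 * A₂ * R ^ 2 := by positivity
  have hAC : A ≤ C := by nlinarith
  have h2C : 2 * A ≤ C := by nlinarith
  have h3C : 3 * A ≤ C := by nlinarith
  have h4C : 2 * A ^ 2 ≤ C := by nlinarith
  refine ⟨fun w => (p1 w).trans (mul_le_mul_of_nonneg_right h2C (norm_nonneg _)),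
    fun w w0 w1 => ?_, fun hb' => (inv_anti₀ (by linarith) hAC).trans (p3 hb'),
    ⟨q1, q2, q3.trans (mul_le_mul_of_nonneg_right h3C hη0),
      fun h => (q4 h).trans (mul_le_mul_of_nonneg_right h3C hη0)⟩,
    fun τ hτ => ?_, fun hb' τ hτ => ?_, fun v => ?_⟩
  · refine (Geom.normal_lower (by linarith) hR hη1 (hb.1.trans hRb) (hb.2.1.trans hRb)
      (hb.2.2.trans hRb) hn.1 hn.2.1 co₂ w w0 w1).trans
      (mul_le_mul_of_nonneg_right ?_ (norm_nonneg _))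
    nlinarith
  · obtain ⟨a, c, e, ha, hc⟩ := p5 τ hτ
    exact ⟨a, c, e, ha.trans (mul_le_mul_of_nonneg_right h4C (norm_nonneg _)),
      hc.trans (mul_le_mul_of_nonneg_right h4C (norm_nonneg _))⟩
  · obtain ⟨a, c, e, ha, hc⟩ := p6 hb' τ hτ
    exact ⟨a, c, e, ha.trans (mul_le_mul_of_nonneg_right h4C (norm_nonneg _)),
      hc.trans (mul_le_mul_of_nonneg_right h4C (norm_nonneg _))⟩
  · exact (p7 v).trans (mul_le_mul_of_nonneg_right (by linarith) (by positivity))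

/-- A nearly normal field seeing `∂x∂x F` keeps `II(∂x,∂x)` away from zero. -/
theorem keepGeomStmt : KeepGeomStmt := by
  intro C₀ hC₀
  refine ⟨2 * C₀ ^ 2, (12 * C₀ ^ 4)⁻¹, by nlinarith, by positivity,
    fun F x m η hF hη hm himm h0 h1 q0 q1 hq => ?_⟩
  have hη0 : 0 ≤ η := (abs_nonneg _).trans h0
  set u := pd 0 F x with hu
  set v := pd 1 F x with hv
  set q := pd 0 (pd 0 F) x with hqd
  obtain ⟨a, c, he⟩ := Geom.nrm_decomp F x m
  set r := a • u + c • v with hr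
  have hrd : fderiv ℝ F x (a • ev 0 + c • ev 1) = r := by simp [hr, hu, hv, pd]
  have hac : |a| ≤ C₀ * ‖r‖ ∧ |c| ≤ C₀ * ‖r‖ := by
    have h := himm (a • ev 0 + c • ev 1)
    rw [hrd] at h
    have k0 := (PiLp.norm_apply_le (a • ev 0 + c • ev 1 : E2) 0).trans h
    have k1 := (PiLp.norm_apply_le (a • ev 0 + c • ev 1 : E2) 1).trans h
    simp [ev] at k0 k1
    exact ⟨k0, k1⟩
  obtain ⟨hrη, -⟩ := Geom.rest_small (s := nrm F x m) (z := m) (u := u) (v := v) (w := (0 : R4))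
    (e := 0) (A := C₀) (η := η) (by simpa [hr] using he) (Geom.nrm_orth F x m 0)
    (Geom.nrm_orth F x m 1) (zero_mul _) h0 h1 (by simp) hη0 (by linarith)
    (by simpa [hr] using hac.1) (by simpa [hr] using hac.2) (by simp; positivity)
  simp only [zero_smul, add_zero, ← hr] at hrη
  have hqm : ⟪q, m⟫ = ⟪II F x (ev 0), m⟫ + (a * ⟪q, u⟫ + c * ⟪q, v⟫) := by
    have e1 : ⟪II F x (ev 0), m⟫ = ⟪q, nrm F x m⟫ := (inner_nrm F x q m).symm
    rw [e1]
    conv_lhs => arg 3; rw [he]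
    rw [inner_add_right, inner_add_right, real_inner_smul_right, real_inner_smul_right]
  have key : C₀⁻¹ ≤ ‖II F x (ev 0)‖ * C₀ + 6 * C₀ ^ 3 * η := by
    refine hq.trans ?_
    rw [hqm]
    refine (abs_add_le _ _).trans (add_le_add ((abs_real_inner_le_norm _ _).trans
      (mul_le_mul_of_nonneg_left hm (norm_nonneg _))) ?_)
    calc |a * ⟪q, u⟫ + c * ⟪q, v⟫| ≤ |a| * |⟪q, u⟫| + |c| * |⟪q, v⟫| := by
          rw [← abs_mul, ← abs_mul]; exact abs_add_le _ _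
      _ ≤ C₀ * (3 * C₀ * η) * C₀ + C₀ * (3 * C₀ * η) * C₀ := by
          gcongr
          · exact hac.1.trans (mul_le_mul_of_nonneg_left hrη (by linarith))
          · exact hac.2.trans (mul_le_mul_of_nonneg_left hrη (by linarith))
      _ = _ := by ring
  have hsmall : 6 * C₀ ^ 3 * η ≤ C₀⁻¹ / 2 := by
    calc 6 * C₀ ^ 3 * η ≤ 6 * C₀ ^ 3 * (12 * C₀ ^ 4)⁻¹ := by gcongr
      _ = _ := by field_simp; ring
  have h2 : (2 * C₀ ^ 2)⁻¹ * C₀ = C₀⁻¹ / 2 := by field_simp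
  exact le_of_mul_le_mul_right (by linarith) (show (0 : ℝ) < C₀ by linarith)

end Vale.Agent.P205F.Expand
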