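import Vale.Agent.P205F.Expand.FamParts
import Vale.Agent.P205F.Expand.Geom

/-!
# P205, expansions: the environment at a point of the family
-/

namespace Vale.Agent.P205F.Expand

open Set Filter
open scoped ContDiff RealInnerProductSpace Topology

/-- The projection to the normals does not increase lengths. -/
lemma norm_nrm_le (F : E2 → R4) (x : E2) (z : R4) : ‖nrm F x z‖ ≤ ‖z‖ := by
  obtain ⟨a, c, e⟩ := Geom.nrm_decomp F x z
  have h : ⟪nrm F x z, z - nrm F x z⟫ = 0 := by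
    have e' : z - nrm F x z = a • pd 0 F x + c • pd 1 F x := sub_eq_iff_eq_add'.2 e
    rw [e', inner_add_right, inner_smul_right, inner_smul_right, real_inner_comm (pd 0 F x),
      real_inner_comm (pd 1 F x), Geom.nrm_orth, Geom.nrm_orth]
    ring
  rw [inner_sub_right, real_inner_self_eq_norm_mul_norm, sub_eq_zero] at h
  by_contra hlt
  have := real_inner_le_norm (nrm F x z) z
  nlinarith [norm_nonneg z, not_le.1 hlt]

/-- `EnvStmt`. -/
theorem envStmt : EnvStmt := by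
  intro b B Lp hg hχ hN f hf hfX K hK hKN d W G hG hgG
  obtain ⟨Cg, η₀, hCg, hη₀, hgeo⟩ := geomStmt b B Lp hg hχ hN K hK hKN
  obtain ⟨C0, hC0, h0⟩ := pd_lead (B := B) hf hG hgG 0
  obtain ⟨C1, hC1, h1⟩ := pd_lead (B := B) hf hG hgG 1
  choose Cf hCf hfb using fun q : Fin 15 × Fin 15 => famF_jet hf hG hK
    (show (q.1 : ℕ) ≤ 14 by omega) (q.2 : ℕ)
  obtain ⟨C2, hC2, h2⟩ := famF_jet hf hG hK (Nat.zero_le 14) 2
  have hr : ContDiff ℝ ∞ B.r := B.r_coef.js.slow 0
  choose Cr hCr using fun q : Fin 12 × Fin 12 => hK.exists_bound_of_continuousOn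
    (smooth_jd hr q.1 q.2).continuous.continuousOn
  choose Cs hCs using fun q : Fin 12 × Fin 12 => hK.exists_bound_of_continuousOn
    (smooth_jd (hr.pow 2) q.1 q.2).continuous.continuousOn
  set Cn := C0 + C1 with hCn
  have hsf := Finset.sum_nonneg (s := Finset.univ) fun q _ => hCf q
  have hsr := Finset.sum_nonneg (s := Finset.univ) fun q _ => abs_nonneg (Cr q)
  have hss := Finset.sum_nonneg (s := Finset.univ) fun q _ => abs_nonneg (Cs q)
  set C := 2 + Cg * (1 + 2 * C2) + Cg * Cn + ∑ q, Cf q + ∑ q, |Cr q| + ∑ q, |Cs q| + C2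
    with hC
  have hCgn : 0 ≤ Cg * Cn := by positivity
  have hCg2 : Cg ≤ Cg * (1 + 2 * C2) := by nlinarith
  have hC2' : 2 ≤ C := by nlinarith
  refine ⟨C, ⌈Cn / η₀⌉₊, hC2', fun p hp hpM l hl x hx => ?_⟩
  intro F s
  have hM1 := hp.one_le_M
  have hT1 : (1 : ℝ) ≤ (p.M : ℝ) ^ 14 := one_le_pow₀ hM1
  set T := C * (p.M : ℝ) ^ 14 with hT
  have hCT : C ≤ T := le_mul_of_one_le_right (by linarith) hT1
  have hε := eps_nonneg p
  have hε1 := eps_le_one hp
  have hη : Cn * eps p ≤ η₀ := by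
    have hh : Cn / η₀ ≤ p.M := (Nat.le_ceil _).trans (by exact_mod_cast hpM)
    rw [div_le_iff₀ hη₀] at hh
    show Cn * (p.M : ℝ)⁻¹ ≤ η₀
    rw [← div_eq_mul_inv, div_le_iff₀ hp.M_pos]
    linarith
  have hFs : ContDiff ℝ ∞ F :=
    (famF_smooth hf hG.val.js p).comp (contDiff_const.prodMk contDiff_id)
  have hev : ∀ᶠ y in 𝓝 x, B.X0 y = pd 0 f y ∧ B.X1 y = pd 1 f y :=
    eventually_of_mem (B.N_open.mem_nhds (hKN hx)) fun y hy => hfX y hy
  have hX1 : ContDiff ℝ ∞ B.X1 := B.X1_coef.js.slow 0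
  have hnear : NearLead b B F x (p.M * x 0) (Cn * eps p) := by
    obtain ⟨a0, a1⟩ := h0 p hp l hl x hev
    obtain ⟨-, b1⟩ := h1 p hp l hl x hev
    refine ⟨?_, ?_, fun _ => ?_⟩
    · refine (le_trans (le_of_eq ?_) a0).trans (mul_le_mul_of_nonneg_right (by linarith) hε)
      simp [jd, rl, gF, cf, phase_apply, F]
    · refine (le_trans (le_of_eq ?_) a1).trans (mul_le_mul_of_nonneg_right (by linarith) hε)
      simp [jd, F]
    · refine (le_trans (le_of_eq ?_) b1).trans (mul_le_mul_of_nonneg_right (by linarith) hε)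
      rw [jd_sub 0 1 (smooth_pd hFs 1) hX1]
      rfl
  obtain ⟨gimm, -, -, ⟨q1, q2, q3, q4⟩, gspan, gspan', gframe⟩ := hgeo F hFs x hx _ _ hη hnear
  have e0 : s 0 = freePart b F x (Lp.σ x (p.M * x 0)) := by simp [s, sF]
  have e1 : s 1 = free2 b B F x := by simp [s, sF]
  have hclose : ∀ c, (b = false ∨ c = 0) → ‖s c - fldOf B Lp c x (p.M * x 0)‖ ≤ C * eps p := by
    intro c hc
    have hle : Cg * (Cn * eps p) ≤ C * eps p := by
      rw [← mul_assoc]; exact mul_le_mul_of_nonneg_right (by nlinarith) hε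
    obtain rfl | rfl : c = 0 ∨ c = 1 := by omega
    · rw [e0, show fldOf B Lp 0 x (p.M * x 0) = Lp.σ x (p.M * x 0) by simp [fldOf]]
      exact q3.trans hle
    · have hb : b = false := hc.resolve_right (by decide)
      rw [e1, show fldOf B Lp 1 x (p.M * x 0) = B.V x by simp [fldOf, hχ, hb]]
      exact (q4 hb).trans hle
  have hs : ∀ c, ‖s c‖ ≤ C := by
    intro c
    have h1σ : ‖Lp.σ x (p.M * x 0)‖ = 1 := (Lp.frame x (hKN hx) _).2.1
    have hCe : Cg * (Cn * eps p) ≤ Cg * Cn :=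
      mul_le_mul_of_nonneg_left (mul_le_of_le_one_right (by positivity) hε1) (by linarith)
    obtain rfl | rfl : c = 0 ∨ c = 1 := by omega
    · rw [e0]
      calc _ ≤ ‖Lp.σ x (p.M * x 0)‖ + ‖freePart b F x (Lp.σ x (p.M * x 0)) - Lp.σ x (p.M * x 0)‖ :=
            norm_le_norm_add_norm_sub' _ _
        _ ≤ _ := by rw [h1σ]; nlinarith
    · rw [e1]
      by_cases hb : b = false
      · calc _ ≤ ‖B.V x‖ + ‖free2 b B F x - B.V x‖ := norm_le_norm_add_norm_sub' _ _
          _ ≤ _ := by rw [((hN x (hKN hx)).2.2 hb).1]; nlinarith [q4 hb]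
      · rw [free2, if_pos (by simpa using hb), norm_zero]; linarith
  have hs1 : b = true → s 1 = 0 := fun hb => by rw [e1, free2, if_pos hb]
  have hspan : ∀ τ, Free b F x τ →
      ∃ a c : ℝ, τ = a • s 0 + c • s 1 ∧ |a| ≤ C * ‖τ‖ ∧ |c| ≤ C * ‖τ‖ := fun τ hτ => by
    obtain ⟨a, c, e, ha, hc⟩ := gspan τ hτ
    have hCC : Cg * ‖τ‖ ≤ C * ‖τ‖ := mul_le_mul_of_nonneg_right (by linarith) (norm_nonneg _)
    exact ⟨a, c, by rw [e0, e1]; exact e, ha.trans hCC, hc.trans hCC⟩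
  have hspan' : b = true → ∀ τ, nrm F x τ = τ → ∃ a c : ℝ,
      τ = a • s 0 + c • II F x (ev 1) ∧ |a| ≤ C * ‖τ‖ ∧ |c| ≤ C * ‖τ‖ := fun hb τ hτ => by
    obtain ⟨a, c, e, ha, hc⟩ := gspan' hb τ hτ
    have hCC : Cg * ‖τ‖ ≤ C * ‖τ‖ := mul_le_mul_of_nonneg_right (by linarith) (norm_nonneg _)
    exact ⟨a, c, by rw [e0]; exact e, ha.trans hCC, hc.trans hCC⟩
  have hyy : ‖pd 1 (pd 1 F) x‖ ≤ C2 := by
    have h := h2 p hp l hl x hx
    rw [pow_zero, mul_one] at h
    exact h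
  have hIIw : ‖II F x (ev 1)‖ ≤ C2 := (norm_nrm_le F x (pd 1 (pd 1 F) x)).trans hyy
  have hII : ‖II F x (ev 1)‖ ≤ C := hIIw.trans (by linarith)
  refine ⟨⟨hFs, hr, hC2'.trans hCT, hχ, fun a c hac => ?_, fun a c hac => ?_, fun v => ?_,
    fun k => ⟨?_, (hs k).trans hCT⟩, fun τ hτ => ?_, fun hb => ?_⟩,
    hclose, hs, hs1, hspan, hspan', hII⟩
  · refine (hfb (⟨a, by omega⟩, ⟨c, by omega⟩) p hp l hl x hx).trans ?_
    refine mul_le_mul ?_ (pow_le_pow_right₀ hM1 (by dsimp; omega)) (by positivity) (by linarith)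
    have := Finset.single_le_sum (fun q _ => hCf q) (Finset.mem_univ
      ((⟨a, by omega⟩, ⟨c, by omega⟩) : Fin 15 × Fin 15))
    linarith
  · set q : Fin 12 × Fin 12 := (⟨a, by omega⟩, ⟨c, by omega⟩) with hq
    have u1 := Finset.single_le_sum (fun q _ => abs_nonneg (Cr q)) (Finset.mem_univ q)
    have u2 := Finset.single_le_sum (fun q _ => abs_nonneg (Cs q)) (Finset.mem_univ q)
    exact ⟨(hCr q x hx).trans (by linarith [le_abs_self (Cr q)]),
      (hCs q x hx).trans (by linarith [le_abs_self (Cs q)])⟩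
  · refine (gframe v).trans ?_
    rw [e0, e1]
    exact mul_le_mul_of_nonneg_right (by linarith) (by positivity)
  · obtain rfl | rfl : k = 0 ∨ k = 1 := by omega
    · rw [e0]; exact q1
    · rw [e1]; exact q2
  · obtain ⟨a, c, e, ha, hc⟩ := hspan τ hτ
    exact ⟨a, c, e, ha.trans (mul_le_mul_of_nonneg_right hCT (norm_nonneg _)),
      hc.trans (mul_le_mul_of_nonneg_right hCT (norm_nonneg _))⟩
  · obtain ⟨a, c, e⟩ := Geom.II_decomp F x
    have hw := gimm (a • ev 0 + c • ev 1)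
    rw [map_add, map_smul, map_smul] at hw
    have e' : a • fderiv ℝ F x (ev 0) + c • fderiv ℝ F x (ev 1) =
        pd 1 (pd 1 F) x - II F x (ev 1) := by
      rw [e, add_sub_cancel_left]; rfl
    rw [e'] at hw
    have hb2 : ‖pd 1 (pd 1 F) x - II F x (ev 1)‖ ≤ 2 * C2 := (norm_sub_le _ _).trans (by linarith)
    have hwC : ‖a • (ev 0 : E2) + c • ev 1‖ ≤ T :=
      (hw.trans (mul_le_mul_of_nonneg_left hb2 (by linarith))).trans (le_trans (by nlinarith) hCT)
    refine ⟨-a, -c, ?_, ?_, ?_⟩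
    · rw [e, neg_smul, neg_smul]; abel
    · rw [abs_neg]
      refine le_trans ?_ hwC
      simpa [ev] using PiLp.norm_apply_le (a • (ev 0 : E2) + c • ev 1) 0
    · rw [abs_neg]
      refine le_trans ?_ hwC
      simpa [ev] using PiLp.norm_apply_le (a • (ev 0 : E2) + c • ev 1) 1

end Vale.Agent.P205F.Expand
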