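import Vale.Agent.P205F.Expand.Lead

/-!
# P205, expansions: estimates of the jets of a family and of its variations at a point
-/

namespace Vale.Agent.P205F.Expand

open scoped ContDiff RealInnerProductSpace Topology
open Filter Set

variable {d : ℕ} {W : Wts d} {k : Fin d} {X : Type} [NormedAddCommGroup X] [NormedSpace ℝ X]

/-- Jets in `y` of a realisation, from the class alone. -/
lemma jd0_bound {wt : Ix → ℕ → ℝ} {N : ℕ∞} {Φ : Fm d X} (h : Cls wt N Φ) (b : ℕ) :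
    ∃ C, 0 ≤ C ∧ ∀ p, Adm p → ∀ l ∈ Box d, ∀ x,
      ‖jd 0 b (fun y => rl Φ p (l, y)) x‖ ≤ C * wt p 0 := by
  have h1 : Cls wt N (D1^[b] Φ) := by
    induction b with
    | zero => exact h
    | succ b ih => rw [Function.iterate_succ_apply']; exact ih.D1
  obtain ⟨C, hC, hb⟩ := h1.bd 0 0 bot_le
  refine ⟨C, hC, fun p hp l hl x => ?_⟩
  rw [jd_rl h.js]
  simpa [rl] using hb p hp (l, x) hl (phase d p (l, x))

/-- Jets of values at the level `j`. -/
lemma Vc.jd_bound {Φ : Fm d X} {j : ℕ} (h : Vc W j Φ) {a : ℕ} (ha : a ≤ 14) (b : ℕ) :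
    ∃ C, 0 ≤ C ∧ ∀ p, Adm p → ∀ l ∈ Box d, ∀ x,
      ‖jd a b (fun y => rl Φ p (l, y)) x‖ ≤ C * (eps p ^ j * (p.M : ℝ) ^ a) := by
  have h' : Cls (fun p i => eps p ^ j * ((1 : ℕ) : ℝ) ^ i) (14 : ℕ) Φ :=
    Cls.mono (N' := (14 : ℕ)) h le_top fun i hi => ⟨1, zero_le_one, fun p _ => by
      rw [vw_small ((WithTop.coe_le_coe.1 hi).trans W.th_le)]; simp⟩
  obtain ⟨C, hC, hb⟩ := cls_D_bound (L := fun _ => 1) (fun p _ => pow_nonneg (eps_nonneg p) _)
    (fun _ _ => le_rfl) h' a ha b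
  refine ⟨C, hC, fun p hp l hl x => ?_⟩
  rw [jd_rl h.js]
  simpa [rl] using hb p hp (l, x) hl (phase d p (l, x))

/-- Jets of a variation class. -/
lemma tw_jd_bound {Φ : Fm d X} {τ : Ix → ℝ} (hτ : ∀ p, 0 ≤ τ p) {j : ℕ}
    (h : Cls (tw W k j τ) (12 : ℕ) Φ) {a : ℕ} (ha : a ≤ 12) (b : ℕ) :
    ∃ C, 0 ≤ C ∧ ∀ p, Adm p → ∀ l ∈ Box d, ∀ x, ‖jd a b (fun y => rl Φ p (l, y)) x‖ ≤
      C * (eps p ^ j * W.amp p k * τ p * ((p.M : ℝ) * W.freq p k) ^ a) := by
  have h' : Cls (fun p i => eps p ^ j * W.amp p k * τ p * (W.freq p k : ℝ) ^ i) (12 : ℕ) Φ :=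
    h.mono_le fun p i _ => le_of_eq (by simp only [tw]; ring)
  obtain ⟨C, hC, hb⟩ := cls_D_bound (L := fun p => W.freq p k)
    (fun p _ => mul_nonneg (mul_nonneg (pow_nonneg (eps_nonneg p) _) (W.amp_nonneg p k)) (hτ p))
    (fun p hp => W.freq_pos p k hp) h' a ha b
  refine ⟨C, hC, fun p hp l hl x => ?_⟩
  rw [jd_rl h.js]
  simpa [rl] using hb p hp (l, x) hl (phase d p (l, x))

lemma rl_smooth {Φ : Fm d X} (h : ∀ p, Js (Φ p)) (p : Ix) (l : Fin d → ℝ) :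
    ContDiff ℝ ∞ fun y => rl Φ p (l, y) :=
  (contDiff_rl h p).comp (contDiff_const.prodMk contDiff_id)

lemma jd_congr_at {g g' : E2 → X} {x : E2} (h : g =ᶠ[𝓝 x] g') (a b : ℕ) :
    jd a b g x = jd a b g' x := by
  have step : ∀ (i : Fin 2) {g g' : E2 → X}, g =ᶠ[𝓝 x] g' → pd i g =ᶠ[𝓝 x] pd i g' :=
    fun i g g' h => h.eventuallyEq_nhds.mono fun y hy => by simp [pd, hy.fderiv_eq]
  have it : ∀ (i : Fin 2) (n : ℕ) {g g' : E2 → X}, g =ᶠ[𝓝 x] g' →
      (pd i)^[n] g =ᶠ[𝓝 x] (pd i)^[n] g' := fun i n => by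
    induction n with
    | zero => exact fun h => h
    | succ n ih => intro g g' h; simp only [Function.iterate_succ_apply']; exact step i (ih h)
  exact (it 0 a (it 1 b h)).eq_of_nhds

lemma jd_sub (a b : ℕ) {g g' : E2 → X} (h : ContDiff ℝ ∞ g) (h' : ContDiff ℝ ∞ g') (x : E2) :
    jd a b (fun y => g y - g' y) x = jd a b g x - jd a b g' x := by
  rw [show (fun y => g y - g' y) = g + (-1 : ℝ) • g' by funext y; simp [sub_eq_add_neg],
    jd_add (g' := (-1 : ℝ) • g') h (h'.const_smul (-1 : ℝ)), Pi.add_apply, jd_smul h']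
  simp [sub_eq_add_neg]

/-- The jets of the variation of an oscillating seed. -/
theorem osc_jet {L : Ix → ℕ} {φ : ℝ → ℝ} {C : E2 → ℝ → R4} {s : Ix → E2 → ℝ → R4}
    {R G : Fm d R4} (hO : Osc W k L φ C s R) (hL : Freq L) (hφ : Profile φ)
    (hf : ∀ p, W.freq p k = L p) (hG : ∀ p, Js (G p))
    (hE : Cls (tw W k W.Q fun p => ((L p : ℝ))⁻¹ + eps p) (12 : ℕ) (dk k G - sdF d s))
    (hs : ∀ p, Js (sdF d s p)) {a : ℕ} (ha : a ≤ 11) (b : ℕ) :
    ∃ Cst, 0 ≤ Cst ∧ ∀ p, Adm p → ∀ l ∈ Box d, ∀ x,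
      ‖jd a b (fun y => rl (dk k G) p (l, y)) x - (eps p ^ W.Q * W.amp p k * ((p.M : ℝ) * L p) ^ a) •
          (deriv^[a + 1] φ (L p * (p.M * x 0)) • jd 0 b (fun y => C y (p.M * x 0)) x)‖ ≤
        Cst * (eps p ^ W.Q * W.amp p k * ((p.M : ℝ) * L p) ^ a * (((L p : ℝ))⁻¹ + eps p)) := by
  have hτ : ∀ p, 0 ≤ ((L p : ℝ))⁻¹ + eps p := fun p =>
    add_nonneg (inv_nonneg.2 (Nat.cast_nonneg _)) (eps_nonneg p)
  obtain ⟨C1, hC1, h1⟩ := tw_jd_bound hτ hE (show a ≤ 12 by omega) b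
  set Φ0 : Fm d R4 := fun p z t => pL d L (deriv φ) p z t • C z.2 t + R p z t with hΦ0
  have hΦ0j : ∀ p, Js (Φ0 p) := fun p =>
    ((pL_js L hφ.deriv p).smul (hO.coef.js.pull (ContinuousLinearMap.snd ℝ (Fin d → ℝ) E2))).add
      (hO.rem.js p)
  have h0 : HasLead L (deriv φ) C Φ0 := ⟨R, hO.rem, fun _ _ _ _ => rfl⟩
  obtain ⟨R', hR', he⟩ := h0.iter hL hφ.deriv hO.coef hΦ0j b a
  obtain ⟨C2, hC2, h2⟩ := hR'.bd 0 0 bot_le
  have es : sdF d s = fun p z t => (eps p ^ W.Q * W.amp p k) • Φ0 p z t :=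
    funext fun p => funext fun z => funext fun t => hO.eq p z t
  refine ⟨C1 + C2, by positivity, fun p hp l hl x => ?_⟩
  have hdk : ∀ q, Js (dk k G q) := fun q => (hG q).dir (pv k)
  have e : jd a b (fun y => rl (dk k G) p (l, y)) x = jd a b (fun y => rl (sdF d s) p (l, y)) x +
      jd a b (fun y => rl (dk k G - sdF d s) p (l, y)) x := by
    rw [← Pi.add_apply (jd a b fun y => rl (sdF d s) p (l, y)),
      ← jd_add (g' := fun y => rl (dk k G - sdF d s) p (l, y)) (rl_smooth hs p l)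
        (rl_smooth (Φ := dk k G - sdF d s) (fun q => (hdk q).sub (hs q)) p l)]
    exact congrFun (congrArg (jd a b) (funext fun y => by simp [rl])) x
  have hLp : (0 : ℝ) < L p := by exact_mod_cast hL p hp
  have hP : (0 : ℝ) < ((p.M : ℝ) * L p) ^ a := by have := hp.M_pos; positivity
  have e2 : jd a b (fun y => rl (sdF d s) p (l, y)) x =
      (eps p ^ W.Q * W.amp p k * ((p.M : ℝ) * L p) ^ a) •
        (deriv^[a + 1] φ (L p * (p.M * x 0)) • jd 0 b (fun y => C y (p.M * x 0)) x +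
          R' p (l, x) (phase d p (l, x))) := by
    rw [es, jd_rl (Φ := fun p z t => (eps p ^ W.Q * W.amp p k) • Φ0 p z t)
        (fun q => (hΦ0j q).clm ((eps q ^ W.Q * W.amp q k) • ContinuousLinearMap.id ℝ R4)),
      D1_iter_smul_ix _ b hΦ0j, D0_iter_smul_ix _ a (D1_iter_js hΦ0j b)]
    simp only [rl]
    have e' := he p hp (l, x) (phase d p (l, x))
    rw [inv_smul_eq_iff₀ hP.ne'] at e'
    rw [e', smul_smul, ← dC_eq C x (p.M * x 0) b, Function.iterate_succ_apply]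
    rfl
  rw [e, e2, smul_add, add_assoc, add_sub_cancel_left]
  refine (norm_add_le _ _).trans ?_
  have b2 : ‖R' p (l, x) (phase d p (l, x))‖ ≤ C2 * (((L p : ℝ))⁻¹ + eps p) := by
    have := h2 p hp (l, x) hl (phase d p (l, x))
    simp only [Function.iterate_zero, id_eq, norm_iteratedFDeriv_zero, ow, pow_zero, one_mul,
      pow_one] at this
    exact this.trans (mul_le_mul_of_nonneg_left (le_add_of_nonneg_right (eps_nonneg p)) hC2)
  have b1 := h1 p hp l hl x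
  rw [hf] at b1
  rw [norm_smul, Real.norm_eq_abs, abs_of_nonneg (mul_nonneg (mul_nonneg
    (pow_nonneg (eps_nonneg p) _) (W.amp_nonneg p k)) hP.le)]
  refine (add_le_add (mul_le_mul_of_nonneg_left b2 (mul_nonneg (mul_nonneg
    (pow_nonneg (eps_nonneg p) _) (W.amp_nonneg p k)) hP.le)) b1).trans (le_of_eq ?_)
  ring

/-- The jets of the variation of a slow seed `M^-Q Y`. -/
theorem slow_jet {Y : E2 → R4} (hY : ContDiff ℝ ∞ Y) {G : Fm d R4} (hG : ∀ p, Js (G p))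
    (hf : ∀ p, W.freq p k = 1) (ha1 : ∀ p, W.amp p k = 1)
    (hE : Cls (tw W k W.Q fun p => eps p + eps p) (12 : ℕ)
      (dk k G - sdF d fun p x _ => eps p ^ W.Q • Y x)) {a : ℕ} (ha : a ≤ 11) (b : ℕ) :
    ∃ C, 0 ≤ C ∧ ∀ p, Adm p → ∀ l ∈ Box d, ∀ x,
      ‖jd a b (fun y => rl (dk k G) p (l, y)) x - eps p ^ W.Q • jd a b Y x‖ ≤
        C * (eps p ^ (W.Q + 1) * (p.M : ℝ) ^ a) := by
  obtain ⟨C1, hC1, h1⟩ := tw_jd_bound (fun p => add_nonneg (eps_nonneg p) (eps_nonneg p)) hE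
    (show a ≤ 12 by omega) b
  refine ⟨2 * C1, by positivity, fun p hp l hl x => ?_⟩
  have hdk : ∀ q, Js (dk k G q) := fun q => (hG q).dir (pv k)
  have hs : ∀ q, Js (sdF d (fun p x _ => eps p ^ W.Q • Y x) q) := fun q =>
    ((hY.comp (contDiff_snd.comp contDiff_fst)).const_smul (eps q ^ W.Q))
  have e1 : jd a b (fun y => rl (dk k G) p (l, y)) x - eps p ^ W.Q • jd a b Y x =
      jd a b (fun y => rl (dk k G - sdF d fun p x _ => eps p ^ W.Q • Y x) p (l, y)) x := by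
    rw [← Pi.smul_apply, ← jd_smul hY, ← jd_sub a b (g' := eps p ^ W.Q • Y) (rl_smooth hdk p l) (hY.const_smul (eps p ^ W.Q))]
    rfl
  rw [e1]
  refine (h1 p hp l hl x).trans (le_of_eq ?_)
  rw [ha1, hf, pow_succ]
  simp
  ring

/-- Jets of the variation of an error at the level `J`. -/
theorem low_dk_jet {Φ : Fm d ℝ} {J : ℕ} (h : Low W J Φ) (k : Fin d) {a : ℕ} (ha : a ≤ 11) (b : ℕ) :
    ∃ C, 0 ≤ C ∧ ∀ p, Adm p → ∀ l ∈ Box d, ∀ x, ‖jd a b (fun y => rl (dk k Φ) p (l, y)) x‖ ≤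
      C * (eps p ^ J * W.amp p k * W.freq p k * ((p.M : ℝ) * W.freq p k) ^ a) := by
  obtain ⟨Ψ, hΨ, hR⟩ := h.sens k
  have h1 : Cls (fun p i => eps p ^ J * W.amp p k * W.freq p k * (W.freq p k : ℝ) ^ i) (11 : ℕ)
      (dk k Φ) := by
    have hw : ∀ p i, Adm p → sw W k J p i ≤
        eps p ^ J * W.amp p k * W.freq p k * (W.freq p k : ℝ) ^ i ∧ sw W k J p (i + 1) ≤
        eps p ^ J * W.amp p k * W.freq p k * (W.freq p k : ℝ) ^ i := fun p i hp => by
      have e : sw W k J p (i + 1) ≤ eps p ^ J * W.amp p k * W.freq p k * (W.freq p k : ℝ) ^ i := by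
        rw [sw, mul_assoc, mul_assoc (eps p ^ J), pow_succ' (W.freq p k : ℝ)]
        exact mul_le_mul_of_nonneg_right (eps_pow_le hp (le_max_left _ _))
          (mul_nonneg (W.amp_nonneg p k) (by positivity))
      exact ⟨(sw_mono le_rfl i.le_succ hp).trans e, e⟩
    have a1 : Cls (fun p i => eps p ^ J * W.amp p k * W.freq p k * (W.freq p k : ℝ) ^ i) (11 : ℕ)
        (dk k Φ - dtF Ψ) := Cls.mono (N' := (11 : ℕ)) hR (WithTop.coe_le_coe.2 (by norm_num)) fun i _ =>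
      ⟨1, zero_le_one, fun p hp => by rw [one_mul]; exact (hw p i hp).1⟩
    have a2 : Cls (fun p i => eps p ^ J * W.amp p k * W.freq p k * (W.freq p k : ℝ) ^ i) (11 : ℕ)
        (fun M => dt (Ψ M)) := hΨ.deriv (N' := (11 : ℕ))
      (fun i hi => WithTop.coe_le_coe.2 (Nat.succ_le_succ (WithTop.coe_le_coe.1 hi)))
      fun i _ => ⟨1, zero_le_one, fun p hp => by rw [one_mul]; exact (hw p i hp).2⟩
    have := a1.add a2
    rwa [show (dk k Φ - dtF Ψ) + (fun M => dt (Ψ M)) = dk k Φ from sub_add_cancel _ _] at this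
  obtain ⟨C, hC, hb⟩ := cls_D_bound (L := fun p => W.freq p k)
    (fun p hp => mul_nonneg (mul_nonneg (pow_nonneg (eps_nonneg p) _) (W.amp_nonneg p k))
      (Nat.cast_nonneg _))
    (fun p hp => W.freq_pos p k hp) h1 a ha b
  refine ⟨C, hC, fun p hp l hl x => ?_⟩
  rw [jd_rl (Φ := dk k Φ) fun q => (h.val.js q).dir (pv k)]
  simpa [rl] using hb p hp (l, x) hl (phase d p (l, x))

variable {B : Base} {f : E2 → R4} {G : Fm d R4}

/-- Jets of the family. -/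
theorem famF_jet (hf : ContDiff ℝ ∞ f) (hG : Up W 0 G) {K : Set E2} (hK : IsCompact K) {a : ℕ}
    (ha : a ≤ 14) (b : ℕ) : ∃ C, 0 ≤ C ∧ ∀ p, Adm p → ∀ l ∈ Box d, ∀ x ∈ K,
      ‖jd a b (famF f G p l) x‖ ≤ C * (p.M : ℝ) ^ a := by
  obtain ⟨C1, hC1, h1⟩ := hG.val.jd_bound ha b
  obtain ⟨C2, h2⟩ := hK.exists_bound_of_continuousOn (smooth_jd hf a b).continuous.continuousOn
  refine ⟨|C2| + C1, by positivity, fun p hp l hl x hx => ?_⟩
  have hr := rl_smooth hG.val.js p l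
  rw [show famF f G p l = f + eps p • fun y => rl G p (l, y) from rfl,
    jd_add (g' := eps p • fun y => rl G p (l, y)) hf (hr.const_smul (eps p)), jd_smul hr, add_mul]
  refine (norm_add_le _ _).trans (add_le_add (((h2 x hx).trans (le_abs_self _)).trans
    (le_mul_of_one_le_right (abs_nonneg _) (one_le_pow₀ hp.one_le_M))) ?_)
  simp only [Pi.smul_apply, norm_smul, Real.norm_eq_abs, abs_of_nonneg (eps_nonneg p)]
  refine (mul_le_of_le_one_left (norm_nonneg _) (eps_le_one hp)).trans ?_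
  simpa using h1 p hp l hl x

/-- First derivatives against the leading term, with all `y` derivatives. -/
theorem pd_lead (hf : ContDiff ℝ ∞ f) (hG : Up W 0 G) (hg : Low W 1 (dtF G - gF d B)) (b : ℕ) :
    ∃ C, 0 ≤ C ∧ ∀ p, Adm p → ∀ l ∈ Box d, ∀ x,
      (∀ᶠ y in 𝓝 x, B.X0 y = pd 0 f y ∧ B.X1 y = pd 1 f y) →
      ‖jd 0 b (fun y => pd 0 (famF f G p l) y -
          (B.X0 y + rl (gF d B) p (l, y))) x‖ ≤ C * eps p ∧
        ‖jd 0 b (fun y => pd 1 (famF f G p l) y - B.X1 y) x‖ ≤ C * eps p := by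
  have hd : Low W 1 (h0 G - gF d B) := by
    rw [show h0 G - gF d B = (dtF G - gF d B) + fun p z t => eps p • dx (ev 0) G p z t by
      rw [h0]; abel]
    exact hg.add hG.dx0_smul.low
  obtain ⟨C0, hC0, b0⟩ := hd.val.jd_bound (Nat.zero_le 14) b
  obtain ⟨C1, hC1, b1⟩ := hG.h1.val.jd_bound (Nat.zero_le 14) b
  refine ⟨max C0 C1, le_max_of_le_left hC0, fun p hp l hl x hx => ?_⟩
  have k0 : jd 0 b (fun y => pd 0 (famF f G p l) y - (B.X0 y + rl (gF d B) p (l, y))) x =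
      jd 0 b (fun y => rl (h0 G - gF d B) p (l, y)) x := jd_congr_at (hx.mono fun y hy => by
    rw [(pd_famF hf hG.val.js p l y).1, hy.1]
    simp [rl]) _ _
  have k1 : jd 0 b (fun y => pd 1 (famF f G p l) y - B.X1 y) x =
      jd 0 b (fun y => rl (h1 G) p (l, y)) x := jd_congr_at (hx.mono fun y hy => by
    rw [(pd_famF hf hG.val.js p l y).2, hy.2]; simp) _ _
  have e0 := b0 p hp l hl x
  have e1 := b1 p hp l hl x
  rw [pow_one, pow_zero, mul_one] at e0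
  rw [zero_add, pow_one, pow_zero, mul_one] at e1
  rw [k0, k1]
  exact ⟨e0.trans (mul_le_mul_of_nonneg_right (le_max_left _ _) (eps_nonneg p)),
    e1.trans (mul_le_mul_of_nonneg_right (le_max_right _ _) (eps_nonneg p))⟩

end Vale.Agent.P205F.Expand
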