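import Vale.Agent.P205F.Expand.Resp

/-!
# P205, expansions: the expansion with parameters

First an expansion without parameters, supported where the amplitude is; then the seeds, their
means, and the remaining steps. The variation in a parameter is the seed up to `τ + 1/M`.
-/

namespace Vale.Agent.P205F.Expand

open scoped ContDiff RealInnerProductSpace Topology
open Filter Set

variable {d : ℕ} {W : Wts d}

/-- The same data with a smaller carrier. -/
def Base.shrink (B : Base) (S' : Set E2) (hc : IsClosed S') (hsub : S' ⊆ B.S)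
    (ha : ∀ x ∉ S', B.a x = 0) (hg : ∀ x ∉ S', ∀ t, B.g0 x t = 0) : Base :=
  { B with
    S := S'
    S_compact := B.S_compact.of_isClosed_subset hc hsub
    S_sub := hsub.trans B.S_sub
    a_zero := ha
    g0_zero := hg
    rop := fun q hq h0 => B.rop q hq fun x hx => h0 x fun hx' => hx (hsub hx') }

lemma St.of_shrink {B : Base} {S' : Set E2} {hc : IsClosed S'} {hsub : S' ⊆ B.S}
    {ha : ∀ x ∉ S', B.a x = 0} {hg : ∀ x ∉ S', ∀ t, B.g0 x t = 0} {j k n m : ℕ} {G : Fm d R4}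
    (h : St (B.shrink S' hc hsub ha hg) W j k n m G) : St B W j k n m G :=
  ⟨h.up, h.g, fun p z t hz => h.off p z t fun hz' => hz (hsub hz'), h.l0, h.l1, h.u2, h.o2,
    h.m0, h.m1, h.m2⟩

/-- Weights without parameters. -/
def W0 {d : ℕ} (W : Wts d) : Wts 0 :=
  ⟨W.κ, 0, fun _ _ => 1, fun _ _ => 0, W.th, W.th_le, fun _ _ => le_rfl, fun _ _ _ => le_rfl⟩

lemma dk_meanRhs {B : Base} {G : Fm d R4} (h0 : ∀ p, Js (r0 B G p)) (h1 : ∀ p, Js (r1 B G p))
    (h2 : ∀ p, Js (r2 B G p)) (k : Fin d) :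
    dk k (meanRhs B G) = -(
      (fun p z t => ContinuousLinearMap.single ℝ (fun _ : Fin 3 => ℝ) 0 (meanF (dk k (r0 B G)) p z t)) +
      (fun p z t => ContinuousLinearMap.single ℝ (fun _ : Fin 3 => ℝ) 1 (meanF (dk k (r1 B G)) p z t)) +
      fun p z t =>
        ContinuousLinearMap.single ℝ (fun _ : Fin 3 => ℝ) 2 (meanF (dk k (r2 B G)) p z t)) := by
  have hm : ∀ {Φ : Fm d ℝ}, (∀ p, Js (Φ p)) → ∀ p, Js (meanF Φ p) :=
    fun h p => (mean_smooth (h p)).comp contDiff_fst
  rw [← dk_meanF k h0, ← dk_meanF k h1, ← dk_meanF k h2]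
  set A : Fm d S3 := fun p z t =>
    ContinuousLinearMap.single ℝ (fun _ : Fin 3 => ℝ) 0 (meanF (r0 B G) p z t) with hA
  set A' : Fm d S3 := fun p z t =>
    ContinuousLinearMap.single ℝ (fun _ : Fin 3 => ℝ) 1 (meanF (r1 B G) p z t) with hA'
  set A'' : Fm d S3 := fun p z t =>
    ContinuousLinearMap.single ℝ (fun _ : Fin 3 => ℝ) 2 (meanF (r2 B G) p z t) with hA''
  have ja : ∀ p, Js (A p) := fun p => (hm h0 p).clm _
  have ja' : ∀ p, Js (A' p) := fun p => (hm h1 p).clm _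
  have ja'' : ∀ p, Js (A'' p) := fun p => (hm h2 p).clm _
  show dk k (fun p z t => (-ContinuousLinearMap.id ℝ S3) ((A + A' + A'') p z t)) = _
  rw [dk_clm k (Φ := A + A' + A'') (fun p => ((ja p).add (ja' p)).add (ja'' p)),
    dk_add k (Φ := A + A') (fun p => (ja p).add (ja' p)) ja'', dk_add k ja ja',
    hA, hA', hA'', dk_clm k (hm h0), dk_clm k (hm h1), dk_clm k (hm h2)]
  rfl

/-- THE EXPANSION. -/
theorem expansion (B : Base) (hQ : 1 ≤ W.Q) (hT : W.Tame) (s : Fin d → Ix → E2 → ℝ → R4)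
    (hs : ∀ k, Seed B W k (s k)) (τ : Fin d → Ix → ℝ) (hτ : ∀ k p, 0 ≤ τ k p)
    (hkind : ∀ k, Gain W k (s k) (τ k) ∨ (SlowSeed B (s k) ∧ τ k = eps))
    (S' : Set E2) (hS' : IsClosed S') (hsub : S' ⊆ B.S) (ha : ∀ x ∉ S', B.a x = 0)
    (hg : ∀ x ∉ S', ∀ t, B.g0 x t = 0) (Uk : Fm 0 R4)
    (hUk : Uk = 0 ∨ (Up (W0 W) 1 Uk ∧ Off S' Uk ∧ B.χ = 0)) (J : ℕ) (hJ : W.Q + 2 ≤ J) :
    ∃ G : Fm d R4, St B W J J (J + 1) J G ∧
      (∀ k, Cls (tw W k W.Q fun p => τ k p + eps p) (12 : ℕ) (dk k G - sdF d (s k))) ∧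
      (∃ Gb : Fm d R4, Up W W.Q (G - Gb) ∧ Off S' Gb) ∧
      (B.χ = 0 → ∀ p z t, ⟪B.V z.2, dtF G p z t⟫ =
        ⟪B.V z.2, dtF (liftF d Uk + parF s) p z t⟫) := by
  set Ba := B.shrink S' hS' hsub ha hg
  have hUk' : Up (W0 W) 1 Uk := by
    rcases hUk with h | ⟨h, -⟩
    · rw [h]; exact Up.zero
    · exact h
  have h0 : St Ba (W0 W) 1 1 2 1 (start 0 Ba + Uk) := by
    rcases hUk with h | ⟨h, h', h''⟩
    · rw [h, add_zero]; exact start_st
    · exact St.perturb_one start_st h h' h''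
  obtain ⟨Gb0, hb0, hdb, hvb⟩ := iterate h0 le_rfl le_rfl (W.Q + 1)
  have hb : St B W (W.Q + 2) (W.Q + 2) (W.Q + 2 + 1) (W.Q + 2) (liftF d Gb0) :=
    (St.lift (W := W) ⟨rfl, rfl⟩ (hb0.congr_level (j' := W.Q + 2) (k' := W.Q + 2) (n' := W.Q + 2 + 1)
      (m' := W.Q + 2) (by omega) (by omega) (by omega) (by omega))).of_shrink
  set Gb := liftF d Gb0 with hGb
  have hU : Up W W.Q (parF s) := parF_up hs hT
  set Gi := Gb + parF s with hGi
  have hi : St B W (W.Q + 1) (W.Q + 1) (W.Q + 2) (W.Q + 1) Gi :=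
    insert_st hs hT hQ (Nat.le_succ _) hb
  obtain ⟨G1, h1, hd1, hdt1, he1⟩ := step_mean (i := W.Q) hi le_rfl le_rfl le_rfl
  obtain ⟨G2, h2, hd2, hv2⟩ := step_osc h1 (by omega)
  obtain ⟨G3, h3, hd3, hv3⟩ := step_abs h2 (by omega) le_rfl (by omega)
  obtain ⟨G, h4, hd4, hv4⟩ := iterate h3 (by omega) (by omega) (J - (W.Q + 2))
  have hJ' : W.Q + 2 + (J - (W.Q + 2)) = J := by omega
  rw [hJ'] at h4
  have hrest : Up W (W.Q + 1) (G - G1) := by
    rw [show G - G1 = (G - G3) + ((G3 - G2) + (G2 - G1)) by abel]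
    exact (hd4.mono (by omega)).add (hd3.add hd2)
  refine ⟨G, h4, fun k => ?_, ⟨Gb, ?_, fun p z t hz => hb0.off p _ t hz⟩, fun hχ p z t => ?_⟩
  · have hdb0 : dk k Gb = 0 := dk_lift hb0.up.val.js k
    have hdU : dk k (parF s) = sdF d (s k) := by
      funext p z t
      show fderiv ℝ (fun y : Zv d => ∑ k', y.1 k' • s k' p y.2 t) z (pv k) = _
      have hd' : ∀ k', DifferentiableAt ℝ (fun y : Zv d => s k' p y.2 t) z := fun k' =>
        (((hs k').cls.js p).slow t).differentiable (by norm_num) z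
      have hl' : ∀ k', DifferentiableAt ℝ (fun y : Zv d => y.1 k') z := fun k' =>
        (((ContinuousLinearMap.proj (R := ℝ) k').comp
          (ContinuousLinearMap.fst ℝ (Fin d → ℝ) E2)).differentiableAt)
      rw [fderiv_fun_sum fun k' _ => (hl' k').fun_smul (hd' k')]
      simp only [FunLike.coe_sum, Finset.sum_apply, fderiv_fun_smul (hl' _) (hd' _),
        add_apply, FunLike.coe_smul, Pi.smul_apply, ContinuousLinearMap.smulRight_apply]
      rw [Finset.sum_eq_single k]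
      · have e := congrFun (congrFun (congrFun (dk_sdF (hs k).cls.js k) p) z) t
        rw [show (fun y : Zv d => y.1 k) = ⇑((ContinuousLinearMap.proj (R := ℝ) k).comp
          (ContinuousLinearMap.fst ℝ (Fin d → ℝ) E2)) from rfl, ContinuousLinearMap.fderiv,
          show fderiv ℝ (fun y : Zv d => s k p y.2 t) z (pv k) = 0 from e]
        simp [pv, sdF]
      · intro k' _ hk'
        have e := congrFun (congrFun (congrFun (dk_sdF (hs k').cls.js k) p) z) t
        rw [show (fun y : Zv d => y.1 k') = ⇑((ContinuousLinearMap.proj (R := ℝ) k').comp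
          (ContinuousLinearMap.fst ℝ (Fin d → ℝ) E2)) from rfl, ContinuousLinearMap.fderiv,
          show fderiv ℝ (fun y : Zv d => s k' p y.2 t) z (pv k) = 0 from e]
        simp [pv, Pi.single_apply, hk']
      · simp
    have hdi : dk k Gi = sdF d (s k) := by
      rw [hGi, dk_add k hb.up.val.js hU.val.js, hdb0, zero_add, hdU]
    have hms : MeanSmall B W k Gi (τ k) := by
      rcases hkind k with h | ⟨h, h'⟩
      · exact meanSmall_osc hi.up hi.g (hs k) hdi h
      · rw [h']; exact meanSmall_slow hi.up (hs k) h hdi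
    have hq : Cls (tw W k (W.Q + 1) (τ k)) (12 : ℕ) (dk k (meanRhs B Gi)) := by
      rw [dk_meanRhs hi.l0.val.js hi.l1.val.js hi.u2.val.js]
      exact (((hms.1.clm _).add (hms.2.1.clm _)).add (hms.2.2.clm _)).neg
    have hw : Cls (tw W k W.Q fun p => τ k p + eps p) (12 : ℕ) (dk k (G1 - Gi)) := by
      have hm := meanRhs B Gi
      have hjm : ∀ p, Js (meanRhs B Gi p) :=
        ((((hi.l0.mean).clm _).add ((hi.l1.mean).clm _)).add ((hi.u2.low.mean).clm _)).neg.val.js
      have hjf : ∀ p, Js (B.R.fam (meanRhs B Gi) p) :=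
        (Up.sop (((((hi.l0.mean).clm _).add ((hi.l1.mean).clm _)).add
          ((hi.m2.mono le_rfl).clm _)).neg) B.R).val.js
      rw [he1, dk_smul_ix k hjf, dk_sop hjm]
      refine Cls.smul_ix (hq.sop B.R (tw_nonneg (hτ k) k _) fun p a b hp => ?_) _ fun p a hp => ?_
      · exact mul_le_mul_of_nonneg_right (mul_le_mul_of_nonneg_left (mul_le_mul_of_nonneg_left
          (pow_le_pow_right₀ (by exact_mod_cast W.freq_pos p k hp) (by omega)) (W.amp_nonneg p k))
          (pow_nonneg (eps_nonneg p) _)) (hτ k p)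
      · have e : (p.M : ℝ) * tw W k (W.Q + 1) (τ k) p a = tw W k W.Q (τ k) p a := by
          rw [tw, tw, pow_succ']
          have h' : (p.M : ℝ) * eps p = 1 := mul_inv_cancel₀ (Nat.cast_ne_zero.2 p.M_ne)
          linear_combination (eps p ^ W.Q * (W.amp p k * (W.freq p k : ℝ) ^ a) * τ k p) * h'
        rw [Nat.abs_cast, e]
        exact tw_mono (hτ k) (fun q _ => le_add_of_nonneg_right (eps_nonneg q)) le_rfl hp a
    have hr : Cls (tw W k W.Q fun p => τ k p + eps p) (12 : ℕ) (dk k (G - G1)) := by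
      refine (hrest.sens k).mono_le fun p a hp => ?_
      rw [sw, max_eq_left (Nat.le_succ _), tw, pow_succ]
      calc eps p ^ W.Q * eps p * (W.amp p k * (W.freq p k : ℝ) ^ a)
          = eps p ^ W.Q * (W.amp p k * (W.freq p k : ℝ) ^ a) * eps p := by ring
        _ ≤ eps p ^ W.Q * (W.amp p k * (W.freq p k : ℝ) ^ a) * (τ k p + eps p) :=
          mul_le_mul_of_nonneg_left (le_add_of_nonneg_left (hτ k p))
            (mul_nonneg (pow_nonneg (eps_nonneg p) _)
              (mul_nonneg (W.amp_nonneg p k) (pow_nonneg (Nat.cast_nonneg _) _)))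
    have e : dk k G - sdF d (s k) = dk k (G - G1) + dk k (G1 - Gi) := by
      conv_lhs => rw [show G = (G - G1) + ((G1 - Gi) + Gi) by abel]
      rw [dk_add k (Φ' := (G1 - Gi) + Gi) hrest.val.js
        (fun p => (hd1.val.js p).add (hi.up.val.js p)), dk_add k hd1.val.js hi.up.val.js, hdi]
      abel
    rw [e]
    exact hr.add hw
  · rw [show G - Gb = (G - G1) + ((G1 - Gi) + parF s) by rw [hGi]; abel]
    exact (hrest.mono (by omega)).add (hd1.add hU)
  · have ej : ∀ p, Js ((liftF d Uk + parF s) p) := fun p =>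
      ((hUk'.lift (W := W) ⟨rfl, rfl⟩).val.js p).add (hU.val.js p)
    have hst : Up W 0 (liftF d (start 0 Ba)) := (start_up (W := W0 W)).lift ⟨rfl, rfl⟩
    have hdb' : Up W 0 (liftF d (Gb0 - (start 0 Ba + Uk))) := (hdb.mono (Nat.zero_le _)).lift ⟨rfl, rfl⟩
    have hrest0 : ∀ p z t, ⟪B.V z.2, dtF (G - Gi) p z t⟫ = 0 := fun p z t => by
      rw [show G - Gi = (G - G3) + ((G3 - G2) + ((G2 - G1) + (G1 - Gi))) by abel,
        dtF_add (Φ' := (G3 - G2) + ((G2 - G1) + (G1 - Gi))) hd4.val.js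
          (fun p => (hd3.val.js p).add ((hd2.val.js p).add (hd1.val.js p))),
        dtF_add (Φ' := (G2 - G1) + (G1 - Gi)) hd3.val.js (fun p => (hd2.val.js p).add (hd1.val.js p)),
        dtF_add hd2.val.js hd1.val.js, hdt1]
      simp [inner_add_right, hv4 hχ p z t, hv3 hχ p z t, hv2 p z t]
    have eG : G = (G - Gi) + (liftF d (Gb0 - (start 0 Ba + Uk)) + (liftF d (start 0 Ba) +
        (liftF d Uk + parF s))) := by
      rw [show liftF d (Gb0 - (start 0 Ba + Uk)) = Gb - (liftF d (start 0 Ba) + liftF d Uk) from rfl,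
        hGi]
      abel
    conv_lhs => rw [eG]
    rw [dtF_add (Φ := G - Gi) (Φ' := liftF d (Gb0 - (start 0 Ba + Uk)) + (liftF d (start 0 Ba) +
        (liftF d Uk + parF s))) (fun p => (h4.up.val.js p).sub (hi.up.val.js p))
        (fun p => (hdb'.val.js p).add ((hst.val.js p).add (ej p))),
      dtF_add (Φ' := liftF d (start 0 Ba) + (liftF d Uk + parF s)) hdb'.val.js
        (fun p => (hst.val.js p).add (ej p)),
      dtF_add (Φ' := liftF d Uk + parF s) hst.val.js ej, dtF_lift, dtF_lift, dtF_start]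
    simp only [Pi.add_apply, inner_add_right, hrest0 p z t]
    have z1 : ⟪B.V z.2, liftF d (dtF (Gb0 - (start 0 Ba + Uk))) p z t⟫ = 0 := hvb hχ p (0, z.2) t
    have z2 : ⟪B.V z.2, liftF d (gF 0 Ba) p z t⟫ = 0 := B.loop_perp' z.2 t
    rw [z1, z2]
    ring

end Vale.Agent.P205F.Expand
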