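import Vale.Agent.P205F.Expand.SlowAt

/-!
# P205, expansions: uniform bounds used by the family module
-/

namespace Vale.Agent.P205F.Expand

open scoped ContDiff RealInnerProductSpace Topology
open Filter Set

variable {n κ Q th : ℕ} {hth : 14 ≤ th}

lemma LL_le (κ : ℕ) (fr : Fin 2) {p : Ix} (hp : Adm p) : (LL κ fr p : ℝ) ≤ (p.M : ℝ) ^ (κ + 1) :=
  LL_le_Lam κ fr hp

lemma mkW_amp_le (p : Ix) (k : Fin (dN n)) (hp : Adm p) : (mkW n κ Q th hth).amp p k ≤ 1 := by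
  show ampOf n κ th p ((eS n).symm k) ≤ 1
  rcases (eS n).symm k with ⟨fr, i⟩ | i
  · exact inv_le_one_of_one_le₀ (one_le_pow₀ (Nat.one_le_cast.2 (LL_freq κ fr p hp)))
  · exact le_rfl

lemma mkW_freq_le (p : Ix) (k : Fin (dN n)) (hp : Adm p) :
    ((mkW n κ Q th hth).freq p k : ℝ) ≤ Lam κ p := by
  show (freqOf n κ p ((eS n).symm k) : ℝ) ≤ _
  rcases (eS n).symm k with ⟨fr, i⟩ | i
  · exact LL_le_Lam κ fr hp
  · simp only [freqOf, Nat.cast_one]; exact one_le_Lam κ hp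

/-- Parameters of all coefficients. -/
lemma vOf_bound_all {p : Ix} (hp : Adm p) (u : SIx n → ℝ) :
    ‖vOf (mkW n κ Q th hth) p u‖ ≤ (p.M : ℝ) ^ (Q + 1 + (κ + 1) * (th + 1)) * ‖u‖ := by
  have hM := hp.one_le_M
  have h0 : 0 ≤ (p.M : ℝ) ^ (Q + 1 + (κ + 1) * (th + 1)) * ‖u‖ := by positivity
  refine (pi_norm_le_iff_of_nonneg h0).2 fun k => ?_
  obtain ⟨sx, rfl⟩ := (eS n).surjective k
  simp only [vOf, Equiv.symm_apply_apply]
  have e : (eps p * (eps p ^ Q))⁻¹ = (p.M : ℝ) ^ (Q + 1) := by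
    rw [← pow_succ', eps, inv_pow, inv_inv]
  rw [norm_mul]
  refine mul_le_mul ?_ (norm_le_pi_norm u sx) (norm_nonneg _) (by positivity)
  show ‖(eps p * (eps p ^ Q * ampOf n κ th p ((eS n).symm (eS n sx))))⁻¹‖ ≤ _
  rw [Equiv.symm_apply_apply, ← mul_assoc, mul_inv, e, pow_add (p.M : ℝ) (Q + 1), pow_mul]
  rcases sx with ⟨fr, r⟩ | r
  · simp only [ampOf, inv_inv]
    rw [Real.norm_eq_abs, abs_of_nonneg (by positivity)]
    exact mul_le_mul_of_nonneg_left (pow_le_pow_left₀ (Nat.cast_nonneg _) (LL_le κ fr hp) _)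
      (by positivity)
  · simp only [ampOf, inv_one, mul_one]
    rw [Real.norm_eq_abs, abs_of_nonneg (by positivity)]
    exact le_mul_of_one_le_right (by positivity) (one_le_pow₀ (one_le_pow₀ hM))

/-- Line jets of the normalised variations are bounded. -/
theorem wv_col0 {G : Fm (dN n) R4} (hG : Up (mkW n κ Q th hth) 0 G) :
    ∃ C, 0 ≤ C ∧ ∀ p, Adm p → ∀ l ∈ Box (dN n), ∀ x, ∀ c ≤ 12, ∀ u : SIx n → ℝ,
      ‖jd 0 c (fun y => ∑ k, u k • Wv (mkW n κ Q th hth) G p l k y) x‖ ≤ C * ‖u‖ := by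
  obtain ⟨S, hS, h⟩ := exists_common (ι := SIx n × Fin 13)
    (P := fun q S => ∀ p, Adm p → ∀ l ∈ Box (dN n), ∀ x,
      ‖jd 0 q.2 (Wv (mkW n κ Q th hth) G p l q.1) x‖ ≤ S)
    (fun q C C' hC h p hp l hl x => (h p hp l hl x).trans hC) fun q => by
      obtain ⟨C, hC, h⟩ := jd0_bound (hG.sens (eS n q.1)) (q.2 : ℕ)
      refine ⟨C, hC, fun p hp l hl x => ?_⟩
      have hc : 0 < eps p ^ (mkW n κ Q th hth).Q * (mkW n κ Q th hth).amp p (eS n q.1) :=
        norm_pos (n := n) κ Q th hth hp q.1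
      rw [Wv, jd_smul (rl_smooth (Φ := dk (eS n q.1) G) (fun r => (hG.val.js r).dir (pv _)) p l),
        Pi.smul_apply, norm_smul, Real.norm_eq_abs, abs_of_pos (inv_pos.2 hc)]
      have h1 := h p hp l hl x
      simp only [sw, Nat.zero_max, pow_zero, mul_one] at h1
      rw [inv_mul_le_iff₀ hc, mul_comm]
      exact h1
  refine ⟨Fintype.card (SIx n) * S, by positivity, fun p hp l hl x c hc u => ?_⟩
  rw [jd_sum u (fun k => Wv_smooth hG.val.js _ p l k)]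
  refine (norm_sum_le _ _).trans ?_
  refine (Finset.sum_le_sum (g := fun _ => S * ‖u‖) fun k _ => ?_).trans (le_of_eq ?_)
  · rw [norm_smul, mul_comm S]
    exact mul_le_mul (norm_le_pi_norm u k) (h (k, ⟨c, by omega⟩) p hp l hl x) (norm_nonneg _)
      (norm_nonneg _)
  · rw [Finset.sum_const, Finset.card_univ, nsmul_eq_mul, mul_assoc]

lemma PtVar.mono {F w : E2 → R4} {r : E2 → ℝ} {χ : ℝ} {x : E2} {Z Z' : ℝ}
    (h : PtVar F r χ w x Z) (hZ : Z ≤ Z') : PtVar F r χ w x Z' :=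
  ⟨h.hw, fun a c hac => (h.small0 a c hac).trans hZ, fun a c hac => (h.small1 a c hac).trans hZ,
    fun a c hac => (h.small2 a c hac).trans hZ⟩

/-- A power of `1/M` beats a smaller power of `M`. -/
lemma eps_beats {p : Ix} (hp : Adm p) {a J k : ℕ} (h : a + k ≤ J) :
    eps p ^ J * (p.M : ℝ) ^ a ≤ ((p.M : ℝ) ^ k)⁻¹ := by
  have hM := hp.M_pos
  rw [eps, inv_pow, inv_mul_le_iff₀ (by positivity), ← div_eq_mul_inv, le_div_iff₀ (by positivity),
    ← pow_add]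
  exact pow_le_pow_right₀ hp.one_le_M h

end Vale.Agent.P205F.Expand
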