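import Vale.Agent.P205F.Expand.Alg

/-!
# P205, expansions: specification of the loop module

From cut-off fields `X0, X1, V` which are independent with `V ⊥ X1` on an open set, and an amplitude
`a`: a loop of length `|X0|² + a²` around `X0`, orthogonal to `X1` and `V`, a turning frame `ρ, σ`
of the plane orthogonal to `X1, V`, and the coefficients of the solver of `Base.solve`.
-/

namespace Vale.Agent.P205F.Expand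

open scoped ContDiff RealInnerProductSpace Topology

/-- The loop and its frame on `N`; `S` carries the amplitude. -/
structure Loop (S N : Set E2) (X0 X1 V : E2 → R4) (a : E2 → ℝ) where
  /-- loop -/
  g0 : E2 → ℝ → R4
  /-- local part of the solver -/
  A : Fin 3 → E2 → ℝ → R4
  /-- functionals of the solver -/
  Dm : Fin 2 → Fin 3 → E2 → ℝ → ℝ
  /-- fields of the solver -/
  Cv : Fin 2 → E2 → ℝ → R4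
  /-- direction of the loop in the plane -/
  ρ : E2 → ℝ → R4
  /-- the free normal -/
  σ : E2 → ℝ → R4
  /-- turning profile -/
  h : E2 → ℝ → ℝ
  /-- turning size -/
  w : E2 → ℝ
  g0_coef : Coef g0
  A_coef : ∀ k, Coef (A k)
  Dm_coef : ∀ c k, Coef (Dm c k)
  Cv_coef : ∀ c, Coef (Cv c)
  ρ_coef : Coef ρ
  σ_coef : Coef σ
  h_coef : Coef h
  w_coef : Coef fun x (_ : ℝ) => w x
  g0_zero : ∀ x ∉ S, ∀ t, g0 x t = 0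
  g0_mean : ∀ x, mean g0 x = 0
  loop_len : ∀ x t, 2 * ⟪X0 x, g0 x t⟫ + ⟪g0 x t, g0 x t⟫ = a x ^ 2
  loop_perp : ∀ x t, ⟪X1 x, g0 x t⟫ = 0
  loop_perp' : ∀ x t, ⟪V x, g0 x t⟫ = 0
  solve : ∀ x ∈ N, ∀ R' : Fin 3 → ℝ → ℝ, (∀ k, Continuous (R' k)) →
    (∀ k t, R' k (t + 1) = R' k t) → (∀ k, ∫ t in (0 : ℝ)..1, R' k t = 0) →
    let u : ℝ → R4 := fun t => (∑ k, R' k t • A k x t) +
      ∑ c, (∫ s in (0 : ℝ)..1, ∑ k, R' k s * Dm c k x s) • Cv c x t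
    (∫ t in (0 : ℝ)..1, u t = 0) ∧ ∀ t, ⟪X0 x + g0 x t, u t⟫ = R' 0 t ∧
      ⟪X1 x, u t⟫ = R' 1 t ∧ ⟪V x, u t⟫ = R' 2 t
  frame : ∀ x ∈ N, ∀ t, ‖ρ x t‖ = 1 ∧ ‖σ x t‖ = 1 ∧ ⟪ρ x t, σ x t⟫ = 0 ∧
    ⟪X1 x, ρ x t⟫ = 0 ∧ ⟪V x, ρ x t⟫ = 0 ∧ ⟪X1 x, σ x t⟫ = 0 ∧ ⟪V x, σ x t⟫ = 0 ∧
    ⟪X0 x + g0 x t, σ x t⟫ = 0
  radius : ∀ x ∈ N, ∀ t, 0 < ⟪X0 x + g0 x t, ρ x t⟫ ∧
    ⟪X0 x + g0 x t, ρ x t⟫ = ⟪X0 x + g0 x 0, ρ x 0⟫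
  forward : ∀ x ∈ N, ∀ t, 0 < ⟪X0 x + g0 x t, X0 x -
    (⟪X1 x, X0 x⟫ / ⟪X1 x, X1 x⟫) • X1 x - (⟪V x, X0 x⟫ / ⟪V x, V x⟫) • V x⟫
  turn : ∀ x ∈ N, ∀ t, deriv (ρ x) t = (w x * h x t) • σ x t ∧
    deriv (σ x) t = -(w x * h x t) • ρ x t
  h_pos : ∀ x ∈ N, 0 < ∫ t in (0 : ℝ)..1, h x t ^ 2

/-- THE LOOP MODULE. -/
def LoopStmt : Prop :=
  ∀ (X0 X1 V : E2 → R4) (a : E2 → ℝ) (S K N : Set E2), ContDiff ℝ ∞ X0 → ContDiff ℝ ∞ X1 →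
    ContDiff ℝ ∞ V → ContDiff ℝ ∞ a → IsCompact S → IsCompact K → IsOpen N → S ⊆ K → K ⊆ N →
    (∀ x ∉ S, a x = 0) →
    (∀ x ∈ N, ⟪X1 x, V x⟫ = 0 ∧ LinearIndependent ℝ ![X0 x, X1 x, V x]) →
    ∃ N' : Set E2, IsOpen N' ∧ K ⊆ N' ∧ N' ⊆ N ∧ Nonempty (Loop S N' X0 X1 V a)

/-- A unit normal field of an immersion of the plane on a bounded set. -/
def NormalStmt : Prop :=
  ∀ (f : E2 → R4) (R : ℝ), ContDiff ℝ ∞ f → IsImm f →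
    ∃ n : E2 → R4, ContDiff ℝ ∞ n ∧
      ∀ x ∈ Metric.ball (0 : E2) R, ‖n x‖ = 1 ∧ ∀ v, ⟪n x, fderiv ℝ f x v⟫ = 0

end Vale.Agent.P205F.Expand
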