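import Vale.Agent.P205F.Expand.SlowSpec
import Vale.Agent.P205F.Expand.LoopSpec
import Vale.Agent.P205F.InterfacesTwist

/-!
# P205, expansions: specification of the choice of the data

From the hypotheses of an expansion: a normal field `V` near `K'`, and the data `Base` with loop,
dual fields and solver, carried by `K'`.
-/

namespace Vale.Agent.P205F.Expand

open scoped ContDiff RealInnerProductSpace Topology

/-- What the third field has to satisfy on `W`. -/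
def VHyp (b : Bool) (f V : E2 → R4) (W : Set E2) : Prop :=
  ∀ x ∈ W, ⟪pd 1 f x, V x⟫ = 0 ∧ LinearIndependent ℝ ![pd 0 f x, pd 1 f x, V x] ∧
    (b = false → ‖V x‖ = 1 ∧ ⟪pd 0 f x, V x⟫ = 0) ∧
    (b = true → ∃ c : ℝ, pd 1 (pd 1 f) x = V x + c • pd 1 f x)

/-- Existence of the third field; with `keep` it is the unit `II(∂x,∂x)`. -/
def VFieldStmt : Prop :=
  ∀ (b keep : Bool) (f : E2 → R4) (U K' : Set E2), ContDiff ℝ ∞ f → IsImm f → IsOpen U →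
    IsCompact K' → K' ⊆ U → (b = true → ∀ x ∈ U, II f x (ev 1) ≠ 0) →
    (keep = true → b = false ∧ ∀ x ∈ U, II f x (ev 0) ≠ 0) →
    ∃ (V : E2 → R4) (W : Set E2), ContDiff ℝ ∞ V ∧ IsOpen W ∧ K' ⊆ W ∧ W ⊆ U ∧ VHyp b f V W ∧
      (keep = true → ∀ x ∈ W, 0 < ⟪pd 0 (pd 0 f) x, V x⟫)

/-- The data of an expansion. -/
structure Setup (b : Bool) (f : E2 → R4) (a : E2 → ℝ) (ν : E2 → Fin 2 → ℝ) (W K' : Set E2)
    (V : E2 → R4) where
  /-- data -/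
  B : Base
  /-- loop -/
  Lp : Loop B.S B.N B.X0 B.X1 B.V B.a
  /-- dual fields -/
  D : Dual B
  hg : Lp.g0 = B.g0
  hS : B.S = K'
  hN : B.N ⊆ W
  hX : ∀ x ∈ B.N, B.X0 x = pd 0 f x ∧ B.X1 x = pd 1 f x ∧ B.V x = V x
  ha : B.a = a
  hga : ∀ x ∉ tsupport a, ∀ t, B.g0 x t = 0
  hχ : B.χ = if b then 1 else 0
  hr : b = false → ∀ x ∈ B.N, B.r x * ν x 1 = ν x 0
  hV : ∀ x ∈ B.N, ⟪B.X1 x, B.V x⟫ = 0 ∧ LinearIndependent ℝ ![B.X0 x, B.X1 x, B.V x] ∧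
    (b = false → ‖B.V x‖ = 1 ∧ ⟪B.X0 x, B.V x⟫ = 0)
  hfwd : ∀ x ∈ B.N, ∀ t, 0 < ⟪B.X0 x + B.g0 x t, D.D0 x⟫

/-- THE SETUP MODULE. -/
def SetupStmt : Prop :=
  GdChartStmt.{0} → TransposeStmt →
    ∀ (b : Bool) (f : E2 → R4) (a : E2 → ℝ) (ν : E2 → Fin 2 → ℝ) (W K' : Set E2) (V : E2 → R4),
      ContDiff ℝ ∞ f → IsImm f → ContDiff ℝ ∞ a → (∀ i, ContDiff ℝ ∞ fun x => ν x i) →
      IsOpen W → IsCompact K' → K' ⊆ W → tsupport a ⊆ K' → ContDiff ℝ ∞ V → VHyp b f V W →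
      (∀ x ∈ W, GdAt f x) → (b = false → ∀ x ∈ W, ν x 1 ≠ 0) →
      Nonempty (Setup b f a ν W K' V)

end Vale.Agent.P205F.Expand
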