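import Vale.Agent.P205F.Expand.Expansion
import Vale.Agent.P205F.Expand.SetupSpec
import Vale.Agent.P205F.Expand.GeomSpec

/-!
# P205, expansions: the family of a twist and its two groups of responses

`famF f G p l` is `f + (1/M) G(l, x, M x)`. The response clauses are the last two conjuncts of
`Fam`. `FamilyStmt` provides, for fixed grid and constants, families `G` of every large frequency
whose responses satisfy them.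
-/

namespace Vale.Agent.P205F.Expand

open scoped ContDiff RealInnerProductSpace Topology

variable {d : ℕ}

/-- The family of maps. -/
noncomputable def famF (f : E2 → R4) (G : Fm d R4) (p : Ix) (l : Fin d → ℝ) (x : E2) : R4 :=
  f x + eps p • rl G p (l, x)

/-- The slow parameters. -/
def SlowResp (b : Bool) (F : (Fin d → ℝ) → E2 → R4) (K : Set E2) (C : ℝ) (e₁ M : ℕ) : Prop :=
  ∀ l ∈ Box d, ∀ x ∈ K, ∀ τ : ℕ → ℕ → R4,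
    (∀ i j, i + j ≤ 3 → Slow b (F l) x i j (τ i j) ∧ ‖τ i j‖ ≤ (M : ℝ) ^ i) →
    ∃ v : Fin d → ℝ, ‖v‖ ≤ C * (M : ℝ) ^ e₁ ∧
      (∀ i j, i + j ≤ 3 → ∀ σ, Slow b (F l) x i j σ →
        ⟪pdm i j (dlam F l v) x, σ⟫ = ⟪τ i j, σ⟫) ∧
      ((∀ i j, i + j ≤ 1 → τ i j = 0) →
        ∀ i j, i + j ≤ 1 → ‖pdm i j (Lin (F l) (dlam F l v)) x‖ ≤ C / M)

/-- The fine parameters. -/
def FineResp (b : Bool) (F : (Fin d → ℝ) → E2 → R4) (K : Set E2) (C : ℝ) (e₁ κ e₂ M : ℕ) : Prop :=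
  let η : ℝ := C * (M : ℝ) ^ e₁ / (M : ℝ) ^ κ
  ∀ l ∈ Box d, ∀ x ∈ K, ∀ n i, 3 ≤ n → n ≤ 10 → (i = n ∨ i + 1 = n) →
    ∀ τ, Free b (F l) x τ → ‖τ‖ ≤ 1 →
    ∃ v : Fin d → ℝ, ‖v‖ ≤ C * (M : ℝ) ^ e₂ ∧
      (∀ i' j', i' + j' ≤ 10 → ‖pdm i' j' (dlam F l v) x‖ ≤ C * (M : ℝ) ^ e₁) ∧
      (∀ i' j', i' + j' < n → ‖pdm i' j' (dlam F l v) x‖ ≤ η) ∧
      (∀ i' ≤ n, ∀ σ, Free b (F l) x σ → ‖σ‖ ≤ 1 →
        |⟪pdm i' (n - i') (dlam F l v) x, σ⟫ - if i' = i then ⟪τ, σ⟫ else 0| ≤ η) ∧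
      (∀ i' j', i' + j' + 1 ≤ n → ‖pdm i' j' (Lin (F l) (dlam F l v)) x‖ ≤ η) ∧
      (b = true → (∀ i' ≤ n, ‖pdm i' (n - i') (Lin (F l) (dlam F l v)) x‖ ≤ η) ∧
        ∀ i' ≤ 1, |⟪pdm i' (n - i') (dlam F l v) x, II (F l) x (ev 1)⟫| ≤ η)

lemma fam_iff (b : Bool) (F : (Fin d → ℝ) → E2 → R4) (K : Set E2) (C : ℝ) (e₁ κ e₂ M : ℕ) :
    Fam b F K C e₁ κ e₂ M ↔
      ContDiff ℝ ∞ (Function.uncurry F) ∧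
      (∀ l ∈ Box d, ∀ x ∈ Metric.cthickening 1 K, ∀ n ≤ 12,
        ‖iteratedFDeriv ℝ n (Function.uncurry F) (l, x)‖ ≤ C * (M : ℝ) ^ e₁) ∧
      (∀ l ∈ Box d, ∀ x ∈ K, ∀ w, ‖w‖ ≤ C * ‖fderiv ℝ (F l) x w‖) ∧
      (∀ l ∈ Box d, ∀ x ∈ K, ∀ i j, i + j ≤ 3 → ‖pdm i j (F l) x‖ ≤ C * (M : ℝ) ^ (i - 1)) ∧
      (b = true → ∀ l ∈ Box d, ∀ x ∈ K, C⁻¹ ≤ ‖II (F l) x (ev 1)‖ ∧
        ∀ v i j, i + j ≤ 10 → ‖pdm i j (Lin (F l) (dlam F l v)) x‖ ≤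
          C * (M : ℝ) ^ e₁ / (M : ℝ) ^ κ * ‖v‖) ∧
      SlowResp b F K C e₁ M ∧ FineResp b F K C e₁ κ e₂ M :=
  Iff.rfl

/-- THE FAMILY MODULE. `Uk` is a given perturbation at level one (zero unless `χ = 0`). -/
def FamilyStmt : Prop :=
  ∀ (b : Bool) (f : E2 → R4) (a : E2 → ℝ) (ν : E2 → Fin 2 → ℝ) (W K K' : Set E2) (V : E2 → R4)
    (D : Setup b f a ν W K' V), ContDiff ℝ ∞ f → IsCompact K → K ⊆ interior K' →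
    tsupport a ⊆ interior K → ∀ q : ℕ, 2 ≤ q → ∃ e₁ : ℕ, ∀ κ : ℕ, ∃ e₂ : ℕ, ∀ J₀ : ℕ,
      ∀ Uk : Fm 0 R4, (Uk = 0 ∨ (b = false ∧ Off (tsupport a) Uk ∧
          ∀ W₀ : Wts 0, Up W₀ 1 Uk)) →
      ∃ (d : ℕ) (Wt : Wts d) (J : ℕ) (G : Fm d R4), J₀ ≤ J ∧ Wt.κ = κ ∧ q ≤ Wt.th ∧ q ≤ Wt.Q ∧
        St D.B Wt J J (J + 1) J G ∧
        (∃ Gb : Fm d R4, Up Wt Wt.Q (G - Gb) ∧ Off (tsupport a) Gb) ∧
        (b = false → ∃ U : Fm d R4, Up Wt Wt.Q U ∧ ∀ p z t,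
          ⟪D.B.V z.2, dtF G p z t⟫ = ⟪D.B.V z.2, dtF (liftF d Uk + U) p z t⟫) ∧
        ∃ (L0 M₀ : ℕ) (C : ℝ), 1 ≤ L0 ∧ ∀ p : Ix, Adm p → p.L0 = L0 → M₀ ≤ p.M →
          SlowResp b (famF f G p) K C e₁ p.M ∧ FineResp b (famF f G p) K C e₁ κ e₂ p.M

end Vale.Agent.P205F.Expand
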