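import Vale.Agent.P205F.Expand.PointSpec
import Vale.Agent.P205F.InterfacesTwist

/-!
# P205, expansions: the responses at one point

`PtEnv` describes the map at the point, `PtVar` a variation; the two statements turn prescribed
rows into the clauses of `Fam`.
-/

namespace Vale.Agent.P205F.Expand

open scoped ContDiff RealInnerProductSpace

/-- The map at the point: bounded jets, frame, free vectors. -/
structure PtEnv (b : Bool) (F : E2 → R4) (r : E2 → ℝ) (χ : ℝ) (s : Fin 2 → R4) (x : E2) (T : ℝ) :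
    Prop where
  hF : ContDiff ℝ ∞ F
  hr : ContDiff ℝ ∞ r
  hT : 2 ≤ T
  hχ : χ = if b then 1 else 0
  bF : ∀ a c, a + c ≤ 14 → ‖jd a c F x‖ ≤ T
  br : ∀ a c, a + c ≤ 11 → ‖jd a c r x‖ ≤ T ∧ ‖jd a c (fun y => r y ^ 2) x‖ ≤ T
  frame : ∀ v : R4, ‖v‖ ≤ T * (|⟪pd 0 F x, v⟫| + |⟪pd 1 F x, v⟫| +
    |χ * ⟪pd 1 (pd 1 F) x, v⟫| + (|⟪s 0, v⟫| + |⟪s 1, v⟫|))
  free : ∀ k, Free b F x (s k) ∧ ‖s k‖ ≤ T
  span : ∀ τ, Free b F x τ → ∃ a c : ℝ, τ = a • s 0 + c • s 1 ∧ |a| ≤ T * ‖τ‖ ∧ |c| ≤ T * ‖τ‖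
  absorber : b = true → ∃ c0 c1 : ℝ,
    II F x (ev 1) = pd 1 (pd 1 F) x + c0 • pd 0 F x + c1 • pd 1 F x ∧ |c0| ≤ T ∧ |c1| ≤ T

/-- A variation whose reduced linearised metric is tiny to the order `11`. -/
structure PtVar (F : E2 → R4) (r : E2 → ℝ) (χ : ℝ) (w : E2 → R4) (x : E2) (Z : ℝ) : Prop where
  hw : ContDiff ℝ ∞ w
  small0 : ∀ a c, a + c ≤ 11 → ‖jd a c (fun y => Lin F w y 0 - r y ^ 2 * Lin F w y 2) x‖ ≤ Z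
  small1 : ∀ a c, a + c ≤ 11 → ‖jd a c (fun y => Lin F w y 1 - r y * Lin F w y 2) x‖ ≤ Z
  small2 : ∀ a c, a + c ≤ 11 → |χ| * ‖jd a c (fun y => Lin F w y 2) x‖ ≤ Z

/-- One free top jet prescribed, the other free jets to the order `10` zero, small line data: the
clauses of the fine responses. -/
def FinePtStmt : Prop :=
  ∀ b : Bool, ∃ e : ℕ, ∀ (F w : E2 → R4) (r : E2 → ℝ) (χ : ℝ) (s : Fin 2 → R4) (x : E2)
    (T S : ℝ) (n i : ℕ) (τ : R4), PtEnv b F r χ s x T → PtVar F r χ w x S → S ≤ 1 →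
    3 ≤ n → n ≤ 10 → (i = n ∨ i + 1 = n) → Free b F x τ → ‖τ‖ ≤ 1 →
    (∀ a c k, a + c ≤ 10 → ⟪jd a c w x, s k⟫ = if a = i ∧ c = n - i then ⟪τ, s k⟫ else 0) →
    (∀ c ≤ 12, ‖jd 0 c w x‖ ≤ S) →
    (∀ i' j', i' + j' ≤ 10 → ‖pdm i' j' w x‖ ≤ T ^ e) ∧
    (∀ i' j', i' + j' < n → ‖pdm i' j' w x‖ ≤ T ^ e * S) ∧
    (∀ i' ≤ n, ∀ σ, Free b F x σ → ‖σ‖ ≤ 1 →
      |⟪pdm i' (n - i') w x, σ⟫ - if i' = i then ⟪τ, σ⟫ else 0| ≤ T ^ e * S) ∧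
    (∀ i' j', i' + j' + 1 ≤ n → ‖pdm i' j' (Lin F w) x‖ ≤ T ^ e * S) ∧
    (b = true → (∀ i' ≤ n, ‖pdm i' (n - i') (Lin F w) x‖ ≤ T ^ e * S) ∧
      ∀ i' ≤ 1, |⟪pdm i' (n - i') w x, II F x (ev 1)⟫| ≤ T ^ e * S)

/-- Vanishing free jets and line data to first order: the linearised metric is tiny. -/
def SlowPtStmt : Prop :=
  ∀ b : Bool, ∃ e : ℕ, ∀ (F w : E2 → R4) (r : E2 → ℝ) (χ : ℝ) (s : Fin 2 → R4) (x : E2) (T S : ℝ),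
    PtEnv b F r χ s x T → PtVar F r χ w x S →
    (b = false → (∀ a c k, a + c ≤ 1 → ⟪jd a c w x, s k⟫ = 0) ∧
      ∀ c ≤ 2, ∀ k : Fin 2, jd 0 c (fun y => ⟪pd k F y, w y⟫) x = 0) →
    ∀ a c, a + c ≤ 1 → ‖pdm a c (Lin F w) x‖ ≤ T ^ e * S

end Vale.Agent.P205F.Expand
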