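import Vale.Agent.P205F.Expand.Local
import Vale.Agent.P205F.Expand.FamSpec
import Vale.Agent.P205F.Expand.RespSpec

/-!
# P205, expansions: two parts of the family module

The map at a point of a large frequency, and the smallness of the reduced linearised metric of a
variation.
-/

namespace Vale.Agent.P205F.Expand

open scoped ContDiff RealInnerProductSpace Topology

/-- The environment at every point for large frequencies. -/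
def EnvStmt : Prop :=
  ∀ (b : Bool) (B : Base) (Lp : Loop B.S B.N B.X0 B.X1 B.V B.a), Lp.g0 = B.g0 →
    B.χ = (if b then 1 else 0) →
    (∀ x ∈ B.N, ⟪B.X1 x, B.V x⟫ = 0 ∧ LinearIndependent ℝ ![B.X0 x, B.X1 x, B.V x] ∧
      (b = false → ‖B.V x‖ = 1 ∧ ⟪B.X0 x, B.V x⟫ = 0)) →
    ∀ (f : E2 → R4), ContDiff ℝ ∞ f → (∀ x ∈ B.N, B.X0 x = pd 0 f x ∧ B.X1 x = pd 1 f x) →
    ∀ K : Set E2, IsCompact K → K ⊆ B.N →
    ∀ (d : ℕ) (W : Wts d) (G : Fm d R4), Up W 0 G → Low W 1 (dtF G - gF d B) →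
      ∃ (C : ℝ) (M₀ : ℕ), 2 ≤ C ∧ ∀ p : Ix, Adm p → M₀ ≤ p.M → ∀ l ∈ Box d, ∀ x ∈ K,
        let F := famF f G p l
        let s := sF b B Lp F x (p.M * x 0)
        PtEnv b F B.r B.χ s x (C * (p.M : ℝ) ^ 14) ∧
        (∀ c, (b = false ∨ c = 0) → ‖s c - fldOf B Lp c x (p.M * x 0)‖ ≤ C * eps p) ∧
        (∀ c, ‖s c‖ ≤ C) ∧ (b = true → s 1 = 0) ∧
        (∀ τ, Free b F x τ → ∃ a c : ℝ, τ = a • s 0 + c • s 1 ∧ |a| ≤ C * ‖τ‖ ∧ |c| ≤ C * ‖τ‖) ∧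
        (b = true → ∀ τ, nrm F x τ = τ → ∃ a c : ℝ,
          τ = a • s 0 + c • II F x (ev 1) ∧ |a| ≤ C * ‖τ‖ ∧ |c| ≤ C * ‖τ‖) ∧
        ‖II F x (ev 1)‖ ≤ C

/-- Variations have tiny reduced linearised metric at the level `J`. -/
def VarStmt : Prop :=
  ∀ (B : Base) (f : E2 → R4), ContDiff ℝ ∞ f →
    (∀ x ∈ B.N, B.X0 x = pd 0 f x ∧ B.X1 x = pd 1 f x) →
    ∀ K : Set E2, K ⊆ B.N →
    ∀ (d : ℕ) (W : Wts d) (G : Fm d R4) (J : ℕ), St B W J J (J + 1) J G →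
      (∀ p k, Adm p → W.amp p k ≤ 1) → (∀ p k, Adm p → (W.freq p k : ℝ) ≤ Lam W.κ p) →
      ∃ C : ℝ, 0 ≤ C ∧ ∀ p : Ix, Adm p → ∀ l ∈ Box d, ∀ x ∈ K, ∀ v : Fin d → ℝ,
        PtVar (famF f G p l) B.r B.χ (dlam (famF f G p) l v) x
          (C * (eps p ^ J * Lam W.κ p ^ 12 * (p.M : ℝ) ^ 11) * ‖v‖)

end Vale.Agent.P205F.Expand
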