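import Vale.Agent.P205F.Expand.Good
import Vale.Agent.P205F.Twist.Cover

/-!
# P205, expansions: the differential right inverse of the base, applied to families

`SOp` is a differential operator with smooth compactly supported coefficients; goodness of the base
gives one inverting `Lin f` on fields supported in a given compact set. It keeps the classes `Up`.
-/

set_option maxSynthPendingDepth 3

namespace Vale.Agent.P205F.Expand

open scoped ContDiff Topology Manifold
open Filter Set

lemma exists_cutoff {K O : Set E2} (hK : IsCompact K) (hO : IsOpen O) (hKO : K ⊆ O) :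
    ∃ ψ : E2 → ℝ, ContDiff ℝ ∞ ψ ∧ HasCompactSupport ψ ∧ tsupport ψ ⊆ O ∧
      ∀ᶠ x in 𝓝ˢ K, ψ x = 1 := by
  obtain ⟨L, hL, hKL, hLO⟩ := exists_compact_between hK hO hKO
  obtain ⟨g, hg0, hg1, -⟩ := exists_contMDiffMap_zero_one_nhds_of_isClosed (n := ⊤) 𝓘(ℝ, E2)
    (s := (interior L)ᶜ) (t := K) isOpen_interior.isClosed_compl hK.isClosed
    (Set.disjoint_left.2 fun x hx hx' => hx (hKL hx'))
  have hsupp : tsupport g ⊆ L := closure_minimal (fun x hx => by
    by_contra h
    exact hx ((eventually_nhdsSet_iff_forall.1 hg0) x (fun hi => h (interior_subset hi))).self_of_nhds)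
    hL.isClosed
  exact ⟨g, g.contMDiff.contDiff, hL.of_isClosed_subset (isClosed_tsupport _) hsupp,
    hsupp.trans hLO, hg1⟩

/-- Differential operators on tensor fields, with compactly supported coefficients. -/
structure SOp where
  /-- order -/
  L : ℕ
  /-- coefficients -/
  c : (k : Fin (L + 1)) → E2 →
    (ContinuousMultilinearMap ℝ (fun _ : Fin (k : ℕ) => E2) S3 →L[ℝ] R4)
  smooth : ∀ k, ContDiff ℝ ∞ (c k)
  /-- a compact set carrying the coefficients -/
  supp : Set E2
  compact : IsCompact supp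
  zero : ∀ k, ∀ x ∉ supp, c k x = 0

/-- The operator on a field. -/
noncomputable def SOp.app (R : SOp) (q : E2 → S3) (x : E2) : R4 :=
  ∑ k : Fin (R.L + 1), R.c k x (iteratedFDeriv ℝ (k : ℕ) q x)

/-- `R` inverts `Lin f` on fields supported in `S`. -/
def SOp.Inverts (R : SOp) (f : E2 → R4) (S : Set E2) : Prop :=
  ∀ q : E2 → S3, ContDiff ℝ ∞ q → tsupport q ⊆ S → ∀ x, Lin f (R.app q) x = q x

lemma SOp.app_eq_zero (R : SOp) {q : E2 → S3} {x : E2} (hx : q =ᶠ[𝓝 x] 0) : R.app q x = 0 :=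
  Finset.sum_eq_zero fun k _ => by rw [(hx.iteratedFDeriv ℝ k).eq_of_nhds]; simp

/-- Goodness of the base gives a right inverse. -/
theorem exists_rop (hC : GdChartStmt.{0}) (hT : TransposeStmt) {f : E2 → R4}
    (hf : ContDiff ℝ ∞ f) {U S : Set E2} (hU : IsOpen U) (hS : IsCompact S) (hSU : S ⊆ U)
    (hgd : ∀ x ∈ U, GdAt f x) : ∃ R : SOp, R.Inverts f S := by
  obtain ⟨L, hL, hSL, hLU⟩ := exists_compact_between hS hU hSU
  obtain ⟨I, hI⟩ := Twist.exists_ident_cover hC hf hL fun x hx => hgd x (hLU hx)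
  obtain ⟨D, hD⟩ := hT I
  obtain ⟨ψ, hψ, hψc, hψO, hψ1⟩ := exists_cutoff hS isOpen_interior hSL
  have hpos : ∀ x ∈ interior L, jet D.N f x ∈ {z | 0 < D.den z} := fun x hx => by
    show 0 < D.den (jet D.N f x)
    rw [hD f hf x]; exact hI x (interior_subset hx)
  have hj : ContDiff ℝ ∞ (jet D.N f) := contDiff_pi.2 fun k =>
    hf.iteratedFDeriv_right (by exact_mod_cast le_top)
  have hsm : ∀ k, ContDiff ℝ ∞ fun x => ψ x • D.coef k (jet D.N f x) := fun k => by
    refine contDiff_iff_contDiffAt.2 fun x => ?_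
    by_cases hx : x ∈ tsupport ψ
    · exact hψ.contDiffAt.smul (((D.coef_smooth k).contDiffAt
        ((isOpen_lt continuous_const D.den_smooth.continuous).mem_nhds (hpos x (hψO hx)))).comp x
          hj.contDiffAt)
    · refine (contDiffAt_const (c := (0 : _))).congr_of_eventuallyEq ?_
      filter_upwards [(isClosed_tsupport ψ).isOpen_compl.mem_nhds hx] with y hy
      simp [image_eq_zero_of_notMem_tsupport hy]
  set R : SOp := ⟨D.L, fun k x => ψ x • D.coef k (jet D.N f x), hsm, tsupport ψ, hψc,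
    fun k x hx => by simp [image_eq_zero_of_notMem_tsupport hx]⟩ with hR
  refine ⟨R, fun q hq hqS x => ?_⟩
  by_cases hx : x ∈ S
  · have h1 : ∀ᶠ y in 𝓝 x, ψ y = 1 := (eventually_nhdsSet_iff_forall.1 hψ1) x hx
    have e : R.app q =ᶠ[𝓝 x]
        fun z => ∑ k, D.coef k (jet D.N f z) (iteratedFDeriv ℝ (k : ℕ) q z) :=
      h1.mono fun y hy => Finset.sum_congr rfl fun k _ => by
        show (ψ y • D.coef k (jet D.N f y)) _ = _
        rw [hy, one_smul]
    have := D.inverts f q hf hq x (hpos x (hSL hx))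
    rw [← this]
    ext i
    simp only [Lin, pd, e.fderiv_eq]
  · have hq0 : ∀ᶠ y in 𝓝 x, q =ᶠ[𝓝 y] 0 := by
      filter_upwards [(isClosed_tsupport q).isOpen_compl.mem_nhds fun h => hx (hqS h)] with y hy
      exact notMem_tsupport_iff_eventuallyEq.1 hy
    have e : R.app q =ᶠ[𝓝 x] fun _ => (0 : R4) :=
      hq0.mono fun y hy => SOp.app_eq_zero _ hy
    rw [hq0.self_of_nhds.eq_of_nhds]
    ext i
    simp only [Lin, pd, e.fderiv_eq]
    fin_cases i <;> simp

/-! ### The operator on families -/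

variable {d : ℕ} {W : Wts d}

/-- Space derivatives of order `k` of a family, as multilinear maps. -/
noncomputable def jetF : (k : ℕ) → Fm d S3 →
    Fm d (ContinuousMultilinearMap ℝ (fun _ : Fin k => E2) S3)
  | 0, Φ => fun p z t => (continuousMultilinearCurryFin0 ℝ E2 S3).symm (Φ p z t)
  | k + 1, Φ => fun p z t => (continuousMultilinearCurryLeftEquiv ℝ (fun _ : Fin (k + 1) => E2) S3).symm
      ((ContinuousLinearMap.smulRightL ℝ E2 _ (EuclideanSpace.proj 0)) (dx (ev 0) (jetF k Φ) p z t) +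
        (ContinuousLinearMap.smulRightL ℝ E2 _ (EuclideanSpace.proj 1)) (dx (ev 1) (jetF k Φ) p z t))

theorem Up.jetF {Φ : Fm d S3} {j : ℕ} (h : Up W j Φ) : ∀ k, Up W j (Expand.jetF k Φ)
  | 0 => h.clm (continuousMultilinearCurryFin0 ℝ E2 S3).symm.toContinuousLinearEquiv.toContinuousLinearMap
  | k + 1 => by
    have h' := Up.jetF h k
    exact (((h'.dx (ev 0)).clm (ContinuousLinearMap.smulRightL ℝ E2 _ (EuclideanSpace.proj 0))).add
      ((h'.dx (ev 1)).clm (ContinuousLinearMap.smulRightL ℝ E2 _ (EuclideanSpace.proj 1)))).clm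
      (continuousMultilinearCurryLeftEquiv ℝ (fun _ : Fin (k + 1) => E2)
        S3).symm.toContinuousLinearEquiv.toContinuousLinearMap

lemma clm_E2_ext {Y : Type} [NormedAddCommGroup Y] [NormedSpace ℝ Y] (L : E2 →L[ℝ] Y) :
    L = ContinuousLinearMap.smulRightL ℝ E2 Y (EuclideanSpace.proj 0) (L (ev 0)) +
      ContinuousLinearMap.smulRightL ℝ E2 Y (EuclideanSpace.proj 1) (L (ev 1)) := by
  ext v
  have e : v = v 0 • ev 0 + v 1 • ev 1 := by
    ext i; fin_cases i <;> simp [ev]
  conv_lhs => rw [e]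
  simp

lemma jetF_eq {Φ : Fm d S3} (h : ∀ p, Js (Φ p)) (p : Ix) (l : Fin d → ℝ) (t : ℝ) :
    ∀ (k : ℕ) (x : E2), jetF k Φ p (l, x) t = iteratedFDeriv ℝ k (fun y => Φ p (l, y) t) x := by
  intro k
  induction k with
  | zero => intro x; rw [iteratedFDeriv_zero_eq_comp]; rfl
  | succ k ih =>
    intro x
    rw [iteratedFDeriv_succ_eq_comp_left, Function.comp_apply]
    simp only [jetF]
    congr 1
    have e : (fun y => jetF k Φ p (l, y) t) = iteratedFDeriv ℝ k fun y => Φ p (l, y) t :=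
      funext fun y => ih y
    have hg : ContDiff ℝ ∞ fun y => Φ p (l, y) t :=
      ((h p).slow t).comp (contDiff_const.prodMk contDiff_id)
    have hjs : DifferentiableAt ℝ (fun z => jetF k Φ p z t) (l, x) :=
      ((jetF_js h k p).slow t).differentiable (by norm_num) _
    have hd : ∀ v, dx v (jetF k Φ) p (l, x) t =
        fderiv ℝ (iteratedFDeriv ℝ k fun y => Φ p (l, y) t) x v := fun v => by
      rw [← e]
      have h2 := hjs.hasFDerivAt.comp (f := fun y : E2 => (l, y)) x (hasFDerivAt_prodMk_right l x)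
      rw [show (fun y => jetF k Φ p (l, y) t) = (fun z => jetF k Φ p z t) ∘ fun y : E2 => (l, y)
        from rfl, h2.fderiv]
      rfl
    rw [hd, hd]
    exact (clm_E2_ext _).symm
where
  jetF_js {Φ : Fm d S3} (h : ∀ p, Js (Φ p)) : ∀ k p, Js (jetF k Φ p)
    | 0, p => (h p).clm (continuousMultilinearCurryFin0 ℝ E2 S3).symm.toContinuousLinearEquiv.toContinuousLinearMap
    | k + 1, p => ((((jetF_js h k p).dir _).clm
        (ContinuousLinearMap.smulRightL ℝ E2 _ (EuclideanSpace.proj 0))).add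
      (((jetF_js h k p).dir _).clm (ContinuousLinearMap.smulRightL ℝ E2 _ (EuclideanSpace.proj 1)))).clm
      (continuousMultilinearCurryLeftEquiv ℝ (fun _ : Fin (k + 1) => E2)
        S3).symm.toContinuousLinearEquiv.toContinuousLinearMap

/-- The operator applied to each slice. -/
noncomputable def SOp.fam (R : SOp) (Φ : Fm d S3) : Fm d R4 :=
  fun p z t => R.app (fun y => Φ p (z.1, y) t) z.2

theorem Up.sop {Φ : Fm d S3} {j : ℕ} (h : Up W j Φ) (R : SOp) : Up W j (R.fam Φ) := by
  have hk : ∀ k : Fin (R.L + 1), Up W j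
      (mulF (ContinuousLinearMap.id ℝ (ContinuousMultilinearMap ℝ (fun _ : Fin (k : ℕ) => E2) S3 →L[ℝ] R4))
        (fun (_ : Ix) (z : Zv d) (_ : ℝ) => R.c k z.2) (Expand.jetF (k : ℕ) Φ)) := fun k => by
    have hc : Up W 0 fun (_ : Ix) (z : Zv d) (_ : ℝ) => R.c k z.2 :=
      Up.coef (c := fun x _ => R.c k x) ((R.smooth k).comp contDiff_fst) (fun _ _ => rfl) R.compact
        fun x hx _ => R.zero k x hx
    have := hc.mul (ContinuousLinearMap.id ℝ (ContinuousMultilinearMap ℝ (fun _ : Fin (k : ℕ) => E2) S3 →L[ℝ] R4))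
      (h.jetF (k : ℕ))
    rwa [zero_add] at this
  have e : R.fam Φ = ∑ k : Fin (R.L + 1), mulF (ContinuousLinearMap.id ℝ
      (ContinuousMultilinearMap ℝ (fun _ : Fin (k : ℕ) => E2) S3 →L[ℝ] R4))
        (fun (_ : Ix) (z : Zv d) (_ : ℝ) => R.c k z.2) (Expand.jetF (k : ℕ) Φ) := by
    funext p z t
    simp only [Finset.sum_apply, SOp.fam, SOp.app, mulF, ContinuousLinearMap.id_apply]
    exact Finset.sum_congr rfl fun k _ => by rw [← jetF_eq h.val.js p z.1 t k z.2]
  rw [e]
  exact Finset.sum_induction _ (fun g => Up W j g) (fun _ _ => Up.add) Up.zero fun k _ => hk k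

end Vale.Agent.P205F.Expand
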