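import Vale.Agent.P205F.Expand.FamAux
import Vale.Agent.P205F.Expand.Rop

/-!
# P205, expansions: the family module

The seeds, the family of level `J`, and at every point the slow and fine parameters.
-/

namespace Vale.Agent.P205F.Expand

open scoped ContDiff RealInnerProductSpace Topology
open Filter Set

section Respond

variable {n : ℕ} {b : Bool} {B : Base} {Lp : Loop B.S B.N B.X0 B.X1 B.V B.a} {f : E2 → R4}
  {κ q th : ℕ} {hth : 14 ≤ th} {G : Fm (dN n) R4} {p : Ix} {K : Set E2}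

/-- What is known at every point once the frequency is large. -/
structure PointOK (b : Bool) (B : Base) (Lp : Loop B.S B.N B.X0 B.X1 B.V B.a) (f : E2 → R4)
    (W : Wts (dN n)) (G : Fm (dN n) R4) (p : Ix) (K : Set E2) (CE Cc Cv C : ℝ) (X : ℕ) : Prop where
  adm : Adm p
  one : 1 ≤ C
  env : ∀ l ∈ Box (dN n), ∀ x ∈ K,
    let F := famF f G p l
    let s := sF b B Lp F x (p.M * x 0)
    PtEnv b F B.r B.χ s x (CE * (p.M : ℝ) ^ 14) ∧ (∀ c, ‖s c‖ ≤ CE) ∧ (b = true → s 1 = 0) ∧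
      (b = true → ∀ τ, nrm F x τ = τ → ∃ a c : ℝ, τ = a • s 0 + c • II F x (ev 1)) ∧
      ‖II F x (ev 1)‖ ≤ CE
  col : ∀ l ∈ Box (dN n), ∀ x ∈ K, ∀ c ≤ 12, ∀ u : SIx n → ℝ,
    ‖jd 0 c (fun y => ∑ k, u k • Wv W G p l k y) x‖ ≤ Cc * ‖u‖
  var : ∀ l ∈ Box (dN n), ∀ x ∈ K, ∀ u : SIx n → ℝ,
    PtVar (famF f G p l) B.r B.χ (fun y => ∑ k, u k • Wv W G p l k y) x
      (Cv * ((p.M : ℝ) ^ X)⁻¹ * ‖u‖)
  sol : ∀ l ∈ Box (dN n), ∀ x ∈ K, ∀ fr : Fin 2, ∃ i₀ : Fin n,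
    Sol (nfree b) (nfree_le b) (famF f G p l) (Wv W G p l)
      (sF b B Lp (famF f G p l) x (p.M * x 0)) x fr i₀ ((p.M : ℝ) * LL W.κ fr p) C

/-- The slow responses. -/
theorem slow_resp (hGamma : GammaStmt) (hSlow : SlowPtStmt) :
    ∃ eG : ℕ, ∀ b : Bool, ∃ eS : ℕ, ∀ (B : Base) (Lp : Loop B.S B.N B.X0 B.X1 B.V B.a) (f : E2 → R4)
      (n κ q th : ℕ) (hth : 14 ≤ th) (G : Fm (dN n) R4) (K : Set E2) (CE Cc Cv C : ℝ) (X L0 : ℕ),
      (∀ p, Js (G p)) → 1 ≤ L0 → 2 ≤ CE → 0 ≤ Cv → 14 * eS + 14 * eG + 34 ≤ X →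
      (∀ y, b = true → B.r y = 0) →
      ∃ (C' M' : ℝ), 0 ≤ C' ∧ ∀ p : Ix, p.L0 = L0 → M' ≤ p.M →
        PointOK b B Lp f (mkW n κ q th hth) G p K CE Cc Cv C X →
        SlowResp b (famF f G p) K C' (q + 1 + 14 * (eG + 2) + 4) p.M := by
  obtain ⟨eG, hs⟩ := slow_at hGamma
  refine ⟨eG, fun b => ?_⟩
  obtain ⟨eS, hS⟩ := hSlow b
  refine ⟨eS, fun B Lp f n κ q th hth G K CE Cc Cv C X L0 hG hL0 hCE hCv hX hr0 => ?_⟩
  set K₁ : ℝ := (L0 : ℝ) ^ (th + 1) * (4 * C ^ 2 * CE ^ (eG + 2) * (L0 : ℝ) ^ 4) with hK₁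
  set K₂ : ℝ := CE ^ eS * Cv * (4 * C ^ 2 * CE ^ (eG + 2) * (L0 : ℝ) ^ 4) with hK₂
  have hCE0 : 0 ≤ CE := by linarith
  refine ⟨K₁ + K₂, 2 * (C ^ 2 * CE ^ eG * Cv), by positivity, fun p hpL hpM hP l hl x hx τ hτ => ?_⟩
  have hp := hP.adm
  have hM := hp.one_le_M
  have hM0 := hp.M_pos
  have hC := hP.one
  have hC0 : (0 : ℝ) ≤ C := by linarith
  have hL : (1 : ℝ) ≤ L0 := by exact_mod_cast hL0
  obtain ⟨hE, -, hs1, hspan, hII⟩ := hP.env l hl x hx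
  obtain ⟨i₀, hSol⟩ := hP.sol l hl x hx 0
  have hLL : (LL (mkW n κ q th hth).κ 0 p : ℝ) = L0 := by simp [LL, hpL]
  rw [hLL] at hSol
  set W := mkW n κ q th hth with hW
  set Z : ℝ := Cv * ((p.M : ℝ) ^ X)⁻¹ with hZ
  have hMT : 1 ≤ CE * (p.M : ℝ) ^ 14 := one_le_mul_of_one_le_of_one_le (by linarith) (one_le_pow₀ hM)
  have hz : C * ((CE * (p.M : ℝ) ^ 14) ^ eG * (C * Z)) ≤ 1 / 2 := by
    have h2 : (p.M : ℝ) ^ (14 * eG) * ((p.M : ℝ) ^ X)⁻¹ ≤ (p.M : ℝ)⁻¹ := by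
      rw [← div_eq_mul_inv, div_le_iff₀ (by positivity), inv_mul_eq_div, le_div_iff₀ hM0,
        ← pow_succ]
      exact pow_le_pow_right₀ hM (by omega)
    have e : C * ((CE * (p.M : ℝ) ^ 14) ^ eG * (C * Z)) =
        C ^ 2 * CE ^ eG * Cv * ((p.M : ℝ) ^ (14 * eG) * ((p.M : ℝ) ^ X)⁻¹) := by
      rw [hZ, mul_pow CE, ← pow_mul]; ring
    rw [e]
    refine (mul_le_mul_of_nonneg_left h2 (by positivity)).trans ?_
    rw [← div_eq_mul_inv, div_le_iff₀ hM0]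
    linarith
  obtain ⟨u, hsupp, hu, hrow, hlow⟩ := hs b n (famF f G p l) (Wv W G p l) B.r B.χ
    (sF b B Lp (famF f G p l) x (p.M * x 0)) x (CE * (p.M : ℝ) ^ 14) ((p.M : ℝ) * L0) p.M C Z 0 i₀ τ
    hE hr0 hs1
    (fun _ => hII.trans (le_mul_of_one_le_right hCE0 (one_le_pow₀ hM))) hspan
    (fun k => Wv_smooth hG W p l k) hSol hC hM (le_mul_of_one_le_right hM0.le hL) (by positivity)
    (hP.var l hl x hx) hz hτ
  have hu' : ‖u‖ ≤ 4 * C ^ 2 * CE ^ (eG + 2) * (L0 : ℝ) ^ 4 * (p.M : ℝ) ^ (14 * (eG + 2) + 4) := by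
    refine hu.trans (le_of_eq ?_)
    rw [mul_pow CE, ← pow_mul, mul_pow (p.M : ℝ) (L0 : ℝ), pow_add (p.M : ℝ)]
    ring
  refine ⟨vOf W p u, ?_, fun i j hij σ hσ => ?_, fun h0 i j hij => ?_⟩
  · refine (vOf_bound hp 0 i₀ hsupp).trans ?_
    rw [show (LL κ 0 p : ℝ) = L0 from hLL]
    calc (p.M : ℝ) ^ (q + 1) * (L0 : ℝ) ^ (th + 1) * ‖u‖
        ≤ (p.M : ℝ) ^ (q + 1) * (L0 : ℝ) ^ (th + 1) *
          (4 * C ^ 2 * CE ^ (eG + 2) * (L0 : ℝ) ^ 4 * (p.M : ℝ) ^ (14 * (eG + 2) + 4)) := by gcongr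
      _ = K₁ * (p.M : ℝ) ^ (q + 1 + 14 * (eG + 2) + 4) := by
          rw [hK₁, pow_add (p.M : ℝ) (q + 1 + 14 * (eG + 2)) 4, pow_add (p.M : ℝ) (q + 1)
            (14 * (eG + 2)), pow_add (p.M : ℝ) (14 * (eG + 2)) 4]
          ring
      _ ≤ _ := mul_le_mul_of_nonneg_right (le_add_of_nonneg_right (by positivity)) (by positivity)
  · rw [dlam_comb hG W hp]
    exact hrow i j hij σ hσ
  · rw [dlam_comb hG W hp]
    refine (hS _ _ _ _ _ x _ _ hE (hP.var l hl x hx u) (hlow h0) i j hij).trans ?_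
    have h1 : (p.M : ℝ) ^ (14 * eS) * ((p.M : ℝ) ^ X)⁻¹ * (p.M : ℝ) ^ (14 * (eG + 2) + 4) ≤
        (p.M : ℝ)⁻¹ := by
      rw [mul_right_comm, ← pow_add, ← div_eq_mul_inv, div_le_iff₀ (by positivity), inv_mul_eq_div,
        le_div_iff₀ hM0, ← pow_succ]
      exact pow_le_pow_right₀ hM (by omega)
    calc (CE * (p.M : ℝ) ^ 14) ^ eS * (Z * ‖u‖)
        ≤ (CE * (p.M : ℝ) ^ 14) ^ eS * (Z *
          (4 * C ^ 2 * CE ^ (eG + 2) * (L0 : ℝ) ^ 4 * (p.M : ℝ) ^ (14 * (eG + 2) + 4))) := by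
          gcongr
      _ = K₂ * ((p.M : ℝ) ^ (14 * eS) * ((p.M : ℝ) ^ X)⁻¹ * (p.M : ℝ) ^ (14 * (eG + 2) + 4)) := by
          rw [hK₂, hZ, mul_pow CE, ← pow_mul]; ring
      _ ≤ K₂ * (p.M : ℝ)⁻¹ := mul_le_mul_of_nonneg_left h1 (by positivity)
      _ ≤ (K₁ + K₂) / p.M := by
          rw [← div_eq_mul_inv]
          gcongr
          exact le_add_of_nonneg_left (by positivity)

/-- The fine responses. -/
theorem fine_resp (hFine : FinePtStmt) :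
    ∀ b : Bool, ∃ eP : ℕ, ∀ (B : Base) (Lp : Loop B.S B.N B.X0 B.X1 B.V B.a) (f : E2 → R4)
      (n κ q th : ℕ) (hth : 14 ≤ th) (G : Fm (dN n) R4) (K : Set E2) (CE Cc Cv C : ℝ) (X : ℕ),
      (∀ p, Js (G p)) → 2 ≤ CE → 0 ≤ Cc → 0 ≤ Cv →
      ∃ (C' M' : ℝ), 0 ≤ C' ∧ ∀ p : Ix, M' ≤ p.M →
        PointOK b B Lp f (mkW n κ q th hth) G p K CE Cc Cv C X →
        FineResp b (famF f G p) K C' (14 * eP) κ (q + 1 + (κ + 1) * (th + 1)) p.M := by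
  intro b
  obtain ⟨eP, hFP⟩ := hFine b
  refine ⟨eP, fun B Lp f n κ q th hth G K CE Cc Cv C X hG hCE hCc hCv => ?_⟩
  have hCE0 : 0 ≤ CE := by linarith
  refine ⟨CE ^ eP + C ^ 2 * CE + CE ^ eP * ((Cc + Cv + 1) * (C ^ 2 * CE)),
    (Cc + Cv + 1) * (C ^ 2 * CE), by positivity, fun p hpM hP => ?_⟩
  set C' : ℝ := CE ^ eP + C ^ 2 * CE + CE ^ eP * ((Cc + Cv + 1) * (C ^ 2 * CE)) with hC'
  intro l hl x hx N i hN3 hN10 hi τ hτ hτ1
  have hp := hP.adm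
  have hM := hp.one_le_M
  have hM0 := hp.M_pos
  have hC := hP.one
  obtain ⟨hE, hsb, hs1, -, -⟩ := hP.env l hl x hx
  obtain ⟨i₀, hSol⟩ := hP.sol l hl x hx 1
  set W := mkW n κ q th hth with hW
  have hLL : (LL W.κ 1 p : ℝ) = (p.M : ℝ) ^ (κ + 1) := by
    simp [LL, hW, mkW]
  rw [hLL, ← pow_succ'] at hSol
  set Λ : ℝ := (p.M : ℝ) ^ (κ + 1 + 1) with hΛ
  have hΛ1 : 1 ≤ Λ := one_le_pow₀ hM
  obtain ⟨u, hsupp, hu, hrow⟩ := fine_at b n (famF f G p l) (Wv W G p l) B.r B.χ _ x _ Λ C CE 1 i₀ N i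
    τ hE hs1 hsb (fun k => Wv_smooth hG W p l k) hSol (by linarith) hΛ1 hCE0 hN10 (by omega) hτ1
  set ub : ℝ := C ^ 2 * CE * ((p.M : ℝ) ^ (κ + 1))⁻¹ with hub
  have hu' : ‖u‖ ≤ ub := by
    refine hu.trans ?_
    have h1 : ((p.M : ℝ) ^ (κ + 1)) ≤ Λ ^ i := by
      rw [hΛ, ← pow_mul]
      refine pow_le_pow_right₀ hM ?_
      calc κ + 1 ≤ (κ + 1 + 1) * 1 := by omega
        _ ≤ _ := Nat.mul_le_mul_left _ (by omega)
    rw [hub, div_eq_mul_inv, show C * (C * (CE * (Λ ^ i)⁻¹)) = C ^ 2 * CE * (Λ ^ i)⁻¹ by ring]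
    gcongr
  set S : ℝ := (Cc + Cv + 1) * ub with hS
  have hu0 : 0 ≤ ub := by positivity
  have hSc : Cc * ‖u‖ ≤ S := mul_le_mul (by linarith) hu' (norm_nonneg _) (by positivity)
  have hSv : Cv * ((p.M : ℝ) ^ X)⁻¹ * ‖u‖ ≤ S :=
    mul_le_mul ((mul_le_of_le_one_right hCv (inv_le_one_of_one_le₀ (one_le_pow₀ hM))).trans
      (by linarith)) hu' (norm_nonneg _) (by positivity)
  have hS1 : S ≤ 1 := by
    rw [hS, hub, ← mul_assoc, ← div_eq_mul_inv, div_le_one (by positivity)]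
    exact hpM.trans (le_self_pow₀ hM (by omega))
  obtain ⟨r1, r2, r3, r4, r5⟩ := hFP (famF f G p l) (fun y => ∑ k, u k • Wv W G p l k y) B.r B.χ _ x
    _ S N i τ hE ((hP.var l hl x hx u).mono hSv) hS1 hN3 hN10 hi hτ hτ1 hrow
    (fun c hc => (hP.col l hl x hx c hc u).trans hSc)
  have hη : (CE * (p.M : ℝ) ^ 14) ^ eP * S ≤ C' * (p.M : ℝ) ^ (14 * eP) / (p.M : ℝ) ^ κ := by
    have e : (CE * (p.M : ℝ) ^ 14) ^ eP * S = CE ^ eP * ((Cc + Cv + 1) * (C ^ 2 * CE)) *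
        (p.M : ℝ) ^ (14 * eP) / (p.M : ℝ) ^ (κ + 1) := by
      rw [hS, hub, mul_pow CE, ← pow_mul, div_eq_mul_inv]; ring
    rw [e]
    exact div_le_div₀ (by positivity) (mul_le_mul_of_nonneg_right
      (le_add_of_nonneg_left (by positivity)) (by positivity)) (by positivity)
      (pow_le_pow_right₀ hM (Nat.le_succ κ))
  refine ⟨vOf W p u, ?_, ?_⟩
  · refine (vOf_bound hp 1 i₀ hsupp).trans ?_
    rw [show (LL κ 1 p : ℝ) = (p.M : ℝ) ^ (κ + 1) from hLL, ← pow_mul, ← pow_add]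
    refine (mul_le_mul_of_nonneg_left (hu'.trans ?_) (by positivity)).trans (le_of_eq (mul_comm _ _))
    calc ub ≤ C ^ 2 * CE := mul_le_of_le_one_right (by positivity)
          (inv_le_one_of_one_le₀ (one_le_pow₀ hM))
      _ ≤ C' := by
          rw [hC']
          exact le_add_of_le_of_nonneg (le_add_of_nonneg_left (by positivity)) (by positivity)
  rw [dlam_comb hG W hp]
  refine ⟨fun a c hac => (r1 a c hac).trans ?_, fun a c hac => (r2 a c hac).trans hη,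
    fun a ha σ hσ hσ1 => (r3 a ha σ hσ hσ1).trans hη, fun a c hac => (r4 a c hac).trans hη,
    fun hb => ⟨fun a ha => ((r5 hb).1 a ha).trans hη, fun a ha => ((r5 hb).2 a ha).trans hη⟩⟩
  rw [mul_pow CE, ← pow_mul, hC']
  gcongr
  rw [add_assoc]
  exact le_add_of_nonneg_right (by positivity)

end Respond

/-- THE FAMILY MODULE, from its parts. -/
theorem familyStmt_of (hEnv : EnvStmt) (hVar : VarStmt) (hRows : RowsStmt) (hGamma : GammaStmt)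
    (hFine : FinePtStmt) (hSlowPt : SlowPtStmt) (hSF : SlowFieldsStmt) : FamilyStmt := by
  intro b f a ν W K K' V D hf hK hKK' hsupp q hq
  obtain ⟨eG, hSR⟩ := slow_resp hGamma hSlowPt
  obtain ⟨eS, hSR⟩ := hSR b
  obtain ⟨eP, hFR⟩ := fine_resp hFine b
  refine ⟨q + 1 + 14 * (eG + 2) + 4 + 14 * eP, fun κ => ⟨q + 1 + (κ + 1) * (14 + q + 1), fun J₀ Uk hUk => ?_⟩⟩
  have hKS : K ⊆ interior D.B.S := by rw [D.hS]; exact hKK'
  have hKN : K ⊆ D.B.N := hKS.trans (interior_subset.trans D.B.S_sub)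
  have hfX : ∀ x ∈ D.B.N, D.B.X0 x = pd 0 f x ∧ D.B.X1 x = pd 1 f x :=
    fun x hx => ⟨(D.hX x hx).1, (D.hX x hx).2.1⟩
  have hX1 : ∀ x ∈ D.B.N, 0 < ⟪D.B.X1 x, D.B.X1 x⟫ := fun x hx => by
    have h := (D.hV x hx).2.1.ne_zero 1
    simp only [Matrix.cons_val_one, Matrix.cons_val_zero] at h
    exact real_inner_self_pos.2 h
  obtain ⟨ψ, hψ, -, hψS, hψ1⟩ := exists_cutoff hK isOpen_interior hKS
  have hψS' : tsupport ψ ⊆ D.B.S := hψS.trans interior_subset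
  have hψ1' : ∀ x ∈ K, ψ =ᶠ[𝓝 x] fun _ => 1 := eventually_nhdsSet_iff_forall.1 hψ1
  obtain ⟨C₀, hC₀⟩ := exists_ptConst D.Lp D.D b hψ hψS' hX1 hK fun x hx => D.hfwd x (hKN hx)
  have h1C0 := hC₀.one
  obtain ⟨δ₀, hδ₀, hR2⟩ := hRows (nfree b) (nfree_le b) (C₀ + 2) (by linarith)
  obtain ⟨n, Y, hY, hYa⟩ := hSF D.B D.D K hK hKS (fun x hx => ⟨(D.hV x hx).1, hX1 x hx⟩)
    (δ₀ / (32 * C₀)) (by positivity)
  have h0 : ∀ x ∈ D.B.N, (1 - D.B.χ) * ⟪D.B.X0 x, D.B.V x⟫ = 0 ∧ ⟪D.B.X1 x, D.B.V x⟫ = 0 := by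
    intro x hx
    refine ⟨?_, (D.hV x hx).1⟩
    cases b
    · rw [((D.hV x hx).2.2 rfl).2, mul_zero]
    · rw [D.hχ]; simp
  set th := 14 + q with hth'
  have hth : 14 ≤ th := Nat.le_add_right 14 q
  set X := 14 * eS + 14 * eG + 34 with hX
  set E := (κ + 1) * 12 + 11 + (q + 1 + (κ + 1) * (th + 1)) with hE
  set J := max J₀ (q + 2 + E + X) with hJ
  have hJ1 : q + 2 + E + X ≤ J := le_max_right _ _
  obtain ⟨G, hSt, hGb, hU, hP⟩ := exists_pack D.B D.Lp D.hg h0 hψ hψS' hY κ q th hth (by omega)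
    (tsupport a) (isClosed_tsupport a)
    ((hsupp.trans interior_subset).trans (hKS.trans interior_subset))
    (fun x hx => by rw [D.ha]; exact image_eq_zero_of_notMem_tsupport hx) D.hga Uk
    (hUk.imp id fun ⟨hb, h1, h2⟩ => ⟨by rw [D.hχ, hb]; rfl, h1, h2⟩) J (by omega)
  refine ⟨dN n, mkW n κ q th hth, J, G, le_max_left _ _, rfl, Nat.le_add_left _ _, le_rfl, hSt, hGb,
    fun hb => hU (by rw [D.hχ, hb]; rfl), ?_⟩
  obtain ⟨CE, ME, hCE, hEnvp⟩ := hEnv b D.B D.Lp D.hg D.hχ D.hV f hf hfX K hK hKN (dN n)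
    (mkW n κ q th hth) G hSt.up hSt.g
  obtain ⟨Cv, hCv, hVarp⟩ := hVar D.B f hf hfX K hKN (dN n) (mkW n κ q th hth) G J hSt
    (fun p k hp => mkW_amp_le p k hp) (fun p k hp => mkW_freq_le p k hp)
  obtain ⟨Bd, C₁, hBd, hC₁, hRP⟩ := rows_point D.D b D.hχ D.hV D.hg hψ hψS' hK hKN hψ1' hf hfX hC₀
    (fun i c j => (hY i c j).1) hSt.up hSt.g hP
  obtain ⟨C, δ₁, hC, hδ₁, hR3⟩ := hR2 n Bd hBd
  obtain ⟨Cc, hCc, hcol⟩ := wv_col0 hSt.up
  have hGj := hSt.up.val.js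
  obtain ⟨L0, hL0, hL0b⟩ : ∃ L : ℕ, 1 ≤ L ∧ 2 * C₁ / δ₁ ≤ L :=
    ⟨⌈2 * C₁ / δ₁⌉₊ + 1, Nat.le_add_left _ _, (Nat.le_ceil _).trans (by exact_mod_cast Nat.le_succ _)⟩
  obtain ⟨CS, MS, hCS, hSlowR⟩ := hSR D.B D.Lp f n κ q th hth G K CE Cc Cv C X L0 hGj hL0 hCE hCv
    le_rfl fun y hb => D.B.χ_or.elim (fun h => absurd h (by rw [D.hχ, hb]; simp)) fun h => h.2 y
  obtain ⟨CF, MF, hCF, hFineR⟩ := hFR D.B D.Lp f n κ q th hth G K CE Cc Cv C X hGj hCE hCc hCv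
  set Mr : ℝ := |MS| + |MF| + 2 * C₁ / δ₁ + 4 * (C₁ + CE) / δ₀ + CE with hMr
  refine ⟨L0, max ME ⌈Mr⌉₊, CS + CF, hL0, fun p hp hpL hpM => ?_⟩
  have hM := hp.one_le_M
  have hM0 := hp.M_pos
  have hMr' : Mr ≤ p.M := (Nat.le_ceil Mr).trans (by exact_mod_cast (le_max_right _ _).trans hpM)
  have hq1 : 0 ≤ 2 * C₁ / δ₁ := by positivity
  have hq2 : 0 ≤ 4 * (C₁ + CE) / δ₀ := by positivity
  have a1 := le_abs_self MS
  have a2 := le_abs_self MF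
  have a3 := abs_nonneg MS
  have a4 := abs_nonneg MF
  have hok : PointOK b D.B D.Lp f (mkW n κ q th hth) G p K CE Cc Cv C X := by
    refine ⟨hp, hC, fun l hl x hx => ?_, fun l hl x _ => hcol p hp l hl x,
      fun l hl x hx u => ?_, fun l hl x hx fr => ?_⟩
    · obtain ⟨k1, -, k3, k4, -, k6, k7⟩ := hEnvp p hp ((le_max_left _ _).trans hpM) l hl x hx
      exact ⟨k1, k3, k4, fun hb τ hτ => (k6 hb τ hτ).imp fun _ h => h.imp fun _ h => h.1, k7⟩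
    · have h := hVarp p hp l hl x hx (vOf (mkW n κ q th hth) p u)
      rw [dlam_comb hGj _ hp] at h
      refine h.mono ?_
      calc Cv * (eps p ^ J * Lam κ p ^ 12 * (p.M : ℝ) ^ 11) * ‖vOf (mkW n κ q th hth) p u‖
          ≤ Cv * (eps p ^ J * Lam κ p ^ 12 * (p.M : ℝ) ^ 11) *
            ((p.M : ℝ) ^ (q + 1 + (κ + 1) * (th + 1)) * ‖u‖) := by
            have := eps_nonneg p
            have := one_le_Lam κ hp
            exact mul_le_mul_of_nonneg_left (vOf_bound_all hp u) (by positivity)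
        _ = Cv * (eps p ^ J * (p.M : ℝ) ^ E) * ‖u‖ := by
            rw [hE, pow_add (p.M : ℝ) ((κ + 1) * 12 + 11), pow_add (p.M : ℝ) ((κ + 1) * 12), pow_mul,
              Lam]
            ring
        _ ≤ _ := by
            gcongr
            exact eps_beats hp (by omega)
    · obtain ⟨i₀, hi₀⟩ := hYa x hx
      obtain ⟨-, k2, -, -, -, -, -⟩ := hEnvp p hp ((le_max_left _ _).trans hpM) l hl x hx
      have hε : eps p = (p.M : ℝ)⁻¹ := rfl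
      have hCεle : CE * eps p ≤ 1 := by
        rw [hε, ← div_eq_mul_inv, div_le_one hM0]; linarith
      have hd := hRP p hp l hl x hx fr i₀ (δ₀ / (32 * C₀)) (CE * eps p)
        (mul_nonneg (by linarith) (eps_nonneg p)) hCεle hi₀ k2
      refine ⟨i₀, hR3 _ _ _ _ _ _ x fr i₀ _ _ _ _ hd ?_ ?_⟩
      · have e1 : 8 * C₀ * (δ₀ / (32 * C₀)) = δ₀ / 4 := by field_simp; ring
        have e2 : (C₁ + CE) * eps p ≤ δ₀ / 4 := by
          rw [hε, ← div_eq_mul_inv, div_le_iff₀ hM0]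
          have h4 : 4 * (C₁ + CE) / δ₀ ≤ p.M := by linarith
          rw [div_le_iff₀ hδ₀] at h4
          linarith
        linarith
      · have hL : 2 * C₁ / δ₁ ≤ (LL κ fr p : ℝ) := by
          unfold LL
          split_ifs
          · rw [hpL]; exact hL0b
          · push_cast
            exact (by linarith : 2 * C₁ / δ₁ ≤ (p.M : ℝ)).trans (le_self_pow₀ hM (by omega))
        have hLp : (0 : ℝ) < LL κ fr p := Nat.cast_pos.2 (LL_freq κ fr p hp)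
        rw [div_le_iff₀ hδ₁] at hL
        have h1 : C₁ * ((LL κ fr p : ℝ))⁻¹ ≤ δ₁ / 2 := by
          rw [← div_eq_mul_inv, div_le_iff₀ hLp]; linarith
        have h2 : C₁ * eps p ≤ δ₁ / 2 := by
          have h4 : 2 * C₁ / δ₁ ≤ p.M := by linarith
          rw [div_le_iff₀ hδ₁] at h4
          rw [hε, ← div_eq_mul_inv, div_le_iff₀ hM0]; linarith
        linarith
  have hS' := hSlowR p hpL (by linarith) hok
  have hF' := hFineR p (by linarith) hok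
  have hC1 : CS ≤ CS + CF := le_add_of_nonneg_right hCF
  have hC2 : CF ≤ CS + CF := le_add_of_nonneg_left hCS
  constructor
  · intro l hl x hx τ hτ
    obtain ⟨v, v1, v2, v3⟩ := hS' l hl x hx τ hτ
    refine ⟨v, v1.trans ?_, v2, fun h0 i j hij => (v3 h0 i j hij).trans ?_⟩
    · exact mul_le_mul hC1 (pow_le_pow_right₀ hM (Nat.le_add_right _ _)) (by positivity)
        (by positivity)
    · gcongr
  · have hE1 : CF * (p.M : ℝ) ^ (14 * eP) ≤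
        (CS + CF) * (p.M : ℝ) ^ (q + 1 + 14 * (eG + 2) + 4 + 14 * eP) :=
      mul_le_mul hC2 (pow_le_pow_right₀ hM (Nat.le_add_left _ _)) (by positivity) (by positivity)
    have hη : CF * (p.M : ℝ) ^ (14 * eP) / (p.M : ℝ) ^ κ ≤
        (CS + CF) * (p.M : ℝ) ^ (q + 1 + 14 * (eG + 2) + 4 + 14 * eP) / (p.M : ℝ) ^ κ :=
      div_le_div_of_nonneg_right hE1 (by positivity)
    intro l hl x hx N i h3 h10 hi τ hτ hτ1
    obtain ⟨v, v1, v2, v3, v4, v5, v6⟩ := hF' l hl x hx N i h3 h10 hi τ hτ hτ1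
    exact ⟨v, v1.trans (mul_le_mul_of_nonneg_right hC2 (by positivity)),
      fun a c hac => (v2 a c hac).trans hE1,
      fun a c hac => (v3 a c hac).trans hη, fun a ha σ hσ hσ1 => (v4 a ha σ hσ hσ1).trans hη,
      fun a c hac => (v5 a c hac).trans hη,
      fun hb => ⟨fun a ha => ((v6 hb).1 a ha).trans hη, fun a ha => ((v6 hb).2 a ha).trans hη⟩⟩

end Vale.Agent.P205F.Expand
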