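import Vale.Agent.P205F.Expand.PointSpec

/-!
# P205, expansions: pointwise consequences of the prolongation

The leading term of the Leibniz formula gives the tangential components of a jet of `w` from the
jets of `Lin F w`; the absorber gives one more component, and the frame then gives the jet.
-/

namespace Vale.Agent.P205F.Expand

open scoped ContDiff RealInnerProductSpace

namespace Point

variable {X Y : Type} [NormedAddCommGroup X] [NormedSpace ℝ X] [NormedAddCommGroup Y]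
  [NormedSpace ℝ Y]

/-- Partial derivatives commute with continuous linear maps. -/
lemma jd_clm {g : E2 → X} (h : ContDiff ℝ ∞ g) (L : X →L[ℝ] Y) (a b : ℕ) :
    jd a b (fun y => L (g y)) = fun y => L (jd a b g y) := by
  have key : ∀ (i : Fin 2) (n : ℕ) {g : E2 → X}, ContDiff ℝ ∞ g →
      (pd i)^[n] (fun y => L (g y)) = fun y => L ((pd i)^[n] g y) := by
    intro i n
    induction n with
    | zero => intro g _; rfl
    | succ n ih =>
      intro g hg
      have e : pd i (fun y => L (g y)) = fun y => L (pd i g y) := by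
        funext x
        have h1 := (hg.differentiable (by norm_num) x).hasFDerivAt
        simp only [pd]
        rw [show (fun y => L (g y)) = ⇑L ∘ g from rfl,
          (L.hasFDerivAt.comp (f := g) x h1).fderiv]
        rfl
      rw [Function.iterate_succ_apply, e, ih (smooth_pd hg i), Function.iterate_succ_apply]
  rw [jd, key 1 b h, key 0 a (smooth_iter h 1 b)]
  rfl

variable {F w : E2 → R4} {x : E2}

lemma smooth_ip {v u : E2 → R4} (hv : ContDiff ℝ ∞ v) (hu : ContDiff ℝ ∞ u) :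
    ContDiff ℝ ∞ fun y => ⟪v y, u y⟫ := hv.inner ℝ hu

lemma smooth_Lin (hF : ContDiff ℝ ∞ F) (hw : ContDiff ℝ ∞ w) :
    ContDiff ℝ ∞ (Lin F w) ∧ ∀ i, ContDiff ℝ ∞ fun y => Lin F w y i := by
  have h : ∀ i, ContDiff ℝ ∞ fun y => Lin F w y i := fun i => by
    have d0 := smooth_pd hF 0
    have d1 := smooth_pd hF 1
    have w0 := smooth_pd hw 0
    have w1 := smooth_pd hw 1
    fin_cases i
    · exact (contDiff_const (c := (2 : ℝ))).mul (d0.inner ℝ w0)
    · exact (d0.inner ℝ w1).add (d1.inner ℝ w0)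
    · exact (contDiff_const (c := (2 : ℝ))).mul (d1.inner ℝ w1)
  exact ⟨contDiff_pi.2 h, h⟩

lemma jd_Lin_apply (hF : ContDiff ℝ ∞ F) (hw : ContDiff ℝ ∞ w) (a b : ℕ) (i : Fin 3) :
    jd a b (Lin F w) x i = jd a b (fun y => Lin F w y i) x := by
  have e := congrFun (jd_clm (smooth_Lin hF hw).1
    (ContinuousLinearMap.proj (R := ℝ) (φ := fun _ : Fin 3 => ℝ) i) a b) x
  exact e.symm

lemma abs_jd_Lin_le (hF : ContDiff ℝ ∞ F) (hw : ContDiff ℝ ∞ w) {a b : ℕ} {R : ℝ}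
    (h : ‖jd a b (Lin F w) x‖ ≤ R) (i : Fin 3) : |jd a b (fun y => Lin F w y i) x| ≤ R := by
  rw [← jd_Lin_apply hF hw, ← Real.norm_eq_abs]
  exact (norm_le_pi_norm _ i).trans h

/-- The components of the linearised metric. -/
lemma jd_Lin (hF : ContDiff ℝ ∞ F) (hw : ContDiff ℝ ∞ w) (a b : ℕ) :
    jd a b (fun y => Lin F w y 0) x = 2 * jd a b (fun y => ⟪pd 0 F y, pd 0 w y⟫) x ∧
    jd a b (fun y => Lin F w y 1) x = jd a b (fun y => ⟪pd 0 F y, pd 1 w y⟫) x +
      jd a b (fun y => ⟪pd 1 F y, pd 0 w y⟫) x ∧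
    jd a b (fun y => Lin F w y 2) x = 2 * jd a b (fun y => ⟪pd 1 F y, pd 1 w y⟫) x := by
  have s : ∀ k m, ContDiff ℝ ∞ fun y => ⟪pd k F y, pd m w y⟫ := fun k m =>
    (smooth_pd hF k).inner ℝ (smooth_pd hw m)
  refine ⟨?_, ?_, ?_⟩
  · rw [show (fun y => Lin F w y 0) = (2 : ℝ) • fun y => ⟪pd 0 F y, pd 0 w y⟫ from
      funext fun y => by simp [Lin], jd_smul (s 0 0)]
    rfl
  · rw [show (fun y => Lin F w y 1) = (fun y => ⟪pd 0 F y, pd 1 w y⟫) +
      fun y => ⟪pd 1 F y, pd 0 w y⟫ from funext fun y => by simp [Lin], jd_add (s 0 1) (s 1 0)]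
    rfl
  · rw [show (fun y => Lin F w y 2) = (2 : ℝ) • fun y => ⟪pd 1 F y, pd 1 w y⟫ from
      funext fun y => by simp [Lin], jd_smul (s 1 1)]
    rfl

lemma two_pow_mul_le {T : ℝ} (hT : 2 ≤ T) {n m : ℕ} (hnm : n ≤ m) :
    (2 : ℝ) ^ n * ‖ipB‖ * T ≤ T ^ (m + 1) := by
  have hn : (2 : ℝ) ^ n ≤ T ^ m :=
    (pow_le_pow_left₀ zero_le_two hT n).trans (pow_le_pow_right₀ (by linarith) hnm)
  calc (2 : ℝ) ^ n * ‖ipB‖ * T ≤ T ^ m * 1 * T :=
        mul_le_mul_of_nonneg_right (mul_le_mul hn norm_ipB ipB.opNorm_nonneg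
          (pow_nonneg (by linarith) _)) (by linarith)
    _ = T ^ (m + 1) := by ring

/-- The leading term of the Leibniz formula. -/
lemma lead_le {v u : E2 → R4} (hv : ContDiff ℝ ∞ v) (hu : ContDiff ℝ ∞ u) {T M : ℝ} (hT : 2 ≤ T)
    (hM : 0 ≤ M) {n a b : ℕ} (hab : a + b ≤ n)
    (hvb : ∀ i j, i ≤ a → j ≤ b → ‖jd i j v x‖ ≤ T)
    (hub : ∀ i j, i ≤ a → j ≤ b → i + j < a + b → ‖jd i j u x‖ ≤ M) :
    |jd a b (fun y => ⟪v y, u y⟫) x - ⟪v x, jd a b u x⟫| ≤ T ^ (n + 1) * M := by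
  have h : |jd a b (fun y => ⟪v y, u y⟫) x - ⟪v x, jd a b u x⟫| ≤
      2 ^ (a + b) * ‖ipB‖ * T * M :=
    jd_bilin_sub_le ipB (a + b) a b rfl hv hu x T M (by linarith) hM hvb hub
  exact h.trans (mul_le_mul_of_nonneg_right (two_pow_mul_le hT hab) hM)

/-- All of the Leibniz formula. -/
lemma full_le {v u : E2 → R4} (hv : ContDiff ℝ ∞ v) (hu : ContDiff ℝ ∞ u) {T M : ℝ} (hT : 2 ≤ T)
    (hM : 0 ≤ M) {n a b : ℕ} (hab : a + b ≤ n)
    (hvb : ∀ i j, i ≤ a → j ≤ b → ‖jd i j v x‖ ≤ T)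
    (hub : ∀ i j, i ≤ a → j ≤ b → ‖jd i j u x‖ ≤ M) :
    |jd a b (fun y => ⟪v y, u y⟫) x| ≤ T ^ (n + 1) * M := by
  have h : |jd a b (fun y => ⟪v y, u y⟫) x| ≤ 2 ^ (a + b) * ‖ipB‖ * T * M :=
    jd_bilin_le ipB (a + b) a b rfl hv hu x T M hvb hub
  exact h.trans (mul_le_mul_of_nonneg_right (two_pow_mul_le hT hab) hM)

lemma of_sub {p q B C : ℝ} (h : |p - q| ≤ B) (hp : |p| ≤ C) : |q| ≤ B + C := by
  rw [abs_le] at h hp ⊢
  constructor <;> linarith

lemma of_sub' {p q B C : ℝ} (h : |p - q| ≤ B) (hq : |q| ≤ C) : |p| ≤ B + C := by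
  rw [abs_le] at h hq ⊢
  constructor <;> linarith

lemma pow_mul_mono {T R : ℝ} (hT : 2 ≤ T) (hR : 0 ≤ R) {i j : ℕ} (h : i ≤ j) :
    T ^ i * R ≤ T ^ j * R :=
  mul_le_mul_of_nonneg_right (pow_le_pow_right₀ (by linarith) h) hR

lemma pow_mul_add {T R : ℝ} (hT : 2 ≤ T) (hR : 0 ≤ R) {i j k : ℕ} (hi : i < k) (hj : j < k) :
    T ^ i * R + T ^ j * R ≤ T ^ k * R := by
  obtain ⟨k, rfl⟩ : ∃ k', k = k' + 1 := ⟨k - 1, by omega⟩
  calc T ^ i * R + T ^ j * R ≤ T ^ k * R + T ^ k * R :=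
        add_le_add (pow_mul_mono hT hR (by omega)) (pow_mul_mono hT hR (by omega))
    _ = 2 * (T ^ k * R) := by ring
    _ ≤ T * (T ^ k * R) := mul_le_mul_of_nonneg_right hT (by positivity)
    _ = _ := by ring

section AData

variable {N : ℕ} {φ : R4 → ℝ} {A : R4} {T R : ℝ}

lemma pd_bound (h : AData N F w φ A x T R) (k : Fin 2) {a b : ℕ} (hab : a + b ≤ N + 2) :
    ‖jd a b (pd k F) x‖ ≤ T := by
  fin_cases k
  · show ‖jd a b (pd 0 F) x‖ ≤ T
    rw [← jd_succ_left h.hF]; exact h.bF _ _ (by omega)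
  · show ‖jd a b (pd 1 F) x‖ ≤ T
    rw [← jd_succ_right]; exact h.bF _ _ (by omega)

lemma pd2_bound (h : AData N F w φ A x T R) (k m : Fin 2) {a b : ℕ} (hab : a + b ≤ N + 1) :
    ‖jd a b (pd k (pd m F)) x‖ ≤ T := by
  fin_cases k
  · show ‖jd a b (pd 0 (pd m F)) x‖ ≤ T
    rw [← jd_succ_left (smooth_pd h.hF m)]; exact pd_bound h m (by omega)
  · show ‖jd a b (pd 1 (pd m F)) x‖ ≤ T
    rw [← jd_succ_right]; exact pd_bound h m (by omega)

/-- The absorber and the tangential components control a vector. -/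
lemma vec_le (h : AData N F w φ A x T R) {v : R4} {j : ℕ}
    (h0 : |⟪pd 0 F x, v⟫| ≤ T ^ j * R) (h1 : |⟪pd 1 F x, v⟫| ≤ T ^ j * R) (hφ : φ v ≤ R)
    (hA : |⟪A, v⟫| ≤ R) : ‖v‖ ≤ T ^ (j + 5) * R := by
  have hT := h.hT
  have hR := h.hR
  obtain ⟨c0, c1, eA, hc0, hc1⟩ := h.absorber
  have hRj : R ≤ T ^ j * R := le_mul_of_one_le_left hR (one_le_pow₀ (by linarith))
  have hyy : |⟪pd 1 (pd 1 F) x, v⟫| ≤ R + (T * (T ^ j * R) + T * (T ^ j * R)) := by
    have e : ⟪pd 1 (pd 1 F) x, v⟫ = ⟪A, v⟫ - (c0 * ⟪pd 0 F x, v⟫ + c1 * ⟪pd 1 F x, v⟫) := by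
      rw [eA, inner_add_left, inner_add_left, real_inner_smul_left, real_inner_smul_left]; ring
    rw [e]
    refine (abs_sub _ _).trans (add_le_add hA ((abs_add_le _ _).trans (add_le_add ?_ ?_))) <;>
      rw [abs_mul]
    · exact mul_le_mul hc0 h0 (abs_nonneg _) (by linarith)
    · exact mul_le_mul hc1 h1 (abs_nonneg _) (by linarith)
  set B := T ^ j * R with hB
  have hB0 : 0 ≤ B := hR.trans hRj
  calc ‖v‖ ≤ T * (|⟪pd 0 F x, v⟫| + |⟪pd 1 F x, v⟫| + |⟪pd 1 (pd 1 F) x, v⟫| + φ v) := h.frame v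
    _ ≤ T * (4 * B + 2 * (T * B)) := mul_le_mul_of_nonneg_left (by linarith) (by linarith)
    _ ≤ T * (4 * (T * B)) := by
        refine mul_le_mul_of_nonneg_left ?_ (by linarith)
        linarith [mul_le_mul_of_nonneg_right hT hB0]
    _ = 4 * (T ^ 2 * B) := by ring
    _ ≤ T ^ 2 * (T ^ 2 * B) := mul_le_mul_of_nonneg_right (by nlinarith) (by positivity)
    _ ≤ T * (T ^ 2 * (T ^ 2 * B)) := le_mul_of_one_le_left (by positivity) (by linarith)
    _ = T ^ (j + 5) * R := by rw [hB]; ring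

/-- The leading term, for tangential components. -/
lemma ld (h : AData 3 F w φ A x T R) (k : Fin 2) {u : E2 → R4} (hu : ContDiff ℝ ∞ u) {a b j : ℕ}
    (hab : a + b ≤ 3)
    (hl : ∀ i i', i ≤ a → i' ≤ b → i + i' < a + b → ‖jd i i' u x‖ ≤ T ^ j * R) :
    |jd a b (fun y => ⟪pd k F y, u y⟫) x - ⟪pd k F x, jd a b u x⟫| ≤ T ^ (j + 4) * R :=
  (lead_le (smooth_pd h.hF k) hu h.hT (mul_nonneg (pow_nonneg (by linarith [h.hT]) _) h.hR) hab
    (fun _ _ hi hi' => pd_bound h k (by omega)) hl).trans_eq (by ring)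

end AData

end Point

/-- PROLONGATION TO ALL JETS. -/
theorem prolongAllStmt : ProlongAllStmt := by
  intro N
  obtain ⟨e, he⟩ := prolong N (N + 1)
  refine ⟨e + 2 * N + 5, fun F w ρ0 ρ1 φ χ x T S h => ?_⟩
  obtain ⟨hP, hW⟩ := he h
  have hT := h.hT
  have hS := h.hS
  have hw : ∀ a b, a + b ≤ N → ‖jd a b w x‖ ≤ T ^ e * S := fun a b hab => hW a b (by omega) hab
  have hp : ∀ a b, a + b ≤ N + 1 → ∀ k : Fin 2,
      ‖jd a b (fun y => ⟪pd k F y, w y⟫) x‖ ≤ T ^ e * S := fun a b hab k => by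
    fin_cases k
    · exact (hP a b (by omega) hab).1
    · exact (hP a b (by omega) hab).2
  have hmono : T ^ e * S ≤ T ^ (e + 2 * N + 5) * S := h.pow_mono (by omega)
  refine ⟨fun a b hab => (hw a b hab).trans hmono, fun a b hab k => (hp a b hab k).trans hmono,
    fun a b hab k => ?_, fun a b hab => ?_⟩
  · set Sg := ∑ p ∈ (Finset.range (a + 1) ×ˢ Finset.range (b + 1)).filter
      (fun p => p.1 + p.2 < a + b), ‖jd p.1 p.2 w x‖ with hSg
    have hSg0 : 0 ≤ Sg := Finset.sum_nonneg fun _ _ => norm_nonneg _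
    have hl := Point.lead_le (smooth_pd h.hF k) h.hw hT hSg0 hab
      (fun i j hi hj => h.jd_pd k i j (by omega))
      (fun i j hi hj hij => Finset.single_le_sum (f := fun p : ℕ × ℕ => ‖jd p.1 p.2 w x‖)
        (fun _ _ => norm_nonneg _) (a := (i, j))
        (Finset.mem_filter.2 ⟨Finset.mem_product.2
          ⟨Finset.mem_range.2 (by omega), Finset.mem_range.2 (by omega)⟩, hij⟩))
    have h1 := hp a b hab k
    rw [Real.norm_eq_abs] at h1
    refine (Point.of_sub hl h1).trans ?_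
    rw [add_comm]
    exact add_le_add hmono (mul_le_mul_of_nonneg_right
      (pow_le_pow_right₀ (by linarith) (by omega)) hSg0)
  · have hb : ∀ a b, a + b ≤ N →
        |jd a b (fun y => Lin F w y 2) x| ≤ T ^ (e + N + 3) * S := fun a b hab => by
      rw [jd_Lin2 h.hF h.hw]
      have h1 := hp a (b + 1) (by omega) 1
      have h2 : |jd a b (fun y => ⟪pd 1 (pd 1 F) y, w y⟫) x| ≤ T ^ (N + 1) * (T ^ e * S) :=
        Point.full_le (smooth_pd (smooth_pd h.hF 1) 1) h.hw hT (by positivity) hab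
          (fun i j hi hj => h.jd_pd2 1 1 i j (by omega))
          (fun i j hi hj => hw i j (by omega))
      rw [Real.norm_eq_abs] at h1
      refine (abs_sub _ _).trans ?_
      rw [abs_mul, abs_mul, abs_two]
      calc 2 * |jd a (b + 1) (fun y => ⟪pd 1 F y, w y⟫) x| +
            2 * |jd a b (fun y => ⟪pd 1 (pd 1 F) y, w y⟫) x|
          ≤ T * (T ^ e * S) + T * (T ^ (N + 1) * (T ^ e * S)) :=
            add_le_add (mul_le_mul hT h1 (abs_nonneg _) (by linarith))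
              (mul_le_mul hT h2 (abs_nonneg _) (by linarith))
        _ = T ^ (e + 1) * S + T ^ (e + N + 2) * S := by ring
        _ ≤ _ := Point.pow_mul_add hT hS (by omega) (by omega)
    have sL := (Point.smooth_Lin h.hF h.hw).2
    have key : ∀ (k : Fin 3) (ρ : E2 → ℝ), ContDiff ℝ ∞ ρ →
        (∀ a b, a + b ≤ N → ‖jd a b ρ x‖ ≤ T) →
        ‖jd a b (fun y => Lin F w y k - ρ y * Lin F w y 2) x‖ ≤ S →
        |jd a b (fun y => Lin F w y k) x| ≤ T ^ (e + 2 * N + 5) * S := by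
      intro k ρ hρ hbρ hs
      have e' : (fun y => Lin F w y k) = (fun y => Lin F w y k - ρ y * Lin F w y 2) +
          fun y => ContinuousLinearMap.mul ℝ ℝ (ρ y) (Lin F w y 2) := by
        funext y; simp
      rw [e', jd_add ((sL k).sub (hρ.mul (sL 2))) (smooth_bilin _ hρ (sL 2))]
      have h1 := jd_bilin_le (ContinuousLinearMap.mul ℝ ℝ) (a + b) a b rfl hρ (sL 2) x T
        (T ^ (e + N + 3) * S) (fun i j hi hj => hbρ i j (by omega))
        (fun i j hi hj => by rw [Real.norm_eq_abs]; exact hb i j (by omega))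
      have h2 : (2 : ℝ) ^ (a + b) * ‖ContinuousLinearMap.mul ℝ ℝ‖ * T * (T ^ (e + N + 3) * S) ≤
          T ^ (e + 2 * N + 4) * S := by
        calc _ ≤ T ^ N * 1 * T * (T ^ (e + N + 3) * S) := by
              refine mul_le_mul_of_nonneg_right (mul_le_mul_of_nonneg_right (mul_le_mul
                ((h.two_pow_le _).trans (pow_le_pow_right₀ (by linarith) hab))
                (ContinuousLinearMap.opNorm_mul_le ℝ ℝ) (ContinuousLinearMap.opNorm_nonneg _)
                (pow_nonneg (by linarith) _)) (by linarith)) (by positivity)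
          _ = T ^ (e + 2 * N + 4) * S := by ring
      rw [Pi.add_apply, ← Real.norm_eq_abs]
      calc _ ≤ S + T ^ (e + 2 * N + 4) * S := (norm_add_le _ _).trans (add_le_add hs (h1.trans h2))
        _ = T ^ 0 * S + T ^ (e + 2 * N + 4) * S := by rw [pow_zero, one_mul]
        _ ≤ _ := Point.pow_mul_add hT hS (by omega) (by omega)
    refine (pi_norm_le_iff_of_nonneg (by positivity)).2 fun i => ?_
    rw [Real.norm_eq_abs, Point.jd_Lin_apply h.hF h.hw]
    fin_cases i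
    · exact key 0 ρ0 h.hρ0 (fun a b hab => (h.bρ a b hab).1) (h.small0 a b hab)
    · exact key 1 ρ1 h.hρ1 (fun a b hab => (h.bρ a b hab).2) (h.small1 a b hab)
    · exact (hb a b hab).trans (h.pow_mono (by omega))

namespace Point

variable {F w : E2 → R4} {x : E2} {φ : R4 → ℝ} {A : R4} {T R : ℝ}

/-- The jets of order one. -/
lemma first (h : AData 3 F w φ A x T R) (hφ : ∀ a b, a + b ≤ 3 → φ (jd a b w x) ≤ R)
    (h0 : |⟪pd 0 F x, w x⟫| ≤ R) (h1 : |⟪pd 1 F x, w x⟫| ≤ R)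
    (h01 : |jd 0 1 (fun y => ⟪pd 0 F y, w y⟫) x| ≤ R)
    (hA : ∀ a b, a + b ≤ 2 → a ≤ 1 → |⟪A, jd a b w x⟫| ≤ R) :
    |jd 0 1 (fun y => ⟪pd 1 F y, w y⟫) x| ≤ T ^ 7 * R ∧
      ∀ a b, a + b ≤ 1 → ‖jd a b w x‖ ≤ T ^ 18 * R := by
  have hT := h.hT
  have hR := h.hR
  have hR0 : T ^ 0 * R = R := by rw [pow_zero, one_mul]
  have w00 : ‖jd 0 0 w x‖ ≤ T ^ 5 * R :=
    vec_le (j := 0) h (h0.trans_eq hR0.symm) (h1.trans_eq hR0.symm) (hφ 0 0 (by omega))
      (hA 0 0 (by omega) (by omega))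
  have b1 : |jd 0 1 (fun y => ⟪pd 1 F y, w y⟫) x| ≤ T ^ 7 * R := by
    have e := jd_Lin2 (x := x) h.hF h.hw 0 0
    have hL := abs_jd_Lin_le h.hF h.hw (h.small 0 0 (by omega)) 2
    rw [e] at hL
    have h2 : |jd 0 0 (fun y => ⟪pd 1 (pd 1 F) y, w y⟫) x| ≤ T ^ (0 + 1) * (T ^ 5 * R) :=
      full_le (smooth_pd (smooth_pd h.hF 1) 1) h.hw hT (by positivity) le_rfl
        (fun i j _ _ => pd2_bound h 1 1 (by omega))
        (fun i j hi hj => by
          obtain rfl : i = 0 := by omega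
          obtain rfl : j = 0 := by omega
          exact w00)
    refine le_trans ?_ (pow_mul_add (i := 0) (j := 6) hT hR (by omega) (by omega))
    rw [hR0, show T ^ 6 * R = T ^ (0 + 1) * (T ^ 5 * R) by ring]
    rw [abs_le] at hL h2 ⊢
    constructor <;> linarith
  have w01 : ‖jd 0 1 w x‖ ≤ T ^ 17 * R := by
    have hk : ∀ k : Fin 2, |⟪pd k F x, jd 0 1 w x⟫| ≤ T ^ 12 * R := fun k => by
      have hl := ld h k h.hw (a := 0) (b := 1) (j := 5) (by omega) fun i i' hi hi' hii => by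
        obtain rfl : i = 0 := by omega
        obtain rfl : i' = 0 := by omega
        exact w00
      refine (of_sub hl (C := T ^ 7 * R) ?_).trans (pow_mul_add hT hR (by omega) (by omega))
      fin_cases k
      · exact h01.trans ((hR0.symm.le).trans (pow_mul_mono hT hR (by omega)))
      · exact b1
    exact vec_le h (hk 0) (hk 1) (hφ 0 1 (by omega)) (hA 0 1 (by omega) (by omega))
  have w10 : ‖jd 1 0 w x‖ ≤ T ^ 18 * R := by
    obtain ⟨e0, e1, -⟩ := jd_Lin (x := x) h.hF h.hw 0 0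
    have L0 := abs_jd_Lin_le h.hF h.hw (h.small 0 0 (by omega)) 0
    have L1 := abs_jd_Lin_le h.hF h.hw (h.small 0 0 (by omega)) 1
    rw [e0] at L0
    rw [e1] at L1
    have d01 : |jd 0 0 (fun y => ⟪pd 0 F y, pd 1 w y⟫) x| ≤ T ^ (5 + 17) * R ∧
        |⟪pd 0 F x, jd 0 1 w x⟫| ≤ T ^ 12 * R := by
      have hl := ld h 0 h.hw (a := 0) (b := 1) (j := 5) (by omega) fun i i' hi hi' hii => by
        obtain rfl : i = 0 := by omega
        obtain rfl : i' = 0 := by omega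
        exact w00
      have h' : |⟪pd 0 F x, jd 0 1 w x⟫| ≤ T ^ 12 * R :=
        (of_sub hl (C := T ^ 7 * R) (h01.trans ((hR0.symm.le).trans
          (pow_mul_mono hT hR (by omega))))).trans (pow_mul_add hT hR (by omega) (by omega))
      exact ⟨h'.trans (pow_mul_mono hT hR (by omega)), h'⟩
    have k0 : |⟪pd 0 F x, jd 1 0 w x⟫| ≤ T ^ 13 * R := by
      refine le_trans ?_ ((hR0.symm.le).trans (pow_mul_mono hT hR (by omega)))
      show |jd 0 0 (fun y => ⟪pd 0 F y, pd 0 w y⟫) x| ≤ R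
      rw [abs_le] at L0 ⊢
      constructor <;> linarith
    have k1 : |⟪pd 1 F x, jd 1 0 w x⟫| ≤ T ^ 13 * R := by
      refine le_trans ?_ (pow_mul_add (i := 0) (j := 12) hT hR (by omega) (by omega))
      show |jd 0 0 (fun y => ⟪pd 1 F y, pd 0 w y⟫) x| ≤ _
      have d : |jd 0 0 (fun y => ⟪pd 0 F y, pd 1 w y⟫) x| ≤ T ^ 12 * R := d01.2
      rw [hR0]
      rw [abs_le] at L1 d ⊢
      constructor <;> linarith
    exact vec_le h k0 k1 (hφ 1 0 (by omega)) (hA 1 0 (by omega) (by omega))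
  refine ⟨b1, fun a b hab => ?_⟩
  rcases Nat.eq_zero_or_pos a with rfl | ha
  · rcases Nat.eq_zero_or_pos b with rfl | hb
    · exact w00.trans (pow_mul_mono hT hR (by omega))
    · obtain rfl : b = 1 := by omega
      exact w01.trans (pow_mul_mono hT hR (by omega))
  · obtain rfl : a = 1 := by omega
    obtain rfl : b = 0 := by omega
    exact w10

/-- Tangential components of a jet from those of the derivatives of `w`. -/
lemma tan_step (h : AData 3 F w φ A x T R) {a b j : ℕ} (hab : a + b ≤ 2) (hj : 1 ≤ j)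
    (hl0 : ∀ i i', i ≤ a → i' ≤ b → i + i' < a + b → ‖jd (i + 1) i' w x‖ ≤ T ^ j * R)
    (hl1 : ∀ i i', i ≤ a → i' ≤ b → i + i' < a + b → ‖jd i (i' + 1) w x‖ ≤ T ^ j * R) :
    |⟪pd 0 F x, jd (a + 1) b w x⟫| ≤ T ^ (j + 5) * R ∧
    |⟪pd 1 F x, jd a (b + 1) w x⟫| ≤ T ^ (j + 5) * R ∧
    |⟪pd 0 F x, jd a (b + 1) w x⟫ + ⟪pd 1 F x, jd (a + 1) b w x⟫| ≤ T ^ (j + 6) * R := by
  have hT := h.hT
  have hR := h.hR
  obtain ⟨e0, e1, e2⟩ := jd_Lin (x := x) h.hF h.hw a b
  have L0 := abs_jd_Lin_le h.hF h.hw (h.small a b (by omega)) 0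
  have L1 := abs_jd_Lin_le h.hF h.hw (h.small a b (by omega)) 1
  have L2 := abs_jd_Lin_le h.hF h.hw (h.small a b (by omega)) 2
  rw [e0] at L0
  rw [e1] at L1
  rw [e2] at L2
  have d : ∀ k : Fin 2,
      |jd a b (fun y => ⟪pd k F y, pd 0 w y⟫) x - ⟪pd k F x, jd (a + 1) b w x⟫| ≤
          T ^ (j + 4) * R ∧
        |jd a b (fun y => ⟪pd k F y, pd 1 w y⟫) x - ⟪pd k F x, jd a (b + 1) w x⟫| ≤
          T ^ (j + 4) * R := fun k => by
    constructor
    · rw [jd_succ_left h.hw]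
      exact ld h k (smooth_pd h.hw 0) (by omega) fun i i' hi hi' hii => by
        rw [← jd_succ_left h.hw]; exact hl0 i i' hi hi' hii
    · rw [jd_succ_right]
      exact ld h k (smooth_pd h.hw 1) (by omega) fun i i' hi hi' hii => by
        rw [← jd_succ_right]; exact hl1 i i' hi hi' hii
  have hR4 : R ≤ T ^ (j + 4) * R := le_mul_of_one_le_left hR (one_le_pow₀ (by linarith))
  have h5 := pow_mul_add (T := T) (R := R) hT hR (i := j + 4) (j := j + 4) (k := j + 5)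
    (by omega) (by omega)
  have h6 := pow_mul_add (T := T) (R := R) hT hR (i := j + 5) (j := j + 5) (k := j + 6)
    (by omega) (by omega)
  refine ⟨?_, ?_, ?_⟩
  · refine (of_sub (d 0).1 (C := T ^ (j + 4) * R) ?_).trans h5
    rw [abs_le] at L0 ⊢; constructor <;> linarith
  · refine (of_sub (d 1).2 (C := T ^ (j + 4) * R) ?_).trans h5
    rw [abs_le] at L2 ⊢; constructor <;> linarith
  · have d01 := (d 0).2
    have d10 := (d 1).1
    rw [abs_le] at L1 d01 d10 ⊢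
    constructor <;> linarith

/-- The second tangential component of a jet of `pd 1 w`. -/
lemma y_step (h : AData 3 F w φ A x T R) {a b j : ℕ} (hab : a + b ≤ 2)
    (hl1 : ∀ i i', i ≤ a → i' ≤ b → i + i' < a + b → ‖jd i (i' + 1) w x‖ ≤ T ^ j * R) :
    |⟪pd 1 F x, jd a (b + 1) w x⟫| ≤ T ^ (j + 5) * R := by
  have hT := h.hT
  have hR := h.hR
  obtain ⟨-, -, e2⟩ := jd_Lin (x := x) h.hF h.hw a b
  have L2 := abs_jd_Lin_le h.hF h.hw (h.small a b (by omega)) 2
  rw [e2] at L2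
  have hR4 : R ≤ T ^ (j + 4) * R := le_mul_of_one_le_left hR (one_le_pow₀ (by linarith))
  rw [jd_succ_right]
  refine (of_sub (ld h 1 (smooth_pd h.hw 1) (j := j) (a := a) (b := b) (by omega)
    fun i i' hi hi' hii => by rw [← jd_succ_right]; exact hl1 i i' hi hi' hii)
    (C := T ^ (j + 4) * R) ?_).trans (pow_mul_add hT hR (by omega) (by omega))
  rw [abs_le] at L2 ⊢; constructor <;> linarith

end Point

/-- GAMMA: THE LINE DATA FROM THE ABSORBER COMPONENTS. -/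
theorem gammaStmt : GammaStmt := by
  refine ⟨44, fun F w φ A x T R h hφ h0 h1 h01 hA b hb k => ?_⟩
  have hT := h.hT
  have hR := h.hR
  obtain ⟨b1, hw1⟩ := Point.first h hφ h0 h1 h01 hA
  -- order two
  have l2 : ∀ a b, a + b ≤ 1 → ∀ i i', i ≤ a → i' ≤ b → i + i' < a + b →
      ‖jd (i + 1) i' w x‖ ≤ T ^ 18 * R ∧ ‖jd i (i' + 1) w x‖ ≤ T ^ 18 * R :=
    fun a b hab i i' hi hi' hii => ⟨hw1 _ _ (by omega), hw1 _ _ (by omega)⟩
  obtain ⟨p11, q02, s01⟩ := Point.tan_step h (a := 0) (b := 1) (j := 18) (by omega) (by omega)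
    (fun i i' hi hi' hii => (l2 0 1 le_rfl i i' hi hi' hii).1)
    (fun i i' hi hi' hii => (l2 0 1 le_rfl i i' hi hi' hii).2)
  obtain ⟨-, q11, -⟩ := Point.tan_step h (a := 1) (b := 0) (j := 18) (by omega) (by omega)
    (fun i i' hi hi' hii => (l2 1 0 le_rfl i i' hi hi' hii).1)
    (fun i i' hi hi' hii => (l2 1 0 le_rfl i i' hi hi' hii).2)
  simp only [zero_add, Nat.reduceAdd] at p11 q02 s01 q11
  have p02 : |⟪pd 0 F x, jd 0 2 w x⟫| ≤ T ^ 25 * R := by
    refine le_trans ?_ (Point.pow_mul_add (i := 24) (j := 23) hT hR (by omega) (by omega))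
    rw [abs_le] at s01 q11 ⊢
    constructor <;> linarith
  have w02 : ‖jd 0 2 w x‖ ≤ T ^ 30 * R := Point.vec_le h p02
    (q02.trans (Point.pow_mul_mono hT hR (by omega))) (hφ 0 2 (by omega))
    (hA 0 2 (by omega) (by omega))
  have w11 : ‖jd 1 1 w x‖ ≤ T ^ 30 * R := Point.vec_le h
    (p11.trans (Point.pow_mul_mono hT hR (by omega)))
    (q11.trans (Point.pow_mul_mono (j := 25) hT hR (by omega))) (hφ 1 1 (by omega))
    (hA 1 1 (by omega) (by omega))
  have hw2 : ∀ a b, a + b ≤ 2 → a ≤ 1 → ‖jd a b w x‖ ≤ T ^ 30 * R := fun a b hab ha => by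
    rcases Nat.lt_or_ge (a + b) 2 with h' | h'
    · exact (hw1 a b (by omega)).trans (Point.pow_mul_mono hT hR (by omega))
    · rcases Nat.eq_zero_or_pos a with rfl | ha'
      · obtain rfl : b = 2 := by omega
        exact w02
      · obtain rfl : a = 1 := by omega
        obtain rfl : b = 1 := by omega
        exact w11
  -- order three
  obtain ⟨-, q03, s02⟩ := Point.tan_step h (a := 0) (b := 2) (j := 30) (by omega) (by omega)
    (fun i i' hi hi' hii => hw2 _ _ (by omega) (by omega))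
    (fun i i' hi hi' hii => hw2 _ _ (by omega) (by omega))
  have q12 := Point.y_step h (a := 1) (b := 1) (j := 30) (by omega)
    fun i i' hi hi' hii => hw2 i (i' + 1) (by omega) (by omega)
  simp only [zero_add, Nat.reduceAdd] at q03 s02 q12
  have p03 : |⟪pd 0 F x, jd 0 3 w x⟫| ≤ T ^ 37 * R := by
    refine le_trans ?_ (Point.pow_mul_add (i := 36) (j := 35) hT hR (by omega) (by omega))
    rw [abs_le] at s02 q12 ⊢
    constructor <;> linarith
  -- the lines
  have line : ∀ (k : Fin 2) (n : ℕ), n ≤ 3 → |⟪pd k F x, jd 0 n w x⟫| ≤ T ^ 37 * R →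
      |jd 0 n (fun y => ⟪pd k F y, w y⟫) x| ≤ T ^ 44 * R := fun k n hn hk => by
    have hl := Point.ld h k h.hw (a := 0) (b := n) (j := 30) (by omega)
      fun i i' hi hi' hii => hw2 _ _ (by omega) (by omega)
    exact (Point.of_sub' hl hk).trans (Point.pow_mul_add hT hR (by omega) (by omega))
  refine line k b hb ?_
  have small : ∀ {j : ℕ} {y : ℝ}, y ≤ T ^ j * R → j ≤ 37 → y ≤ T ^ 37 * R :=
    fun hy hj => hy.trans (Point.pow_mul_mono hT hR hj)
  have one : ∀ (k : Fin 2) (n : ℕ), n ≤ 1 → |⟪pd k F x, jd 0 n w x⟫| ≤ T ^ 37 * R :=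
    fun k n hn => by
      refine small (j := 19) ?_ (by omega)
      refine (abs_real_inner_le_norm _ _).trans ?_
      calc ‖pd k F x‖ * ‖jd 0 n w x‖ ≤ T * (T ^ 18 * R) :=
            mul_le_mul (Point.pd_bound h k (a := 0) (b := 0) (by omega)) (hw1 0 n (by omega))
              (norm_nonneg _) (by linarith)
        _ = _ := by ring
  interval_cases b
  · exact one k 0 (by omega)
  · exact one k 1 le_rfl
  · fin_cases k
    · exact small p02 (by omega)
    · exact small q02 (by omega)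
  · fin_cases k
    · exact p03
    · exact small q03 (by omega)

/-- THE ABSORBER COMPONENT OF A TOP JET. -/
theorem topAbsStmt : TopAbsStmt := by
  intro n
  refine ⟨3 * n + 12, fun F w φ A x T R h hn _ hlow hcol => ?_⟩
  obtain ⟨m, rfl⟩ : ∃ m, n = m + 1 := ⟨n - 1, by omega⟩
  simp only [Nat.add_sub_cancel]
  have hT := h.hT
  have hR := h.hR
  have hT0 : (0 : ℝ) ≤ T := by linarith
  have hR0 : T ^ 0 * R = R := by rw [pow_zero, one_mul]
  have sw := smooth_pd h.hw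
  have sF := smooth_pd h.hF
  have low0 : ∀ i i', i ≤ 0 → i' ≤ m → i + i' < 0 + m → ‖jd i i' (pd 0 w) x‖ ≤ R :=
    fun i i' hi hi' hii => by rw [← jd_succ_left h.hw]; exact hlow _ _ (by omega)
  have col1 : ∀ i i', i ≤ 0 → i' ≤ m + 1 → ‖jd i i' (pd 1 w) x‖ ≤ R := fun i i' hi hi' => by
    obtain rfl : i = 0 := by omega
    rw [← jd_succ_right]; exact hcol _ (by omega)
  have ld0 : ∀ v : E2 → R4, ContDiff ℝ ∞ v → (∀ i i', i ≤ 0 → i' ≤ m → ‖jd i i' v x‖ ≤ T) →
      |jd 0 m (fun y => ⟪v y, pd 0 w y⟫) x - ⟪v x, jd 1 m w x⟫| ≤ T ^ (m + 1) * R :=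
    fun v hv hvb => by
      rw [jd_succ_left h.hw]
      exact Point.lead_le hv (sw 0) hT hR (le_of_eq (zero_add m)) hvb low0
  -- tangential components
  have t0 : |⟪pd 0 F x, jd 1 m w x⟫| ≤ T ^ (m + 2) * R := by
    obtain ⟨e0, -, -⟩ := Point.jd_Lin (x := x) h.hF h.hw 0 m
    have L := Point.abs_jd_Lin_le h.hF h.hw (h.small 0 m (by omega)) 0
    rw [e0] at L
    refine (Point.of_sub (ld0 (pd 0 F) (sF 0) fun i i' hi hi' => Point.pd_bound h 0 (by omega))
      (C := T ^ 0 * R) ?_).trans (Point.pow_mul_add hT hR (by omega) (by omega))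
    rw [hR0]
    rw [abs_le] at L ⊢; constructor <;> linarith
  have t1 : |⟪pd 1 F x, jd 1 m w x⟫| ≤ T ^ (m + 3) * R := by
    obtain ⟨-, e1, -⟩ := Point.jd_Lin (x := x) h.hF h.hw 0 m
    have L := Point.abs_jd_Lin_le h.hF h.hw (h.small 0 m (by omega)) 1
    rw [e1] at L
    have hd : |jd 0 m (fun y => ⟪pd 0 F y, pd 1 w y⟫) x| ≤ T ^ (m + 1) * R :=
      Point.full_le (sF 0) (sw 1) hT hR (le_of_eq (zero_add m))
        (fun i i' hi hi' => Point.pd_bound h 0 (by omega))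
        (fun i i' hi hi' => col1 i i' hi (by omega))
    refine (Point.of_sub (ld0 (pd 1 F) (sF 1) fun i i' hi hi' => Point.pd_bound h 1 (by omega))
      (C := T ^ (m + 2) * R) ?_).trans (Point.pow_mul_add hT hR (by omega) (by omega))
    have hsum := Point.pow_mul_add (T := T) (R := R) hT hR (i := 0) (j := m + 1) (k := m + 2)
      (by omega) (by omega)
    rw [hR0] at hsum
    rw [abs_le] at L hd ⊢; constructor <;> linarith
  -- the second normal derivative
  have tyy : |⟪pd 1 (pd 1 F) x, jd 1 m w x⟫| ≤ T ^ (m + 5) * R := by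
    obtain ⟨-, e1, -⟩ := Point.jd_Lin (x := x) h.hF h.hw 0 (m + 1)
    obtain ⟨-, -, e2⟩ := Point.jd_Lin (x := x) h.hF h.hw 1 m
    have L1 := Point.abs_jd_Lin_le h.hF h.hw (h.small 0 (m + 1) (by omega)) 1
    have L2 := Point.abs_jd_Lin_le h.hF h.hw (h.small 1 m (by omega)) 2
    rw [e1] at L1
    rw [e2] at L2
    have hd : |jd 0 (m + 1) (fun y => ⟪pd 0 F y, pd 1 w y⟫) x| ≤ T ^ (m + 2) * R :=
      Point.full_le (sF 0) (sw 1) hT hR (le_of_eq (zero_add (m + 1)))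
        (fun i i' hi hi' => Point.pd_bound h 0 (by omega)) col1
    have hxy : |jd 0 m (fun y => ⟪pd 0 (pd 1 F) y, pd 1 w y⟫) x| ≤ T ^ (m + 1) * R :=
      Point.full_le (smooth_pd (sF 1) 0) (sw 1) hT hR (le_of_eq (zero_add m))
        (fun i i' hi hi' => Point.pd2_bound h 0 1 (by omega))
        (fun i i' hi hi' => col1 i i' hi (by omega))
    have hyy := ld0 (pd 1 (pd 1 F)) (smooth_pd (sF 1) 1)
      fun i i' hi hi' => Point.pd2_bound h 1 1 (by omega)
    have ident : jd 0 (m + 1) (fun y => ⟪pd 1 F y, pd 0 w y⟫) x -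
        jd 1 m (fun y => ⟪pd 1 F y, pd 1 w y⟫) x =
        jd 0 m (fun y => ⟪pd 1 (pd 1 F) y, pd 0 w y⟫) x -
          jd 0 m (fun y => ⟪pd 0 (pd 1 F) y, pd 1 w y⟫) x := by
      have s10 := Point.smooth_ip (sF 1) (sw 0)
      have s11 := Point.smooth_ip (sF 1) (sw 1)
      have a0 := Point.smooth_ip (smooth_pd (sF 1) 1) (sw 0)
      have a1 := Point.smooth_ip (sF 1) (smooth_pd (sw 0) 1)
      have a2 := Point.smooth_ip (smooth_pd (sF 1) 0) (sw 1)
      have p1 : pd 1 (fun y => ⟪pd 1 F y, pd 0 w y⟫) =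
          (fun y => ⟪pd 1 (pd 1 F) y, pd 0 w y⟫) + fun y => ⟪pd 1 F y, pd 1 (pd 0 w) y⟫ :=
        funext fun y => pd_inner' (sF 1) (sw 0) 1 y
      have p0 : pd 0 (fun y => ⟪pd 1 F y, pd 1 w y⟫) =
          (fun y => ⟪pd 0 (pd 1 F) y, pd 1 w y⟫) + fun y => ⟪pd 1 F y, pd 1 (pd 0 w) y⟫ :=
        funext fun y => by
          rw [Pi.add_apply, pd_comm' h.hw 1 0]
          exact pd_inner' (sF 1) (sw 1) 0 y
      rw [jd_succ_right, jd_succ_left s11, p1, p0, jd_add a0 a1, jd_add a2 a1]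
      simp
    have hfin := Point.pow_mul_add (T := T) (R := R) hT hR (i := m + 4) (j := m + 4) (k := m + 5)
      (by omega) (by omega)
    have h23 := Point.pow_mul_add (T := T) (R := R) hT hR (i := m + 2) (j := m + 2) (k := m + 3)
      (by omega) (by omega)
    have h34 := Point.pow_mul_add (T := T) (R := R) hT hR (i := m + 3) (j := m + 3) (k := m + 4)
      (by omega) (by omega)
    have h12 : T ^ (m + 1) * R ≤ T ^ (m + 2) * R := Point.pow_mul_mono hT hR (by omega)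
    have hR2 : R ≤ T ^ (m + 2) * R := le_mul_of_one_le_left hR (one_le_pow₀ (by linarith))
    rw [abs_le] at L1 L2 hd hxy hyy ⊢
    constructor <;> linarith
  obtain ⟨c0, c1, eA, hc0, hc1⟩ := h.absorber
  rw [eA, inner_add_left, inner_add_left, real_inner_smul_left, real_inner_smul_left]
  calc |⟪pd 1 (pd 1 F) x, jd 1 m w x⟫ + c0 * ⟪pd 0 F x, jd 1 m w x⟫ +
        c1 * ⟪pd 1 F x, jd 1 m w x⟫|
      ≤ T ^ (m + 5) * R + T * (T ^ (m + 2) * R) + T * (T ^ (m + 3) * R) := by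
        refine (abs_add_le _ _).trans (add_le_add ((abs_add_le _ _).trans
          (add_le_add tyy ?_)) ?_) <;> rw [abs_mul]
        · exact mul_le_mul hc0 t0 (abs_nonneg _) hT0
        · exact mul_le_mul hc1 t1 (abs_nonneg _) hT0
    _ = T ^ (m + 5) * R + T ^ (m + 3) * R + T ^ (m + 4) * R := by ring
    _ ≤ T ^ (m + 6) * R + T ^ (m + 4) * R :=
        add_le_add (Point.pow_mul_add hT hR (by omega) (by omega)) le_rfl
    _ ≤ T ^ (m + 7) * R := Point.pow_mul_add hT hR (by omega) (by omega)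
    _ ≤ _ := Point.pow_mul_mono hT hR (by omega)

end Vale.Agent.P205F.Expand
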