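import Vale.Agent.P205F.Expand.RespSpec
import Vale.Agent.P205F.Expand.Point

/-!
# P205, expansions: the responses at one point

Prescribed free jets and a small line bound all jets by prolongation; for a final twist the
linearised metric is small directly, and the absorber component of a top jet follows from it.
-/

namespace Vale.Agent.P205F.Expand

open scoped ContDiff RealInnerProductSpace

namespace RespPt

variable {b : Bool} {F w : E2 → R4} {r : E2 → ℝ} {χ : ℝ} {s : Fin 2 → R4} {x : E2} {T S : ℝ}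

lemma var_nonneg (hv : PtVar F r χ w x S) : 0 ≤ S :=
  (norm_nonneg _).trans (hv.small0 0 0 (by omega))

lemma abs_chi (h : PtEnv b F r χ s x T) : |χ| ≤ 1 := by
  rw [h.hχ]
  cases b <;> simp

/-- The line data from the jets on the line. -/
lemma line_le (h : PtEnv b F r χ s x T) (hv : PtVar F r χ w x S) (hcol : ∀ c ≤ 12, ‖jd 0 c w x‖ ≤ S)
    (k : Fin 2) {c : ℕ} (hc : c ≤ 12) :
    ‖jd 0 c (fun y => ⟪pd k F y, w y⟫) x‖ ≤ T ^ 13 * S := by
  rw [Real.norm_eq_abs]
  refine Point.full_le (smooth_pd h.hF k) hv.hw h.hT (var_nonneg hv) (by omega : 0 + c ≤ 12) ?_ ?_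
  · intro i j hi hj
    fin_cases k
    · show ‖jd i j (pd 0 F) x‖ ≤ T
      rw [← jd_succ_left h.hF]; exact h.bF _ _ (by omega)
    · show ‖jd i j (pd 1 F) x‖ ≤ T
      rw [← jd_succ_right]; exact h.bF _ _ (by omega)
  · intro i j hi hj
    obtain rfl : i = 0 := by omega
    exact hcol j (by omega)

/-- The hypotheses of the prolongation. -/
lemma pdata (h : PtEnv b F r χ s x T) (hv : PtVar F r χ w x S) {N : ℕ} (hN : N ≤ 10) {S' : ℝ}
    (hSS : S ≤ S') (hfree : ∀ a c, a + c ≤ N → |⟪s 0, jd a c w x⟫| + |⟪s 1, jd a c w x⟫| ≤ S')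
    (hline : ∀ c ≤ N + 1, ∀ k : Fin 2, ‖jd 0 c (fun y => ⟪pd k F y, w y⟫) x‖ ≤ S') :
    PData N F w (fun y => r y ^ 2) r (fun v => |⟪s 0, v⟫| + |⟪s 1, v⟫|) χ x T S' where
  hF := h.hF
  hw := hv.hw
  hρ0 := h.hr.pow 2
  hρ1 := h.hr
  hT := h.hT
  hS := (var_nonneg hv).trans hSS
  hχ := abs_chi h
  bF a c hac := h.bF a c (by omega)
  bρ a c hac := ⟨(h.br a c (by omega)).2, (h.br a c (by omega)).1⟩
  frame := h.frame
  free := hfree
  line c hc := ⟨hline c hc 0, hline c hc 1⟩
  small0 a c hac := (hv.small0 a c (by omega)).trans hSS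
  small1 a c hac := (hv.small1 a c (by omega)).trans hSS
  small2 a c hac := (hv.small2 a c (by omega)).trans hSS

/-- For a final twist the linearised metric is small directly. -/
lemma lin_le (h : PtEnv true F r χ s x T) (hv : PtVar F r χ w x S) {a c : ℕ} (hac : a + c ≤ 11) :
    ‖jd a c (Lin F w) x‖ ≤ T ^ 14 * S := by
  have hT := h.hT
  have hS := var_nonneg hv
  have sL := (Point.smooth_Lin h.hF hv.hw).2
  have hχ : χ = 1 := by rw [h.hχ, if_pos rfl]
  have hL2 : ∀ a c, a + c ≤ 11 → ‖jd a c (fun y => Lin F w y 2) x‖ ≤ S := fun a c hac => by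
    simpa [hχ] using hv.small2 a c hac
  have key : ∀ (k : Fin 3) (ρ : E2 → ℝ), ContDiff ℝ ∞ ρ →
      (∀ a c, a + c ≤ 11 → ‖jd a c ρ x‖ ≤ T) →
      ‖jd a c (fun y => Lin F w y k - ρ y * Lin F w y 2) x‖ ≤ S →
      |jd a c (fun y => Lin F w y k) x| ≤ T ^ 14 * S := by
    intro k ρ hρ hbρ hs
    have e' : (fun y => Lin F w y k) = (fun y => Lin F w y k - ρ y * Lin F w y 2) +
        fun y => ContinuousLinearMap.mul ℝ ℝ (ρ y) (Lin F w y 2) := by
      funext y; simp
    rw [e', jd_add ((sL k).sub (hρ.mul (sL 2))) (smooth_bilin _ hρ (sL 2))]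
    have h1 := jd_bilin_le (ContinuousLinearMap.mul ℝ ℝ) (a + c) a c rfl hρ (sL 2) x T S
      (fun i j _ _ => hbρ i j (by omega)) (fun i j _ _ => hL2 i j (by omega))
    have h2 : (2 : ℝ) ^ (a + c) * ‖ContinuousLinearMap.mul ℝ ℝ‖ * T * S ≤ T ^ 12 * S := by
      refine mul_le_mul_of_nonneg_right ?_ hS
      calc (2 : ℝ) ^ (a + c) * ‖ContinuousLinearMap.mul ℝ ℝ‖ * T ≤ T ^ 11 * 1 * T := by
            refine mul_le_mul_of_nonneg_right (mul_le_mul ?_
              (ContinuousLinearMap.opNorm_mul_le ℝ ℝ) (ContinuousLinearMap.opNorm_nonneg _)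
              (pow_nonneg (by linarith) _)) (by linarith)
            exact (pow_le_pow_left₀ zero_le_two hT _).trans (pow_le_pow_right₀ (by linarith) hac)
        _ = T ^ 12 := by ring
    rw [Pi.add_apply, ← Real.norm_eq_abs]
    calc _ ≤ S + T ^ 12 * S := (norm_add_le _ _).trans (add_le_add hs (h1.trans h2))
      _ = T ^ 0 * S + T ^ 12 * S := by rw [pow_zero, one_mul]
      _ ≤ _ := Point.pow_mul_add hT hS (by omega) (by omega)
  refine (pi_norm_le_iff_of_nonneg (by positivity)).2 fun i => ?_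
  rw [Real.norm_eq_abs, Point.jd_Lin_apply h.hF hv.hw]
  fin_cases i
  · exact key 0 (fun y => r y ^ 2) (h.hr.pow 2) (fun a c h' => (h.br a c h').2)
      (hv.small0 a c hac)
  · exact key 1 r h.hr (fun a c h' => (h.br a c h').1) (hv.small1 a c hac)
  · rw [← Real.norm_eq_abs]
    exact (hL2 a c hac).trans (le_mul_of_one_le_left hS (one_le_pow₀ (by linarith)))

/-- The absorber data. -/
lemma adata (h : PtEnv true F r χ s x T) (hv : PtVar F r χ w x S) {n : ℕ} (hn : n ≤ 11) {R : ℝ}
    (hR : T ^ 14 * S ≤ R) :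
    AData n F w (fun v => |⟪s 0, v⟫| + |⟪s 1, v⟫|) (II F x (ev 1)) x T R where
  hF := h.hF
  hw := hv.hw
  hT := h.hT
  hR := (mul_nonneg (pow_nonneg (by linarith [h.hT]) _) (var_nonneg hv)).trans hR
  bF a c hac := h.bF a c (by omega)
  frame v := by
    have := h.frame v
    rwa [show χ = 1 by rw [h.hχ, if_pos rfl], one_mul] at this
  absorber := h.absorber rfl
  small a c hac := (lin_le h hv (by omega)).trans hR

end RespPt

/-- THE FINE RESPONSE AT A POINT. -/
theorem finePtStmt : FinePtStmt := by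
  intro b
  choose ep hep using prolongAllStmt
  choose et het using topAbsStmt
  refine ⟨(∑ N ∈ Finset.range 11, ep N) + (∑ N ∈ Finset.range 11, et N) + 20,
    fun F w r χ s x T S n i τ h hv hS1 hn3 hn10 hi hτ hτ1 hpre hcol => ?_⟩
  set P := ∑ N ∈ Finset.range 11, ep N with hP
  set Q := ∑ N ∈ Finset.range 11, et N with hQ
  have hep' : ∀ N ≤ 10, ep N ≤ P := fun N hN =>
    Finset.single_le_sum (f := ep) (fun _ _ => Nat.zero_le _) (Finset.mem_range.2 (by omega))
  have het' : et n ≤ Q :=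
    Finset.single_le_sum (f := et) (fun _ _ => Nat.zero_le _) (Finset.mem_range.2 (by omega))
  have hT := h.hT
  have hS := RespPt.var_nonneg hv
  have h13 : S ≤ T ^ 13 * S := le_mul_of_one_le_left hS (one_le_pow₀ (by linarith))
  have hline := RespPt.line_le h hv hcol
  -- all jets
  have big : PData 10 F w (fun y => r y ^ 2) r (fun v => |⟪s 0, v⟫| + |⟪s 1, v⟫|) χ x T
      (T ^ 13 * 1) := by
    refine RespPt.pdata h hv le_rfl (h13.trans (mul_le_mul_of_nonneg_left hS1 (by positivity)))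
      (fun a c hac => ?_)
      fun c hc k => (hline k (by omega)).trans (mul_le_mul_of_nonneg_left hS1 (by positivity))
    have hk : ∀ k, |⟪s k, jd a c w x⟫| ≤ T := fun k => by
      rw [real_inner_comm, hpre a c k hac]
      split_ifs
      · refine (abs_real_inner_le_norm _ _).trans ?_
        calc ‖τ‖ * ‖s k‖ ≤ 1 * T := mul_le_mul hτ1 (h.free k).2 (norm_nonneg _) zero_le_one
          _ = T := one_mul T
      · simp; linarith
    calc |⟪s 0, jd a c w x⟫| + |⟪s 1, jd a c w x⟫| ≤ T ^ 1 * 1 + T ^ 1 * 1 := by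
          rw [pow_one, mul_one]; exact add_le_add (hk 0) (hk 1)
      _ ≤ _ := Point.pow_mul_add hT zero_le_one (by omega) (by omega)
  obtain ⟨hall, -, -, -⟩ := hep 10 F w _ _ _ χ x T _ big
  -- lower jets
  obtain ⟨m, rfl⟩ : ∃ m, n = m + 1 := ⟨n - 1, by omega⟩
  have low : PData m F w (fun y => r y ^ 2) r (fun v => |⟪s 0, v⟫| + |⟪s 1, v⟫|) χ x T
      (T ^ 13 * S) := by
    refine RespPt.pdata h hv (by omega) h13 (fun a c hac => ?_) fun c hc k => hline k (by omega)
    have hk : ∀ k, ⟪s k, jd a c w x⟫ = 0 := fun k => by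
      rw [real_inner_comm, hpre a c k (by omega), if_neg (fun h' => by omega)]
    rw [hk 0, hk 1, abs_zero, add_zero]
    positivity
  obtain ⟨hlow, -, -, hlin⟩ := hep m F w _ _ _ χ x T _ low
  have up : ∀ {k : ℕ} {Z : ℝ}, 0 ≤ Z → k ≤ P + Q + 20 → T ^ k * Z ≤ T ^ (P + Q + 20) * Z :=
    fun hZ hk => Point.pow_mul_mono hT hZ hk
  have hmP := hep' m (by omega)
  refine ⟨fun i' j' hij => ?_, fun i' j' hij => ?_, fun i' hi' σ hσ _ => ?_,
    fun i' j' hij => ?_, fun hb => ?_⟩
  · calc ‖pdm i' j' w x‖ ≤ T ^ ep 10 * (T ^ 13 * 1) := hall i' j' hij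
      _ = T ^ (ep 10 + 13) * 1 := by ring
      _ ≤ T ^ (P + Q + 20) * 1 := up zero_le_one (by have := hep' 10 le_rfl; omega)
      _ = _ := mul_one _
  · calc ‖pdm i' j' w x‖ ≤ T ^ ep m * (T ^ 13 * S) := hlow i' j' (by omega)
      _ = T ^ (ep m + 13) * S := by ring
      _ ≤ _ := up hS (by omega)
  · obtain ⟨a, c, hac, -, -⟩ := h.span σ hσ
    show |⟪jd i' (m + 1 - i') w x, σ⟫ - if i' = i then ⟪τ, σ⟫ else 0| ≤ _
    rw [hac]
    simp only [inner_add_right, real_inner_smul_right, hpre i' (m + 1 - i') _ (by omega)]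
    by_cases hii : i' = i
    · subst hii
      rw [if_pos ⟨rfl, rfl⟩, if_pos ⟨rfl, rfl⟩, if_pos rfl, sub_self, abs_zero]
      positivity
    · rw [if_neg (fun h' => hii h'.1), if_neg (fun h' => hii h'.1), if_neg hii]
      simp only [mul_zero, add_zero, sub_zero, abs_zero]
      positivity
  · calc ‖pdm i' j' (Lin F w) x‖ ≤ T ^ ep m * (T ^ 13 * S) := hlin i' j' (by omega)
      _ = T ^ (ep m + 13) * S := by ring
      _ ≤ _ := up hS (by omega)
  · subst hb
    refine ⟨fun i' hi' => ((RespPt.lin_le h hv (by omega)).trans (up hS (by omega))),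
      fun i' hi' => ?_⟩
    show |⟪jd i' (m + 1 - i') w x, II F x (ev 1)⟫| ≤ _
    rw [real_inner_comm]
    interval_cases i'
    · obtain ⟨c0, c1, e, h0, h1⟩ := h.absorber rfl
      have hA : ‖II F x (ev 1)‖ ≤ T ^ 4 * 1 := by
        have b0 : ‖pd 0 F x‖ ≤ T := h.bF 1 0 (by omega)
        have b1 : ‖pd 1 F x‖ ≤ T := h.bF 0 1 (by omega)
        have b2 : ‖pd 1 (pd 1 F) x‖ ≤ T := h.bF 0 2 (by omega)
        calc ‖II F x (ev 1)‖ ≤ T + T * T + T * T := by
              rw [e]
              refine (norm_add_le _ _).trans (add_le_add ((norm_add_le _ _).trans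
                (add_le_add b2 ?_)) ?_) <;> rw [norm_smul, Real.norm_eq_abs]
              · exact mul_le_mul h0 b0 (norm_nonneg _) (by linarith)
              · exact mul_le_mul h1 b1 (norm_nonneg _) (by linarith)
          _ = T ^ 1 * 1 + T ^ 2 * 1 + T ^ 2 * 1 := by ring
          _ ≤ T ^ 3 * 1 + T ^ 2 * 1 :=
              add_le_add (Point.pow_mul_add hT zero_le_one (by omega) (by omega)) le_rfl
          _ ≤ _ := Point.pow_mul_add hT zero_le_one (by omega) (by omega)
      rw [Nat.sub_zero]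
      refine (abs_real_inner_le_norm _ _).trans ((mul_le_mul hA (hcol (m + 1) (by omega))
        (norm_nonneg _) (by positivity)).trans ?_)
      rw [mul_one]
      exact up hS (by omega)
    · simp only [Nat.add_sub_cancel]
      have hR : T ^ 14 * S ≤ T ^ (P + 14) * S := Point.pow_mul_mono hT hS (by omega)
      have h' : |⟪II F x (ev 1), jd 1 (m + 1 - 1) w x⟫| ≤ T ^ et (m + 1) * (T ^ (P + 14) * S) := by
        refine het (m + 1) F w _ _ x T _ (RespPt.adata h hv (by omega) hR) (by omega) hn10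
          (fun a c hac => ?_) fun c hc => ?_
        · calc ‖jd a c w x‖ ≤ T ^ ep m * (T ^ 13 * S) := hlow a c (by omega)
            _ = T ^ (ep m + 13) * S := by ring
            _ ≤ _ := Point.pow_mul_mono hT hS (by omega)
        · exact (hcol c (by omega)).trans (le_mul_of_one_le_left hS (one_le_pow₀ (by linarith)))
      rw [Nat.add_sub_cancel] at h'
      refine h'.trans ?_
      calc T ^ et (m + 1) * (T ^ (P + 14) * S) = T ^ (et (m + 1) + (P + 14)) * S := by ring
        _ ≤ _ := up hS (by omega)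

/-- THE SLOW RESPONSE AT A POINT. -/
theorem slowPtStmt : SlowPtStmt := by
  intro b
  obtain ⟨ep, hep⟩ := prolongAllStmt 1
  refine ⟨ep + 14, fun F w r χ s x T S h hv hzero a c hac => ?_⟩
  have hT := h.hT
  have hS := RespPt.var_nonneg hv
  show ‖jd a c (Lin F w) x‖ ≤ _
  cases b with
  | true => exact (RespPt.lin_le h hv (by omega)).trans (Point.pow_mul_mono hT hS (by omega))
  | false =>
    obtain ⟨hf, hl⟩ := hzero rfl
    have hd := RespPt.pdata h hv (N := 1) (by omega) le_rfl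
      (fun a c hac => by
        rw [real_inner_comm, hf a c 0 hac, real_inner_comm, hf a c 1 hac]; simpa using hS)
      fun c hc k => by rw [hl c hc k]; simpa using hS
    obtain ⟨-, -, -, hlin⟩ := hep F w _ _ _ χ x T S hd
    exact (hlin a c hac).trans (Point.pow_mul_mono hT hS (by omega))

end Vale.Agent.P205F.Expand
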