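import Vale.Agent.P205F.Expand.RowsSpec

/-!
# P205, expansions: the system of rows at one point

Centred monomials times profiles with prescribed derivatives give, among the oscillating seeds, one
column for every free row, and centred monomials among the slow seeds one column for every
tangential row. Ranking the tangential rows below the free ones, and both by the order in `y`, the
square array is nearly triangular.
-/

namespace Vale.Agent.P205F.Expand

open scoped ContDiff RealInnerProductSpace Topology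
open Finset Filter

namespace Rows

variable {X : Type} [NormedAddCommGroup X] [NormedSpace ℝ X] {x : E2}

lemma jd_zero (a b : ℕ) : jd a b (fun _ : E2 => (0 : X)) x = 0 := by
  have h := jd_smul (g := fun _ : E2 => (0 : X)) contDiff_const (0 : ℝ) a b
  rw [show (0 : ℝ) • (fun _ : E2 => (0 : X)) = fun _ : E2 => (0 : X) from funext fun _ => zero_smul _ _]
    at h
  rw [h]
  simp

lemma jd_sum {ι : Type} (s : Finset ι) (c : ι → ℝ) {g : ι → E2 → X}
    (hg : ∀ i, ContDiff ℝ ∞ (g i)) (a b : ℕ) :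
    jd a b (fun y => ∑ i ∈ s, c i • g i y) x = ∑ i ∈ s, c i • jd a b (g i) x := by
  classical
  induction s using Finset.induction with
  | empty => simpa using jd_zero a b
  | insert i s hi ih =>
    rw [show (fun y => ∑ k ∈ insert i s, c k • g k y) =
        (c i • g i) + fun y => ∑ k ∈ s, c k • g k y from funext fun y => by simp [sum_insert hi],
      jd_add (g := c i • g i) (g' := fun y => ∑ k ∈ s, c k • g k y) ((hg i).const_smul (c i))
      (ContDiff.sum fun k _ => (hg k).const_smul (c k)),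
      sum_insert hi, Pi.add_apply, ih, jd_smul (hg i)]
    rfl

lemma iter_congr (k : Fin 2) : ∀ (n : ℕ) {f g : E2 → X}, f =ᶠ[𝓝 x] g →
    (pd k)^[n] f =ᶠ[𝓝 x] (pd k)^[n] g
  | 0, _, _, h => h
  | n + 1, f, g, h => by
    rw [Function.iterate_succ_apply, Function.iterate_succ_apply]
    exact iter_congr k n ((h.fderiv (𝕜 := ℝ)).mono fun y hy => by simp [pd, hy])

lemma jd_congr {f g : E2 → X} (h : f =ᶠ[𝓝 x] g) (a b : ℕ) : jd a b f x = jd a b g x :=
  (iter_congr 0 a (iter_congr 1 b h)).eq_of_nhds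

/-- A product sum. -/
lemma sum_model {ι κ M : Type} [Fintype ι] [Fintype κ] [AddCommGroup M] [Module ℝ M] (u D : ι → ℝ)
    (v : κ → ℝ) (w : κ → M) (L : ℝ) :
    ∑ p : ι × κ, (u p.1 * v p.2) • (L • (D p.1 • w p.2)) =
      L • ((∑ i, u i * D i) • ∑ r, v r • w r) := by
  rw [Fintype.sum_prod_type, sum_smul, smul_sum]
  refine sum_congr rfl fun i _ => ?_
  rw [smul_sum, smul_sum]
  refine sum_congr rfl fun r _ => ?_
  module

lemma smooth_proj : ContDiff ℝ ∞ fun y : E2 => y 1 :=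
  (EuclideanSpace.proj (𝕜 := ℝ) (1 : Fin 2)).contDiff

lemma smooth_cmon (c : ℝ) (j : ℕ) : ContDiff ℝ ∞ (cmon c j) := by
  show ContDiff ℝ ∞ fun y : E2 => (y 1 - c) ^ j / (j.factorial : ℝ)
  exact ((smooth_proj.sub contDiff_const).pow j).div_const _

lemma hasDerivAt_cmon (c : ℝ) (i : ℕ) (t : ℝ) :
    HasDerivAt (fun s : ℝ => (s - c) ^ (i + 1) / ((i + 1).factorial : ℝ))
      ((t - c) ^ i / (i.factorial : ℝ)) t := by
  refine ((((hasDerivAt_id t).sub_const c).pow (i + 1)).div_const _).congr_deriv ?_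
  have e0 : (i.factorial : ℝ) ≠ 0 := by exact_mod_cast i.factorial_ne_zero
  simp [Nat.factorial_succ, Nat.cast_mul]
  field_simp

lemma pd_cmon (c : ℝ) (i : ℕ) : pd 1 (cmon c (i + 1)) = cmon c i := by
  funext y
  have h := (hasDerivAt_cmon c i (y 1)).comp_hasFDerivAt (f := fun y : E2 => y 1) y
    (EuclideanSpace.proj (𝕜 := ℝ) (1 : Fin 2)).hasFDerivAt
  rw [pd, show cmon c (i + 1) =
    (fun s : ℝ => (s - c) ^ (i + 1) / ((i + 1).factorial : ℝ)) ∘ fun y : E2 => y 1 from rfl,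
    h.fderiv]
  simp [cmon, ev]

lemma jd_cmon_self : ∀ (b j : ℕ), |jd 0 b (cmon (x 1) j) x| ≤ 1
  | 0, j => by
    show |cmon (x 1) j x| ≤ 1
    rcases Nat.eq_zero_or_pos j with rfl | hj <;> simp [cmon, *]
    rw [zero_pow hj.ne']
    simp
  | b + 1, 0 => by
    rw [jd_succ_right, show pd 1 (cmon (x 1) 0) = fun _ => (0 : ℝ) from funext fun y => by
      simp [pd, show cmon (x 1) 0 = fun _ => (1 : ℝ) from funext fun y => by simp [cmon]],
      jd_zero]
    simp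
  | b + 1, j + 1 => by
    rw [jd_succ_right, pd_cmon]
    exact jd_cmon_self b j

lemma jd_cmon_le {C : E2 → X} (hC : ContDiff ℝ ∞ C) {R : ℝ} {b N : ℕ} (j : ℕ) (hbN : b ≤ N)
    (hR : ∀ b' ≤ b, ‖jd 0 b' C x‖ ≤ R) :
    ‖jd 0 b (fun y => cmon (x 1) j y • C y) x‖ ≤ 2 ^ N * R := by
  have hR0 : 0 ≤ R := (norm_nonneg _).trans (hR 0 (Nat.zero_le _))
  have h := jd_bilin_le (ContinuousLinearMap.lsmul ℝ ℝ : ℝ →L[ℝ] X →L[ℝ] X) b 0 b (zero_add b)
    (smooth_cmon (x 1) j) hC x 1 R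
    (fun a b' ha _ => by
      obtain rfl : a = 0 := by omega
      simpa using jd_cmon_self b' j)
    (fun a b' ha hb' => by
      obtain rfl : a = 0 := by omega
      exact hR b' hb')
  refine le_trans h (mul_le_mul_of_nonneg_right ?_ hR0)
  rw [mul_one]
  calc (2 : ℝ) ^ b * ‖(ContinuousLinearMap.lsmul ℝ ℝ : ℝ →L[ℝ] X →L[ℝ] X)‖ ≤ 2 ^ N * 1 :=
        mul_le_mul (pow_le_pow_right₀ one_le_two hbN) ContinuousLinearMap.opNorm_lsmul_le
          (ContinuousLinearMap.opNorm_nonneg _) (by positivity)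
    _ = _ := mul_one _

lemma sum_pow (c : ℝ) (j : ℕ) (t : ℝ) {n : ℕ} (hn : j < n) :
    ∑ r : Fin n, monoCo c j r * t ^ (r : ℕ) = (t - c) ^ j / (j.factorial : ℝ) := by
  have h := cmon_eq (fun _ => 1) c j (EuclideanSpace.single (1 : Fin 2) t) hn
  simpa [mono, cmon] using h

lemma sum_dpow (c : ℝ) (j : ℕ) (t : ℝ) {n : ℕ} (hn : j < n) :
    ∑ r : Fin n, monoCo c j r * ((r : ℕ) * t ^ ((r : ℕ) - 1)) =
      if j = 0 then 0 else (t - c) ^ (j - 1) / ((j - 1).factorial : ℝ) := by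
  have h1 : HasDerivAt (fun s : ℝ => ∑ r : Fin n, monoCo c j r * s ^ (r : ℕ))
      (∑ r : Fin n, monoCo c j r * ((r : ℕ) * t ^ ((r : ℕ) - 1))) t :=
    HasDerivAt.fun_sum fun r _ => (hasDerivAt_pow (r : ℕ) t).const_mul _
  rw [show (fun s : ℝ => ∑ r : Fin n, monoCo c j r * s ^ (r : ℕ)) =
    fun s => (s - c) ^ j / (j.factorial : ℝ) from funext fun s => sum_pow c j s hn] at h1
  rcases Nat.eq_zero_or_pos j with rfl | hj
  · rw [if_pos rfl]
    exact h1.unique (by simpa using hasDerivAt_const t ((1 : ℝ) / (Nat.factorial 0 : ℝ)))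
  · obtain ⟨i, rfl⟩ : ∃ i, j = i + 1 := ⟨j - 1, by omega⟩
    rw [if_neg (by omega), Nat.add_sub_cancel]
    exact h1.unique (hasDerivAt_cmon c i t)

/-- The combination of seeds for one row. -/
noncomputable def col {n m : ℕ} (hm : m ≤ 2) (fr : Fin 2) (i₀ : Fin n)
    (cP : Fin 11 → Fin 6 × Fin 2 → ℝ) (c : ℝ) : VIx m → SIx n → ℝ
  | .inl (a, j, d), .inl (fr', d', i, r) =>
      if fr' = fr ∧ d' = Fin.castLE hm d then cP a i * monoCo c j r else 0
  | .inl _, .inr _ => 0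
  | .inr _, .inl _ => 0
  | .inr (d, j), .inr (i', d', r) => if i' = i₀ ∧ d' = d then monoCo c j r else 0

variable {n m : ℕ} {hm : m ≤ 2} {fr : Fin 2} {i₀ : Fin n} {cP : Fin 11 → Fin 6 × Fin 2 → ℝ}
  {c : ℝ}

lemma col_sum_inl {M : Type} [AddCommGroup M] [Module ℝ M] (g : SIx n → M) (a j : Fin 11)
    (d : Fin m) :
    ∑ k, col hm fr i₀ cP c (.inl (a, j, d)) k • g k =
      ∑ i, ∑ r : Fin 11, (cP a i * monoCo c j r) • g (.inl (fr, Fin.castLE hm d, i, r)) := by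
  rw [Fintype.sum_sum_type]
  have e : ∀ p : AbsI n, col hm fr i₀ cP c (.inl (a, j, d)) (.inr p) • g (.inr p) = 0 :=
    fun p => by simp [col]
  rw [sum_eq_zero (fun p _ => e p), add_zero, Fintype.sum_prod_type]
  refine (Fintype.sum_eq_single fr fun f hf => ?_).trans ?_
  · exact sum_eq_zero fun p _ => by simp [col, hf]
  rw [Fintype.sum_prod_type]
  refine (Fintype.sum_eq_single (Fin.castLE hm d) fun f hf => ?_).trans ?_
  · exact sum_eq_zero fun p _ => by simp [col, hf]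
  rw [Fintype.sum_prod_type]
  exact sum_congr rfl fun i _ => sum_congr rfl fun r _ => by simp [col]

lemma col_sum_inr {M : Type} [AddCommGroup M] [Module ℝ M] (g : SIx n → M) (d : Fin 2)
    (j : Fin 4) :
    ∑ k, col (m := m) hm fr i₀ cP c (.inr (d, j)) k • g k =
      ∑ r : Fin 7, monoCo c j r • g (.inr (i₀, d, r)) := by
  rw [Fintype.sum_sum_type]
  have e : ∀ p : OscI, col (m := m) hm fr i₀ cP c (.inr (d, j)) (.inl p) • g (.inl p) = 0 :=
    fun p => by simp [col]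
  rw [sum_eq_zero (fun p _ => e p), zero_add, Fintype.sum_prod_type]
  refine (Fintype.sum_eq_single i₀ fun f hf => ?_).trans ?_
  · exact sum_eq_zero fun p _ => by simp [col, hf]
  rw [Fintype.sum_prod_type]
  refine (Fintype.sum_eq_single d fun f hf => ?_).trans ?_
  · exact sum_eq_zero fun p _ => by simp [col, hf]
  exact sum_congr rfl fun r _ => by simp [col]

/-- The model of a tangential row on a centred column. -/
lemma tan_col {q : Fin 3 → E2 → ℝ} (hq : ∀ i, ContDiff ℝ ∞ (q i)) (k d : Fin 2) (j : Fin 4)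
    (b : ℕ) :
    ∑ r : Fin 7, monoCo (x 1) j r * jd 0 b (tanModel q k d r) x =
      if k = 1 then
        (if d = 0 then 0 else jd 0 b (fun y => cmon (x 1) j y • (1 : ℝ)) x)
      else if d = 0 then jd 0 b (fun y => cmon (x 1) j y • q 0 y) x
      else jd 0 b (fun y => cmon (x 1) j y • q 1 y) x +
        (if (j : ℕ) = 0 then 0 else jd 0 b (fun y => cmon (x 1) ((j : ℕ) - 1) y • q 2 y) x) := by
  have hsm : ∀ r, ContDiff ℝ ∞ (tanModel q k d r) := fun r => by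
    unfold tanModel
    split_ifs
    · exact contDiff_const
    · exact smooth_proj.pow r
    · exact (smooth_proj.pow r).mul (hq 0)
    · exact ((smooth_proj.pow r).mul (hq 1)).add
        ((contDiff_const.mul (smooth_proj.pow (r - 1))).mul (hq 2))
  have hj : (j : ℕ) < 7 := by omega
  have e : (fun y => ∑ r : Fin 7, monoCo (x 1) j r • tanModel q k d r y) =
      if k = 1 then (if d = 0 then fun _ => 0 else fun y => cmon (x 1) j y • (1 : ℝ))
      else if d = 0 then fun y => cmon (x 1) j y • q 0 y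
      else (fun y => cmon (x 1) j y • q 1 y) +
        fun y => (if (j : ℕ) = 0 then 0 else cmon (x 1) ((j : ℕ) - 1) y) • q 2 y := by
    funext y
    have s0 := sum_pow (x 1) j (y 1) hj
    have s1 := sum_dpow (x 1) j (y 1) hj
    simp only [tanModel, smul_eq_mul]
    split_ifs with h h' h' hj0
    · simp
    · simp [cmon, s0]
    · simp only [← mul_assoc, ← sum_mul, s0]
      rfl
    · rw [if_pos hj0] at s1
      simp only [mul_add, sum_add_distrib, ← mul_assoc, ← sum_mul, s0, Pi.add_apply]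
      rw [show ∑ r : Fin 7, monoCo (x 1) j r * (r : ℕ) * y 1 ^ ((r : ℕ) - 1) = 0 by
        rw [← s1]; exact sum_congr rfl fun r _ => by ring]
      simp [cmon]
    · rw [if_neg hj0] at s1
      simp only [mul_add, sum_add_distrib, ← mul_assoc, ← sum_mul, s0, Pi.add_apply]
      rw [show ∑ r : Fin 7, monoCo (x 1) j r * (r : ℕ) * y 1 ^ ((r : ℕ) - 1) =
          (y 1 - x 1) ^ ((j : ℕ) - 1) / (((j : ℕ) - 1).factorial : ℝ) by
        rw [← s1]; exact sum_congr rfl fun r _ => by ring]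
      rfl
  have h := jd_sum (x := x) univ (fun r : Fin 7 => monoCo (x 1) j r)
    (g := fun r : Fin 7 => tanModel q k d r) (fun r => hsm r) 0 b
  rw [e] at h
  simp only [smul_eq_mul] at h ⊢
  rw [← h]
  split_ifs with h1 h2 h2 hj0
  · exact jd_zero 0 b
  · rfl
  · rfl
  · rw [jd_add ((smooth_cmon _ _).mul (hq 1)) (by simpa using contDiff_const), Pi.add_apply]
    simp [jd_zero]
  · rw [jd_add ((smooth_cmon _ _).mul (hq 1)) ((smooth_cmon _ _).mul (hq 2))]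
    rfl

/-- The model of a free row on a centred column. -/
lemma osc_col {ψ : E2 → ℝ} {G : E2 → R4} (hψs : ContDiff ℝ ∞ ψ) (hψ : ψ =ᶠ[𝓝 x] fun _ => 1)
    (hG : ContDiff ℝ ∞ G) (j : Fin 11) (b : ℕ) :
    ∑ r : Fin 11, monoCo (x 1) j r • jd 0 b (fun y => mono ψ r y • G y) x =
      jd 0 b (fun y => cmon (x 1) j y • G y) x := by
  have hs : ∀ r : Fin 11, ContDiff ℝ ∞ fun y => mono ψ r y • G y := fun r =>
    (hψs.mul (smooth_proj.pow (r : ℕ))).smul hG
  rw [← jd_sum univ _ hs]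
  refine jd_congr ?_ 0 b
  filter_upwards [hψ] with y hy
  simp only [smul_smul, ← sum_smul]
  rw [cmon_eq ψ (x 1) j y j.isLt, hy, one_mul]

/-- Entries of a sum are controlled by those of its terms. -/
lemma norm_comb_le {ι M : Type} [Fintype ι] [NormedAddCommGroup M] [NormedSpace ℝ M] {w : ι → ℝ}
    {g : ι → M} {B S : ℝ} (hg : ∀ i, ‖g i‖ ≤ B) (hB : 0 ≤ B) (hS : ∑ i, |w i| ≤ S) :
    ‖∑ i, w i • g i‖ ≤ S * B := by
  refine (norm_sum_le _ _).trans ((sum_le_sum fun i _ => ?_).trans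
    (le_trans (le_of_eq (sum_mul univ (fun i => |w i|) B).symm) (mul_le_mul_of_nonneg_right hS hB)))
  rw [norm_smul, Real.norm_eq_abs]
  exact mul_le_mul_of_nonneg_left (hg i) (abs_nonneg _)

lemma norm_comb_sub_le {ι M : Type} [Fintype ι] [NormedAddCommGroup M] [NormedSpace ℝ M]
    {w : ι → ℝ} {f g : ι → M} {B S : ℝ} (hg : ∀ i, ‖f i - g i‖ ≤ B) (hB : 0 ≤ B)
    (hS : ∑ i, |w i| ≤ S) : ‖∑ i, w i • f i - ∑ i, w i • g i‖ ≤ S * B := by
  have h := norm_comb_le hg hB hS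
  rwa [sum_congr rfl fun i _ => smul_sub (w i) (f i) (g i), sum_sub_distrib] at h

lemma abs_inner_div_le {v s : R4} {Λ A C : ℝ} {a : ℕ} (hΛ : 1 ≤ Λ) (hA : 0 ≤ A)
    (hv : ‖v‖ ≤ A * Λ ^ a) (hs : ‖s‖ ≤ C) : |⟪v, s⟫ / Λ ^ a| ≤ A * C := by
  have hp : 0 < Λ ^ a := pow_pos (by linarith) a
  rw [abs_div, abs_of_pos hp, div_le_iff₀ hp]
  refine (abs_real_inner_le_norm _ _).trans ?_
  calc ‖v‖ * ‖s‖ ≤ A * Λ ^ a * C := mul_le_mul hv hs (norm_nonneg _) (by positivity)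
    _ = _ := by ring

/-- The ranks of the tangential rows. -/
def rkT : Fin 2 × Fin 4 → ℕ := fun p => if p.1 = 1 then (p.2 : ℕ) else 4 + p.2

/-- The ranks of the free rows. -/
def rkF : Fin 11 × Fin 11 × Fin m → ℕ := fun p => p.2.1

/-- Entries of the square array. -/
noncomputable def ent (F : E2 → R4) (Wv : SIx n → E2 → R4) (s : Fin 2 → R4) (hm : m ≤ 2) (x : E2)
    (Λ : ℝ) (fr : Fin 2) (i₀ : Fin n) (cP : Fin 11 → Fin 6 × Fin 2 → ℝ) (r' r : VIx m) : ℝ :=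
  rowsOf F Wv s hm x Λ (col hm fr i₀ cP (x 1) r) r'

/-- The constants of the estimates. -/
structure Ctx (cP : Fin 11 → Fin 6 × Fin 2 → ℝ) (y t₀ C₀ S B δ δ' : ℝ) : Prop where
  hC₀ : 1 ≤ C₀
  hS0 : 0 ≤ S
  hB : 0 ≤ B
  hd0 : 0 ≤ δ
  hd0' : 0 ≤ δ'
  hcP : ∀ a a' : Fin 11, ∑ i, cP a i * deriv^[(a' : ℕ) + 1] (prof i) t₀ =
    if a' = a then 1 else 0
  hw : ∀ a j : Fin 11, ∑ p : (Fin 6 × Fin 2) × Fin 11, |cP a p.1 * monoCo y j p.2| ≤ S
  hw' : ∀ j : Fin 4, ∑ r : Fin 7, |monoCo y j r| ≤ S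

section Entries

variable {F : E2 → R4} {Wv : SIx n → E2 → R4} {ψ : E2 → ℝ} {Fld : Fin 2 → E2 → R4}
  {q : Fin 3 → E2 → ℝ} {s : Fin 2 → R4} {t₀ Λ C₀ S B δ δ' : ℝ}

lemma fo_le (D : RowsData m hm F Wv ψ Fld q s x fr i₀ t₀ Λ C₀ B δ δ')
    (H : Ctx cP (x 1) t₀ C₀ S B δ δ') (a' b' : Fin 11) (c' : Fin m) (a j : Fin 11) (c : Fin m) :
    |ent F Wv s hm x Λ fr i₀ cP (.inl (a', b', c')) (.inl (a, j, c)) - (if a' = a then
        ⟪jd 0 b' (fun y => cmon (x 1) j y • Fld (Fin.castLE hm c) y) x, s (Fin.castLE hm c')⟫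
          else 0)| ≤ S * C₀ * δ' := by
  have := H.hS0
  have := H.hC₀
  have hd0 := H.hd0'
  have hcP := H.hcP
  have hw := H.hw
  have hp : 0 < Λ ^ (a' : ℕ) := pow_pos (by linarith [D.hΛ]) _
  set G := Fld (Fin.castLE hm c)
  set mdl : R4 := ∑ p : (Fin 6 × Fin 2) × Fin 11, (cP a p.1 * monoCo (x 1) j p.2) •
    (Λ ^ (a' : ℕ) • (deriv^[(a' : ℕ) + 1] (prof p.1) t₀ •
      jd 0 b' (fun y => mono ψ p.2 y • G y) x)) with hmdl
  have hm' : mdl = Λ ^ (a' : ℕ) • ((if a' = a then (1 : ℝ) else 0) •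
      jd 0 b' (fun y => cmon (x 1) j y • G y) x) := by
    rw [← osc_col D.hψs D.hψ (D.hFld _).1 j b', ← hcP a a', hmdl]
    exact sum_model (cP a) (fun i => deriv^[(a' : ℕ) + 1] (prof i) t₀)
      (fun r : Fin 11 => monoCo (x 1) j r)
      (fun r : Fin 11 => jd 0 b' (fun y => mono ψ r y • G y) x) _
  have he : ent F Wv s hm x Λ fr i₀ cP (.inl (a', b', c')) (.inl (a, j, c)) - (if a' = a then
      ⟪jd 0 b' (fun y => cmon (x 1) j y • G y) x, s (Fin.castLE hm c')⟫ else 0) =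
      ⟪(∑ k, col hm fr i₀ cP (x 1) (.inl (a, j, c)) k • jd a' b' (Wv k) x) - mdl, s (Fin.castLE hm c')⟫ /
        Λ ^ (a' : ℕ) := by
    rw [inner_sub_left, sub_div]
    congr 1
    rw [hm', real_inner_smul_left, real_inner_smul_left, mul_div_assoc,
      mul_div_cancel₀ _ hp.ne']
    split_ifs <;> simp
  rw [he]
  refine (abs_inner_div_le D.hΛ (A := S * δ') (by positivity) ?_ (D.hs _)).trans_eq (by ring)
  rw [col_sum_inl (fun k => jd a' b' (Wv k) x), hmdl,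
    ← Fintype.sum_prod_type' fun i (r : Fin 11) => (cP a i * monoCo (x 1) j r) •
      jd a' b' (Wv (.inl (fr, Fin.castLE hm c, i, r))) x]
  have hb : ∀ p : (Fin 6 × Fin 2) × Fin 11,
      ‖jd a' b' (Wv (.inl (fr, Fin.castLE hm c, p.1, p.2))) x -
        Λ ^ (a' : ℕ) • (deriv^[(a' : ℕ) + 1] (prof p.1) t₀ •
          jd 0 b' (fun y => mono ψ p.2 y • G y) x)‖ ≤ δ' * Λ ^ (a' : ℕ) := fun p =>
    D.freeOsc (Fin.castLE hm c) p.1 p.2 a' b' (Nat.lt_succ_iff.1 a'.isLt)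
      (Nat.lt_succ_iff.1 b'.isLt)
  have hpow : 0 ≤ δ' * Λ ^ (a' : ℕ) :=
    mul_nonneg hd0 hp.le
  have key := norm_comb_sub_le hb hpow (hw a j)
  rw [mul_assoc S δ']
  convert key using 4

lemma fa_le (D : RowsData m hm F Wv ψ Fld q s x fr i₀ t₀ Λ C₀ B δ δ')
    (H : Ctx cP (x 1) t₀ C₀ S B δ δ') (a' b' : Fin 11) (c' : Fin m) (d : Fin 2) (j : Fin 4) :
    |ent F Wv s hm x Λ fr i₀ cP (.inl (a', b', c')) (.inr (d, j))| ≤ S * B * C₀ := by
  have := H.hS0
  have := H.hC₀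
  have hw' := H.hw'
  have := H.hB
  have hΛ0 : 0 ≤ Λ := by linarith [D.hΛ]
  refine abs_inner_div_le D.hΛ (A := S * B) (by positivity) ?_ (D.hs _)
  rw [col_sum_inr (fun k => jd a' b' (Wv k) x)]
  exact (norm_comb_le (fun r => D.freeAbs d r a' b' (by omega) (by omega)) (by positivity)
    (hw' j)).trans_eq (by ring)

lemma lo_le (D : RowsData m hm F Wv ψ Fld q s x fr i₀ t₀ Λ C₀ B δ δ')
    (H : Ctx cP (x 1) t₀ C₀ S B δ δ') (k : Fin 2) (b : Fin 4) (a j : Fin 11) (c : Fin m) :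
    |ent F Wv s hm x Λ fr i₀ cP (.inr (k, b)) (.inl (a, j, c))| ≤ S * δ' := by
  have := H.hS0
  have := H.hC₀
  have hd0 := H.hd0'
  have hw := H.hw
  show |∑ k', col hm fr i₀ cP (x 1) (.inl (a, j, c)) k' • jd 0 b (fun y => ⟪pd k F y, Wv k' y⟫) x| ≤ _
  rw [col_sum_inl (fun k' => jd 0 b (fun y => ⟪pd k F y, Wv k' y⟫) x),
    ← Fintype.sum_prod_type' fun i (r : Fin 11) => (cP a i * monoCo (x 1) j r) •
      jd 0 b (fun y => ⟪pd k F y, Wv (.inl (fr, Fin.castLE hm c, i, r)) y⟫) x,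
    ← Real.norm_eq_abs]
  exact (norm_comb_le (fun p => by
    rw [Real.norm_eq_abs]; exact D.tanOsc _ p.1 p.2 k b (by omega)) (by positivity)
    (hw a j)).trans_eq (by ring)

lemma la_le (D : RowsData m hm F Wv ψ Fld q s x fr i₀ t₀ Λ C₀ B δ δ')
    (H : Ctx cP (x 1) t₀ C₀ S B δ δ') (k : Fin 2) (b : Fin 4) (d : Fin 2) (j : Fin 4) :
    |ent F Wv s hm x Λ fr i₀ cP (.inr (k, b)) (.inr (d, j)) -
      ∑ r : Fin 7, monoCo (x 1) j r * jd 0 b (tanModel q k d r) x| ≤ S * δ := by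
  have := H.hS0
  have := H.hC₀
  have hd0 := H.hd0
  have hw' := H.hw'
  show |∑ k', col (m := m) hm fr i₀ cP (x 1) (.inr (d, j)) k' • jd 0 b (fun y => ⟪pd k F y, Wv k' y⟫) x -
    ∑ r : Fin 7, monoCo (x 1) j r • jd 0 b (tanModel q k d r) x| ≤ _
  rw [col_sum_inr (fun k' => jd 0 b (fun y => ⟪pd k F y, Wv k' y⟫) x), ← sum_sub_distrib,
    ← Real.norm_eq_abs]
  simp only [← smul_sub]
  exact (norm_comb_le (fun r => by
    rw [Real.norm_eq_abs]; exact D.tanAbs d r k b (by omega)) (by positivity)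
    (hw' j)).trans_eq (by ring)

lemma diagT (D : RowsData m hm F Wv ψ Fld q s x fr i₀ t₀ Λ C₀ B δ δ')
    (H : Ctx cP (x 1) t₀ C₀ S B δ δ') (hs : S * δ ≤ C₀⁻¹ / 2) :
    ∀ i, C₀⁻¹ / 2 ≤ |ent F Wv s hm x Λ fr i₀ cP (.inr i) (.inr i)| := by
  have hc1 : C₀⁻¹ ≤ 1 := inv_le_one_of_one_le₀ H.hC₀
  rintro ⟨k, b⟩
  have h := la_le D H k b k b
  rw [tan_col (fun i => (D.hq i).1)] at h
  fin_cases k
  · simp [-smul_eq_mul, jd_cmon _ _ le_rfl (D.hq 0).1 x] at h
    have := D.hq0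
    have := abs_sub_abs_le_abs_sub (q 0 x) (ent F Wv s hm x Λ fr i₀ cP (.inr (0, b)) (.inr (0, b)))
    rw [abs_sub_comm] at this
    show C₀⁻¹ / 2 ≤ |ent F Wv s hm x Λ fr i₀ cP (.inr (0, b)) (.inr (0, b))|
    linarith
  · simp [-smul_eq_mul, jd_cmon _ _ le_rfl (contDiff_const (c := (1 : ℝ))) x] at h
    have := abs_le.1 h
    show C₀⁻¹ / 2 ≤ |ent F Wv s hm x Λ fr i₀ cP (.inr (1, b)) (.inr (1, b))|
    exact le_trans (by linarith) (le_abs_self _)

lemma upT (D : RowsData m hm F Wv ψ Fld q s x fr i₀ t₀ Λ C₀ B δ δ')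
    (H : Ctx cP (x 1) t₀ C₀ S B δ δ') :
    ∀ i j, j ≠ i → rkT i ≤ rkT j →
      |ent F Wv s hm x Λ fr i₀ cP (.inr i) (.inr j)| ≤ S * δ := by
  rintro ⟨k, b⟩ ⟨d, j⟩ hne hrk
  have h := la_le D H k b d j
  rw [tan_col (fun i => (D.hq i).1)] at h
  simp only [rkT] at hrk
  fin_cases k <;> fin_cases d
  · simp at hrk
    have hb : (b : ℕ) ≠ j := fun e => hne (by rw [Fin.ext e])
    simp [-smul_eq_mul, jd_cmon (b : ℕ) j (by omega) (D.hq 0).1 x, hb] at h
    exact h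
  · simp at hrk
    omega
  · simp at h
    exact h
  · simp at hrk
    have hb : (b : ℕ) ≠ j := fun e => hne (by rw [Fin.ext e])
    simp [-smul_eq_mul, jd_cmon (b : ℕ) j (by omega) (contDiff_const (c := (1 : ℝ))) x, hb] at h
    exact h

lemma lowT (D : RowsData m hm F Wv ψ Fld q s x fr i₀ t₀ Λ C₀ B δ δ')
    (H : Ctx cP (x 1) t₀ C₀ S B δ δ') :
    ∀ i j, rkT j < rkT i →
      |ent F Wv s hm x Λ fr i₀ cP (.inr i) (.inr j)| ≤ 2 ^ 11 * C₀ ^ 2 + S * δ := by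
  have hC₀ := H.hC₀
  have hB0 : (0 : ℝ) ≤ 2 ^ 11 * C₀ ^ 2 := by positivity
  rintro ⟨k, b⟩ ⟨d, j⟩ -
  have h := la_le D H k b d j
  set T := ∑ r : Fin 7, monoCo (x 1) j r * jd 0 b (tanModel q k d r) x with hTd
  have hT : |T| ≤ 2 ^ 11 * C₀ ^ 2 := by
    have b3 : (b : ℕ) ≤ 10 := by omega
    have hsq : C₀ ≤ C₀ ^ 2 := le_self_pow₀ hC₀ two_ne_zero
    have hc : ∀ i : Fin 3, ∀ j : ℕ,
        |jd 0 b (fun y => cmon (x 1) j y • q i y) x| ≤ 2 ^ 10 * C₀ := fun i j => by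
      rw [← Real.norm_eq_abs]
      exact jd_cmon_le (D.hq i).1 j b3
        (fun b' hb' => by rw [Real.norm_eq_abs]; exact (D.hq i).2 b' (by omega))
    rw [hTd, tan_col (fun i => (D.hq i).1)]
    split_ifs
    · simpa using hB0
    · rw [← Real.norm_eq_abs]
      refine (jd_cmon_le (N := 10) (R := C₀) contDiff_const j b3 fun b' hb' => ?_).trans
        (by nlinarith)
      cases b' with
      | zero => simpa [jd] using hC₀
      | succ b' =>
        rw [jd_succ_right, show pd 1 (fun _ : E2 => (1 : ℝ)) = fun _ => (0 : ℝ) from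
          funext fun y => by simp [pd], jd_zero, norm_zero]
        linarith
    · exact (hc 0 j).trans (by nlinarith)
    · rw [add_zero]
      exact (hc 1 j).trans (by nlinarith)
    · exact (abs_add_le _ _).trans ((add_le_add (hc 1 j) (hc 2 _)).trans (by linarith))
  have := abs_sub_abs_le_abs_sub (ent F Wv s hm x Λ fr i₀ cP (.inr (k, b)) (.inr (d, j))) T
  linarith

lemma diagF (D : RowsData m hm F Wv ψ Fld q s x fr i₀ t₀ Λ C₀ B δ δ')
    (H : Ctx cP (x 1) t₀ C₀ S B δ δ') (hs : δ + S * C₀ * δ' ≤ C₀⁻¹ / 2) :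
    ∀ i, C₀⁻¹ / 2 ≤ |ent F Wv s hm x Λ fr i₀ cP (.inl i) (.inl i)| := by
  have hc1 : C₀⁻¹ ≤ 1 := inv_le_one_of_one_le₀ H.hC₀
  rintro ⟨a, b, c⟩
  have h := fo_le D H a b c a b c
  rw [if_pos rfl, jd_cmon b b le_rfl (D.hFld _).1 x, if_pos rfl] at h
  have h' := D.orth c c
  rw [if_pos rfl] at h'
  have := abs_le.1 h
  have := abs_le.1 h'
  exact le_trans (by linarith) (le_abs_self _)

lemma upF (D : RowsData m hm F Wv ψ Fld q s x fr i₀ t₀ Λ C₀ B δ δ')
    (H : Ctx cP (x 1) t₀ C₀ S B δ δ') :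
    ∀ i j, j ≠ i → rkF i ≤ rkF j →
      |ent F Wv s hm x Λ fr i₀ cP (.inl i) (.inl j)| ≤ δ + S * C₀ * δ' := by
  have hd0 := H.hd0
  rintro ⟨a', b', c'⟩ ⟨a, j, c⟩ hne hrk
  simp only [rkF] at hrk
  have h := fo_le D H a' b' c' a j c
  by_cases ha : a' = a
  · subst ha
    rw [if_pos rfl, jd_cmon b' j hrk (D.hFld _).1 x] at h
    by_cases hb : (b' : ℕ) = j
    · obtain rfl : b' = j := Fin.ext hb
      rw [if_pos rfl] at h
      have hcc : c ≠ c' := fun e => hne (by rw [e])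
      have h' := D.orth c c'
      rw [if_neg hcc, sub_zero] at h'
      have := abs_le.1 h
      have := abs_le.1 h'
      exact abs_le.2 ⟨by linarith, by linarith⟩
    · rw [if_neg hb, inner_zero_left, sub_zero] at h
      linarith
  · rw [if_neg ha, sub_zero] at h
    linarith

lemma lowF (D : RowsData m hm F Wv ψ Fld q s x fr i₀ t₀ Λ C₀ B δ δ')
    (H : Ctx cP (x 1) t₀ C₀ S B δ δ') :
    ∀ i j, rkF j < rkF i →
      |ent F Wv s hm x Λ fr i₀ cP (.inl i) (.inl j)| ≤ 2 ^ 11 * C₀ ^ 2 + S * C₀ * δ' := by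
  have hC₀ := H.hC₀
  rintro ⟨a', b', c'⟩ ⟨a, j, c⟩ -
  have h := fo_le D H a' b' c' a j c
  have hb := jd_cmon_le (x := x) (D.hFld (Fin.castLE hm c)).1 (j : ℕ) (N := 10)
    (b := (b' : ℕ)) (by omega) (fun i hi => (D.hFld _).2 i (by omega))
  set T := ⟪jd 0 b' (fun y => cmon (x 1) j y • Fld (Fin.castLE hm c) y) x,
    s (Fin.castLE hm c')⟫ with hTd
  have hT : |if a' = a then T else 0| ≤ 2 ^ 11 * C₀ ^ 2 := by
    split_ifs
    · refine ((abs_real_inner_le_norm _ _).trans (mul_le_mul hb (D.hs _) (norm_nonneg _)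
        (by positivity))).trans ?_
      nlinarith
    · simp; positivity
  have := abs_sub_abs_le_abs_sub (ent F Wv s hm x Λ fr i₀ cP (.inl (a', b', c')) (.inl (a, j, c)))
    (if a' = a then T else 0)
  linarith

end Entries

/-- Sums of bounded products. -/
lemma sum_prod_le {ι : Type} [Fintype ι] {A u : ι → ℝ} {a : ℝ} (hA : ∀ i, |A i| ≤ a) :
    |∑ i, A i * u i| ≤ Fintype.card ι * a * ‖u‖ := by
  refine (abs_sum_le_sum_abs _ _).trans ((sum_le_card_nsmul _ _ (a * ‖u‖) fun i _ => ?_).trans_eq ?_)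
  · rw [abs_mul]
    exact mul_le_mul (hA i) (abs_apply_le u i) (abs_nonneg _) ((abs_nonneg _).trans (hA i))
  · rw [card_univ, nsmul_eq_mul, mul_assoc]

/-- Two blocks, the second coupled to the first only weakly. -/
lemma two_blocks {ι κ : Type} [Fintype ι] [Fintype κ] {A : ι ⊕ κ → ι ⊕ κ → ℝ} {C₁ C₂ p g : ℝ}
    (hC₁ : 0 ≤ C₁) (hC₂ : 0 ≤ C₂) (hp : 0 ≤ p) (hg : 0 ≤ g)
    (hT : ∀ u : κ → ℝ, ‖u‖ ≤ C₁ * ‖mvec (fun i j => A (.inr i) (.inr j)) u‖)
    (hF : ∀ v : ι → ℝ, ‖v‖ ≤ C₂ * ‖mvec (fun i j => A (.inl i) (.inl j)) v‖)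
    (hTF : ∀ i j, |A (.inr i) (.inl j)| ≤ p) (hFT : ∀ i j, |A (.inl i) (.inr j)| ≤ g)
    (hsmall : 2 * (C₂ * (Fintype.card κ * g) * C₁ * (Fintype.card ι * p)) ≤ 1)
    (U : ι ⊕ κ → ℝ) :
    ‖U‖ ≤ (2 * C₂ * (1 + Fintype.card κ * g * C₁) +
      C₁ * (1 + Fintype.card ι * p * (2 * C₂ * (1 + Fintype.card κ * g * C₁)))) * ‖mvec A U‖ := by
  set v : ι → ℝ := fun i => U (.inl i) with hv
  set u : κ → ℝ := fun i => U (.inr i) with hu
  set r := ‖mvec A U‖ with hr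
  set P := (Fintype.card ι : ℝ) * p with hP
  set G := (Fintype.card κ : ℝ) * g with hG
  have hr0 : 0 ≤ r := norm_nonneg _
  have hP0 : 0 ≤ P := by positivity
  have hG0 : 0 ≤ G := by positivity
  have h1 : ‖u‖ ≤ C₁ * (r + P * ‖v‖) := by
    refine (hT u).trans (mul_le_mul_of_nonneg_left ?_ hC₁)
    refine (pi_norm_le_iff_of_nonneg (by positivity)).2 fun i => ?_
    have e : mvec (fun i j => A (.inr i) (.inr j)) u i =
        mvec A U (.inr i) - ∑ j, A (.inr i) (.inl j) * v j := by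
      simp [mvec, Fintype.sum_sum_type, hv, hu]
    rw [Real.norm_eq_abs, e]
    exact (abs_sub _ _).trans (add_le_add (abs_apply_le _ _) (sum_prod_le fun j => hTF i j))
  have h2 : ‖v‖ ≤ C₂ * (r + G * ‖u‖) := by
    refine (hF v).trans (mul_le_mul_of_nonneg_left ?_ hC₂)
    refine (pi_norm_le_iff_of_nonneg (by positivity)).2 fun i => ?_
    have e : mvec (fun i j => A (.inl i) (.inl j)) v i =
        mvec A U (.inl i) - ∑ j, A (.inl i) (.inr j) * u j := by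
      simp [mvec, Fintype.sum_sum_type, hv, hu]
    rw [Real.norm_eq_abs, e]
    exact (abs_sub _ _).trans (add_le_add (abs_apply_le _ _) (sum_prod_le fun j => hFT i j))
  set V := 2 * C₂ * (1 + G * C₁) with hV
  have hV0 : 0 ≤ V := by positivity
  have h3 : ‖v‖ ≤ V * r := by
    have e1 := mul_le_mul_of_nonneg_left h1 (mul_nonneg hC₂ hG0)
    have e2 := mul_le_mul_of_nonneg_right hsmall (norm_nonneg v)
    rw [hV]
    linarith
  have h4 : ‖u‖ ≤ C₁ * (1 + P * V) * r := by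
    refine h1.trans ?_
    rw [mul_assoc C₁]
    refine mul_le_mul_of_nonneg_left ?_ hC₁
    linarith [mul_le_mul_of_nonneg_left h3 hP0]
  refine (pi_norm_le_iff_of_nonneg (by positivity)).2 fun k => ?_
  have n1 : 0 ≤ C₁ * (1 + P * V) * r := by positivity
  have n2 : 0 ≤ V * r := by positivity
  rw [add_mul]
  cases k with
  | inl i => exact ((norm_le_pi_norm v i).trans h3).trans (le_add_of_nonneg_right n1)
  | inr i => exact ((norm_le_pi_norm u i).trans h4).trans (le_add_of_nonneg_left n2)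

/-- The combinations realising the columns. -/
lemma finish {n m : ℕ} {hm : m ≤ 2} {fr : Fin 2} {i₀ : Fin n}
    {cP : Fin 11 → Fin 6 × Fin 2 → ℝ} {F : E2 → R4} {Wv : SIx n → E2 → R4} {s : Fin 2 → R4}
    {x : E2} {t₀ Λ C₀ S B δ δ' C C' : ℝ} (H : Ctx cP (x 1) t₀ C₀ S B δ δ')
    (hN : (Fintype.card (VIx m) : ℝ) * S ≤ C) (hC : 0 ≤ C) (hC' : C' ≤ C)
    (hlb : ∀ U, ‖U‖ ≤ C' * ‖mvec (ent F Wv s hm x Λ fr i₀ cP) U‖) :
    ∃ Φ : (VIx m → ℝ) →ₗ[ℝ] SIx n → ℝ, (∀ U, ‖Φ U‖ ≤ C * ‖U‖) ∧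
      (∀ U k, Φ U k ≠ 0 →
        (∃ r, k = .inl (fr, r)) ∨ ∃ r : Fin 2 × Fin 7, k = .inr (i₀, r)) ∧
      ∀ U, ‖U‖ ≤ C * ‖rowsOf F Wv s hm x Λ (Φ U)‖ := by
  have hS0 := H.hS0
  have hw := H.hw
  have hw' := H.hw'
  set cl := col hm fr i₀ cP (x 1) with hcl
  set A : VIx m → VIx m → ℝ := ent F Wv s hm x Λ fr i₀ cP with hA
  let Φ : (VIx m → ℝ) →ₗ[ℝ] SIx n → ℝ :=
    { toFun := fun U k => ∑ r, U r * cl r k
      map_add' := fun U U' => by
        funext k; simp [add_mul, sum_add_distrib]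
      map_smul' := fun a U => by
        funext k
        simp only [Pi.smul_apply, smul_eq_mul, RingHom.id_apply, mul_sum, mul_assoc] }
  have hΦa : ∀ U k, Φ U k = ∑ r, U r * cl r k := fun _ _ => rfl
  have hmv : ∀ U, rowsOf F Wv s hm x Λ (Φ U) = mvec A U := fun U => by
    funext r'
    rcases r' with ⟨a, b, c⟩ | ⟨k, b⟩
    · simp only [rowsOf, mvec, hA, ent, hΦa, sum_inner, real_inner_smul_left, sum_mul, sum_div]
      rw [sum_comm]
      refine sum_congr rfl fun r _ => ?_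
      exact sum_congr rfl fun k _ => by ring
    · simp only [rowsOf, mvec, hA, ent, hΦa, sum_mul]
      rw [sum_comm]
      refine sum_congr rfl fun r _ => ?_
      exact sum_congr rfl fun k' _ => by ring
  have hclb : ∀ r k, |cl r k| ≤ S := by
    intro r k
    rcases r with ⟨a, j, c⟩ | ⟨d, j⟩ <;> rcases k with ⟨f', d', i, r'⟩ | ⟨i', d', r'⟩ <;>
      simp only [hcl, col]
    · split_ifs
      · exact le_trans (single_le_sum (f := fun p : (Fin 6 × Fin 2) × Fin 11 =>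
          |cP a p.1 * monoCo (x 1) j p.2|) (fun p _ => abs_nonneg _) (mem_univ (i, r'))) (hw a j)
      · simpa using hS0
    · simpa using hS0
    · simpa using hS0
    · split_ifs
      · exact le_trans (single_le_sum (f := fun r : Fin 7 => |monoCo (x 1) j r|)
          (fun p _ => abs_nonneg _) (mem_univ r')) (hw' j)
      · simpa using hS0
  refine ⟨Φ, fun U => ?_, fun U k hk => ?_, fun U => ?_⟩
  · refine (pi_norm_le_iff_of_nonneg (by positivity)).2 fun k => ?_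
    rw [hΦa, Real.norm_eq_abs]
    refine (abs_sum_le_sum_abs _ _).trans ((sum_le_card_nsmul _ _ (‖U‖ * S) fun r _ => ?_).trans ?_)
    · rw [abs_mul]
      exact mul_le_mul (abs_apply_le U r) (hclb r k) (abs_nonneg _) (norm_nonneg _)
    · rw [card_univ, nsmul_eq_mul]
      calc (Fintype.card (VIx m) : ℝ) * (‖U‖ * S) = (Fintype.card (VIx m) : ℝ) * S * ‖U‖ := by ring
        _ ≤ _ := mul_le_mul_of_nonneg_right hN (norm_nonneg _)
  · rw [hΦa] at hk
    obtain ⟨r, -, hr⟩ := exists_ne_zero_of_sum_ne_zero hk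
    have hr' := right_ne_zero_of_mul hr
    rcases k with ⟨f', d', i, r'⟩ | ⟨i', d', r'⟩
    · refine Or.inl ⟨(d', i, r'), ?_⟩
      rcases r with ⟨a, j, c⟩ | ⟨d, j⟩ <;> simp [hcl, col] at hr'
      rw [hr'.1]
    · refine Or.inr ⟨(d', r'), ?_⟩
      rcases r with ⟨a, j, c⟩ | ⟨d, j⟩ <;> simp [hcl, col] at hr'
      rw [hr'.1]
  · rw [hmv]
    exact (hlb U).trans (mul_le_mul_of_nonneg_right hC' (norm_nonneg _))

end Rows

open Rows in
/-- THE ROWS. -/
theorem rowsStmt : RowsStmt := by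
  intro m hm C₀ hC₀
  choose CP hCP0 hCP using profile_solve
  obtain ⟨CM, hCM0, hCM⟩ := monoCo_bound (R := C₀) 11
  set P := ∑ a, CP a with hP
  have hP0 : 0 ≤ P := sum_nonneg fun a _ => hCP0 a
  set S := 132 * (P * CM) + 7 * CM + 1 with hS
  have hS1 : 1 ≤ S := le_add_of_nonneg_left (by positivity)
  have hS0 : 0 ≤ S := by linarith
  obtain ⟨C₁, dT, hC₁, hdT, hT⟩ := tri_bound (ι := Fin 2 × Fin 4) rkT (c := C₀⁻¹ / 2)
    (by positivity) (B := 2 ^ 11 * C₀ ^ 2 + 1) (by positivity)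
  obtain ⟨C₂, dF, hC₂, hdF, hF⟩ := tri_bound (ι := Fin 11 × Fin 11 × Fin m) rkF (c := C₀⁻¹ / 2)
    (by positivity) (B := 2 ^ 11 * C₀ ^ 2 + 1) (by positivity)
  set e₀ := min (min (C₀⁻¹ / 4) (dT / 2)) (dF / 2) with he₀
  refine ⟨e₀ / S, by positivity, fun n B hB => ?_⟩
  set NI := (Fintype.card (Fin 11 × Fin 11 × Fin m) : ℝ) with hNI
  set NK := (Fintype.card (Fin 2 × Fin 4) : ℝ) with hNK
  set g := S * B * C₀ with hg
  have hg0 : 0 ≤ g := by positivity
  set Q := 2 * (C₂ * (NK * g) * C₁ * (NI * S)) with hQ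
  have hQ0 : 0 ≤ Q := by positivity
  set V := 2 * C₂ * (1 + NK * g * C₁) with hV
  have hV0 : 0 ≤ V := by positivity
  set C := 1 + (V + C₁ * (1 + NI * S * V)) + (Fintype.card (VIx m) : ℝ) * S with hC
  refine ⟨C, min (e₀ / (S * C₀)) (1 / (Q + 1)), by
    have : 0 ≤ C₁ * (1 + NI * S * V) := by positivity
    have : 0 ≤ (Fintype.card (VIx m) : ℝ) * S := by positivity
    linarith, by positivity, ?_⟩
  intro F Wv ψ Fld q s x fr i₀ t₀ Λ δ δ' D hδ hδ'
  choose cP hcPb hcP using fun a => hCP a t₀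
  -- the smallness
  have hd0' : 0 ≤ δ' := by
    have h := (norm_nonneg _).trans (D.freeOsc 0 (0, 0) 0 0 0 (by omega) (by omega))
    rwa [pow_zero, mul_one] at h
  have hd0 : 0 ≤ δ := (abs_nonneg _).trans (D.tanAbs 0 0 0 0 (by omega))
  have hSδ : S * δ ≤ e₀ := by
    rw [mul_comm, ← le_div_iff₀ (by linarith)]; exact hδ
  have hSδ' : S * C₀ * δ' ≤ e₀ := by
    rw [mul_comm, ← le_div_iff₀ (by positivity)]; exact hδ'.trans (min_le_left _ _)
  have hδe : δ ≤ e₀ := le_trans (le_mul_of_one_le_left hd0 hS1) hSδ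
  have e1 : e₀ ≤ C₀⁻¹ / 4 := (min_le_left _ _).trans (min_le_left _ _)
  have e2 : e₀ ≤ dT / 2 := (min_le_left _ _).trans (min_le_right _ _)
  have e3 : e₀ ≤ dF / 2 := min_le_right _ _
  have hc1 : C₀⁻¹ ≤ 1 := inv_le_one_of_one_le₀ hC₀
  have hci : 0 < C₀⁻¹ := by positivity
  -- the coefficients
  have hmc : ∀ (j : ℕ), j < 11 → ∀ r < 11, |monoCo (x 1) j r| ≤ CM := fun j hj r hr =>
    hCM (x 1) D.hx j hj r hr
  have hw : ∀ a j : Fin 11, ∑ p : (Fin 6 × Fin 2) × Fin 11, |cP a p.1 * monoCo (x 1) j p.2| ≤ S := by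
    intro a j
    refine (sum_le_card_nsmul _ _ (P * CM) fun p _ => ?_).trans ?_
    · rw [abs_mul]
      exact mul_le_mul ((hcPb a p.1).trans (single_le_sum (fun a _ => hCP0 a) (mem_univ a)))
        (hmc j j.isLt p.2 p.2.isLt) (abs_nonneg _) hP0
    · simp only [card_univ, Fintype.card_prod, Fintype.card_fin, nsmul_eq_mul, Nat.cast_mul,
        Nat.cast_ofNat]
      linarith
  have hw' : ∀ j : Fin 4, ∑ r : Fin 7, |monoCo (x 1) j r| ≤ S := fun j => by
    refine (sum_le_card_nsmul _ _ CM fun r _ => ?_).trans ?_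
    · exact hmc j (by omega) r (lt_of_lt_of_le r.isLt (by norm_num))
    simp only [card_univ, Fintype.card_fin, nsmul_eq_mul, Nat.cast_ofNat]
    linarith [mul_nonneg hP0 hCM0]
  set A : VIx m → VIx m → ℝ := ent F Wv s hm x Λ fr i₀ cP with hA
  have H : Ctx cP (x 1) t₀ C₀ S B δ δ' :=
    ⟨hC₀, hS0, by linarith, hd0, hd0', fun a a' => hcP a a', hw, hw'⟩
  have hTb := hT (fun i j => A (.inr i) (.inr j)) (diagT D H (by linarith))
    (fun i j h => (lowT D H i j h).trans (by linarith)) (S * δ) (by linarith) (upT D H)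
  have hFb := hF (fun i j => A (.inl i) (.inl j)) (diagF D H (by linarith))
    (fun i j h => (lowF D H i j h).trans (by linarith)) (δ + S * C₀ * δ') (by linarith) (upF D H)
  have hδ1 : δ' ≤ 1 / (Q + 1) := hδ'.trans (min_le_right _ _)
  have hp : S * δ' ≤ S := mul_le_of_le_one_right hS0 (hδ1.trans
    ((div_le_one (by positivity)).2 (by linarith)))
  have hsm : 2 * (C₂ * (NK * g) * C₁ * (NI * (S * δ'))) ≤ 1 := by
    calc 2 * (C₂ * (NK * g) * C₁ * (NI * (S * δ'))) = Q * δ' := by rw [hQ]; ring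
      _ ≤ Q * (1 / (Q + 1)) := mul_le_mul_of_nonneg_left hδ1 hQ0
      _ ≤ 1 := by rw [mul_one_div, div_le_one (by positivity)]; linarith
  refine finish H (le_add_of_nonneg_left (by positivity)) (by positivity)
    (C' := 2 * C₂ * (1 + NK * g * C₁) +
      C₁ * (1 + NI * (S * δ') * (2 * C₂ * (1 + NK * g * C₁)))) ?_
    (two_blocks hC₁ hC₂ (mul_nonneg hS0 hd0') hg0 hTb hFb
      (fun i j => lo_le D H i.1 i.2 j.1 j.2.1 j.2.2)
      (fun i j => fa_le D H i.1 i.2.1 i.2.2 j.1 j.2) hsm)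
  have : C₁ * (1 + NI * (S * δ') * V) ≤ C₁ * (1 + NI * S * V) := by gcongr
  have : 0 ≤ (Fintype.card (VIx m) : ℝ) * S := by positivity
  rw [hC, ← hV]
  linarith

end Vale.Agent.P205F.Expand
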