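import Vale.Agent.P205F.Expand.Per

/-!
# P205, expansions: the turning profile of the loop

`cz A` and `A * sz A` are the cosine and sine of an angle with derivative `A * hz A`, with means
`1 / sqrt (1 + A²)` and `0`; `cz` is positive.
-/

namespace Vale.Agent.P205F.Expand.Prof

open scoped ContDiff

/-- `sin 2πt`. -/
noncomputable def sn (t : ℝ) : ℝ := Real.sin (2 * Real.pi * t)

/-- `cos 2πt`. -/
noncomputable def cs (t : ℝ) : ℝ := Real.cos (2 * Real.pi * t)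

/-- `sqrt (1 + A²)`. -/
noncomputable def len (A : ℝ) : ℝ := Real.sqrt (1 + A ^ 2)

/-- The cosine. -/
noncomputable def cz (A t : ℝ) : ℝ := (1 + A ^ 2 * sn t ^ 2)⁻¹

/-- The sine divided by `A`. -/
noncomputable def sz (A t : ℝ) : ℝ :=
  sn t * Real.sqrt (2 + A ^ 2 * sn t ^ 2) * (1 + A ^ 2 * sn t ^ 2)⁻¹

/-- The derivative of the angle divided by `A`. -/
noncomputable def hz (A t : ℝ) : ℝ :=
  4 * Real.pi * cs t * (1 + A ^ 2 * sn t ^ 2)⁻¹ * (Real.sqrt (2 + A ^ 2 * sn t ^ 2))⁻¹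

/-- The mean square of `sz`. -/
noncomputable def msq (A : ℝ) : ℝ := mean (fun A t => sz A t ^ 2) A

lemma den_pos (A t : ℝ) : 0 < 1 + A ^ 2 * sn t ^ 2 := by positivity

lemma rad_pos (A t : ℝ) : 0 < 2 + A ^ 2 * sn t ^ 2 := by positivity

lemma len_pos (A : ℝ) : 0 < len A := Real.sqrt_pos.2 (by positivity)

lemma len_sq (A : ℝ) : len A ^ 2 = 1 + A ^ 2 := Real.sq_sqrt (by positivity)

lemma len_zero : len 0 = 1 := by simp [len]

lemma cz_pos (A t : ℝ) : 0 < cz A t := inv_pos.2 (den_pos A t)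

lemma cz_zero (t : ℝ) : cz 0 t = 1 := by simp [cz]

lemma cz_sq (A t : ℝ) : cz A t ^ 2 + (A * sz A t) ^ 2 = 1 := by
  simp only [cz, sz, mul_pow, Real.sq_sqrt (rad_pos A t).le]
  field_simp [(den_pos A t).ne']
  ring

lemma sn_add_half (t : ℝ) : sn (t + 1 / 2) = -sn t := by
  rw [sn, sn, ← Real.sin_add_pi]
  ring_nf

lemma sn_add_one (t : ℝ) : sn (t + 1) = sn t := by
  rw [sn, sn, ← Real.sin_add_two_pi (2 * Real.pi * t)]
  ring_nf

lemma cs_add_one (t : ℝ) : cs (t + 1) = cs t := by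
  rw [cs, cs, ← Real.cos_add_two_pi (2 * Real.pi * t)]
  ring_nf

lemma cz_per (A t : ℝ) : cz A (t + 1) = cz A t := by simp [cz, sn_add_one]

lemma sz_per (A t : ℝ) : sz A (t + 1) = sz A t := by simp [sz, sn_add_one]

lemma hz_per (A t : ℝ) : hz A (t + 1) = hz A t := by simp [hz, sn_add_one, cs_add_one]

@[fun_prop] lemma sn_smooth : ContDiff ℝ ∞ sn := by
  unfold sn; fun_prop

@[fun_prop] lemma cs_smooth : ContDiff ℝ ∞ cs := by
  unfold cs; fun_prop

lemma cz_js : Js cz := by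
  show ContDiff ℝ ∞ fun p : ℝ × ℝ => (1 + p.1 ^ 2 * sn p.2 ^ 2)⁻¹
  exact ContDiff.inv (by fun_prop) fun p => (den_pos p.1 p.2).ne'

lemma root_js : ContDiff ℝ ∞ fun p : ℝ × ℝ => Real.sqrt (2 + p.1 ^ 2 * sn p.2 ^ 2) :=
  ContDiff.sqrt (by fun_prop) fun p => (rad_pos p.1 p.2).ne'

lemma sz_js : Js sz := by
  show ContDiff ℝ ∞ fun p : ℝ × ℝ => sn p.2 * Real.sqrt (2 + p.1 ^ 2 * sn p.2 ^ 2) *
    (1 + p.1 ^ 2 * sn p.2 ^ 2)⁻¹
  exact ((sn_smooth.comp contDiff_snd).mul root_js).mul cz_js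

lemma hz_js : Js hz := by
  show ContDiff ℝ ∞ fun p : ℝ × ℝ => 4 * Real.pi * cs p.2 * (1 + p.1 ^ 2 * sn p.2 ^ 2)⁻¹ *
    (Real.sqrt (2 + p.1 ^ 2 * sn p.2 ^ 2))⁻¹
  exact ((contDiff_const.mul (cs_smooth.comp contDiff_snd)).mul cz_js).mul
    (root_js.inv fun p => (Real.sqrt_pos.2 (rad_pos p.1 p.2)).ne')

lemma len_smooth : ContDiff ℝ ∞ len :=
  ContDiff.sqrt (contDiff_const.add (contDiff_id.pow 2)) fun A => ne_of_gt (by positivity)

lemma hasDerivAt_sn (t : ℝ) : HasDerivAt sn (cs t * (2 * Real.pi)) t :=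
  (((hasDerivAt_id t).const_mul (2 * Real.pi)).congr_deriv (mul_one _)).sin

lemma hasDerivAt_cs (t : ℝ) : HasDerivAt cs (-sn t * (2 * Real.pi)) t :=
  (((hasDerivAt_id t).const_mul (2 * Real.pi)).congr_deriv (mul_one _)).cos

lemma hasDerivAt_cz (A t : ℝ) : HasDerivAt (cz A) (-(A * hz A t) * (A * sz A t)) t := by
  have h : HasDerivAt (fun s => 1 + A ^ 2 * sn s ^ 2)
      (A ^ 2 * (2 * sn t * (cs t * (2 * Real.pi)))) t := by
    simpa using (((hasDerivAt_sn t).pow 2).const_mul (A ^ 2)).const_add 1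
  refine (h.fun_inv (den_pos A t).ne').congr_deriv ?_
  have hr := (Real.sqrt_pos.2 (rad_pos A t)).ne'
  simp only [hz, sz]
  field_simp [(den_pos A t).ne']
  ring

lemma hasDerivAt_sz (A t : ℝ) : HasDerivAt (sz A) (hz A t * cz A t) t := by
  have h : HasDerivAt (fun s => 1 + A ^ 2 * sn s ^ 2)
      (A ^ 2 * (2 * sn t * (cs t * (2 * Real.pi)))) t := by
    simpa using (((hasDerivAt_sn t).pow 2).const_mul (A ^ 2)).const_add 1
  have h2 : HasDerivAt (fun s => 2 + A ^ 2 * sn s ^ 2)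
      (A ^ 2 * (2 * sn t * (cs t * (2 * Real.pi)))) t := by
    simpa using (((hasDerivAt_sn t).pow 2).const_mul (A ^ 2)).const_add 2
  refine (((hasDerivAt_sn t).mul (h2.sqrt (rad_pos A t).ne')).mul
    (h.fun_inv (den_pos A t).ne')).congr_deriv ?_
  have hr := (Real.sqrt_pos.2 (rad_pos A t)).ne'
  have hr2 := Real.sq_sqrt (rad_pos A t).le
  simp only [hz, cz, Pi.mul_apply]
  field_simp [(den_pos A t).ne']
  rw [hr2]
  ring

lemma mean_cz (A : ℝ) : mean cz A = (len A)⁻¹ := by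
  set s := len A with hs
  have hs0 : 0 < s := len_pos A
  let q : ℝ → ℝ := fun t => (s - 1) * (sn t * cs t) / (cs t ^ 2 + s * sn t ^ 2)
  let F : ℝ → ℝ := fun t => s⁻¹ * (t + Real.arctan (q t) / (2 * Real.pi))
  have hsc : ∀ t, sn t ^ 2 + cs t ^ 2 = 1 := fun t => Real.sin_sq_add_cos_sq _
  have hden : ∀ t, 0 < cs t ^ 2 + s * sn t ^ 2 := fun t => by
    rcases eq_or_ne (sn t) 0 with h | h
    · have := hsc t
      rw [h] at this ⊢
      nlinarith
    · positivity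
  have hF : ∀ t, HasDerivAt F (cz A t) t := by
    intro t
    have hn : HasDerivAt (fun u => (s - 1) * (sn u * cs u))
        ((s - 1) * (cs t * (2 * Real.pi) * cs t + sn t * (-sn t * (2 * Real.pi)))) t :=
      ((hasDerivAt_sn t).mul (hasDerivAt_cs t)).const_mul (s - 1)
    have hd : HasDerivAt (fun u => cs u ^ 2 + s * sn u ^ 2)
        (2 * cs t * (-sn t * (2 * Real.pi)) + s * (2 * sn t * (cs t * (2 * Real.pi)))) t := by
      have h : HasDerivAt (fun u => cs u ^ 2 + s * sn u ^ 2) _ t :=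
        ((hasDerivAt_cs t).pow 2).add (((hasDerivAt_sn t).pow 2).const_mul s)
      simpa using h
    refine ((((hasDerivAt_id t).add (((hn.fun_div hd (hden t).ne').arctan).div_const
      (2 * Real.pi)))).const_mul s⁻¹).congr_deriv ?_
    have hpi := Real.pi_ne_zero
    have hd0 := (hden t).ne'
    have hA : A ^ 2 = s ^ 2 - 1 := by rw [hs, len_sq]; ring
    have hq : 1 + A ^ 2 * sn t ^ 2 = cs t ^ 2 + s ^ 2 * sn t ^ 2 := by
      rw [hA]; linear_combination -(hsc t)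
    have hq0 : 0 < cs t ^ 2 + s ^ 2 * sn t ^ 2 := hq ▸ den_pos A t
    have hsum : (cs t ^ 2 + s * sn t ^ 2) ^ 2 + ((s - 1) * (sn t * cs t)) ^ 2 =
        cs t ^ 2 + s ^ 2 * sn t ^ 2 := by
      linear_combination (cs t ^ 2 + s ^ 2 * sn t ^ 2) * hsc t
    have hone : 1 + ((s - 1) * (sn t * cs t) / (cs t ^ 2 + s * sn t ^ 2)) ^ 2 =
        (cs t ^ 2 + s ^ 2 * sn t ^ 2) / (cs t ^ 2 + s * sn t ^ 2) ^ 2 := by
      rw [div_pow, eq_div_iff (pow_ne_zero _ hd0), add_mul, div_mul_cancel₀ _ (pow_ne_zero _ hd0)]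
      linear_combination hsum
    simp only [cz, hq, hone]
    field_simp
    linear_combination (s - 1) * (cs t ^ 2 - s * sn t ^ 2) * hsc t + s * hsc t
  show ∫ u in (0 : ℝ)..1, cz A u = s⁻¹
  rw [intervalIntegral.integral_eq_sub_of_hasDerivAt (fun t _ => hF t)
    ((cz_js.fast A).continuous.intervalIntegrable 0 1)]
  simp [F, q, sn, cs, Real.cos_two_pi, Real.sin_two_pi]

lemma integral_antiperiodic {f : ℝ → ℝ} (h : ∀ t, f (t + 1 / 2) = -f t) :
    ∫ t in (0 : ℝ)..1, f t = 0 := by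
  have hper : Function.Periodic f 1 := fun t => by
    rw [show t + 1 = t + 1 / 2 + 1 / 2 by ring, h, h, neg_neg]
  have h1 := hper.intervalIntegral_add_eq (1 / 2) 0
  have h2 : ∫ t in (1 / 2 : ℝ)..(1 / 2 + 1), f t = ∫ t in (0 : ℝ)..1, f (t + 1 / 2) := by
    rw [intervalIntegral.integral_comp_add_right]
    norm_num
  rw [zero_add] at h1
  rw [h2] at h1
  simp only [h, intervalIntegral.integral_neg] at h1
  linarith

lemma mean_sz (A : ℝ) : mean sz A = 0 :=
  integral_antiperiodic fun t => by simp only [sz, sn_add_half, neg_sq]; ring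

lemma mean_sz_cz (A : ℝ) : mean (fun A t => sz A t * cz A t) A = 0 :=
  integral_antiperiodic fun t => by simp only [sz, cz, sn_add_half, neg_sq]; ring

lemma msq_smooth : ContDiff ℝ ∞ msq :=
  mean_smooth (Φ := fun A t => sz A t ^ 2) (ContDiff.pow sz_js 2)

lemma msq_pos (A : ℝ) : 0 < msq A := by
  refine intervalIntegral.integral_pos one_pos
    ((sz_js.fast A).continuous.pow 2).continuousOn (fun t _ => sq_nonneg _)
    ⟨1 / 4, by norm_num, ?_⟩
  have h : sn (1 / 4) = 1 := by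
    rw [sn, show 2 * Real.pi * (1 / 4) = Real.pi / 2 by ring, Real.sin_pi_div_two]
  have : 0 < sz A (1 / 4) := by
    simp only [sz, h, one_mul]
    positivity
  positivity

lemma hz_sq_pos (A : ℝ) : 0 < ∫ t in (0 : ℝ)..1, hz A t ^ 2 := by
  refine intervalIntegral.integral_pos one_pos
    ((hz_js.fast A).continuous.pow 2).continuousOn (fun t _ => sq_nonneg _) ⟨0, by norm_num, ?_⟩
  have : hz A 0 ≠ 0 := by simp [hz, sn, cs, Real.pi_ne_zero]
  positivity

end Vale.Agent.P205F.Expand.Prof
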