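import Vale.Agent.P205F.Expand.LoopSpec
import Vale.Agent.P205F.Expand.LoopProfile
import Vale.Agent.P205F.Chart.Frame
import Vale.Agent.P205F.Top.Alg

/-!
# P205, expansions: the loop and the free normal
-/

namespace Vale.Agent.P205F.Expand

open Set Filter
open scoped ContDiff RealInnerProductSpace Topology

/-- `NormalStmt`. -/
theorem normalStmt : NormalStmt := by
  intro f R hf hi
  obtain ⟨n, m, hn, -, h⟩ := exists_normal_frame hf hi R
  refine ⟨n, hn, fun x hx => ⟨(h x (Metric.ball_subset_closedBall hx)).1, fun v => ?_⟩⟩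
  rw [← (h x (Metric.ball_subset_closedBall hx)).2.2.2.1, real_inner_comm]
  exact nrm_mem f x (n x) v

/-- A field which is smooth and periodic on an open set, cut off inside it, is a coefficient. -/
lemma coef_cut {X : Type} [NormedAddCommGroup X] [NormedSpace ℝ X] {ψ : E2 → ℝ} {N : Set E2}
    (hψ : ContDiff ℝ ∞ ψ) (hc : HasCompactSupport ψ) (hsub : tsupport ψ ⊆ N) (hN : IsOpen N)
    {F : E2 → ℝ → X} (hF : ContDiffOn ℝ ∞ (fun p : E2 × ℝ => F p.1 p.2) (N ×ˢ univ))
    (hp : ∀ x ∈ N, ∀ t, F x (t + 1) = F x t) : Coef fun x t => ψ x • F x t := by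
  have h0 : ∀ x ∉ tsupport ψ, ∀ t, ψ x • F x t = 0 := fun x hx t => by
    simp [image_eq_zero_of_notMem_tsupport hx]
  refine ⟨contDiff_iff_contDiffAt.2 fun p => ?_, fun x t => ?_, ⟨tsupport ψ, hc, h0⟩⟩
  · by_cases hx : p.1 ∈ N
    · exact (hψ.comp contDiff_fst).contDiffAt.smul
        (hF.contDiffAt ((hN.prod isOpen_univ).mem_nhds ⟨hx, trivial⟩))
    · refine (contDiffAt_const (c := (0 : X))).congr_of_eventuallyEq ?_
      filter_upwards [((isClosed_tsupport ψ).isOpen_compl.preimage continuous_fst).mem_nhds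
        fun h => hx (hsub h)] with q hq using h0 q.1 hq q.2
  · by_cases hx : x ∈ N
    · exact congrArg (ψ x • ·) (hp x hx t)
    · simp [image_eq_zero_of_notMem_tsupport fun h => hx (hsub h)]

variable (X0 X1 V : E2 → R4) (a : E2 → ℝ)

/-- Coefficient of `X1` in `X0`. -/
noncomputable def cY (x : E2) : ℝ := ⟪X1 x, X0 x⟫ / ⟪X1 x, X1 x⟫

/-- Coefficient of `V` in `X0`. -/
noncomputable def cV (x : E2) : ℝ := ⟪V x, X0 x⟫ / ⟪V x, V x⟫

/-- The part of `X0` orthogonal to `X1` and `V`. -/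
noncomputable def T2 (x : E2) : R4 := X0 x - cY X0 X1 x • X1 x - cV X0 V x • V x

/-- The unit vector along `T2`. -/
noncomputable def eT (x : E2) : R4 := ‖T2 X0 X1 V x‖⁻¹ • T2 X0 X1 V x

/-- The unit vector orthogonal to `X0`, `X1`, `V`. -/
noncomputable def eN (x : E2) : R4 :=
  ‖Top.cross (X1 x) (V x) (T2 X0 X1 V x)‖⁻¹ • Top.cross (X1 x) (V x) (T2 X0 X1 V x)

/-- Size of the turning. -/
noncomputable def amp (x : E2) : ℝ := a x / ‖T2 X0 X1 V x‖

/-- Radius of the loop. -/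
noncomputable def rad (x : E2) : ℝ := ‖T2 X0 X1 V x‖ * Prof.len (amp X0 X1 V a x)

/-- Direction of the loop. -/
noncomputable def dirP (x : E2) (t : ℝ) : R4 :=
  Prof.cz (amp X0 X1 V a x) t • eT X0 X1 V x +
    (amp X0 X1 V a x * Prof.sz (amp X0 X1 V a x) t) • eN X0 X1 V x

/-- The free normal. -/
noncomputable def nrmP (x : E2) (t : ℝ) : R4 :=
  -(amp X0 X1 V a x * Prof.sz (amp X0 X1 V a x) t) • eT X0 X1 V x +
    Prof.cz (amp X0 X1 V a x) t • eN X0 X1 V x

/-- The loop. -/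
noncomputable def loopP (x : E2) (t : ℝ) : R4 :=
  rad X0 X1 V a x • dirP X0 X1 V a x t - T2 X0 X1 V x

/-- Coefficients of the right-hand sides in the equation along `dirP`. -/
noncomputable def rhsC (k : Fin 3) (x : E2) : ℝ := ![1, -cY X0 X1 x, -cV X0 V x] k

/-- The local part of the solver. -/
noncomputable def solA (k : Fin 3) (x : E2) (t : ℝ) : R4 :=
  (![0, ⟪X1 x, X1 x⟫⁻¹ • X1 x, ⟪V x, V x⟫⁻¹ • V x] : Fin 3 → R4) k +
    (rhsC X0 X1 V k x / rad X0 X1 V a x) • dirP X0 X1 V a x t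

/-- The kernels of the functionals of the solver. -/
noncomputable def solK (c : Fin 2) (x : E2) (t : ℝ) : ℝ :=
  ![-(Prof.len (amp X0 X1 V a x) / rad X0 X1 V a x * amp X0 X1 V a x) *
      Prof.sz (amp X0 X1 V a x) t,
    -(amp X0 X1 V a x / (rad X0 X1 V a x * Prof.msq (amp X0 X1 V a x))) *
      (Prof.sz (amp X0 X1 V a x) t ^ 2 / (1 + Prof.cz (amp X0 X1 V a x) t))] c

/-- The fields of the solver. -/
noncomputable def solC (c : Fin 2) (x : E2) (t : ℝ) : R4 :=
  (![1, Prof.sz (amp X0 X1 V a x) t] : Fin 2 → ℝ) c • nrmP X0 X1 V a x t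

/-- Pointwise facts about the frame. -/
structure FrameAt (x : E2) : Prop where
  hXX : 0 < ⟪X1 x, X1 x⟫
  hVV : 0 < ⟪V x, V x⟫
  hXV : ⟪X1 x, V x⟫ = 0
  hT : 0 < ‖T2 X0 X1 V x‖
  hc : Top.cross (X1 x) (V x) (T2 X0 X1 V x) ≠ 0
  TT : ⟪eT X0 X1 V x, eT X0 X1 V x⟫ = 1
  NN : ⟪eN X0 X1 V x, eN X0 X1 V x⟫ = 1
  TN : ⟪eT X0 X1 V x, eN X0 X1 V x⟫ = 0
  XT : ⟪X1 x, eT X0 X1 V x⟫ = 0
  XN : ⟪X1 x, eN X0 X1 V x⟫ = 0
  VT : ⟪V x, eT X0 X1 V x⟫ = 0
  VN : ⟪V x, eN X0 X1 V x⟫ = 0
  split : T2 X0 X1 V x = ‖T2 X0 X1 V x‖ • eT X0 X1 V x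
  base : X0 x = cY X0 X1 x • X1 x + cV X0 V x • V x + ‖T2 X0 X1 V x‖ • eT X0 X1 V x

lemma frameAt {x : E2} (hperp : ⟪X1 x, V x⟫ = 0)
    (hli : LinearIndependent ℝ ![X0 x, X1 x, V x]) : FrameAt X0 X1 V x := by
  have h3 := Fintype.linearIndependent_iff.1 hli
  have hX : X1 x ≠ 0 := fun h => by
    have := h3 ![0, 1, 0] (by simp [Fin.sum_univ_three, h]) 1
    simp at this
  have hV : V x ≠ 0 := fun h => by
    have := h3 ![0, 0, 1] (by simp [Fin.sum_univ_three, h]) 2
    simp at this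
  have hXX : 0 < ⟪X1 x, X1 x⟫ := real_inner_self_pos.2 hX
  have hVV : 0 < ⟪V x, V x⟫ := real_inner_self_pos.2 hV
  have hT2 : T2 X0 X1 V x ≠ 0 := fun h => by
    have := h3 ![1, -cY X0 X1 x, -cV X0 V x]
      (by rw [← h]; simp [Fin.sum_univ_three, T2]; module) 0
    simp at this
  have hXT : ⟪X1 x, T2 X0 X1 V x⟫ = 0 := by
    simp only [T2, cY, inner_sub_right, real_inner_smul_right, hperp]
    field_simp [hXX.ne']
    ring
  have hVT : ⟪V x, T2 X0 X1 V x⟫ = 0 := by
    simp only [T2, cV, inner_sub_right, real_inner_smul_right, real_inner_comm (X1 x) (V x), hperp]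
    field_simp [hVV.ne']
    ring
  have hind : ∀ p q : ℝ, p • X1 x + q • V x = 0 → p = 0 ∧ q = 0 := fun p q h => by
    have h' := h3 ![0, p, q] (by simpa [Fin.sum_univ_three] using h)
    exact ⟨by simpa using h' 1, by simpa using h' 2⟩
  have hc := Top.cross_ne_zero hind hT2 hXT hVT
  obtain ⟨c1, c2, c3⟩ := Top.cross_inner_args (X1 x) (V x) (T2 X0 X1 V x)
  have hT := norm_pos_iff.2 hT2
  have hcn := norm_pos_iff.2 hc
  refine ⟨hXX, hVV, hperp, hT, hc, ?_, ?_, ?_, ?_, ?_, ?_, ?_, ?_, ?_⟩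
  · rw [eT, real_inner_self_eq_norm_sq, norm_smul, norm_inv, norm_norm,
      inv_mul_cancel₀ hT.ne', one_pow]
  · rw [eN, real_inner_self_eq_norm_sq, norm_smul, norm_inv, norm_norm,
      inv_mul_cancel₀ hcn.ne', one_pow]
  · rw [real_inner_comm] at c3
    simp [eT, eN, real_inner_smul_left, real_inner_smul_right, c3]
  · simp [eT, real_inner_smul_right, hXT]
  · rw [real_inner_comm] at c1
    simp [eN, real_inner_smul_right, c1]
  · simp [eT, real_inner_smul_right, hVT]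
  · rw [real_inner_comm] at c2
    simp [eN, real_inner_smul_right, c2]
  · simp [eT, smul_smul, mul_inv_cancel₀ hT.ne']
  · rw [eT, smul_smul, mul_inv_cancel₀ hT.ne', one_smul, T2]
    abel

variable {X0 X1 V a}

namespace FrameAt

variable {x : E2} (F : FrameAt X0 X1 V x)
include F

lemma rad_pos : 0 < rad X0 X1 V a x := mul_pos F.hT (Prof.len_pos _)

lemma rad_sq : rad X0 X1 V a x ^ 2 = ‖T2 X0 X1 V x‖ ^ 2 + a x ^ 2 := by
  simp only [rad, amp, mul_pow, Prof.len_sq]
  field_simp [F.hT.ne']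

lemma dir_props (t : ℝ) :
    ⟪dirP X0 X1 V a x t, dirP X0 X1 V a x t⟫ = 1 ∧
    ⟪nrmP X0 X1 V a x t, nrmP X0 X1 V a x t⟫ = 1 ∧
    ⟪dirP X0 X1 V a x t, nrmP X0 X1 V a x t⟫ = 0 ∧
    ⟪X1 x, dirP X0 X1 V a x t⟫ = 0 ∧ ⟪V x, dirP X0 X1 V a x t⟫ = 0 ∧
    ⟪X1 x, nrmP X0 X1 V a x t⟫ = 0 ∧ ⟪V x, nrmP X0 X1 V a x t⟫ = 0 ∧
    ⟪eT X0 X1 V x, dirP X0 X1 V a x t⟫ = Prof.cz (amp X0 X1 V a x) t := by
  have hsq := Prof.cz_sq (amp X0 X1 V a x) t
  simp only [dirP, nrmP, inner_add_left, inner_add_right, real_inner_smul_left,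
    real_inner_smul_right, F.TT, F.NN, F.TN, real_inner_comm (eT X0 X1 V x) (eN X0 X1 V x), F.XT,
    F.XN, F.VT, F.VN]
  refine ⟨?_, ?_, ?_, ?_, ?_, ?_, ?_, ?_⟩
  · linear_combination hsq
  · linear_combination hsq
  all_goals ring

/-- The moving point of the loop. -/
lemma point (t : ℝ) : X0 x + loopP X0 X1 V a x t =
    cY X0 X1 x • X1 x + cV X0 V x • V x + rad X0 X1 V a x • dirP X0 X1 V a x t := by
  rw [loopP, F.split, F.base]
  abel

lemma len_eq (t : ℝ) : 2 * ⟪X0 x, loopP X0 X1 V a x t⟫ +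
    ⟪loopP X0 X1 V a x t, loopP X0 X1 V a x t⟫ = a x ^ 2 := by
  have e : 2 * ⟪X0 x, loopP X0 X1 V a x t⟫ + ⟪loopP X0 X1 V a x t, loopP X0 X1 V a x t⟫ =
      ⟪X0 x + loopP X0 X1 V a x t, X0 x + loopP X0 X1 V a x t⟫ - ⟪X0 x, X0 x⟫ := by
    rw [real_inner_add_add_self]; ring
  obtain ⟨h1, -, -, h4, h5, -, -, -⟩ := F.dir_props (a := a) t
  have hr := F.rad_sq (a := a)
  rw [e, F.point, F.base]
  simp only [inner_add_left, inner_add_right, real_inner_smul_left, real_inner_smul_right, h1, h4,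
    h5, real_inner_comm (X1 x) (dirP X0 X1 V a x t), real_inner_comm (V x) (dirP X0 X1 V a x t),
    F.XT, F.VT, F.TT, real_inner_comm (X1 x) (eT X0 X1 V x),
    real_inner_comm (V x) (eT X0 X1 V x), F.hXV, real_inner_comm (X1 x) (V x)]
  linear_combination hr

lemma perp_eq (t : ℝ) :
    ⟪X1 x, loopP X0 X1 V a x t⟫ = 0 ∧ ⟪V x, loopP X0 X1 V a x t⟫ = 0 := by
  obtain ⟨-, -, -, h4, h5, -, -, -⟩ := F.dir_props (a := a) t
  rw [loopP, F.split]
  simp [inner_sub_right, real_inner_smul_right, h4, h5, F.XT, F.VT]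

lemma loop_zero (h : a x = 0) (t : ℝ) : loopP X0 X1 V a x t = 0 := by
  simp [loopP, dirP, rad, amp, h, Prof.cz_zero, Prof.len_zero, ← F.split]

lemma mean_loop : ∫ t in (0 : ℝ)..1, loopP X0 X1 V a x t = 0 := by
  set A := amp X0 X1 V a x
  have hcc : Continuous (Prof.cz A) := (Prof.cz_js.fast A).continuous
  have hsc : Continuous (Prof.sz A) := (Prof.sz_js.fast A).continuous
  have e : ∀ t, loopP X0 X1 V a x t =
      (rad X0 X1 V a x * Prof.cz A t - ‖T2 X0 X1 V x‖) • eT X0 X1 V x +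
        (rad X0 X1 V a x * A * Prof.sz A t) • eN X0 X1 V x := fun t => by
    rw [loopP, dirP]
    conv_lhs => rw [F.split]
    simp only [A]
    module
  have i1 : ∫ t in (0 : ℝ)..1, Prof.cz A t = (Prof.len A)⁻¹ := Prof.mean_cz A
  have i2 : ∫ t in (0 : ℝ)..1, Prof.sz A t = 0 := Prof.mean_sz A
  have hC : Continuous fun t => rad X0 X1 V a x * Prof.cz A t := continuous_const.mul hcc
  have hCs : Continuous fun t =>
      (rad X0 X1 V a x * Prof.cz A t - ‖T2 X0 X1 V x‖) • eT X0 X1 V x :=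
    (hC.sub continuous_const).smul continuous_const
  have hS : Continuous fun t => (rad X0 X1 V a x * A * Prof.sz A t) • eN X0 X1 V x :=
    (continuous_const.mul hsc).smul continuous_const
  simp only [e]
  rw [intervalIntegral.integral_add (hCs.intervalIntegrable 0 1) (hS.intervalIntegrable 0 1),
    intervalIntegral.integral_smul_const, intervalIntegral.integral_smul_const,
    intervalIntegral.integral_sub (hC.intervalIntegrable 0 1) intervalIntegrable_const,
    intervalIntegral.integral_const_mul, intervalIntegral.integral_const_mul, i1, i2]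
  simp [rad, A, mul_inv_cancel_right₀ (Prof.len_pos (amp X0 X1 V a x)).ne']

omit F in
lemma turn_eq (t : ℝ) :
    HasDerivAt (dirP X0 X1 V a x)
      ((amp X0 X1 V a x * Prof.hz (amp X0 X1 V a x) t) • nrmP X0 X1 V a x t) t ∧
    HasDerivAt (nrmP X0 X1 V a x)
      (-(amp X0 X1 V a x * Prof.hz (amp X0 X1 V a x) t) • dirP X0 X1 V a x t) t := by
  have hC := Prof.hasDerivAt_cz (amp X0 X1 V a x) t
  have hS := (Prof.hasDerivAt_sz (amp X0 X1 V a x) t).const_mul (amp X0 X1 V a x)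
  constructor
  · refine ((hC.smul_const (eT X0 X1 V x)).add (hS.smul_const (eN X0 X1 V x))).congr_deriv ?_
    simp only [nrmP]
    module
  · refine ((hS.fun_neg.smul_const (eT X0 X1 V x)).add (hC.smul_const (eN X0 X1 V x))).congr_deriv ?_
    simp only [dirP]
    module

/-- The solver at one point. -/
lemma solve_eq (R : Fin 3 → ℝ → ℝ) (hR : ∀ k, Continuous (R k))
    (h0 : ∀ k, ∫ t in (0 : ℝ)..1, R k t = 0) :
    let u : ℝ → R4 := fun t => (∑ k, R k t • solA X0 X1 V a k x t) +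
      ∑ c, (∫ s in (0 : ℝ)..1, ∑ k, R k s * (rhsC X0 X1 V k x * solK X0 X1 V a c x s)) •
        solC X0 X1 V a c x t
    (∫ t in (0 : ℝ)..1, u t = 0) ∧ ∀ t, ⟪X0 x + loopP X0 X1 V a x t, u t⟫ = R 0 t ∧
      ⟪X1 x, u t⟫ = R 1 t ∧ ⟪V x, u t⟫ = R 2 t := by
  intro u
  set A := amp X0 X1 V a x with hA
  set r := rad X0 X1 V a x with hr
  set cy := cY X0 X1 x with hcy
  set cv := cV X0 V x with hcv
  let Q : ℝ → ℝ := fun t => R 0 t - cy * R 1 t - cv * R 2 t
  set c1 := ∫ s in (0 : ℝ)..1, ∑ k, R k s * (rhsC X0 X1 V k x * solK X0 X1 V a 0 x s) with hc1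
  set c2 := ∫ s in (0 : ℝ)..1, ∑ k, R k s * (rhsC X0 X1 V k x * solK X0 X1 V a 1 x s) with hc2
  have hu : ∀ t, u t = R 1 t • (⟪X1 x, X1 x⟫⁻¹ • X1 x) + R 2 t • (⟪V x, V x⟫⁻¹ • V x) +
      (Q t / r) • dirP X0 X1 V a x t + (c1 + c2 * Prof.sz A t) • nrmP X0 X1 V a x t := by
    intro t
    show (∑ k, R k t • solA X0 X1 V a k x t) + _ = _
    rw [Fin.sum_univ_three, Fin.sum_univ_two, ← hc1, ← hc2]
    simp only [solA, solC, rhsC, Matrix.cons_val_zero, Matrix.cons_val_one, Matrix.cons_val_two,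
      Matrix.head_cons, Matrix.tail_cons, Q, hcy, hcv, ← hA, ← hr]
    module
  refine ⟨?_, fun t => ?_⟩
  · have hcc : Continuous (Prof.cz A) := (Prof.cz_js.fast A).continuous
    have hsc : Continuous (Prof.sz A) := (Prof.sz_js.fast A).continuous
    have hQ : Continuous Q :=
      ((hR 0).sub (continuous_const.mul (hR 1))).sub (continuous_const.mul (hR 2))
    have hint : ∀ {f : ℝ → ℝ}, Continuous f → IntervalIntegrable f MeasureTheory.volume 0 1 :=
      fun h => h.intervalIntegrable 0 1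
    have hQ0 : ∫ s in (0 : ℝ)..1, Q s = 0 := by
      have hy : Continuous fun s => cy * R 1 s := continuous_const.mul (hR 1)
      have hv : Continuous fun s => cv * R 2 s := continuous_const.mul (hR 2)
      have hy' : Continuous fun s => R 0 s - cy * R 1 s := (hR 0).sub hy
      simp only [Q]
      rw [intervalIntegral.integral_sub (hint hy') (hint hv),
        intervalIntegral.integral_sub (hint (hR 0)) (hint hy),
        intervalIntegral.integral_const_mul, intervalIntegral.integral_const_mul, h0, h0, h0]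
      ring
    set J1 := ∫ s in (0 : ℝ)..1, Q s * Prof.sz A s with hJ1
    set J2 := ∫ s in (0 : ℝ)..1, Q s * (Prof.sz A s ^ 2 / (1 + Prof.cz A s)) with hJ2
    have e1 : c1 = -(Prof.len A / r * A) * J1 := by
      rw [hc1, hJ1, ← intervalIntegral.integral_const_mul]
      refine intervalIntegral.integral_congr fun s _ => ?_
      simp [Fin.sum_univ_three, rhsC, solK, Q, ← hA, ← hr, hcy, hcv]
      ring
    have e2 : c2 = -(A / (r * Prof.msq A)) * J2 := by
      rw [hc2, hJ2, ← intervalIntegral.integral_const_mul]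
      refine intervalIntegral.integral_congr fun s _ => ?_
      simp [Fin.sum_univ_three, rhsC, solK, Q, ← hA, ← hr, hcy, hcv]
      ring
    have hne : ∀ s, 1 + Prof.cz A s ≠ 0 := fun s => by linarith [Prof.cz_pos A s]
    have hdiv : Continuous fun s => Prof.sz A s ^ 2 / (1 + Prof.cz A s) :=
      (hsc.pow 2).div (continuous_const.add hcc) hne
    have hQC : ∫ s in (0 : ℝ)..1, Q s * Prof.cz A s = -(A ^ 2) * J2 := by
      have e : ∀ s, Q s * Prof.cz A s =
          Q s + -(A ^ 2) * (Q s * (Prof.sz A s ^ 2 / (1 + Prof.cz A s))) := by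
        intro s
        have := Prof.cz_sq A s
        field_simp [hne s]
        linear_combination Q s * this
      simp only [e]
      have hQd : Continuous fun s => -(A ^ 2) * (Q s * (Prof.sz A s ^ 2 / (1 + Prof.cz A s))) :=
        continuous_const.mul (hQ.mul hdiv)
      rw [intervalIntegral.integral_add (hint hQ) (hint hQd),
        intervalIntegral.integral_const_mul, hQ0, zero_add]
    have hexp : ∀ t, u t = R 1 t • (⟪X1 x, X1 x⟫⁻¹ • X1 x) + R 2 t • (⟪V x, V x⟫⁻¹ • V x) +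
        (r⁻¹ * (Q t * Prof.cz A t) + -(c1 * A) * Prof.sz A t + -(c2 * A) * Prof.sz A t ^ 2) •
          eT X0 X1 V x +
        (r⁻¹ * A * (Q t * Prof.sz A t) + c1 * Prof.cz A t + c2 * (Prof.sz A t * Prof.cz A t)) •
          eN X0 X1 V x := fun t => by
      rw [hu t]
      simp only [dirP, nrmP, ← hA]
      module
    have hP1 : Continuous fun t => r⁻¹ * (Q t * Prof.cz A t) := continuous_const.mul (hQ.mul hcc)
    have hP2 : Continuous fun t => -(c1 * A) * Prof.sz A t := continuous_const.mul hsc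
    have hP3 : Continuous fun t => -(c2 * A) * Prof.sz A t ^ 2 := continuous_const.mul (hsc.pow 2)
    have hN1 : Continuous fun t => r⁻¹ * A * (Q t * Prof.sz A t) :=
      continuous_const.mul (hQ.mul hsc)
    have hN2 : Continuous fun t => c1 * Prof.cz A t := continuous_const.mul hcc
    have hN3 : Continuous fun t => c2 * (Prof.sz A t * Prof.cz A t) :=
      continuous_const.mul (hsc.mul hcc)
    have hvec : ∀ {f : ℝ → ℝ} (v : R4), Continuous f →
        IntervalIntegrable (fun t => f t • v) MeasureTheory.volume 0 1 :=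
      fun v h => (h.smul continuous_const).intervalIntegrable 0 1
    have hP12 : Continuous fun t => r⁻¹ * (Q t * Prof.cz A t) + -(c1 * A) * Prof.sz A t :=
      hP1.add hP2
    have hP : Continuous fun t => r⁻¹ * (Q t * Prof.cz A t) + -(c1 * A) * Prof.sz A t +
        -(c2 * A) * Prof.sz A t ^ 2 := hP12.add hP3
    have hN12 : Continuous fun t => r⁻¹ * A * (Q t * Prof.sz A t) + c1 * Prof.cz A t :=
      hN1.add hN2
    have hNN : Continuous fun t => r⁻¹ * A * (Q t * Prof.sz A t) + c1 * Prof.cz A t +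
        c2 * (Prof.sz A t * Prof.cz A t) := hN12.add hN3
    have v1 := hvec (⟪X1 x, X1 x⟫⁻¹ • X1 x) (hR 1)
    have v2 := hvec (⟪V x, V x⟫⁻¹ • V x) (hR 2)
    have v3 := hvec (eT X0 X1 V x) hP
    simp only [hexp]
    rw [intervalIntegral.integral_add ((v1.add v2).add v3) (hvec _ hNN),
      intervalIntegral.integral_add (v1.add v2) v3,
      intervalIntegral.integral_add v1 v2]
    simp only [intervalIntegral.integral_smul_const, h0, zero_smul, zero_add]
    rw [intervalIntegral.integral_add (hint hP12) (hint hP3),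
      intervalIntegral.integral_add (hint hP1) (hint hP2),
      intervalIntegral.integral_add (hint hN12) (hint hN3),
      intervalIntegral.integral_add (hint hN1) (hint hN2)]
    simp only [intervalIntegral.integral_const_mul, hQC, ← hJ1]
    have i1 : ∫ t in (0 : ℝ)..1, Prof.cz A t = (Prof.len A)⁻¹ := Prof.mean_cz A
    have i2 : ∫ t in (0 : ℝ)..1, Prof.sz A t = 0 := Prof.mean_sz A
    have i3 : ∫ t in (0 : ℝ)..1, Prof.sz A t * Prof.cz A t = 0 := Prof.mean_sz_cz A
    have i4 : ∫ t in (0 : ℝ)..1, Prof.sz A t ^ 2 = Prof.msq A := rfl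
    have hT : r⁻¹ * (-(A ^ 2) * J2) + -(c1 * A) * 0 + -(c2 * A) * Prof.msq A = 0 := by
      rw [e2]
      field_simp [F.rad_pos.ne', (Prof.msq_pos A).ne']
      ring
    have hN : r⁻¹ * A * J1 + c1 * (Prof.len A)⁻¹ + c2 * 0 = 0 := by
      rw [e1]
      field_simp [F.rad_pos.ne', (Prof.len_pos A).ne']
      ring
    rw [i1, i2, i3, i4, hT, hN, zero_smul, zero_smul, add_zero]
  · obtain ⟨h1, -, h3, h4, h5, h6, h7, -⟩ := F.dir_props (a := a) t
    have hr0 : r ≠ 0 := F.rad_pos.ne'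
    have hXX := F.hXX.ne'
    have hVV := F.hVV.ne'
    rw [hu t, F.point]
    simp only [inner_add_left, inner_add_right, real_inner_smul_left, real_inner_smul_right, h1, h3,
      h4, h5, h6, h7, F.hXV, real_inner_comm (X1 x) (V x),
      real_inner_comm (X1 x) (dirP X0 X1 V a x t), real_inner_comm (V x) (dirP X0 X1 V a x t),
      ← hr, ← hcy, ← hcv, Q]
    refine ⟨?_, ?_, ?_⟩ <;>
    · field_simp
      ring

end FrameAt

/-- `LoopStmt`. -/
theorem loopStmt : LoopStmt := by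
  intro X0 X1 V a S K N hX0 hX1 hV ha _ hK hN hSK hKN ha0 hN0
  obtain ⟨ψ, hψ, hψc, hψN, hψ1⟩ := exists_cutoff hK hN hKN
  obtain ⟨W, hWo, hKW, hW1⟩ := eventually_nhdsSet_iff_exists.1 hψ1
  have hF : ∀ x ∈ N, FrameAt X0 X1 V x := fun x hx => frameAt X0 X1 V (hN0 x hx).1 (hN0 x hx).2
  have hcY : ContDiffOn ℝ ∞ (cY X0 X1) N :=
    (hX1.inner ℝ hX0).contDiffOn.div (hX1.inner ℝ hX1).contDiffOn fun x hx => (hF x hx).hXX.ne'
  have hcV : ContDiffOn ℝ ∞ (cV X0 V) N :=
    (hV.inner ℝ hX0).contDiffOn.div (hV.inner ℝ hV).contDiffOn fun x hx => (hF x hx).hVV.ne'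
  have hT2 : ContDiffOn ℝ ∞ (T2 X0 X1 V) N :=
    (hX0.contDiffOn.sub (hcY.smul hX1.contDiffOn)).sub (hcV.smul hV.contDiffOn)
  have hTn : ContDiffOn ℝ ∞ (fun x => ‖T2 X0 X1 V x‖) N :=
    hT2.norm ℝ fun x hx => norm_pos_iff.1 (hF x hx).hT
  have hamp : ContDiffOn ℝ ∞ (amp X0 X1 V a) N :=
    ha.contDiffOn.div hTn fun x hx => (hF x hx).hT.ne'
  have heT : ContDiffOn ℝ ∞ (eT X0 X1 V) N :=
    (hTn.inv fun x hx => (hF x hx).hT.ne').smul hT2
  have hcr : ContDiffOn ℝ ∞ (fun x => Top.cross (X1 x) (V x) (T2 X0 X1 V x)) N := by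
    rw [contDiffOn_euclidean]
    intro i
    simp only [Top.cross_apply, Top.d4, Top.plk]
    have h1 := contDiffOn_euclidean.1 (hX1.contDiffOn (s := N))
    have h2 := contDiffOn_euclidean.1 (hV.contDiffOn (s := N))
    have h3 := contDiffOn_euclidean.1 hT2
    fun_prop
  have heN : ContDiffOn ℝ ∞ (eN X0 X1 V) N :=
    ((hcr.norm ℝ fun x hx => (hF x hx).hc).inv
      fun x hx => norm_ne_zero_iff.2 (hF x hx).hc).smul hcr
  have hrad : ContDiffOn ℝ ∞ (rad X0 X1 V a) N :=
    hTn.mul (Prof.len_smooth.comp_contDiffOn hamp)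
  have hrhs : ∀ k, ContDiffOn ℝ ∞ (rhsC X0 X1 V k) N := fun k => by
    fin_cases k
    · exact contDiffOn_const
    · exact hcY.neg
    · exact hcV.neg
  -- the same, with the fast variable
  have lift : ∀ {Y : Type} [NormedAddCommGroup Y] [NormedSpace ℝ Y] {c : E2 → Y},
      ContDiffOn ℝ ∞ c N → ContDiffOn ℝ ∞ (fun p : E2 × ℝ => c p.1) (N ×ˢ univ) :=
    fun h => h.comp contDiff_fst.contDiffOn fun p hp => hp.1
  have prof : ∀ {G : ℝ → ℝ → ℝ}, Js G →
      ContDiffOn ℝ ∞ (fun p : E2 × ℝ => G (amp X0 X1 V a p.1) p.2) (N ×ˢ univ) :=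
    fun h => h.comp_contDiffOn ((lift hamp).prodMk contDiff_snd.contDiffOn)
  have hdir : ContDiffOn ℝ ∞ (fun p : E2 × ℝ => dirP X0 X1 V a p.1 p.2) (N ×ˢ univ) :=
    ((prof Prof.cz_js).smul (lift heT)).add
      (((lift hamp).mul (prof Prof.sz_js)).smul (lift heN))
  have hnrm : ContDiffOn ℝ ∞ (fun p : E2 × ℝ => nrmP X0 X1 V a p.1 p.2) (N ×ˢ univ) :=
    ((((lift hamp).mul (prof Prof.sz_js)).neg).smul (lift heT)).add
      ((prof Prof.cz_js).smul (lift heN))
  have hdper : ∀ x ∈ N, ∀ t, dirP X0 X1 V a x (t + 1) = dirP X0 X1 V a x t :=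
    fun x _ t => by simp [dirP, Prof.cz_per, Prof.sz_per]
  have hnper : ∀ x ∈ N, ∀ t, nrmP X0 X1 V a x (t + 1) = nrmP X0 X1 V a x t :=
    fun x _ t => by simp [nrmP, Prof.cz_per, Prof.sz_per]
  have hcut : ∀ {Y : Type} [NormedAddCommGroup Y] [NormedSpace ℝ Y] {G : E2 → ℝ → Y},
      ContDiffOn ℝ ∞ (fun p : E2 × ℝ => G p.1 p.2) (N ×ˢ univ) →
      (∀ x ∈ N, ∀ t, G x (t + 1) = G x t) → Coef fun x t => ψ x • G x t :=
    fun h h' => coef_cut hψ hψc hψN hN h h'
  have hone : ∀ x ∈ W ∩ N, ψ x = 1 := fun x hx => hW1 x hx.1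
  -- the cut-off loop vanishes with the amplitude
  have hg : ∀ x, a x = 0 → ∀ t, ψ x • loopP X0 X1 V a x t = 0 := fun x hx t => by
    by_cases h : x ∈ N
    · simp [(hF x h).loop_zero hx]
    · simp [image_eq_zero_of_notMem_tsupport fun h' => h (hψN h')]
  have hcases : ∀ x, a x = 0 ∨ (x ∈ N ∧ ψ x = 1) := fun x => by
    by_cases h : x ∈ S
    · exact Or.inr ⟨hKN (hSK h), hW1 x (hKW (hSK h))⟩
    · exact Or.inl (ha0 x h)
  refine ⟨W ∩ N, hWo.inter hN, subset_inter hKW hKN, inter_subset_right, ⟨{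
    g0 := fun x t => ψ x • loopP X0 X1 V a x t
    A := fun k x t => ψ x • solA X0 X1 V a k x t
    Dm := fun c k x t => ψ x • (rhsC X0 X1 V k x * solK X0 X1 V a c x t)
    Cv := fun c x t => ψ x • solC X0 X1 V a c x t
    ρ := fun x t => ψ x • dirP X0 X1 V a x t
    σ := fun x t => ψ x • nrmP X0 X1 V a x t
    h := fun x t => ψ x • Prof.hz (amp X0 X1 V a x) t
    w := fun x => ψ x • amp X0 X1 V a x
    g0_coef := hcut (((lift hrad).smul hdir).sub (lift hT2))
      fun x hx t => by simp [loopP, hdper x hx t]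
    A_coef := ?_
    Dm_coef := ?_
    Cv_coef := ?_
    ρ_coef := hcut hdir hdper
    σ_coef := hcut hnrm hnper
    h_coef := hcut (prof Prof.hz_js) fun x _ t => Prof.hz_per _ t
    w_coef := hcut (lift hamp) fun _ _ _ => rfl
    g0_zero := fun x hx t => hg x (ha0 x hx) t
    g0_mean := ?_
    loop_len := ?_
    loop_perp := ?_
    loop_perp' := ?_
    solve := ?_
    frame := ?_
    radius := ?_
    forward := ?_
    turn := ?_
    h_pos := ?_ }⟩⟩
  · intro k
    refine hcut ?_ fun x hx t => by simp [solA, hdper x hx t]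
    refine ContDiffOn.add ?_ ((lift ((hrhs k).div hrad fun x hx => (hF x hx).rad_pos.ne')).smul hdir)
    fin_cases k
    · exact contDiffOn_const
    · exact lift (((hX1.inner ℝ hX1).contDiffOn.inv fun x hx => (hF x hx).hXX.ne').smul
        hX1.contDiffOn)
    · exact lift (((hV.inner ℝ hV).contDiffOn.inv fun x hx => (hF x hx).hVV.ne').smul
        hV.contDiffOn)
  · intro c k
    refine hcut ?_ fun x _ t => by fin_cases c <;> simp [solK, Prof.cz_per, Prof.sz_per]
    refine (lift (hrhs k)).mul ?_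
    fin_cases c
    · exact (lift ((((Prof.len_smooth.comp_contDiffOn hamp).div hrad
        fun x hx => (hF x hx).rad_pos.ne').mul hamp).neg)).mul (prof Prof.sz_js)
    · refine (lift ((hamp.div (hrad.mul (Prof.msq_smooth.comp_contDiffOn hamp)) fun x hx =>
        mul_ne_zero (hF x hx).rad_pos.ne' (Prof.msq_pos _).ne').neg)).mul ?_
      exact ((prof Prof.sz_js).pow 2).div (contDiffOn_const.add (prof Prof.cz_js))
        fun p _ => ne_of_gt (by linarith [Prof.cz_pos (amp X0 X1 V a p.1) p.2])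
  · intro c
    refine hcut ?_ fun x hx t => by fin_cases c <;> simp [solC, hnper x hx t, Prof.sz_per]
    fin_cases c
    · exact (contDiffOn_const (c := (1 : ℝ))).smul hnrm
    · exact (prof Prof.sz_js).smul hnrm
  · intro x
    rcases hcases x with h | ⟨h, h1⟩
    · simp [mean, hg x h]
    · simp [mean, h1, (hF x h).mean_loop]
  · intro x t
    rcases hcases x with h | ⟨h, h1⟩
    · simp [hg x h, h]
    · simpa [h1] using (hF x h).len_eq t
  · intro x t
    rcases hcases x with h | ⟨h, h1⟩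
    · simp [hg x h]
    · simp [h1, ((hF x h).perp_eq t).1]
  · intro x t
    rcases hcases x with h | ⟨h, h1⟩
    · simp [hg x h]
    · simp [h1, ((hF x h).perp_eq t).2]
  · intro x hx R hR _ h0
    simpa [hone x hx] using (hF x hx.2).solve_eq R hR h0
  · intro x hx t
    obtain ⟨h1, h2, h3, h4, h5, h6, h7, -⟩ := (hF x hx.2).dir_props (a := a) t
    simp only [hone x hx, one_smul]
    refine ⟨?_, ?_, h3, h4, h5, h6, h7, ?_⟩
    · rw [norm_eq_sqrt_real_inner, h1, Real.sqrt_one]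
    · rw [norm_eq_sqrt_real_inner, h2, Real.sqrt_one]
    · rw [(hF x hx.2).point]
      simp [inner_add_left, real_inner_smul_left, h3, h6, h7]
  · intro x hx t
    have key : ∀ s, ⟪X0 x + loopP X0 X1 V a x s, dirP X0 X1 V a x s⟫ = rad X0 X1 V a x := by
      intro s
      obtain ⟨h1, -, -, h4, h5, -, -, -⟩ := (hF x hx.2).dir_props (a := a) s
      rw [(hF x hx.2).point, inner_add_left, inner_add_left, real_inner_smul_left,
        real_inner_smul_left, real_inner_smul_left, h1, h4, h5]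
      ring
    simp only [hone x hx, one_smul, key]
    exact ⟨(hF x hx.2).rad_pos, trivial⟩
  · intro x hx t
    simp only [hone x hx, one_smul]
    show 0 < ⟪X0 x + loopP X0 X1 V a x t, T2 X0 X1 V x⟫
    obtain ⟨-, -, -, -, -, -, -, h8⟩ := (hF x hx.2).dir_props (a := a) t
    rw [(hF x hx.2).point, (hF x hx.2).split]
    simp only [inner_add_left, real_inner_smul_left, real_inner_smul_right, (hF x hx.2).XT,
      (hF x hx.2).VT, real_inner_comm (eT X0 X1 V x) (dirP X0 X1 V a x t), h8, mul_zero, zero_add]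
    exact mul_pos (hF x hx.2).hT (mul_pos (hF x hx.2).rad_pos (Prof.cz_pos _ _))
  · intro x hx t
    simp only [hone x hx, one_smul, smul_eq_mul, one_mul]
    exact ⟨(FrameAt.turn_eq (x := x) t).1.deriv, (FrameAt.turn_eq (x := x) t).2.deriv⟩
  · intro x hx
    simpa [hone x hx] using Prof.hz_sq_pos (amp X0 X1 V a x)

end Vale.Agent.P205F.Expand
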