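import Vale.Agent.P205F.Expand.SetupSpec
import Vale.Agent.P205F.Expand.Loop

/-!
# P205, expansions: the choice of the third field and of the data
-/

namespace Vale.Agent.P205F.Expand

open Set Filter
open scoped ContDiff RealInnerProductSpace Topology

lemma smooth_cut {Y : Type} [NormedAddCommGroup Y] [NormedSpace ℝ Y] {ψ : E2 → ℝ} {N : Set E2}
    (hψ : ContDiff ℝ ∞ ψ) (hsub : tsupport ψ ⊆ N) (hN : IsOpen N) {F : E2 → Y}
    (hF : ContDiffOn ℝ ∞ F N) : ContDiff ℝ ∞ fun x => ψ x • F x := by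
  refine contDiff_iff_contDiffAt.2 fun x => ?_
  by_cases hx : x ∈ N
  · exact hψ.contDiffAt.smul (hF.contDiffAt (hN.mem_nhds hx))
  · refine (contDiffAt_const (c := (0 : Y))).congr_of_eventuallyEq ?_
    filter_upwards [(isClosed_tsupport ψ).isOpen_compl.mem_nhds fun h => hx (hsub h)] with y hy
    simp [image_eq_zero_of_notMem_tsupport hy]

lemma ortho_fderiv {f : E2 → R4} {x : E2} {n : R4} (h : nrm f x n = n) (i : Fin 2) :
    ⟪pd i f x, n⟫ = 0 := by
  rw [← h]; exact nrm_mem f x n (ev i)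

/-- A vector with a nonzero normal part completes the tangent frame. -/
lemma indep_three {f : E2 → R4} (hi : IsImm f) (x : E2) {V : R4} (hV : nrm f x V ≠ 0) :
    LinearIndependent ℝ ![pd 0 f x, pd 1 f x, V] := by
  rw [Fintype.linearIndependent_iff]
  intro g hg
  simp [Fin.sum_univ_three] at hg
  have h2 : g 2 = 0 := by
    have h := congrArg (fun u => nrmL f x u) hg
    simp only [map_add, map_smul, map_zero, nrmL_apply] at h
    have e : ∀ i : Fin 2, nrm f x (pd i f x) = 0 := fun i => nrm_apply_range f x (ev i)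
    rw [e 0, e 1, smul_zero, smul_zero, zero_add, zero_add] at h
    exact (smul_eq_zero.1 h).resolve_right hV
  rw [h2, zero_smul, add_zero] at hg
  have h01 : g 0 • ev 0 + g 1 • ev 1 = 0 := by
    refine hi x ?_
    rw [map_zero, map_add, map_smul, map_smul]
    exact hg
  intro i
  fin_cases i
  · simpa [ev] using congrArg (fun v : E2 => v 0) h01
  · simpa [ev] using congrArg (fun v : E2 => v 1) h01
  · exact h2

/-- `VFieldStmt`. -/
theorem vFieldStmt : VFieldStmt := by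
  intro b keep f U K' hf hi hU hK' hKU hII hkeep
  cases b
  · cases keep
    · obtain ⟨R, hR⟩ := hK'.isBounded.subset_ball (0 : E2)
      obtain ⟨n, m, hn, -, h⟩ := exists_normal_frame hf hi R
      refine ⟨n, U ∩ Metric.ball 0 R, hn, hU.inter Metric.isOpen_ball, subset_inter hKU hR,
        inter_subset_left, fun x hx => ?_, fun h => absurd h (by simp)⟩
      obtain ⟨h1, -, -, h4, -, -⟩ := h x (Metric.ball_subset_closedBall hx.2)
      refine ⟨ortho_fderiv h4 1, indep_three hi x ?_, fun _ => ⟨h1, ortho_fderiv h4 0⟩,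
        fun h => absurd h (by simp)⟩
      rw [h4]
      intro h0
      rw [h0] at h1
      simp at h1
    · obtain ⟨-, hII0⟩ := hkeep rfl
      obtain ⟨ψ, hψ, -, hψU, hψ1⟩ := exists_cutoff hK' hU hKU
      obtain ⟨W0, hW0, hKW0, hW01⟩ := eventually_nhdsSet_iff_exists.1 hψ1
      let Nf : E2 → R4 := fun x => nrmL f x (pd 0 (pd 0 f) x)
      have hNf : ContDiff ℝ ∞ Nf :=
        (contDiff_nrmL hf hi).clm_apply (Vale.Agent.P205F.contDiff_pd (Vale.Agent.P205F.contDiff_pd hf 0) 0)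
      have hNe : ∀ x ∈ U, Nf x ≠ 0 := fun x hx => hII0 x hx
      let V : E2 → R4 := fun x => ψ x • (‖Nf x‖⁻¹ • Nf x)
      have hV : ContDiff ℝ ∞ V := smooth_cut hψ hψU hU
        (((hNf.contDiffOn.norm ℝ hNe).inv fun x hx => norm_ne_zero_iff.2 (hNe x hx)).smul
          hNf.contDiffOn)
      refine ⟨V, W0 ∩ U, hV, hW0.inter hU, subset_inter hKW0 hKU, inter_subset_right,
        fun x hx => ?_, fun _ x hx => ?_⟩
      · have hn := norm_pos_iff.2 (hNe x hx.2)
        have hfix : nrm f x (V x) = V x := by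
          simp only [V, Nf, ← nrmL_apply, map_smul]
          simp only [nrmL_apply, nrm_idem]
        refine ⟨ortho_fderiv hfix 1, indep_three hi x ?_, fun _ => ⟨?_, ortho_fderiv hfix 0⟩,
          fun h => absurd h (by simp)⟩
        · rw [hfix]
          simp [V, hW01 x hx.1, hn.ne', hNe x hx.2]
        · simp [V, hW01 x hx.1, norm_smul, inv_mul_cancel₀ hn.ne']
      · have hn := norm_pos_iff.2 (hNe x hx.2)
        have e : ⟪pd 0 (pd 0 f) x, Nf x⟫ = ⟪Nf x, Nf x⟫ := by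
          show ⟪_, nrm f x _⟫ = ⟪nrm f x _, nrm f x _⟫
          conv_lhs => rw [← nrm_idem f x (pd 0 (pd 0 f) x), inner_nrm]
        simp only [V, hW01 x hx.1, one_smul, real_inner_smul_right, e]
        exact mul_pos (inv_pos.2 hn) (real_inner_self_pos.2 (hNe x hx.2))
  · have h1 := Vale.Agent.P205F.contDiff_pd hf 1
    have h11 := Vale.Agent.P205F.contDiff_pd h1 1
    have hy : ∀ x, 0 < ⟪pd 1 f x, pd 1 f x⟫ := fun x => real_inner_self_pos.2 fun h => by
      simpa [ev] using congrArg (fun v : E2 => v 1) (hi x (h.trans (map_zero _).symm))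
    let c : E2 → ℝ := fun x => ⟪pd 1 (pd 1 f) x, pd 1 f x⟫ / ⟪pd 1 f x, pd 1 f x⟫
    let V : E2 → R4 := fun x => pd 1 (pd 1 f) x - c x • pd 1 f x
    have hV : ContDiff ℝ ∞ V :=
      h11.sub (((h11.inner ℝ h1).div (h1.inner ℝ h1) fun x => (hy x).ne').smul h1)
    refine ⟨V, U, hV, hU, hKU, subset_rfl, fun x hx => ⟨?_, indep_three hi x ?_,
      fun h => absurd h (by simp), fun _ => ⟨c x, by simp [V]⟩⟩,
      fun h => absurd (hkeep h).1 (by simp)⟩
    · simp only [V, c, inner_sub_right, real_inner_smul_right]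
      rw [div_mul_cancel₀ _ (hy x).ne', real_inner_comm, sub_self]
    · simp only [V, ← nrmL_apply, map_sub, map_smul]
      rw [show nrmL f x (pd 1 f x) = 0 from nrm_apply_range f x (ev 1), smul_zero, sub_zero]
      exact hII rfl x hx

/-- `SetupStmt`. -/
theorem setupStmt : SetupStmt := by
  intro hC hT b f a ν W K' V hf hi ha hν hW hK' hKW haK hV hVH hgd hν1
  obtain ⟨ψ, hψ, hψc, hψW, hψ1⟩ := exists_cutoff hK' hW hKW
  obtain ⟨N0', hN0o, hKN0, hN01⟩ := eventually_nhdsSet_iff_exists.1 hψ1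
  let N0 : Set E2 := N0' ∩ W
  let X0 : E2 → R4 := fun x => ψ x • pd 0 f x
  let X1 : E2 → R4 := fun x => ψ x • pd 1 f x
  let Vc : E2 → R4 := fun x => ψ x • V x
  have hX0 : ContDiff ℝ ∞ X0 := hψ.smul (Vale.Agent.P205F.contDiff_pd hf 0)
  have hX1 : ContDiff ℝ ∞ X1 := hψ.smul (Vale.Agent.P205F.contDiff_pd hf 1)
  have hVc : ContDiff ℝ ∞ Vc := hψ.smul hV
  have heq : ∀ x ∈ N0, X0 x = pd 0 f x ∧ X1 x = pd 1 f x ∧ Vc x = V x := fun x hx => by
    simp [X0, X1, Vc, hN01 x hx.1]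
  have hhyp : ∀ x ∈ N0, ⟪X1 x, Vc x⟫ = 0 ∧ LinearIndependent ℝ ![X0 x, X1 x, Vc x] := fun x hx => by
    obtain ⟨e0, e1, e2⟩ := heq x hx
    rw [e0, e1, e2]
    exact ⟨(hVH x hx.2).1, (hVH x hx.2).2.1⟩
  have hTa : IsCompact (tsupport a) := hK'.of_isClosed_subset (isClosed_tsupport a) haK
  have ha0 : ∀ x ∉ tsupport a, a x = 0 := fun x hx => image_eq_zero_of_notMem_tsupport hx
  obtain ⟨N1, hN1o, hKN1, hN10, ⟨L⟩⟩ := loopStmt X0 X1 Vc a (tsupport a) K' N0 hX0 hX1 hVc ha hTa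
    hK' (hN0o.inter hW) haK (subset_inter hKN0 hKW) ha0 hhyp
  obtain ⟨φ, hφ, -, hφN, hφ1⟩ := exists_cutoff hK' hN1o hKN1
  obtain ⟨N2', hN2o, hKN2, hN21⟩ := eventually_nhdsSet_iff_exists.1 hφ1
  let N : Set E2 := N2' ∩ N1
  have hNN : N ⊆ N0 := fun x hx => hN10 hx.2
  have hF : ∀ x ∈ N1, FrameAt X0 X1 Vc x := fun x hx =>
    frameAt X0 X1 Vc (hhyp x (hN10 hx)).1 (hhyp x (hN10 hx)).2
  obtain ⟨R, hR⟩ := exists_rop hC hT hf hW hK' hKW hgd
  let r : E2 → ℝ := fun x => if b then 0 else ψ x * (ν x 0 / ν x 1)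
  have hr : ContDiff ℝ ∞ r := by
    cases b
    · exact smooth_cut hψ hψW hW ((hν 0).contDiffOn.div (hν 1).contDiffOn fun x hx => hν1 rfl x hx)
    · exact contDiff_const
  have hrc : HasCompactSupport r := by
    cases b
    · exact hψc.mul_right
    · exact HasCompactSupport.zero
  let B : Base :=
    { S := K'
      N := N
      X0 := X0
      X1 := X1
      V := Vc
      a := a
      g0 := L.g0
      r := r
      χ := if b then 1 else 0
      A := L.A
      Dm := L.Dm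
      Cv := L.Cv
      R := R
      S_compact := hK'
      N_open := hN2o.inter hN1o
      S_sub := subset_inter hKN2 hKN1
      X0_coef := Coef.of_slow hX0 hψc.smul_right
      X1_coef := Coef.of_slow hX1 hψc.smul_right
      V_coef := Coef.of_slow hVc hψc.smul_right
      a_coef := Coef.of_slow ha hTa
      r_coef := Coef.of_slow hr hrc
      g0_coef := L.g0_coef
      A_coef := L.A_coef
      Dm_coef := L.Dm_coef
      Cv_coef := L.Cv_coef
      a_zero := fun x hx => ha0 x fun h => hx (haK h)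
      g0_zero := fun x hx => L.g0_zero x fun h => hx (haK h)
      g0_mean := L.g0_mean
      χ_or := by cases b <;> simp [r]
      loop_len := L.loop_len
      loop_perp := L.loop_perp
      loop_perp' := L.loop_perp'
      V_eq := by
        cases b
        · simp
        · intro _ x hx
          obtain ⟨c, hc⟩ := (hVH x (hNN hx).2).2.2.2 rfl
          have e : X1 =ᶠ[𝓝 x] pd 1 f := by
            filter_upwards [(hN0o.inter hW).mem_nhds (hNN hx)] with y hy using (heq y hy).2.1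
          refine ⟨c, ?_⟩
          rw [show pd 1 X1 x = pd 1 (pd 1 f) x by simp only [pd, e.fderiv_eq], hc,
            (heq x (hNN hx)).2.1, (heq x (hNN hx)).2.2]
      solve := fun x hx => L.solve x hx.2
      rop := ?rop }
  case rop =>
    intro q hq hq0 x
    by_cases hx : x ∈ K'
    · have := hR q hq (closure_minimal (fun y hy => by_contra fun h => hy (hq0 y h)) hK'.isClosed) x
      rw [← this, (heq x ⟨hKN0 hx, hKW hx⟩).1, (heq x ⟨hKN0 hx, hKW hx⟩).2.1]
      rfl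
    · have e : R.app q =ᶠ[𝓝 x] fun _ => (0 : R4) := by
        filter_upwards [hK'.isClosed.isOpen_compl.mem_nhds hx] with y hy
        refine SOp.app_eq_zero _ ?_
        filter_upwards [hK'.isClosed.isOpen_compl.mem_nhds hy] with z hz using hq0 z hz
      funext i
      fin_cases i <;> simp [pd, e.fderiv_eq, hq0 x hx]
  let Lp : Loop B.S B.N B.X0 B.X1 B.V B.a :=
    { g0 := L.g0
      A := L.A
      Dm := L.Dm
      Cv := L.Cv
      ρ := L.ρ
      σ := L.σ
      h := L.h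
      w := L.w
      g0_coef := L.g0_coef
      A_coef := L.A_coef
      Dm_coef := L.Dm_coef
      Cv_coef := L.Cv_coef
      ρ_coef := L.ρ_coef
      σ_coef := L.σ_coef
      h_coef := L.h_coef
      w_coef := L.w_coef
      g0_zero := B.g0_zero
      g0_mean := L.g0_mean
      loop_len := L.loop_len
      loop_perp := L.loop_perp
      loop_perp' := L.loop_perp'
      solve := B.solve
      frame := fun x hx => L.frame x hx.2
      radius := fun x hx => L.radius x hx.2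
      forward := fun x hx => L.forward x hx.2
      turn := fun x hx => L.turn x hx.2
      h_pos := fun x hx => L.h_pos x hx.2 }
  -- dual fields
  have hcY : ContDiffOn ℝ ∞ (cY X0 X1) N1 :=
    (hX1.inner ℝ hX0).contDiffOn.div (hX1.inner ℝ hX1).contDiffOn fun x hx => (hF x hx).hXX.ne'
  have hcV : ContDiffOn ℝ ∞ (cV X0 Vc) N1 :=
    (hVc.inner ℝ hX0).contDiffOn.div (hVc.inner ℝ hVc).contDiffOn fun x hx => (hF x hx).hVV.ne'
  have hT2 : ContDiffOn ℝ ∞ (T2 X0 X1 Vc) N1 :=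
    (hX0.contDiffOn.sub (hcY.smul hX1.contDiffOn)).sub (hcV.smul hVc.contDiffOn)
  let d0 : E2 → R4 := fun x => (‖T2 X0 X1 Vc x‖ ^ 2)⁻¹ • T2 X0 X1 Vc x
  let d1 : E2 → R4 := fun x => ⟪X1 x, X1 x⟫⁻¹ • X1 x - cY X0 X1 x • d0 x
  let dV : E2 → R4 := fun x => ⟪Vc x, Vc x⟫⁻¹ • Vc x - cV X0 Vc x • d0 x
  have hd0 : ContDiffOn ℝ ∞ d0 N1 :=
    (((hT2.norm ℝ fun x hx => norm_pos_iff.1 (hF x hx).hT).pow 2).inv
      fun x hx => pow_ne_zero 2 (hF x hx).hT.ne').smul hT2
  have hd1 : ContDiffOn ℝ ∞ d1 N1 :=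
    (((hX1.inner ℝ hX1).contDiffOn.inv fun x hx => (hF x hx).hXX.ne').smul hX1.contDiffOn).sub
      (hcY.smul hd0)
  have hdV : ContDiffOn ℝ ∞ dV N1 :=
    (((hVc.inner ℝ hVc).contDiffOn.inv fun x hx => (hF x hx).hVV.ne').smul hVc.contDiffOn).sub
      (hcV.smul hd0)
  have hdual : ∀ x ∈ N1, (⟪X0 x, d0 x⟫ = 1 ∧ ⟪X1 x, d0 x⟫ = 0 ∧ ⟪Vc x, d0 x⟫ = 0) ∧
      (⟪X0 x, d1 x⟫ = 0 ∧ ⟪X1 x, d1 x⟫ = 1 ∧ ⟪Vc x, d1 x⟫ = 0) ∧
      (⟪X0 x, dV x⟫ = 0 ∧ ⟪X1 x, dV x⟫ = 0 ∧ ⟪Vc x, dV x⟫ = 1) := by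
    intro x hx
    have F := hF x hx
    have t1 : ⟪X1 x, T2 X0 X1 Vc x⟫ = 0 := by
      rw [F.split, real_inner_smul_right, F.XT, mul_zero]
    have t2 : ⟪Vc x, T2 X0 X1 Vc x⟫ = 0 := by
      rw [F.split, real_inner_smul_right, F.VT, mul_zero]
    have t0 : ⟪X0 x, T2 X0 X1 Vc x⟫ = ‖T2 X0 X1 Vc x‖ ^ 2 := by
      have e : X0 x = T2 X0 X1 Vc x + cY X0 X1 x • X1 x + cV X0 Vc x • Vc x := by
        rw [T2]; abel
      nth_rw 1 [e]
      simp only [inner_add_left, real_inner_smul_left, t1, t2, real_inner_self_eq_norm_sq]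
      ring
    have hT' := F.hT.ne'
    have hXV := F.hXV
    have hXX := F.hXX.ne'
    have hVV := F.hVV.ne'
    simp only [d0, d1, dV, cY, cV, inner_sub_right, real_inner_smul_right, t0, t1, t2, hXV,
      real_inner_comm (X1 x) (Vc x), real_inner_comm (X1 x) (X0 x), real_inner_comm (Vc x) (X0 x)]
    refine ⟨⟨?_, ?_, ?_⟩, ⟨?_, ?_, ?_⟩, ⟨?_, ?_, ?_⟩⟩ <;> field_simp <;> ring
  let D : Dual B :=
    { D0 := fun x => φ x • d0 x
      D1 := fun x => φ x • d1 x
      DV := fun x => φ x • dV x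
      smooth0 := smooth_cut hφ hφN hN1o hd0
      smooth1 := smooth_cut hφ hφN hN1o hd1
      smoothV := smooth_cut hφ hφN hN1o hdV
      eq0 := fun x hx => by simpa [hN21 x hx.1] using (hdual x hx.2).1
      eq1 := fun x hx => by simpa [hN21 x hx.1] using (hdual x hx.2).2.1
      eqV := fun x hx => by simpa [hN21 x hx.1] using (hdual x hx.2).2.2 }
  refine ⟨{
    B := B
    Lp := Lp
    D := D
    hg := rfl
    hS := rfl
    hN := fun x hx => (hNN hx).2
    hX := fun x hx => heq x (hNN hx)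
    ha := rfl
    hga := L.g0_zero
    hχ := rfl
    hr := ?_
    hV := fun x hx => ⟨(hhyp x (hNN hx)).1, (hhyp x (hNN hx)).2, fun hb => ?_⟩
    hfwd := fun x hx t => ?_ }⟩
  · rintro rfl x hx
    show (ψ x * (ν x 0 / ν x 1)) * ν x 1 = ν x 0
    rw [hN01 x (hNN hx).1, one_mul, div_mul_cancel₀ _ (hν1 rfl x (hNN hx).2)]
  · obtain ⟨e0, -, e2⟩ := heq x (hNN hx)
    show ‖Vc x‖ = 1 ∧ ⟪X0 x, Vc x⟫ = 0
    rw [e0, e2]
    exact (hVH x (hNN hx).2).2.2.1 hb
  · show 0 < ⟪X0 x + L.g0 x t, φ x • d0 x⟫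
    rw [hN21 x hx.1, one_smul, real_inner_smul_right]
    exact mul_pos (inv_pos.2 (pow_pos (hF x hx.2).hT 2)) (L.forward x hx.2 t)

end Vale.Agent.P205F.Expand
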