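import Vale.Agent.P205F.Expand.SlowSpec

/-!
# P205, expansions: the slow homogeneous fields

At a point `p`, with `ξ = x₀ - p₀`: the model field cut off near `p` is corrected by multiples
`ξ^(k+1)` of model fields until its reduced error is divisible by `ξ^(L+1)`; the inverse of the
base removes that error exactly and does not change the jets along the line `ξ = 0`.
-/

set_option maxSynthPendingDepth 3

namespace Vale.Agent.P205F.Expand

open Filter Set
open scoped ContDiff RealInnerProductSpace Topology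

/-! ### Multiples of powers of a coordinate -/

/-- The first coordinate minus a constant. -/
noncomputable def xi (c : ℝ) (x : E2) : ℝ := x 0 - c

lemma xi_smooth (c : ℝ) : ContDiff ℝ ∞ (xi c) :=
  (EuclideanSpace.proj (0 : Fin 2) : E2 →L[ℝ] ℝ).contDiff.sub contDiff_const

lemma fderiv_xi_pow {X : Type} [NormedAddCommGroup X] [NormedSpace ℝ X] (c : ℝ) (m : ℕ)
    {G : E2 → X} (hG : ContDiff ℝ ∞ G) (x : E2) :
    fderiv ℝ (fun y => xi c y ^ (m + 1) • G y) x = xi c x ^ m • (((m : ℝ) + 1) •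
      (EuclideanSpace.proj (0 : Fin 2) : E2 →L[ℝ] ℝ).smulRight (G x) + xi c x • fderiv ℝ G x) := by
  have h1 : HasFDerivAt (xi c) (EuclideanSpace.proj (0 : Fin 2) : E2 →L[ℝ] ℝ) x :=
    (EuclideanSpace.proj (0 : Fin 2) : E2 →L[ℝ] ℝ).hasFDerivAt.sub_const c
  have h2 := (h1.pow (m + 1)).fun_smul (hG.differentiable (by norm_num) x).hasFDerivAt
  rw [h2.fderiv]
  ext v
  simp [smul_add, smul_smul, pow_succ, mul_comm]
  rw [add_comm, mul_assoc]

lemma pd_xi_pow {X : Type} [NormedAddCommGroup X] [NormedSpace ℝ X] (c : ℝ) (m : ℕ)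
    {G : E2 → X} (hG : ContDiff ℝ ∞ G) (x : E2) :
    pd 0 (fun y => xi c y ^ (m + 1) • G y) x =
      (((m : ℝ) + 1) * xi c x ^ m) • G x + xi c x ^ (m + 1) • pd 0 G x ∧
    pd 1 (fun y => xi c y ^ (m + 1) • G y) x = xi c x ^ (m + 1) • pd 1 G x := by
  constructor <;> simp only [pd, fderiv_xi_pow c m hG x]
  · simp [ev, smul_add, smul_smul, pow_succ, mul_comm]
  · simp [ev, smul_smul, pow_succ]

lemma iteratedFDeriv_xi_pow {X : Type} [NormedAddCommGroup X] [NormedSpace ℝ X] (c : ℝ) :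
    ∀ (k m : ℕ) (G : E2 → X), ContDiff ℝ ∞ G →
      ∃ H : E2 → ContinuousMultilinearMap ℝ (fun _ : Fin k => E2) X, ContDiff ℝ ∞ H ∧
        iteratedFDeriv ℝ k (fun y => xi c y ^ (m + k) • G y) = fun y => xi c y ^ m • H y := by
  intro k
  induction k with
  | zero =>
    intro m G hG
    refine ⟨fun y => (continuousMultilinearCurryFin0 ℝ E2 X).symm (G y),
      (continuousMultilinearCurryFin0 ℝ E2 X).symm.toContinuousLinearEquiv.contDiff.comp hG, ?_⟩
    funext y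
    ext v
    simp
  | succ k ih =>
    intro m G hG
    obtain ⟨H, hH, e⟩ := ih (m + 1) G hG
    let P : E2 →L[ℝ] ℝ := EuclideanSpace.proj (0 : Fin 2)
    have hH' : ContDiff ℝ ∞ fun y => ((m : ℝ) + 1) • P.smulRight (H y) + xi c y • fderiv ℝ H y :=
      ((contDiff_const.smulRight hH).const_smul ((m : ℝ) + 1)).add
        ((xi_smooth c).smul (hH.fderiv_right (m := ∞) (by exact_mod_cast le_top)))
    refine ⟨fun y => (continuousMultilinearCurryLeftEquiv ℝ (fun _ : Fin (k + 1) => E2) X).symm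
        (((m : ℝ) + 1) • P.smulRight (H y) + xi c y • fderiv ℝ H y),
      (continuousMultilinearCurryLeftEquiv ℝ
        (fun _ : Fin (k + 1) => E2) X).symm.toContinuousLinearEquiv.contDiff.comp hH', ?_⟩
    funext y
    rw [iteratedFDeriv_succ_eq_comp_left, Function.comp_apply,
      show m + (k + 1) = m + 1 + k by ring, e, fderiv_xi_pow c m hH y, map_smul]

/-- An operator of order `L` keeps divisibility, with `L` powers lost. -/
lemma app_xi_pow (R : SOp) (c : ℝ) (n : ℕ) {E : E2 → S3} (hE : ContDiff ℝ ∞ E) :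
    ∃ H : E2 → R4, ContDiff ℝ ∞ H ∧
      R.app (fun y => xi c y ^ (n + R.L) • E y) = fun y => xi c y ^ n • H y := by
  choose H hH e using fun k : Fin (R.L + 1) =>
    iteratedFDeriv_xi_pow c (k : ℕ) (n + R.L - (k : ℕ)) E hE
  refine ⟨fun y => ∑ k : Fin (R.L + 1), xi c y ^ (R.L - (k : ℕ)) • R.c k y (H k y),
    ContDiff.sum fun k _ => ((xi_smooth c).pow _).smul ((R.smooth k).clm_apply (hH k)), ?_⟩
  funext y
  simp only [SOp.app, Finset.smul_sum, smul_smul, ← pow_add]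
  refine Finset.sum_congr rfl fun k _ => ?_
  have hk := k.is_lt
  have e' := congrFun (e k) y
  rw [show n + R.L - (k : ℕ) + (k : ℕ) = n + R.L by omega] at e'
  rw [e', map_smul, show n + (R.L - (k : ℕ)) = n + R.L - (k : ℕ) by omega]

lemma iter_pd_congr {X : Type} [NormedAddCommGroup X] [NormedSpace ℝ X] (a : Fin 2) {f g : E2 → X}
    {x : E2} (h : f =ᶠ[𝓝 x] g) : ∀ n, (pd a)^[n] f =ᶠ[𝓝 x] (pd a)^[n] g
  | 0 => h
  | n + 1 => by
    rw [Function.iterate_succ_apply', Function.iterate_succ_apply']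
    exact ((iter_pd_congr a h n).fderiv (𝕜 := ℝ)).mono fun y hy => by simp only [pd, hy]

lemma jd_congr {X : Type} [NormedAddCommGroup X] [NormedSpace ℝ X] {f g : E2 → X} {x : E2}
    (h : f =ᶠ[𝓝 x] g) (b : ℕ) : jd 0 b f =ᶠ[𝓝 x] jd 0 b g :=
  iter_pd_congr 1 h b

lemma jd_xi_pow {X : Type} [NormedAddCommGroup X] [NormedSpace ℝ X] (c : ℝ) {G : E2 → X}
    (hG : ContDiff ℝ ∞ G) : ∀ b, jd 0 b (fun y => xi c y ^ 1 • G y) =
      fun y => xi c y ^ 1 • jd 0 b G y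
  | 0 => rfl
  | b + 1 => by
    funext y
    show (pd 1)^[b + 1] _ y = _
    rw [Function.iterate_succ_apply']
    show pd 1 (jd 0 b (fun y => xi c y ^ 1 • G y)) y = _
    rw [jd_xi_pow c hG b, (pd_xi_pow c 0 (smooth_jd hG 0 b) y).2]
    simp [jd, Function.iterate_succ_apply']

/-! ### The equations -/

/-- The linearised base on a field. -/
noncomputable def qOf (B : Base) (Y : E2 → R4) (x : E2) : S3 :=
  ![2 * ⟪B.X0 x, pd 0 Y x⟫, ⟪B.X0 x, pd 1 Y x⟫ + ⟪B.X1 x, pd 0 Y x⟫, 2 * ⟪B.X1 x, pd 1 Y x⟫]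

/-- The reduction of the equations. -/
def redV (B : Base) (x : E2) (q : S3) : S3 :=
  ![q 0 - B.r x ^ 2 * q 2, q 1 - B.r x * q 2, B.χ * q 2]

lemma redV_add (B : Base) (x : E2) (q q' : S3) : redV B x (q + q') = redV B x q + redV B x q' := by
  funext i; fin_cases i <;> simp [redV] <;> ring

lemma redV_smul (B : Base) (x : E2) (t : ℝ) (q : S3) : redV B x (t • q) = t • redV B x q := by
  funext i; fin_cases i <;> simp [redV] <;> ring

lemma qOf_add (B : Base) {Y Y' : E2 → R4} (h : ContDiff ℝ ∞ Y) (h' : ContDiff ℝ ∞ Y') (x : E2) :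
    qOf B (Y + Y') x = qOf B Y x + qOf B Y' x := by
  funext i
  fin_cases i <;> simp [qOf, pd_add' h h', inner_add_right] <;> ring

lemma qOf_xi_pow (B : Base) (c : ℝ) (m : ℕ) {Z : E2 → R4} (hZ : ContDiff ℝ ∞ Z) (x : E2) :
    qOf B (fun y => xi c y ^ (m + 1) • Z y) x = xi c x ^ (m + 1) • qOf B Z x +
      (((m : ℝ) + 1) * xi c x ^ m) • ![2 * ⟪B.X0 x, Z x⟫, ⟪B.X1 x, Z x⟫, 0] := by
  obtain ⟨h0, h1⟩ := pd_xi_pow c m hZ x
  funext i
  fin_cases i <;> simp [qOf, h0, h1, inner_add_right, real_inner_smul_right] <;> ring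

lemma Base.smooth_X0 (B : Base) : ContDiff ℝ ∞ B.X0 := B.X0_coef.js.slow 0
lemma Base.smooth_X1 (B : Base) : ContDiff ℝ ∞ B.X1 := B.X1_coef.js.slow 0
lemma Base.smooth_r (B : Base) : ContDiff ℝ ∞ B.r := B.r_coef.js.slow 0

lemma qOf_smooth (B : Base) {Y : E2 → R4} (hY : ContDiff ℝ ∞ Y) :
    ContDiff ℝ ∞ fun x => qOf B Y x := by
  refine contDiff_pi.2 fun i => ?_
  have h0 := smooth_pd hY 0
  have h1 := smooth_pd hY 1
  fin_cases i
  · exact (contDiff_const (c := (2 : ℝ))).mul (B.smooth_X0.inner ℝ h0)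
  · exact (B.smooth_X0.inner ℝ h1).add (B.smooth_X1.inner ℝ h0)
  · exact (contDiff_const (c := (2 : ℝ))).mul (B.smooth_X1.inner ℝ h1)

lemma redV_smooth (B : Base) {q : E2 → S3} (hq : ContDiff ℝ ∞ q) :
    ContDiff ℝ ∞ fun x => redV B x (q x) := by
  have h := contDiff_pi.1 hq
  refine contDiff_pi.2 fun i => ?_
  fin_cases i
  · exact (h 0).sub ((B.smooth_r.pow 2).mul (h 2))
  · exact (h 1).sub (B.smooth_r.mul (h 2))
  · exact contDiff_const.mul (h 2)

section Model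

variable {B : Base} (D : Dual B) {T : Set E2} {α β : E2 → ℝ}

lemma Y0_zero (hT : IsClosed T) (h : ∀ x ∉ T, α x = 0 ∧ β x = 0) {x : E2} (hx : x ∉ T) :
    Y0 B D α β x = 0 := by
  have e : β =ᶠ[𝓝 x] fun _ => (0 : ℝ) := by
    filter_upwards [hT.isOpen_compl.mem_nhds hx] with y hy using (h y hy).2
  simp [Y0, pd, e.fderiv_eq, (h x hx).1, (h x hx).2]

lemma Y0_smooth (hT : IsClosed T) (hTN : T ⊆ B.N)
    (hX : ∀ x ∈ B.N, 0 < ⟪B.X1 x, B.X1 x⟫) (hα : ContDiff ℝ ∞ α) (hβ : ContDiff ℝ ∞ β)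
    (h : ∀ x ∉ T, α x = 0 ∧ β x = 0) : ContDiff ℝ ∞ (Y0 B D α β) := by
  have hκ : ContDiff ℝ ∞ fun x => ⟪pd 1 B.X1 x, B.X1 x⟫ / ⟪B.X1 x, B.X1 x⟫ * β x := by
    refine contDiff_iff_contDiffAt.2 fun x => ?_
    by_cases hx : x ∈ T
    · exact (((smooth_pd B.smooth_X1 1).inner ℝ B.smooth_X1).contDiffAt.div
        (B.smooth_X1.inner ℝ B.smooth_X1).contDiffAt (hX x (hTN hx)).ne').mul hβ.contDiffAt
    · refine (contDiffAt_const (c := (0 : ℝ))).congr_of_eventuallyEq ?_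
      filter_upwards [hT.isOpen_compl.mem_nhds hx] with y hy
      simp [(h y hy).2]
  exact ((hα.smul D.smooth0).add (hβ.smul D.smooth1)).add
    ((contDiff_const.mul ((smooth_pd hβ 1).sub hκ)).smul D.smoothV)

/-- The model field has the given tangential components and a vanishing `yy` equation. -/
lemma Y0_props (hT : IsClosed T) (hTN : T ⊆ B.N)
    (hN : ∀ x ∈ B.N, ⟪B.X1 x, B.V x⟫ = 0 ∧ 0 < ⟪B.X1 x, B.X1 x⟫) (hα : ContDiff ℝ ∞ α)
    (hβ : ContDiff ℝ ∞ β) (h : ∀ x ∉ T, α x = 0 ∧ β x = 0) (x : E2) :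
    ⟪B.X0 x, Y0 B D α β x⟫ = α x ∧ ⟪B.X1 x, Y0 B D α β x⟫ = β x ∧
      B.χ * ⟪B.X1 x, pd 1 (Y0 B D α β) x⟫ = 0 := by
  by_cases hx : x ∈ B.N
  swap
  · have hxT : x ∉ T := fun hh => hx (hTN hh)
    have e : Y0 B D α β =ᶠ[𝓝 x] fun _ => (0 : R4) := by
      filter_upwards [hT.isOpen_compl.mem_nhds hxT] with y hy using Y0_zero D hT h hy
    simp [Y0_zero D hT h hxT, (h x hxT).1, (h x hxT).2, pd, e.fderiv_eq]
  obtain ⟨a0, a1, -⟩ := D.eq0 x hx
  obtain ⟨b0, b1, -⟩ := D.eq1 x hx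
  obtain ⟨c0, c1, -⟩ := D.eqV x hx
  refine ⟨?_, ?_, ?_⟩
  · simp [Y0, inner_add_right, real_inner_smul_right, a0, b0, c0]
  · simp [Y0, inner_add_right, real_inner_smul_right, a1, b1, c1]
  rcases B.χ_or with hχ | ⟨hχ, -⟩
  · simp [hχ]
  obtain ⟨c, hc⟩ := B.V_eq (by rw [hχ]; exact one_ne_zero) x hx
  have hY := Y0_smooth D hT hTN (fun x hx => (hN x hx).2) hα hβ h
  have e : pd 1 (fun z => ⟪B.X1 z, Y0 B D α β z⟫) x =
      ⟪pd 1 B.X1 x, Y0 B D α β x⟫ + ⟪B.X1 x, pd 1 (Y0 B D α β) x⟫ :=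
    pd_inner' B.smooth_X1 hY 1 x
  have e' : (fun z => ⟪B.X1 z, Y0 B D α β z⟫) =ᶠ[𝓝 x] β := by
    filter_upwards [B.N_open.mem_nhds hx] with y hy
    simp [Y0, inner_add_right, real_inner_smul_right, (D.eq0 y hy).2.1, (D.eq1 y hy).2.1,
      (D.eqV y hy).2.1]
  have e'' : pd 1 (fun z => ⟪B.X1 z, Y0 B D α β z⟫) x = pd 1 β x := by simp only [pd, e'.fderiv_eq]
  rw [e''] at e
  have hκ : ⟪pd 1 B.X1 x, B.X1 x⟫ / ⟪B.X1 x, B.X1 x⟫ = c := by
    rw [hc, inner_add_left, real_inner_smul_left, real_inner_comm (B.X1 x) (B.V x), (hN x hx).1]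
    rw [zero_add, mul_div_assoc, div_self (hN x hx).2.ne', mul_one]
  have hv : ⟪pd 1 B.X1 x, Y0 B D α β x⟫ = pd 1 β x := by
    rw [hc]
    simp only [Y0, hκ, hχ, inner_add_left, inner_add_right, real_inner_smul_left,
      real_inner_smul_right, (D.eq0 x hx).2.1, (D.eq0 x hx).2.2, (D.eq1 x hx).2.1,
      (D.eq1 x hx).2.2, (D.eqV x hx).2.1, (D.eqV x hx).2.2]
    ring
  rw [hχ, one_mul]
  linarith

/-- The error of a model field is supported with it, and its third component vanishes. -/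
lemma Y0_err (hT : IsClosed T) (hTN : T ⊆ B.N)
    (hN : ∀ x ∈ B.N, ⟪B.X1 x, B.V x⟫ = 0 ∧ 0 < ⟪B.X1 x, B.X1 x⟫) (hα : ContDiff ℝ ∞ α)
    (hβ : ContDiff ℝ ∞ β) (h : ∀ x ∉ T, α x = 0 ∧ β x = 0) :
    ContDiff ℝ ∞ (fun x => redV B x (qOf B (Y0 B D α β) x)) ∧
      (∀ x ∉ T, redV B x (qOf B (Y0 B D α β) x) = 0) ∧
      ∀ x, redV B x (qOf B (Y0 B D α β) x) 2 = 0 := by
  refine ⟨redV_smooth B (qOf_smooth B (Y0_smooth D hT hTN (fun x hx => (hN x hx).2) hα hβ h)),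
    fun x hx => ?_, fun x => ?_⟩
  · have e : Y0 B D α β =ᶠ[𝓝 x] fun _ => (0 : R4) := by
      filter_upwards [hT.isOpen_compl.mem_nhds hx] with y hy using Y0_zero D hT h hy
    funext i
    fin_cases i <;> simp [redV, qOf, pd, e.fderiv_eq]
  · have := (Y0_props D hT hTN hN hα hβ h x).2.2
    show B.χ * (2 * ⟪B.X1 x, pd 1 (Y0 B D α β) x⟫) = 0
    linear_combination (2 : ℝ) * this

/-- Corrections making the reduced error divisible by any power of `ξ`. -/
lemma exists_formal (hT : IsClosed T) (hTN : T ⊆ B.N)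
    (hN : ∀ x ∈ B.N, ⟪B.X1 x, B.V x⟫ = 0 ∧ 0 < ⟪B.X1 x, B.X1 x⟫) (hα : ContDiff ℝ ∞ α)
    (hβ : ContDiff ℝ ∞ β) (h : ∀ x ∉ T, α x = 0 ∧ β x = 0) (c : ℝ) : ∀ n : ℕ,
    ∃ (G : E2 → R4) (E : E2 → S3), ContDiff ℝ ∞ G ∧ (∀ x ∉ T, G x = 0) ∧ ContDiff ℝ ∞ E ∧
      (∀ x ∉ T, E x = 0) ∧ (∀ x, E x 2 = 0) ∧
      ∀ x, redV B x (qOf B (Y0 B D α β + fun y => xi c y ^ 1 • G y) x) = xi c x ^ n • E x := by
  intro n
  induction n with
  | zero =>
    obtain ⟨h1, h2, h3⟩ := Y0_err D hT hTN hN hα hβ h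
    refine ⟨fun _ => 0, fun x => redV B x (qOf B (Y0 B D α β) x), contDiff_const, fun _ _ => rfl,
      h1, h2, h3, fun x => ?_⟩
    have e : (Y0 B D α β + fun y => xi c y ^ 1 • (0 : R4)) = Y0 B D α β := by
      funext y; simp
    rw [e, pow_zero, one_smul]
  | succ n ih =>
    obtain ⟨G, E, hG, hG0, hE, hE0, hE2, he⟩ := ih
    have hEi := contDiff_pi.1 hE
    let a : E2 → ℝ := fun x => -(2 * ((n : ℝ) + 1))⁻¹ * E x 0
    let b : E2 → ℝ := fun x => -((n : ℝ) + 1)⁻¹ * E x 1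
    have ha : ContDiff ℝ ∞ a := contDiff_const.mul (hEi 0)
    have hb : ContDiff ℝ ∞ b := contDiff_const.mul (hEi 1)
    have hab : ∀ x ∉ T, a x = 0 ∧ b x = 0 := fun x hx => by simp [a, b, hE0 x hx]
    obtain ⟨h1, h2, h3⟩ := Y0_err D hT hTN hN ha hb hab
    have hZ := Y0_smooth D hT hTN (fun x hx => (hN x hx).2) ha hb hab
    refine ⟨fun y => G y + xi c y ^ n • Y0 B D a b y,
      fun x => redV B x (qOf B (Y0 B D a b) x), hG.add (((xi_smooth c).pow n).smul hZ),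
      fun x hx => by simp [hG0 x hx, Y0_zero D hT hab hx], h1, h2, h3, fun x => ?_⟩
    have e : (Y0 B D α β + fun y => xi c y ^ 1 • (G y + xi c y ^ n • Y0 B D a b y)) =
        (Y0 B D α β + fun y => xi c y ^ 1 • G y) +
          fun y => xi c y ^ (n + 1) • Y0 B D a b y := by
      funext y
      simp only [Pi.add_apply, smul_add, smul_smul, ← pow_add, add_comm 1 n]
      abel
    obtain ⟨p0, p1, -⟩ := Y0_props D hT hTN hN ha hb hab x
    have hY := Y0_smooth D hT hTN (fun x hx => (hN x hx).2) hα hβ h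
    have hW : ContDiff ℝ ∞ (Y0 B D α β + fun y => xi c y ^ 1 • G y) :=
      hY.add (((xi_smooth c).pow 1).smul hG)
    have hW' : ContDiff ℝ ∞ fun y => xi c y ^ (n + 1) • Y0 B D a b y :=
      ((xi_smooth c).pow (n + 1)).smul hZ
    rw [e, qOf_add B hW hW',
      redV_add, he, qOf_xi_pow B c n hZ, redV_add, redV_smul, redV_smul, p0, p1]
    have hn : ((n : ℝ) + 1) ≠ 0 := by positivity
    funext i
    fin_cases i
    · simp [redV, a]
      field_simp
      ring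
    · simp [redV, b]
      field_simp
      ring
    · simp [redV, hE2]

/-- An exact field with the jets of the model field along the line through `p`. -/
lemma exists_exact (hT : IsClosed T) (hTS : T ⊆ B.S)
    (hN : ∀ x ∈ B.N, ⟪B.X1 x, B.V x⟫ = 0 ∧ 0 < ⟪B.X1 x, B.X1 x⟫) (hα : ContDiff ℝ ∞ α)
    (hβ : ContDiff ℝ ∞ β) (h : ∀ x ∉ T, α x = 0 ∧ β x = 0) (c : ℝ) :
    ∃ Y G : E2 → R4, ContDiff ℝ ∞ Y ∧ (∀ x ∉ B.S, Y x = 0) ∧ ContDiff ℝ ∞ G ∧
      (∀ x, Y x = Y0 B D α β x + xi c x ^ 1 • G x) ∧ ∀ x, redV B x (qOf B Y x) = 0 := by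
  have hTN : T ⊆ B.N := hTS.trans B.S_sub
  obtain ⟨G, E, hG, hG0, hE, hE0, hE2, he⟩ := exists_formal D hT hTN hN hα hβ h c (1 + B.R.L)
  obtain ⟨H, hH, hR⟩ := app_xi_pow B.R c 1 hE
  set q : E2 → S3 := fun y => xi c y ^ (1 + B.R.L) • E y with hq
  have hqs : ContDiff ℝ ∞ q := ((xi_smooth c).pow _).smul hE
  have hq0 : ∀ x ∉ B.S, q x = 0 := fun x hx => by simp [hq, hE0 x fun hh => hx (hTS hh)]
  have hY0 := Y0_smooth D hT hTN (fun x hx => (hN x hx).2) hα hβ h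
  have hGx : ContDiff ℝ ∞ fun y => xi c y ^ 1 • G y := ((xi_smooth c).pow 1).smul hG
  have hHx : ContDiff ℝ ∞ fun y => xi c y ^ 1 • H y := ((xi_smooth c).pow 1).smul hH
  let W : E2 → R4 := Y0 B D α β + fun y => xi c y ^ 1 • G y
  have hW : ContDiff ℝ ∞ W := hY0.add hGx
  refine ⟨W + fun y => -(xi c y ^ 1 • H y), fun y => G y - H y, hW.add hHx.neg, fun x hx => ?_,
    hG.sub hH, fun x => ?_, fun x => ?_⟩
  · have hxT : x ∉ T := fun hh => hx (hTS hh)
    have e : q =ᶠ[𝓝 x] 0 := by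
      filter_upwards [B.S_closed.isOpen_compl.mem_nhds hx] with y hy using hq0 y hy
    have := B.R.app_eq_zero e
    rw [hR] at this
    simp only [Pi.add_apply, W, Y0_zero D hT h hxT, hG0 x hxT, smul_zero, add_zero,
      this, neg_zero]
  · simp only [Pi.add_apply, W, smul_sub]
    abel
  · have hr : qOf B (fun y => -(xi c y ^ 1 • H y)) x = -q x := by
      have := B.rop q hqs hq0 x
      rw [hR] at this
      rw [← this]
      funext i
      fin_cases i <;> simp [qOf, pd, fderiv_fun_neg, inner_neg_right]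
      ring
    rw [qOf_add B hW hHx.neg, hr, redV_add, he, ← neg_one_smul ℝ (q x), redV_smul]
    funext i
    fin_cases i <;> simp [redV, hq, hE2]

end Model

/-- `SlowFieldsStmt`. -/
theorem slowFieldsStmt : SlowFieldsStmt := by
  intro B D K hK hKS hN η hη
  have key : ∀ p ∈ K, ∃ Y : Fin 2 → Fin 7 → E2 → R4,
      (∀ c j, ContDiff ℝ ∞ (Y c j) ∧ (∀ x ∉ B.S, Y c j x = 0) ∧
        ∀ x, redV B x (qOf B (Y c j) x) = 0) ∧
      ∀ᶠ x in 𝓝 p, ∀ (c : Fin 2) (j : Fin 7) (b : Fin 7),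
        ‖jd 0 (b : ℕ) (fun y => Y c j y - Y0 B D (slowData c j).1 (slowData c j).2 y) x‖ < η := by
    intro p hp
    obtain ⟨ψ, hψ, hψc, hψS, hψ1⟩ := exists_cutoff (isCompact_singleton (x := p)) isOpen_interior
      (singleton_subset_iff.2 (hKS hp))
    rw [nhdsSet_singleton] at hψ1
    have hd : ∀ (c : Fin 2) (j : Fin 7), ContDiff ℝ ∞ (slowData c j).1 ∧
        ContDiff ℝ ∞ (slowData c j).2 := fun c j => by
      unfold slowData
      split <;> exact ⟨by fun_prop, by fun_prop⟩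
    choose Y G hY hY0 hG hYG hYe using fun (c : Fin 2) (j : Fin 7) =>
      exists_exact D (α := fun x => ψ x * (slowData c j).1 x)
        (β := fun x => ψ x * (slowData c j).2 x) (isClosed_tsupport ψ)
        (hψS.trans interior_subset) hN (hψ.mul (hd c j).1) (hψ.mul (hd c j).2)
        (fun x hx => by simp [image_eq_zero_of_notMem_tsupport hx]) (p 0)
    refine ⟨Y, fun c j => ⟨hY c j, hY0 c j, hYe c j⟩, ?_⟩
    refine eventually_all.2 fun c => eventually_all.2 fun j => eventually_all.2 fun b => ?_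
    have e : (fun y => Y c j y - Y0 B D (slowData c j).1 (slowData c j).2 y) =ᶠ[𝓝 p]
        fun y => xi (p 0) y ^ 1 • G c j y := by
      filter_upwards [eventually_eventually_nhds.2 hψ1] with y hy
      have h2 : (fun x => ψ x * (slowData c j).2 x) =ᶠ[𝓝 y] (slowData c j).2 :=
        hy.mono fun z hz => by simp [hz]
      have h1 : ψ y = 1 := hy.self_of_nhds
      rw [hYG c j y]
      simp [Y0, pd, h2.fderiv_eq, h1]
    have e2 := jd_congr e (b : ℕ)
    have hz : jd 0 (b : ℕ) (fun y => xi (p 0) y ^ 1 • G c j y) p = 0 := by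
      rw [jd_xi_pow (p 0) (hG c j) (b : ℕ)]
      simp [xi]
    have hc : ContinuousAt (jd 0 (b : ℕ) fun y => xi (p 0) y ^ 1 • G c j y) p :=
      (smooth_jd (((xi_smooth (p 0)).pow 1).smul (hG c j)) 0 _).continuous.continuousAt
    have hlt := hc.norm.eventually (gt_mem_nhds (show ‖jd 0 (b : ℕ) _ p‖ < η by
      rw [hz, norm_zero]; exact hη))
    filter_upwards [e2, hlt] with x hx hx'
    rwa [hx]
  choose Y hY hnear using key
  obtain ⟨t, ht⟩ := hK.elim_nhds_subcover' (fun p hp => {x | ∀ (c : Fin 2) (j : Fin 7) (b : Fin 7),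
    ‖jd 0 (b : ℕ) (fun y => Y p hp c j y - Y0 B D (slowData c j).1 (slowData c j).2 y) x‖ < η})
    fun p hp => hnear p hp
  refine ⟨t.card, fun i => Y (t.equivFin.symm i).1.1 (t.equivFin.symm i).1.2, fun i c j => ?_,
    fun x hx => ?_⟩
  · obtain ⟨h1, h2, h3⟩ := hY (t.equivFin.symm i).1.1 (t.equivFin.symm i).1.2 c j
    refine ⟨h1, h2, fun x => ?_⟩
    have e0 := congrFun (h3 x) 0
    have e1 := congrFun (h3 x) 1
    have e2 := congrFun (h3 x) 2
    simp [redV, qOf] at e0 e1 e2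
    refine ⟨by linarith, by linarith, ?_⟩
    rcases e2 with h | h <;> simp [h]
  · obtain ⟨p, hp, hpx⟩ := mem_iUnion₂.1 (ht hx)
    refine ⟨t.equivFin ⟨p, hp⟩, fun c j b hb => ?_⟩
    simp only [Equiv.symm_apply_apply]
    exact (hpx c j ⟨b, by omega⟩).le

end Vale.Agent.P205F.Expand
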