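import Vale.Agent.P205F.Expand.FamParts
import Vale.Agent.P205F.Expand.Est
import Vale.Agent.P205F.Expand.AssemblyTools
import Vale.Agent.P205F.Expand.LinF
import Vale.Agent.P205F.Expand.Point

/-!
# P205, expansions: the reduced linearised metric of a variation is tiny

Near a point of `N` it is a combination of the variations of the reduced errors.
-/

namespace Vale.Agent.P205F.Expand

open scoped ContDiff RealInnerProductSpace Topology
open Filter Set

variable {d : ℕ} {W : Wts d} {J : ℕ}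

/-- Combinations of variations of an error at the level `J`. -/
lemma comb_dk_jet {Φ : Fm d ℝ} (h : Low W J Φ) (hamp : ∀ p k, Adm p → W.amp p k ≤ 1)
    (hfreq : ∀ p k, Adm p → (W.freq p k : ℝ) ≤ Lam W.κ p) :
    ∃ C, 0 ≤ C ∧ ∀ p, Adm p → ∀ l ∈ Box d, ∀ x, ∀ (v : Fin d → ℝ) (q : E2 → ℝ) (a c : ℕ),
      a + c ≤ 11 → (q =ᶠ[𝓝 x] fun y => ∑ k, v k * rl (dk k Φ) p (l, y)) →
      ‖jd a c q x‖ ≤ C * (eps p ^ J * Lam W.κ p ^ 12 * (p.M : ℝ) ^ 11) * ‖v‖ := by
  choose C hC hb using fun (ac : Fin 12 × Fin 12) (k : Fin d) =>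
    low_dk_jet h k (a := (ac.1 : ℕ)) (Nat.lt_succ_iff.1 ac.1.2) (ac.2 : ℕ)
  refine ⟨∑ ac, ∑ k, C ac k, Finset.sum_nonneg fun ac _ => Finset.sum_nonneg fun k _ => hC ac k,
    fun p hp l hl x v q a c hac hq => ?_⟩
  let ac : Fin 12 × Fin 12 := (⟨a, by omega⟩, ⟨c, by omega⟩)
  have hs : ∀ k, ContDiff ℝ ∞ fun y => rl (dk k Φ) p (l, y) := fun k =>
    rl_smooth (fun r => (h.val.js r).dir (pv k)) p l
  have e : jd a c q x = ∑ k, v k * jd a c (fun y => rl (dk k Φ) p (l, y)) x := by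
    rw [jd_congr_at hq]
    show pdm a c (fun y => ∑ k, v k • rl (dk k Φ) p (l, y)) x = _
    rw [Start.Generic.pdm_sum _ fun k _ => (hs k).const_smul (v k)]
    refine Finset.sum_congr rfl fun k _ => ?_
    rw [Start.Generic.pdm_const_smul (hs k)]
    rfl
  set Z := eps p ^ J * Lam W.κ p ^ 12 * (p.M : ℝ) ^ 11
  have hL : 0 ≤ Lam W.κ p := Lam_nonneg _ _
  have hZ : 0 ≤ Z := mul_nonneg (mul_nonneg (pow_nonneg (eps_nonneg p) _) (pow_nonneg hL _))
    (pow_nonneg (Nat.cast_nonneg _) _)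
  have key : ∀ k, eps p ^ J * W.amp p k * W.freq p k * ((p.M : ℝ) * W.freq p k) ^ a ≤ Z := fun k => by
    have h1 : (W.freq p k : ℝ) * ((p.M : ℝ) * W.freq p k) ^ a ≤
        Lam W.κ p ^ 12 * (p.M : ℝ) ^ 11 := by
      calc (W.freq p k : ℝ) * ((p.M : ℝ) * W.freq p k) ^ a
          ≤ Lam W.κ p * ((p.M : ℝ) * Lam W.κ p) ^ a := mul_le_mul (hfreq p k hp)
            (pow_le_pow_left₀ (by positivity) (mul_le_mul_of_nonneg_left (hfreq p k hp)
              (Nat.cast_nonneg _)) a) (by positivity) hL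
        _ ≤ Lam W.κ p * ((p.M : ℝ) * Lam W.κ p) ^ 11 := mul_le_mul_of_nonneg_left
            (pow_le_pow_right₀ (one_le_mul_of_one_le_of_one_le hp.one_le_M (one_le_Lam _ hp))
              (by omega)) hL
        _ = _ := by ring
    calc eps p ^ J * W.amp p k * W.freq p k * ((p.M : ℝ) * W.freq p k) ^ a
        = eps p ^ J * W.amp p k * ((W.freq p k : ℝ) * ((p.M : ℝ) * W.freq p k) ^ a) := by ring
      _ ≤ eps p ^ J * 1 * (Lam W.κ p ^ 12 * (p.M : ℝ) ^ 11) := mul_le_mul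
          (mul_le_mul_of_nonneg_left (hamp p k hp) (pow_nonneg (eps_nonneg p) _)) h1 (by positivity)
          (mul_nonneg (pow_nonneg (eps_nonneg p) _) zero_le_one)
      _ = Z := by simp only [Z]; ring
  have hsum : ∑ k, C ac k ≤ ∑ ac, ∑ k, C ac k :=
    Finset.single_le_sum (f := fun ac => ∑ k, C ac k)
      (fun ac _ => Finset.sum_nonneg fun k _ => hC ac k) (Finset.mem_univ ac)
  rw [e]
  refine (norm_sum_le _ _).trans (le_trans ?_ (mul_le_mul_of_nonneg_right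
    (mul_le_mul_of_nonneg_right hsum hZ) (norm_nonneg v)))
  rw [Finset.sum_mul, Finset.sum_mul]
  refine Finset.sum_le_sum fun k _ => ?_
  rw [norm_mul, mul_comm ‖v k‖]
  exact mul_le_mul ((hb ac k p hp l hl x).trans (mul_le_mul_of_nonneg_left (key k) (hC ac k)))
    (norm_le_pi_norm v k) (norm_nonneg _) (mul_nonneg (hC ac k) hZ)

/-- `VarStmt`. -/
theorem varStmt : VarStmt := by
  intro B f hf hN K hK d W G J hSt hamp hfreq
  obtain ⟨C0, hC0, h0⟩ := comb_dk_jet hSt.l0 hamp hfreq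
  obtain ⟨C1, hC1, h1⟩ := comb_dk_jet hSt.l1 hamp hfreq
  obtain ⟨C2, hC2, h2⟩ := comb_dk_jet hSt.u2.low hamp hfreq
  refine ⟨C0 + C1 + C2, by positivity, fun p hp l hl x hx v => ?_⟩
  set F := famF f G p l
  set w := dlam (famF f G p) l v
  set Z := eps p ^ J * Lam W.κ p ^ 12 * (p.M : ℝ) ^ 11
  have hFs := famF_smooth hf hSt.up.val.js p
  have hw : ContDiff ℝ ∞ w := contDiff_dlam hFs l v
  have hq : ContDiff ℝ ∞ fun y => Lin F w y 2 :=
    (Point.smooth_Lin (contDiff_slice hFs l) hw).2 2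
  have hev : ∀ᶠ y in 𝓝 x, B.X0 y = pd 0 f y ∧ B.X1 y = pd 1 f y :=
    (B.N_open.eventually_mem (hK hx)).mono hN
  have hred := fun y (hy : B.X0 y = pd 0 f y ∧ B.X1 y = pd 1 f y) =>
    Lin_red hf hSt.up p l v hy.1 hy.2
  have up : ∀ {C : ℝ}, C ≤ C0 + C1 + C2 → C * Z * ‖v‖ ≤ (C0 + C1 + C2) * Z * ‖v‖ := fun h =>
    mul_le_mul_of_nonneg_right (mul_le_mul_of_nonneg_right h (mul_nonneg (mul_nonneg
      (pow_nonneg (eps_nonneg p) _) (pow_nonneg (Lam_nonneg _ _) _))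
      (pow_nonneg (Nat.cast_nonneg _) _))) (norm_nonneg v)
  refine ⟨hw, fun a c hac => ?_, fun a c hac => ?_, fun a c hac => ?_⟩
  · exact (h0 p hp l hl x v _ a c hac (hev.mono fun y hy => (hred y hy).1)).trans (up (by linarith))
  · exact (h1 p hp l hl x v _ a c hac (hev.mono fun y hy => (hred y hy).2.1)).trans
      (up (by linarith))
  · rw [← Real.norm_eq_abs, ← norm_smul, ← Pi.smul_apply, ← jd_smul hq]
    exact (h2 p hp l hl x v _ a c hac (hev.mono fun y hy => (hred y hy).2.2)).trans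
      (up (by linarith))

end Vale.Agent.P205F.Expand
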