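import Vale.Agent.P205F.Expand.Assembly
import Vale.Agent.P205F.Expand.Family
import Vale.Agent.P205F.Expand.Env
import Vale.Agent.P205F.Expand.Var
import Vale.Agent.P205F.Expand.Rows
import Vale.Agent.P205F.Expand.RespPt
import Vale.Agent.P205F.Expand.Setup
import Vale.Agent.P205F.Expand.Geom
import Vale.Agent.P205F.Expand.SlowFields
import Vale.Agent.P205F.GoodAlg.Cov
import Vale.Agent.P205F.GoodAlg.RightInv

/-!
# P205, expansions: the expansion of one twist, proved
-/

namespace Vale.Agent.P205F.Expand

/-- The family module, proved. -/
theorem familyStmt : FamilyStmt :=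
  familyStmt_of envStmt varStmt rowsStmt gammaStmt finePtStmt slowPtStmt slowFieldsStmt

/-- THE EXPANSION of one twist, with its family of solvable responses. -/
theorem expandStmt (b : Bool) : ExpandStmt b :=
  expandStmt_of familyStmt setupStmt vFieldStmt geomStmt gdChartStmt transposeStmt b

/-- THE EXPANSION keeping the second fundamental form in the direction of the twist. -/
theorem expandKeepStmt : ExpandKeepStmt :=
  expandKeep_of familyStmt setupStmt vFieldStmt geomStmt gdChartStmt transposeStmt keepGeomStmt

end Vale.Agent.P205F.Expand
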