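import Vale.Agent.P205F.Expand.Cls

/-!
# P205, expansions: the graded algebra of the iteration

`Up W j Φ`: `Φ` and its fast derivative are of size `M^-j`, and for every parameter `k` the
variation of `Φ` in that parameter is of size `M^-(max j Q) A_k L_k^i` after `i ≤ 12` fast
derivatives. `Low W j Φ`: `Φ` is of size `M^-j` and the variation is a fast derivative of such a
term plus such a term; primitives of these with vanishing mean are `Up` again, so the iteration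
does not lose powers of the frequencies `L_k`.
-/

namespace Vale.Agent.P205F.Expand

open scoped ContDiff

/-- `1 / M`. -/
noncomputable def eps (p : Ix) : ℝ := (p.M : ℝ)⁻¹

lemma eps_nonneg (p : Ix) : 0 ≤ eps p := inv_nonneg.2 (Nat.cast_nonneg _)

lemma Adm.M_pos {p : Ix} (h : Adm p) : (0 : ℝ) < p.M := by
  have := h.1
  exact Nat.cast_pos.2 (by omega)

lemma Adm.one_le_M {p : Ix} (h : Adm p) : (1 : ℝ) ≤ p.M := by
  have := h.1
  exact Nat.one_le_cast.2 (by omega)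

lemma eps_le_one {p : Ix} (h : Adm p) : eps p ≤ 1 := inv_le_one_of_one_le₀ h.one_le_M

lemma eps_pow_le {p : Ix} (h : Adm p) {j j' : ℕ} (hj : j' ≤ j) : eps p ^ j ≤ eps p ^ j' :=
  pow_le_pow_of_le_one (eps_nonneg p) (eps_le_one h) hj

/-- The data of the weights: fine exponent, level of the seeds, frequency and amplitude of each
parameter. -/
structure Wts (d : ℕ) where
  /-- fine exponent -/
  κ : ℕ
  /-- level of the parameters -/
  Q : ℕ
  /-- frequencies -/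
  freq : Ix → Fin d → ℕ
  /-- amplitudes -/
  amp : Ix → Fin d → ℝ
  /-- derivatives in the phase free of charge -/
  th : ℕ
  th_le : 14 ≤ th
  amp_nonneg : ∀ p k, 0 ≤ amp p k
  freq_pos : ∀ p k, Adm p → 1 ≤ freq p k

/-- The finest frequency. -/
noncomputable def Lam (κ : ℕ) (p : Ix) : ℝ := (p.M : ℝ) ^ (κ + 1)

lemma Lam_nonneg (κ : ℕ) (p : Ix) : 0 ≤ Lam κ p := pow_nonneg (Nat.cast_nonneg _) _

lemma one_le_Lam (κ : ℕ) {p : Ix} (h : Adm p) : 1 ≤ Lam κ p := one_le_pow₀ h.one_le_M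

variable {d : ℕ}

/-- Weight of values at level `j`. -/
noncomputable def vw (W : Wts d) (j : ℕ) (p : Ix) (i : ℕ) : ℝ :=
  eps p ^ j * Lam W.κ p ^ (i - W.th)

/-- Weight of the variation in the parameter `k` at level `j`. -/
noncomputable def sw (W : Wts d) (k : Fin d) (j : ℕ) (p : Ix) (i : ℕ) : ℝ :=
  eps p ^ max j W.Q * (W.amp p k * (W.freq p k : ℝ) ^ i)

variable {W : Wts d}

lemma vw_nonneg (j : ℕ) (p : Ix) (i : ℕ) : 0 ≤ vw W j p i :=
  mul_nonneg (pow_nonneg (eps_nonneg p) _) (pow_nonneg (Lam_nonneg _ _) _)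

lemma sw_nonneg (k : Fin d) (j : ℕ) (p : Ix) (i : ℕ) : 0 ≤ sw W k j p i :=
  mul_nonneg (pow_nonneg (eps_nonneg p) _)
    (mul_nonneg (W.amp_nonneg p k) (pow_nonneg (Nat.cast_nonneg _) _))

lemma vw_mono {j j' i i' : ℕ} (hj : j' ≤ j) (hi : i ≤ i') {p : Ix} (h : Adm p) :
    vw W j p i ≤ vw W j' p i' :=
  mul_le_mul (eps_pow_le h hj) (pow_le_pow_right₀ (one_le_Lam _ h) (by omega))
    (pow_nonneg (Lam_nonneg _ _) _) (pow_nonneg (eps_nonneg p) _)

lemma vw_small {j : ℕ} {p : Ix} {i : ℕ} (hi : i ≤ W.th) : vw W j p i = eps p ^ j := by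
  simp [vw, Nat.sub_eq_zero_of_le hi]

lemma sw_mono {k : Fin d} {j j' i i' : ℕ} (hj : j' ≤ j) (hi : i ≤ i') {p : Ix} (h : Adm p) :
    sw W k j p i ≤ sw W k j' p i' :=
  mul_le_mul (eps_pow_le h (by omega))
    (mul_le_mul_of_nonneg_left (pow_le_pow_right₀ (by exact_mod_cast W.freq_pos p k h) hi)
      (W.amp_nonneg p k)) (mul_nonneg (W.amp_nonneg p k) (pow_nonneg (Nat.cast_nonneg _) _))
    (pow_nonneg (eps_nonneg p) _)

lemma vw_mul (i j : ℕ) {p : Ix} (h : Adm p) (a b : ℕ) :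
    vw W i p a * vw W j p b ≤ vw W (i + j) p (a + b) := by
  rw [vw, vw, mul_mul_mul_comm, ← pow_add, ← pow_add]
  exact mul_le_mul_of_nonneg_left (pow_le_pow_right₀ (one_le_Lam _ h) (by omega))
    (pow_nonneg (eps_nonneg p) _)

lemma vw_mul_sw (k : Fin d) (i j : ℕ) {p : Ix} (h : Adm p) {a b : ℕ} (hab : a + b ≤ 12) :
    vw W i p a * sw W k j p b ≤ sw W k (i + j) p (a + b) := by
  rw [vw_small ((by omega : a ≤ 14).trans W.th_le), sw, ← mul_assoc, ← pow_add]
  refine mul_le_mul (eps_pow_le h (by omega))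
    (mul_le_mul_of_nonneg_left (pow_le_pow_right₀ (by exact_mod_cast W.freq_pos p k h) (by omega))
      (W.amp_nonneg p k)) (mul_nonneg (W.amp_nonneg p k) (pow_nonneg (Nat.cast_nonneg _) _))
    (pow_nonneg (eps_nonneg p) _)

/-- The direction of a parameter. -/
noncomputable def pv (k : Fin d) : Zv d := (Pi.single k 1, 0)

variable {X Y V : Type} [NormedAddCommGroup X] [NormedSpace ℝ X] [NormedAddCommGroup Y]
  [NormedSpace ℝ Y] [NormedAddCommGroup V] [NormedSpace ℝ V]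

/-- Variation in a parameter. -/
noncomputable def dk (k : Fin d) (Φ : Fm d X) : Fm d X := fun p => dir (pv k) (Φ p)

/-- Fast derivative of a family. -/
noncomputable def dtF (Φ : Fm d X) : Fm d X := fun p => dt (Φ p)

/-- Classes of values. -/
def Vc (W : Wts d) (j : ℕ) (Φ : Fm d X) : Prop := Cls (vw W j) ⊤ Φ

/-- Classes of variations. -/
def Sc (W : Wts d) (k : Fin d) (j : ℕ) (Φ : Fm d X) : Prop := Cls (sw W k j) (12 : ℕ) Φ

/-- Functions at the level `j`, with their fast derivatives. -/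
structure Up (W : Wts d) (j : ℕ) (Φ : Fm d X) : Prop where
  val : Vc W j Φ
  dval : Vc W j (dtF Φ)
  sens : ∀ k, Sc W k j (dk k Φ)

/-- Functions at the level `j` which may be fast derivatives. -/
structure Low (W : Wts d) (j : ℕ) (Φ : Fm d X) : Prop where
  val : Vc W j Φ
  sens : ∀ k, ∃ Ψ : Fm d X, Sc W k j Ψ ∧ Sc W k j (dk k Φ - dtF Ψ)

variable {i j : ℕ} {Φ Φ' : Fm d X}

lemma Vc.mono (h : Vc W j Φ) (hj : i ≤ j) : Vc W i Φ :=
  Cls.mono_le h fun _ _ hp => vw_mono hj le_rfl hp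

lemma Sc.mono {k : Fin d} (h : Sc W k j Φ) (hj : i ≤ j) : Sc W k i Φ :=
  Cls.mono_le h fun _ _ hp => sw_mono hj le_rfl hp

lemma Vc.dt12 (h : Vc W j Φ) : Cls (vw W j) (12 : ℕ) (dtF Φ) :=
  h.deriv (fun _ _ => le_top) fun i hi => ⟨1, zero_le_one, fun p hp => by
    have : i ≤ 12 := WithTop.coe_le_coe.1 hi
    have := W.th_le
    rw [one_mul, vw_small (by omega), vw_small (by omega)]⟩

lemma dtF_zero : dtF (0 : Fm d X) = 0 := by
  funext p; exact zero_dt_iter (d := d) (X := X) 1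

lemma Low.mono (h : Low W j Φ) (hj : i ≤ j) : Low W i Φ :=
  ⟨h.val.mono hj, fun k => by
    obtain ⟨Ψ, h1, h2⟩ := h.sens k
    exact ⟨Ψ, h1.mono hj, h2.mono hj⟩⟩

lemma Up.mono (h : Up W j Φ) (hj : i ≤ j) : Up W i Φ :=
  ⟨h.val.mono hj, h.dval.mono hj, fun k => (h.sens k).mono hj⟩

lemma Up.low (h : Up W j Φ) : Low W j Φ :=
  ⟨h.val, fun k => ⟨0, Cls.zero, by simpa [dtF_zero] using h.sens k⟩⟩

lemma dk_add (k : Fin d) (h : ∀ p, Js (Φ p)) (h' : ∀ p, Js (Φ' p)) :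
    dk k (Φ + Φ') = dk k Φ + dk k Φ' := by
  funext p; exact (h p).dir_add (h' p) _

lemma dtF_add (h : ∀ p, Js (Φ p)) (h' : ∀ p, Js (Φ' p)) : dtF (Φ + Φ') = dtF Φ + dtF Φ' := by
  funext p; exact Js.dt_add (h p) (h' p)

lemma Up.add (h : Up W j Φ) (h' : Up W j Φ') : Up W j (Φ + Φ') :=
  ⟨Cls.add h.val h'.val, by rw [dtF_add h.val.js h'.val.js]; exact Cls.add h.dval h'.dval,
    fun k => by rw [dk_add k h.val.js h'.val.js]; exact Cls.add (h.sens k) (h'.sens k)⟩

lemma Low.add (h : Low W j Φ) (h' : Low W j Φ') : Low W j (Φ + Φ') := by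
  refine ⟨Cls.add h.val h'.val, fun k => ?_⟩
  obtain ⟨A, hA, hR⟩ := h.sens k
  obtain ⟨A', hA', hR'⟩ := h'.sens k
  refine ⟨A + A', Cls.add hA hA', ?_⟩
  rw [dk_add k h.val.js h'.val.js, dtF_add hA.js hA'.js, add_sub_add_comm]
  exact Cls.add hR hR'

lemma dk_clm (k : Fin d) (h : ∀ p, Js (Φ p)) (L : X →L[ℝ] Y) :
    dk k (fun p z t => L (Φ p z t)) = fun p z t => L (dk k Φ p z t) := by
  funext p; exact (h p).dir_clm L _

lemma dtF_clm (h : ∀ p, Js (Φ p)) (L : X →L[ℝ] Y) :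
    dtF (fun p z t => L (Φ p z t)) = fun p z t => L (dtF Φ p z t) := by
  funext p; exact Js.dt_clm (h p) L

lemma Up.clm (h : Up W j Φ) (L : X →L[ℝ] Y) : Up W j fun p z t => L (Φ p z t) :=
  ⟨Cls.clm h.val L, by rw [dtF_clm h.val.js]; exact Cls.clm h.dval L,
    fun k => by rw [dk_clm k h.val.js]; exact Cls.clm (h.sens k) L⟩

lemma Low.clm (h : Low W j Φ) (L : X →L[ℝ] Y) : Low W j fun p z t => L (Φ p z t) := by
  refine ⟨Cls.clm h.val L, fun k => ?_⟩
  obtain ⟨A, hA, hR⟩ := h.sens k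
  refine ⟨fun p z t => L (A p z t), Cls.clm hA L, ?_⟩
  have e := Cls.clm hR L
  rw [dk_clm k h.val.js, dtF_clm hA.js]
  simp only [Pi.sub_apply, map_sub] at e
  exact e

lemma Up.zero : Up W j (0 : Fm d X) := by
  have e : ∀ k, dk k (0 : Fm d X) = 0 := fun k => by funext p z t; simp [dk, Expand.dir]
  exact ⟨Cls.zero, by rw [dtF_zero]; exact Cls.zero, fun k => by rw [e k]; exact Cls.zero⟩

lemma Up.neg (h : Up W j Φ) : Up W j (-Φ) := h.clm (-ContinuousLinearMap.id ℝ X)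

lemma Low.neg (h : Low W j Φ) : Low W j (-Φ) := h.clm (-ContinuousLinearMap.id ℝ X)

lemma Up.sub (h : Up W j Φ) (h' : Up W j Φ') : Up W j (Φ - Φ') := by
  simpa only [sub_eq_add_neg] using h.add h'.neg

lemma Low.sub (h : Low W j Φ) (h' : Low W j Φ') : Low W j (Φ - Φ') := by
  simpa only [sub_eq_add_neg] using h.add h'.neg

/-! ### Products -/

variable {Ψ : Fm d Y} (B : X →L[ℝ] Y →L[ℝ] V)

/-- Pointwise product of two families. -/
noncomputable def mulF (B : X →L[ℝ] Y →L[ℝ] V) (Φ : Fm d X) (Ψ : Fm d Y) : Fm d V :=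
  fun p z t => B (Φ p z t) (Ψ p z t)

lemma dk_mulF (k : Fin d) (h : ∀ p, Js (Φ p)) (h' : ∀ p, Js (Ψ p)) :
    dk k (mulF B Φ Ψ) = mulF B (dk k Φ) Ψ + mulF B Φ (dk k Ψ) := by
  funext p; exact Js.dir_bilin B (h p) (h' p) _

lemma dtF_mulF (h : ∀ p, Js (Φ p)) (h' : ∀ p, Js (Ψ p)) :
    dtF (mulF B Φ Ψ) = mulF B (dtF Φ) Ψ + mulF B Φ (dtF Ψ) := by
  funext p; exact Js.dt_bilin B (h p) (h' p)

lemma Vc.mul (h : Vc W i Φ) (h' : Vc W j Ψ) : Vc W (i + j) (mulF B Φ Ψ) :=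
  Cls.bilin B h h' (vw_nonneg i) (vw_nonneg j) le_rfl le_rfl fun _ a b hp _ => vw_mul i j hp a b

lemma Sc.mul_left {k : Fin d} {Ψ : Fm d Y} (h : Cls (vw W i) (12 : ℕ) Φ) (h' : Sc W k j Ψ) :
    Sc W k (i + j) (mulF B Φ Ψ) :=
  Cls.bilin B h h' (vw_nonneg i) (sw_nonneg k j) le_rfl le_rfl fun _ a b hp hab =>
    vw_mul_sw k i j hp (WithTop.coe_le_coe.1 hab)

lemma Sc.mul_right {k : Fin d} {Ψ : Fm d Y} (h : Sc W k i Φ) (h' : Cls (vw W j) (12 : ℕ) Ψ) :
    Sc W k (i + j) (mulF B Φ Ψ) :=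
  Cls.bilin B h h' (sw_nonneg k i) (vw_nonneg j) le_rfl le_rfl fun p a b hp hab => by
    rw [mul_comm, add_comm i j, add_comm a b]
    exact vw_mul_sw k j i hp (add_comm a b ▸ WithTop.coe_le_coe.1 hab)

lemma Vc.to12 (h : Vc W j Φ) : Cls (vw W j) (12 : ℕ) Φ :=
  Cls.mono (N' := (12 : ℕ)) h le_top fun _ _ => ⟨1, zero_le_one, fun _ _ => by simp⟩

theorem Up.mul (h : Up W i Φ) (h' : Up W j Ψ) : Up W (i + j) (mulF B Φ Ψ) := by
  refine ⟨h.val.mul B h'.val, ?_, fun k => ?_⟩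
  · rw [dtF_mulF B h.val.js h'.val.js]
    exact Cls.add (h.dval.mul B h'.val) (h.val.mul B h'.dval)
  · rw [dk_mulF B k h.val.js h'.val.js]
    exact Cls.add ((h.sens k).mul_right B h'.val.to12) (Sc.mul_left B h.val.to12 (h'.sens k))

theorem Low.mul (h : Low W i Φ) (h' : Low W j Ψ) : Low W (i + j) (mulF B Φ Ψ) := by
  refine ⟨h.val.mul B h'.val, fun k => ?_⟩
  obtain ⟨A, hA, hR⟩ := h.sens k
  obtain ⟨A', hA', hR'⟩ := h'.sens k
  refine ⟨mulF B A Ψ + mulF B Φ A',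
    Cls.add (hA.mul_right B h'.val.to12) (Sc.mul_left B h.val.to12 hA'), ?_⟩
  have e : dk k (mulF B Φ Ψ) - dtF (mulF B A Ψ + mulF B Φ A') =
      (mulF B (dk k Φ - dtF A) Ψ - mulF B A (dtF Ψ)) +
        (mulF B Φ (dk k Ψ - dtF A') - mulF B (dtF Φ) A') := by
    rw [dtF_add (Φ := mulF B A Ψ) (Φ' := mulF B Φ A') (fun p => Js.bilin B (hA.js p) (h'.val.js p))
      (fun p => Js.bilin B (h.val.js p) (hA'.js p)), dk_mulF B k h.val.js h'.val.js,
      dtF_mulF B hA.js h'.val.js, dtF_mulF B h.val.js hA'.js]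
    funext p z t
    simp [mulF]
    abel
  rw [e]
  exact Cls.add (Cls.sub (hR.mul_right B h'.val.to12) (hA.mul_right B h'.val.dt12))
    (Cls.sub (Sc.mul_left B h.val.to12 hR') (Sc.mul_left B h.val.dt12 hA'))

/-! ### Derivatives, means, primitives -/

/-- Derivative in the point along `v`. -/
noncomputable def dx (v : E2) (Φ : Fm d X) : Fm d X := fun p => dir ((0 : Fin d → ℝ), v) (Φ p)

lemma dk_dx (k : Fin d) (v : E2) (h : ∀ p, Js (Φ p)) : dk k (dx v Φ) = dx v (dk k Φ) := by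
  funext p; exact (h p).dir_dir _ _

lemma dtF_dx (v : E2) (h : ∀ p, Js (Φ p)) : dtF (dx v Φ) = dx v (dtF Φ) := by
  funext p; exact (h p).dt_dir _

lemma Up.dx (h : Up W j Φ) (v : E2) : Up W j (Expand.dx v Φ) :=
  ⟨Cls.dir h.val _, by rw [dtF_dx v h.val.js]; exact Cls.dir h.dval _,
    fun k => by rw [dk_dx k v h.val.js]; exact Cls.dir (h.sens k) _⟩

lemma Low.dx (h : Low W j Φ) (v : E2) : Low W j (Expand.dx v Φ) := by
  refine ⟨Cls.dir h.val _, fun k => ?_⟩
  obtain ⟨A, hA, hR⟩ := h.sens k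
  refine ⟨Expand.dx v A, Cls.dir hA _, ?_⟩
  have e : dk k (Expand.dx v Φ) - dtF (Expand.dx v A) = Expand.dx v (dk k Φ - dtF A) := by
    have hd : ∀ p, dk k Φ p = (dk k Φ - dtF A) p + dtF A p := fun p => by simp
    rw [dk_dx k v h.val.js, dtF_dx v hA.js]
    funext p
    simp only [Pi.sub_apply]
    rw [sub_eq_iff_eq_add]
    show Expand.dir _ (dk k Φ p) = Expand.dir _ ((dk k Φ - dtF A) p) + Expand.dir _ (dtF A p)
    rw [← Js.dir_add (Ψ := dtF A p) (hR.js p) ((hA.js p).dt), ← hd p]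
  rw [e]
  exact Cls.dir hR _

lemma Up.dt (h : Up W j Φ) : Low W j (dtF Φ) := by
  refine ⟨h.dval, fun k => ⟨dk k Φ, h.sens k, ?_⟩⟩
  have e : dk k (dtF Φ) = dtF (dk k Φ) := by
    funext p; exact ((h.val.js p).dt_dir _).symm
  rw [e, sub_self]
  exact Cls.zero

variable [CompleteSpace X]

/-- The mean, as a family. -/
noncomputable def meanF (Φ : Fm d X) : Fm d X := fun p z _ => mean (Φ p) z

/-- The oscillating part. -/
noncomputable def oscF (Φ : Fm d X) : Fm d X := Φ - meanF Φ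

/-- The primitive, as a family. -/
noncomputable def primF (Φ : Fm d X) : Fm d X := fun p => prim (Φ p)

lemma dk_meanF (k : Fin d) (h : ∀ p, Js (Φ p)) : dk k (meanF Φ) = meanF (dk k Φ) := by
  funext p z t; exact dir_mean (h p) _ z

omit [NormedSpace ℝ Y] in
lemma dtF_meanF : dtF (meanF Φ) = 0 := by
  funext p z t; exact deriv_const t (mean (Φ p) z)

theorem Low.mean (h : Low W j Φ) : Up W j (meanF Φ) := by
  refine ⟨Cls.mean h.val (fun p => vw_nonneg j p 0) fun _ _ => le_rfl,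
    by rw [dtF_meanF]; exact Cls.zero, fun k => ?_⟩
  obtain ⟨A, hA, hR⟩ := h.sens k
  have e : dk k (meanF Φ) = meanF (dk k Φ - dtF A) := by
    rw [dk_meanF k h.val.js]
    funext p z t
    show Expand.mean (dk k Φ p) z = Expand.mean ((dk k Φ - dtF A) p) z
    conv_lhs => rw [show dk k Φ p = (dk k Φ - dtF A) p + dtF A p by simp]
    rw [mean_add (Ψ := dtF A p) (hR.js p) ((hA.js p).dt), Pi.add_apply]
    exact add_eq_left.2 (mean_dt (hA.js p) (hA.per p) z)
  rw [e]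
  exact Cls.mono (Cls.mean (w₂ := sw W k j) hR (fun p => sw_nonneg k j p 0) fun _ _ => le_rfl)
    le_top fun _ _ => ⟨1, zero_le_one, fun _ _ => by simp⟩

lemma Low.osc (h : Low W j Φ) : Low W j (oscF Φ) := h.sub h.mean.low

omit [NormedSpace ℝ Y] in
lemma mean_meanF (p : Ix) (z : Zv d) : Expand.mean (meanF Φ p) z = Expand.mean (Φ p) z :=
  mean_slow _ z

lemma mean_oscF (h : ∀ p, Js (Φ p)) (p : Ix) (z : Zv d) : Expand.mean (oscF Φ p) z = 0 := by
  have hm : Js (meanF Φ p) := (mean_smooth (h p)).comp contDiff_fst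
  show ∫ s in (0 : ℝ)..1, Φ p z s - meanF Φ p z s = 0
  rw [intervalIntegral.integral_sub ((Js.fast (h p) z).continuous.intervalIntegrable 0 1)
    ((hm.fast z).continuous.intervalIntegrable 0 1)]
  exact sub_eq_zero.2 (mean_meanF p z).symm

lemma dtF_primF (h : ∀ p, Js (Φ p)) : dtF (primF Φ) = Φ := by
  funext p; exact dt_prim (h p)

/-- Primitives lose nothing. -/
theorem Low.prim (h : Low W j Φ) (h0 : ∀ p z, Expand.mean (Φ p) z = 0) : Up W j (primF Φ) := by
  refine ⟨Cls.prim h.val h0 (vw_nonneg j) (fun _ _ => le_top) (fun _ _ => le_rfl)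
    fun i _ => ⟨1, zero_le_one, fun p hp => by rw [one_mul]; exact vw_mono le_rfl (by omega) hp⟩,
    by rw [dtF_primF h.val.js]; exact h.val, fun k => ?_⟩
  obtain ⟨A, hA, hR⟩ := h.sens k
  have hm : ∀ p z, Expand.mean ((dk k Φ - dtF A) p) z = 0 := fun p z => by
    have h1 : Expand.mean (dk k Φ p) z = 0 := by
      rw [← show (meanF (dk k Φ)) p z 0 = Expand.mean (dk k Φ p) z from rfl,
        ← dk_meanF k h.val.js]
      have : meanF Φ p = 0 := by funext y s; exact h0 p y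
      show Expand.dir (pv k) (meanF Φ p) z 0 = 0
      rw [this]
      simp [Expand.dir]
    have h2 := mean_add (hR.js p) (hA.js p).dt
    rw [show (dk k Φ - dtF A) p + Expand.dt (A p) = dk k Φ p by simp [dtF]] at h2
    simpa [h1, mean_dt (hA.js p) (hA.per p) z] using (congrFun h2 z).symm
  have e : dk k (primF Φ) = (A - meanF A) + primF (dk k Φ - dtF A) := by
    funext p
    show Expand.dir _ (Expand.prim (Φ p)) = _
    rw [dir_prim (h.val.js p)]
    conv_lhs => rw [show Expand.dir (pv k) (Φ p) = dtF A p + (dk k Φ - dtF A) p by simp [dk]]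
    rw [prim_add (Φ := dtF A p) ((hA.js p).dt) (hR.js p)]
    funext z t
    show Expand.prim (Expand.dt (A p)) z t + _ = _
    rw [prim_dt (hA.js p)]
    rfl
  rw [e]
  refine Cls.add (Cls.sub hA ?_) ?_
  · exact Cls.mono (Cls.mean (w₂ := sw W k j) hA (fun p => sw_nonneg k j p 0) fun _ _ => le_rfl)
      le_top fun _ _ => ⟨1, zero_le_one, fun _ _ => by simp⟩
  · refine Cls.prim hR hm (sw_nonneg k j) (fun i hi => ?_) (fun _ _ => le_rfl)
      fun i _ => ⟨1, zero_le_one, fun p hp => by rw [one_mul]; exact sw_mono le_rfl (by omega) hp⟩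
    exact le_trans (WithTop.coe_le_coe.2 i.le_succ) hi

/-! ### Powers of the frequency, coefficients -/

omit [CompleteSpace X] in
lemma Cls.smul_ix {wt w₂ : Ix → ℕ → ℝ} {N : ℕ∞} (h : Cls wt N Φ) (c : Ix → ℝ)
    (hc : ∀ p i, Adm p → |c p| * wt p i ≤ w₂ p i) : Cls w₂ N fun p z t => c p • Φ p z t := by
  refine ⟨fun p => (h.js p).clm (c p • ContinuousLinearMap.id ℝ X),
    fun p z t => by simp only [h.per p z t], fun a i hi => ?_⟩
  obtain ⟨C, hC, hb⟩ := h.bd a i hi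
  refine ⟨C, hC, fun p hp z hz t => ?_⟩
  have e : (fun z t => c p • Φ p z t) =
      fun z t => (c p • ContinuousLinearMap.id ℝ X) (Φ p z t) := rfl
  rw [e, Js.dt_iter_clm i (h.js p)]
  refine (((c p • ContinuousLinearMap.id ℝ X)).norm_iteratedFDeriv_comp_left
    ((h.js p).contDiffAt_dt a i t z) le_rfl).trans ?_
  refine le_trans (mul_le_mul_of_nonneg_right (norm_smul_le _ _ |>.trans
    (mul_le_of_le_one_right (norm_nonneg _) ContinuousLinearMap.norm_id_le)) (norm_nonneg _)) ?_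
  rw [Real.norm_eq_abs]
  calc |c p| * _ ≤ |c p| * (C * wt p i) := mul_le_mul_of_nonneg_left (hb p hp z hz t) (abs_nonneg _)
    _ = C * (|c p| * wt p i) := by ring
    _ ≤ C * w₂ p i := mul_le_mul_of_nonneg_left (hc p i hp) hC

omit [CompleteSpace X] in
lemma dk_smul_ix (k : Fin d) (h : ∀ p, Js (Φ p)) (c : Ix → ℝ) :
    dk k (fun p z t => c p • Φ p z t) = fun p z t => c p • dk k Φ p z t := by
  funext p; exact (h p).dir_clm (c p • ContinuousLinearMap.id ℝ X) _

omit [CompleteSpace X] in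
lemma dtF_smul_ix (h : ∀ p, Js (Φ p)) (c : Ix → ℝ) :
    dtF (fun p z t => c p • Φ p z t) = fun p z t => c p • dtF Φ p z t := by
  funext p; exact Js.dt_clm (h p) (c p • ContinuousLinearMap.id ℝ X)

omit [CompleteSpace X] in
theorem Up.smul_ix (h : Up W i Φ) (c : Ix → ℝ)
    (hc : ∀ p, Adm p → |c p| * eps p ^ i ≤ eps p ^ j ∧
      |c p| * eps p ^ max i W.Q ≤ eps p ^ max j W.Q) :
    Up W j fun p z t => c p • Φ p z t := by
  have h1 : ∀ p a, Adm p → |c p| * vw W i p a ≤ vw W j p a := fun p a hp => by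
    rw [vw, ← mul_assoc]
    exact mul_le_mul_of_nonneg_right (hc p hp).1 (pow_nonneg (Lam_nonneg _ _) _)
  refine ⟨Cls.smul_ix h.val c h1, ?_, fun k => ?_⟩
  · rw [dtF_smul_ix h.val.js]; exact Cls.smul_ix h.dval c h1
  · rw [dk_smul_ix k h.val.js]
    refine Cls.smul_ix (h.sens k) c fun p a hp => ?_
    rw [sw, ← mul_assoc]
    exact mul_le_mul_of_nonneg_right (hc p hp).2
      (mul_nonneg (W.amp_nonneg p k) (pow_nonneg (Nat.cast_nonneg _) _))

omit [CompleteSpace X] in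
/-- One factor `1/M`. -/
theorem Up.eps_smul (h : Up W j Φ) : Up W (j + 1) fun p z t => eps p • Φ p z t :=
  h.smul_ix eps fun p hp => by
    rw [abs_of_nonneg (eps_nonneg p)]
    exact ⟨le_of_eq (pow_succ' (eps p) j).symm, by
      rw [← pow_succ']; exact eps_pow_le hp (by omega)⟩

omit [CompleteSpace X] in
/-- One factor `1/M`. -/
theorem Low.eps_smul (h : Low W j Φ) : Low W (j + 1) fun p z t => eps p • Φ p z t := by
  have hc : ∀ p, Adm p → |eps p| * eps p ^ j ≤ eps p ^ (j + 1) ∧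
      |eps p| * eps p ^ max j W.Q ≤ eps p ^ max (j + 1) W.Q := fun p hp => by
    rw [abs_of_nonneg (eps_nonneg p)]
    exact ⟨le_of_eq (pow_succ' (eps p) j).symm, by
      rw [← pow_succ']; exact eps_pow_le hp (by omega)⟩
  have h2 : ∀ k p a, Adm p → |eps p| * sw W k j p a ≤ sw W k (j + 1) p a := fun k p a hp => by
    rw [sw, ← mul_assoc]
    exact mul_le_mul_of_nonneg_right (hc p hp).2
      (mul_nonneg (W.amp_nonneg p k) (pow_nonneg (Nat.cast_nonneg _) _))
  refine ⟨Cls.smul_ix h.val eps fun p a hp => ?_, fun k => ?_⟩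
  · rw [vw, ← mul_assoc]
    exact mul_le_mul_of_nonneg_right (hc p hp).1 (pow_nonneg (Lam_nonneg _ _) _)
  obtain ⟨A, hA, hR⟩ := h.sens k
  refine ⟨fun p z t => eps p • A p z t, Cls.smul_ix hA eps (h2 k), ?_⟩
  have e := Cls.smul_ix hR eps (h2 k)
  rw [dk_smul_ix k h.val.js, dtF_smul_ix hA.js]
  simp only [Pi.sub_apply, smul_sub] at e
  exact e

omit [CompleteSpace X] in
/-- One factor `M`: allowed above the level of the parameters. -/
theorem Up.M_smul (h : Up W (j + 1) Φ) (hQ : W.Q ≤ j) : Up W j fun p z t => (p.M : ℝ) • Φ p z t :=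
  h.smul_ix (fun p => (p.M : ℝ)) fun p hp => by
    have e : (p.M : ℝ) * eps p ^ (j + 1) = eps p ^ j := by
      rw [pow_succ', ← mul_assoc, eps, mul_inv_cancel₀ hp.M_pos.ne', one_mul]
    rw [Nat.abs_cast, max_eq_left hQ, max_eq_left (by omega : W.Q ≤ j + 1)]
    exact ⟨e.le, e.le⟩

omit [CompleteSpace X] in
/-- Families independent of the parameters. -/
theorem Up.of_const (h : Vc W j Φ) (h' : Vc W j (dtF Φ)) (hl : ∀ k, dk k Φ = 0) : Up W j Φ :=
  ⟨h, h', fun k => by rw [hl k]; exact Cls.zero⟩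

omit [CompleteSpace X] in
/-- Coefficients. -/
theorem Up.coef {c : E2 → ℝ → X} (hs : Js c) (hp : Per c) {K : Set E2} (hK : IsCompact K)
    (h0 : ∀ x ∉ K, ∀ t, c x t = 0) : Up W 0 fun (_ : Ix) (z : Zv d) t => c z.2 t := by
  have hv : ∀ {Φ : Fm d X}, Cls (fun _ _ => (1 : ℝ)) ⊤ Φ → Vc W 0 Φ := fun h =>
    Cls.mono_le h fun p i hp => by
      simpa [vw] using one_le_pow₀ (one_le_Lam W.κ hp)
  have hd : Cls (fun _ _ => (1 : ℝ)) ⊤ fun (_ : Ix) (z : Zv d) t => Expand.dt c z.2 t :=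
    Cls.coef hs.dt hp.dt hK fun x hx t => by
      simp only [Expand.dt, show c x = fun _ => (0 : X) from funext (h0 x hx), deriv_const]
  refine Up.of_const (hv (Cls.coef hs hp hK h0)) (hv hd) fun k => ?_
  funext p z t
  show fderiv ℝ (fun y : Zv d => c y.2 t) z (pv k) = 0
  rw [show (fun y : Zv d => c y.2 t) = (fun x => c x t) ∘ ContinuousLinearMap.snd ℝ _ E2 from rfl,
    fderiv_comp z ((hs.slow t).differentiable (by norm_num) _) (ContinuousLinearMap.differentiableAt _)]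
  simp [pv, fderiv_snd]

end Vale.Agent.P205F.Expand
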