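import Vale.Agent.P205F.Expand.Step

/-!
# P205, expansions: start, iteration, parameters

The start is the primitive of the loop; `lift` turns an expansion without parameters into one with
parameters, and `parF` adds parameters linearly. The seeds are kernel fields of the oscillating
equations, so they keep the reduced errors one level above their own size.
-/

namespace Vale.Agent.P205F.Expand

open scoped ContDiff RealInnerProductSpace Topology
open Filter Set

variable {d : ℕ} {W : Wts d} {i j : ℕ} {B : Base}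

lemma St.congr_level {j' k k' n n' m m' : ℕ} {G : Fm d R4} (h : St B W j k n m G) (hj : j' ≤ j)
    (hk : k' ≤ k) (hn : n' ≤ n) (hm : m' ≤ m) : St B W j' k' n' m' G :=
  ⟨h.up, h.g, h.off, h.l0.mono hj, h.l1.mono hj, h.u2.mono hk, h.o2.mono hn, h.m0.mono hm,
    h.m1.mono hm, h.m2.mono hm⟩

/-- Iteration. -/
theorem iterate {G : Fm d R4} (h : St B W j j (j + 1) j G) (hj : 1 ≤ j) (hQ : W.Q + 1 ≤ j) :
    ∀ n, ∃ G', St B W (j + n) (j + n) (j + n + 1) (j + n) G' ∧ Up W (j - 1) (G' - G) ∧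
      (B.χ = 0 → ∀ p z t, ⟪B.V z.2, dtF (G' - G) p z t⟫ = 0) := by
  intro n
  induction n with
  | zero =>
    exact ⟨G, h, by rw [sub_self]; exact Up.zero, fun _ p z t => by simp [dtF_zero]⟩
  | succ n ih =>
    obtain ⟨G1, h1, hd1, hv1⟩ := ih
    obtain ⟨G2, h2, hd2, hv2⟩ := step (i := j + n - 1)
      (h1.congr_level le_rfl le_rfl le_rfl (by omega)) (by omega) (by omega) (by omega) (by omega)
    have e : G2 - G = (G2 - G1) + (G1 - G) := by abel
    refine ⟨G2, h2, ?_, fun hχ p z t => ?_⟩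
    · rw [e]; exact (hd2.mono (by omega)).add hd1
    · rw [e, dtF_add hd2.val.js hd1.val.js]
      simp [inner_add_right, hv1 hχ p z t, hv2 hχ p z t]

/-- The start. -/
noncomputable def start (d : ℕ) (B : Base) : Fm d R4 := primF (gF d B)

lemma gF_mean (p : Ix) (z : Zv d) : Expand.mean (gF d B p) z = 0 := B.g0_mean z.2

lemma start_up : Up W 0 (start d B) :=
  (Up.cf B.g0_coef).low.prim gF_mean

lemma dtF_start : dtF (start d B) = gF d B :=
  dtF_primF (Up.cf (W := (⟨0, 0, fun _ _ => 1, fun _ _ => 0, 14, le_rfl, fun _ _ => le_rfl,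
    fun _ _ _ => le_rfl⟩ : Wts d)) B.g0_coef).val.js

lemma start_perp (p : Ix) (z : Zv d) (t : ℝ) : ⟪B.X1 z.2, start d B p z t⟫ = 0 ∧
    (B.χ ≠ 0 → ⟪B.V z.2, start d B p z t⟫ = 0) := by
  have hj : Js (gF d B p) := B.g0_coef.js.pull (ContinuousLinearMap.snd ℝ (Fin d → ℝ) E2)
  have h : ∀ c : R4, (∀ s, ⟪c, B.g0 z.2 s⟫ = 0) → ⟪c, start d B p z t⟫ = 0 := fun c hc => by
    have e := (prim_clm (Φ := gF d B p) hj (ipL c) z t).symm
    refine e.trans ?_
    rw [prim_congr (Ψ := fun (_ : Zv d) (_ : ℝ) => (0 : ℝ)) (funext fun s => hc s)]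
    simp [Expand.prim, int0, Expand.mean]
  exact ⟨h _ fun s => B.loop_perp z.2 s, fun _ => h _ fun s => B.loop_perp' z.2 s⟩

/-- The start is at level one, with oscillation of `r2` at level two. -/
theorem start_st : St B W 1 1 2 1 (start d B) := by
  set G := start d B with hG
  have hU : Up W 0 G := start_up
  have hgz : dtF G - gF d B = 0 := by rw [hG, dtF_start, sub_self]
  have hoff : Off B.S G := fun p z t hz => by
    simp [hG, start, primF, Expand.prim, int0, Expand.mean, gF, cf, B.g0_zero z.2 hz]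
  set X0F : Fm d R4 := cf d fun x _ => B.X0 x with hX0F
  set X1F : Fm d R4 := cf d fun x _ => B.X1 x with hX1F
  set gx : Fm d R4 := fun p z t => eps p • dx (ev 0) G p z t with hgx
  have hgxU : Up W 1 gx := hU.dx0_smul
  have hr : Up W 0 (rF d B) := Up.cf B.r_coef
  have h1U : Up W 1 (h1 G) := hU.h1
  have hgL : Low W 0 (gF d B) := (Up.cf B.g0_coef).low
  set E2 : Fm d ℝ := ip X1F (h1 G) + ip X1F (h1 G) + ip (h1 G) (h1 G) with hE2
  have hE2U : Up W 1 E2 := ((((Up.cf B.X1_coef).ip h1U).mono (by omega)).add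
    (((Up.cf B.X1_coef).ip h1U).mono (by omega))).add ((h1U.ip h1U).mono (by omega))
  have he2 : ∀ p z t, e2 B G p z t = E2 p z t := fun p z t => by
    simp only [e2, hE2, Pi.add_apply, ip_apply, hX1F, cf]; ring
  set E0 : Fm d ℝ := ip X0F gx + ip X0F gx + (ip (gF d B) gx + ip (gF d B) gx) + ip gx gx -
    sm (sm (rF d B) (rF d B)) E2 with hE0
  set E1 : Fm d ℝ := ip X0F (h1 G) + ip X1F gx + ip (gF d B) (h1 G) + ip gx (h1 G) -
    sm (rF d B) E2 with hE1
  have hE0L : Low W 1 E0 :=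
    ((((((Up.cf B.X0_coef).ip hgxU).low.mono (by omega)).add
      (((Up.cf B.X0_coef).ip hgxU).low.mono (by omega))).add
      (((hgL.ip hgxU.low).mono (by omega)).add ((hgL.ip hgxU.low).mono (by omega)))).add
      ((hgxU.ip hgxU).low.mono (by omega))).sub (((hr.sm hr).sm hE2U).low.mono (by omega))
  have hE1L : Low W 1 E1 :=
    ((((((Up.cf B.X0_coef).ip h1U).low.mono (by omega)).add
      (((Up.cf B.X1_coef).ip hgxU).low.mono (by omega))).add
      ((hgL.ip h1U.low).mono (by omega))).add ((hgxU.ip h1U).low.mono (by omega))).sub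
      ((hr.sm hE2U).low.mono (by omega))
  have hh0 : ∀ p z t, h0 G p z t = B.g0 z.2 t + gx p z t := fun p z t => by
    show dtF G p z t + gx p z t = _
    rw [hG, dtF_start]; rfl
  have er0 : r0 B G = E0 := by
    funext p z t
    simp only [r0, e0, he2, hh0, hE0, Pi.add_apply, Pi.sub_apply, ip_apply, sm_apply, rF, gF, cf,
      hX0F, inner_add_left, inner_add_right, smul_eq_mul]
    rw [real_inner_comm (B.g0 z.2 t) (gx p z t)]
    linear_combination B.loop_len z.2 t
  have er1 : r1 B G = E1 := by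
    funext p z t
    simp only [r1, e1, he2, hh0, hE1, Pi.add_apply, Pi.sub_apply, ip_apply, sm_apply, rF, gF, cf,
      hX0F, hX1F, inner_add_left, inner_add_right, smul_eq_mul]
    linear_combination B.loop_perp z.2 t
  have er2 : r2 B G = fun p z t => B.χ • ip (h1 G) (h1 G) p z t := by
    funext p z t
    simp only [r2, e2, ip_apply, smul_eq_mul]
    by_cases hχ : B.χ = 0
    · simp [hχ]
    have hz0 : ⟪B.X1 z.2, dx (ev 1) G p z t⟫ = 0 := by
      by_cases hz : z.2 ∈ B.N
      · obtain ⟨c, hc⟩ := B.V_eq hχ z.2 hz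
        have hs : ContDiff ℝ ∞ fun y => G p (z.1, y) t :=
          ((hU.val.js p).slow t).comp (contDiff_const.prodMk contDiff_id)
        have hX : ContDiff ℝ ∞ B.X1 :=
          B.X1_coef.js.comp (contDiff_id.prodMk (contDiff_const (c := (0 : ℝ))))
        have h0' : fderiv ℝ (fun y => ⟪B.X1 y, G p (z.1, y) t⟫) z.2 (ev 1) = 0 := by
          rw [show (fun y => ⟪B.X1 y, G p (z.1, y) t⟫) = fun _ => (0 : ℝ) from
            funext fun y => (start_perp p (z.1, y) t).1]
          simp
        rw [fderiv_inner_apply ℝ (hX.differentiable (by norm_num) _)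
          (hs.differentiable (by norm_num) _)] at h0'
        rw [show fderiv ℝ (fun y => G p (z.1, y) t) z.2 (ev 1) = dx (ev 1) G p z t from
            pd_slice hU.val.js p z.1 z.2 t 1,
          show fderiv ℝ B.X1 z.2 (ev 1) = pd 1 B.X1 z.2 from rfl, hc, inner_add_left,
          inner_smul_left, (start_perp p z t).1, (start_perp p z t).2 hχ] at h0'
        simpa using h0'
      · exact by simp [(hoff.dx B.S_closed (ev 1)) p z t fun h => hz (B.S_sub h)]
    have hh1 : ⟪B.X1 z.2, h1 G p z t⟫ = 0 := by simp [h1, inner_smul_right, hz0]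
    rw [hh1]; ring
  have hr2 : Up W 2 (r2 B G) := by rw [er2]; exact ((h1U.ip h1U).mono (by omega)).csmul _
  exact ⟨hU, by rw [hgz]; exact Up.zero.low, hoff, by rw [er0]; exact hE0L,
    by rw [er1]; exact hE1L, hr2.mono (by omega), hr2.sub hr2.low.mean,
    by rw [er0]; exact hE0L.mean, by rw [er1]; exact hE1L.mean, (hr2.low.mean).mono (by omega)⟩

/-- Any change at level one keeps the start, when errors along `ν` are allowed. -/
theorem St.perturb_one {G U : Fm d R4} (h : St B W 1 1 2 1 G) (hU : Up W 1 U) (hUo : Off B.S U)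
    (hχ : B.χ = 0) : St B W 1 1 2 1 (G + U) := by
  obtain ⟨E0, E1, B2, hE0, hE1, -, q0, q1, -⟩ := Expand.perturb (B := B) h.up h.g hU le_rfl
  set u := dtF U
  have huL : Low W 1 u := hU.dt
  set P0 : Fm d R4 := cf d (fun x _ => B.X0 x) + gF d B
  have hP0 : Up W 0 P0 := (Up.cf B.X0_coef).add (Up.cf B.g0_coef)
  have hL0 : Low W 1 (r0 B (G + U)) := by
    rw [show r0 B (G + U) = r0 B G + (ip P0 u + ip P0 u) + E0 by
      funext p z t; rw [q0]; simp [P0, ip_apply, cf, gF]; ring]
    exact (h.l0.add (((hP0.low.ip huL).mono (by omega)).add ((hP0.low.ip huL).mono (by omega)))).add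
      (hE0.mono (by omega))
  have hL1 : Low W 1 (r1 B (G + U)) := by
    rw [show r1 B (G + U) = r1 B G + ip (cf d fun x _ => B.X1 x) u + E1 by
      funext p z t; rw [q1]; simp [ip_apply, cf]]
    exact (h.l1.add (((Up.cf B.X1_coef).low.ip huL).mono (by omega))).add (hE1.mono (by omega))
  have hr2 : r2 B (G + U) = 0 := by funext p z t; simp [r2, hχ]
  refine ⟨h.up.add (hU.mono (Nat.zero_le _)), ?_, h.off.add hUo, hL0, hL1, by rw [hr2]; exact Up.zero,
    ?_, hL0.mean, hL1.mean, ?_⟩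
  · rw [dtF_add h.up.val.js hU.val.js, add_sub_right_comm]; exact h.g.add huL
  · rw [hr2]; exact Up.zero.sub Up.zero.low.mean
  · rw [hr2]; exact Up.zero.low.mean

/-! ### Lifting -/

/-- A family without parameters as a family with parameters. -/
def liftF {X : Type} (d : ℕ) (G : Fm 0 X) : Fm d X := fun p z t => G p (0, z.2) t

/-- The projection used by `liftF`. -/
noncomputable def liftL (d : ℕ) : Zv d →L[ℝ] Zv 0 :=
  (0 : Zv d →L[ℝ] (Fin 0 → ℝ)).prod (ContinuousLinearMap.snd ℝ _ E2)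

lemma liftF_eq {X : Type} (G : Fm 0 X) : liftF d G = fun p z t => G p (liftL d z) t := rfl

section Lift

variable {X : Type} [NormedAddCommGroup X] [NormedSpace ℝ X] {W₀ : Wts 0} {G : Fm 0 X}

lemma Cls.lift {wt : Ix → ℕ → ℝ} {N : ℕ∞} (h : Cls wt N G) : Cls wt N (liftF d G) := by
  refine ⟨fun p => (h.js p).pull (liftL d), fun p z t => h.per p _ t, fun a i hi => ?_⟩
  obtain ⟨C, hC, hb⟩ := h.bd a i hi
  refine ⟨C, hC, fun p hp z _ t => ?_⟩
  rw [liftF_eq, dt_iter_pull]
  rw [show (fun y => dt^[i] (G p) (liftL d y) t) = (fun y => dt^[i] (G p) y t) ∘ liftL d from rfl,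
    ContinuousLinearMap.iteratedFDeriv_comp_right _ (((h.js p).dt_iter i).slow t) _
      (by exact_mod_cast le_top)]
  refine (ContinuousMultilinearMap.norm_compContinuousLinearMap_le _ _).trans ?_
  refine le_trans (mul_le_of_le_one_right (norm_nonneg _) (Finset.prod_le_one
    (fun _ _ => ContinuousLinearMap.opNorm_nonneg _)
    fun _ _ => ContinuousLinearMap.opNorm_le_bound _ zero_le_one fun y => ?_))
    (hb p hp (liftL d z) (fun k => k.elim0) t)
  rw [one_mul, Prod.norm_def]
  exact max_le (by rw [Subsingleton.elim (liftL d y).1 0, norm_zero]; exact norm_nonneg y)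
    (norm_snd_le y)

lemma dtF_lift : dtF (liftF d G) = liftF d (dtF G) := rfl

lemma dk_lift (h : ∀ p, Js (G p)) (k : Fin d) : dk k (liftF d G) = 0 := by
  funext p z t
  show fderiv ℝ ((fun y => G p y t) ∘ liftL d) z (pv k) = 0
  rw [fderiv_comp z (((h p).slow t).differentiable (by norm_num) _) (liftL d).differentiableAt,
    ContinuousLinearMap.fderiv, ContinuousLinearMap.comp_apply,
    show liftL d (pv k) = 0 from Prod.ext (Subsingleton.elim _ _) rfl, map_zero]

lemma dx_lift (h : ∀ p, Js (G p)) (v : E2) : dx v (liftF d G) = liftF d (dx v G) := by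
  funext p z t
  show fderiv ℝ ((fun y => G p y t) ∘ liftL d) z (0, v) = _
  rw [fderiv_comp z (((h p).slow t).differentiable (by norm_num) _) (liftL d).differentiableAt,
    ContinuousLinearMap.fderiv]
  simp [liftL, liftF, dx, Expand.dir]

lemma Vc.lift (hκ : W₀.κ = W.κ ∧ W₀.th = W.th) (h : Vc W₀ j G) : Vc W j (liftF d G) :=
  (Cls.lift h).mono_le fun p a _ => le_of_eq (by rw [vw, vw, hκ.1, hκ.2])

theorem Up.lift (hκ : W₀.κ = W.κ ∧ W₀.th = W.th) (h : Up W₀ j G) : Up W j (liftF d G) :=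
  Up.of_const (h.val.lift hκ) (by rw [dtF_lift]; exact h.dval.lift hκ) fun k => dk_lift h.val.js k

theorem Low.lift (hκ : W₀.κ = W.κ ∧ W₀.th = W.th) (h : Low W₀ j G) : Low W j (liftF d G) :=
  ⟨h.val.lift hκ, fun k => ⟨0, Cls.zero, by
    rw [dk_lift h.val.js k, dtF_zero, sub_zero]; exact Cls.zero⟩⟩

end Lift

theorem St.lift {W₀ : Wts 0} {k n m : ℕ} {G : Fm 0 R4} (hκ : W₀.κ = W.κ ∧ W₀.th = W.th)
    (h : St B W₀ j k n m G) : St B W j k n m (liftF d G) := by
  have e0' : h0 (liftF d G) = liftF d (h0 G) := by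
    funext p z t; simp [h0, dtF_lift, dx_lift h.up.val.js]; rfl
  have e1' : h1 (liftF d G) = liftF d (h1 G) := by
    funext p z t; simp [h1, dx_lift h.up.val.js]; rfl
  have q0 : r0 B (liftF d G) = liftF d (r0 B G) := by
    funext p z t; simp only [r0, e0, e2, e0', e1']; rfl
  have q1 : r1 B (liftF d G) = liftF d (r1 B G) := by
    funext p z t; simp only [r1, e1, e2, e0', e1']; rfl
  have q2 : r2 B (liftF d G) = liftF d (r2 B G) := by
    funext p z t; simp only [r2, e2, e1']; rfl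
  refine ⟨h.up.lift hκ, ?_, fun p z t hz => h.off p _ t hz, ?_, ?_, ?_, ?_, ?_, ?_, ?_⟩
  · exact h.g.lift hκ
  · rw [q0]; exact h.l0.lift hκ
  · rw [q1]; exact h.l1.lift hκ
  · rw [q2]; exact h.u2.lift hκ
  · rw [q2]; exact h.o2.lift hκ
  · rw [q0]; exact h.m0.lift hκ
  · rw [q1]; exact h.m1.lift hκ
  · rw [q2]; exact h.m2.lift hκ

/-! ### Parameters -/

/-- A fixed field (independent of the parameters) as a family. -/
def sdF {X : Type} (d : ℕ) (s : Ix → E2 → ℝ → X) : Fm d X := fun p z t => s p z.2 t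

/-- The sum of the seeds, weighted by the parameters. -/
noncomputable def parF (s : Fin d → Ix → E2 → ℝ → R4) : Fm d R4 :=
  fun p z t => ∑ k, z.1 k • s k p z.2 t

/-- A seed for the parameter `k`. -/
structure Seed (B : Base) (W : Wts d) (k : Fin d) (s : Ix → E2 → ℝ → R4) : Prop where
  cls : Cls (fun p i => eps p ^ W.Q * (W.amp p k * (W.freq p k : ℝ) ^ i)) ⊤ (sdF d s)
  off : ∀ p x t, x ∉ B.S → s p x t = 0
  ker0 : ∀ p x t, ⟪B.X0 x + B.g0 x t, deriv (s p x) t⟫ = 0
  ker1 : ∀ p x t, ⟪B.X1 x, deriv (s p x) t⟫ = 0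
  ker2 : ∀ p x t, B.χ * ⟪B.X1 x, pd 1 (fun y => s p y t) x⟫ = 0

/-- Small amplitudes: a seed and its fast derivative fit in the class of values. -/
def Wts.Tame (W : Wts d) : Prop :=
  ∀ p k i, Adm p → W.amp p k * (W.freq p k : ℝ) ^ (i + 1) ≤ Lam W.κ p ^ (i - W.th)

/-- A coordinate of the parameters. -/
def lc (k : Fin d) : Fm d ℝ := fun _ z _ => z.1 k

lemma lc_eq (k : Fin d) : lc (d := d) k = fun _ z _ =>
    ((ContinuousLinearMap.proj (R := ℝ) k).comp (ContinuousLinearMap.fst ℝ (Fin d → ℝ) E2)) z := rfl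

lemma lc_cls (k : Fin d) : Cls (fun _ _ => (1 : ℝ)) ⊤ (lc (d := d) k) := by
  set L := (ContinuousLinearMap.proj (R := ℝ) k).comp (ContinuousLinearMap.fst ℝ (Fin d → ℝ) E2)
  refine ⟨fun p => L.contDiff.comp contDiff_fst, fun _ _ _ => rfl, fun a i _ => ?_⟩
  refine ⟨‖L‖ + 1, by positivity, fun p _ z hz t => ?_⟩
  rw [mul_one]
  cases i with
  | succ i =>
    rw [Function.iterate_succ_apply, show dt (lc k p) = 0 from by
      funext y s; exact deriv_const s (y.1 k), zero_dt_iter]
    simp only [Pi.zero_apply, iteratedFDeriv_fun_zero, norm_zero]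
    positivity
  | zero =>
    show ‖iteratedFDeriv ℝ a L z‖ ≤ _
    match a with
    | 0 =>
      rw [norm_iteratedFDeriv_zero]
      exact (hz k).trans (le_add_of_nonneg_left L.opNorm_nonneg)
    | a + 1 =>
      rw [← norm_iteratedFDeriv_fderiv, show fderiv ℝ ⇑L = fun _ => L from funext fun _ => L.fderiv]
      cases a with
      | zero => simp
      | succ a => rw [iteratedFDeriv_succ_const]; simp; positivity

lemma parF_eq (s : Fin d → Ix → E2 → ℝ → R4) : parF s = ∑ k, sm (lc k) (sdF d (s k)) := by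
  funext p z t; simp [parF, sm_apply, lc, sdF]

lemma dk_sdF {X : Type} [NormedAddCommGroup X] [NormedSpace ℝ X] {s : Ix → E2 → ℝ → X}
    (h : ∀ p, Js (sdF d s p)) (k : Fin d) : dk k (sdF d s) = 0 := by
  funext p z t
  have e : (fun y => sdF d s p y t) = (fun y => sdF d s p y t) ∘
      (0 : Zv d →L[ℝ] (Fin d → ℝ)).prod (ContinuousLinearMap.snd ℝ _ E2) := rfl
  show fderiv ℝ (fun y => sdF d s p y t) z (pv k) = 0
  rw [e, fderiv_comp z (((h p).slow t).differentiable (by norm_num) _)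
    (ContinuousLinearMap.differentiableAt _), ContinuousLinearMap.fderiv]
  simp [pv, Prod.mk_zero_zero]

theorem parF_up {s : Fin d → Ix → E2 → ℝ → R4} (hs : ∀ k, Seed B W k (s k)) (hT : W.Tame) :
    Up W W.Q (parF s) := by
  rw [parF_eq]
  refine Finset.sum_induction _ (fun g => Up W W.Q g) (fun _ _ => Up.add) Up.zero fun k _ => ?_
  have hc := (hs k).cls
  have hl := lc_cls k
  have hv1 : ∀ (p : Ix) a b, Adm p →
      eps p ^ W.Q * (W.amp p k * (W.freq p k : ℝ) ^ (b + 1)) ≤ vw W W.Q p (a + b) := fun p a b hp => by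
    refine mul_le_mul_of_nonneg_left ((hT p k b hp).trans ?_) (pow_nonneg (eps_nonneg p) _)
    exact pow_le_pow_right₀ (one_le_Lam _ hp) (by omega)
  have hv0 : ∀ (p : Ix) a b, Adm p →
      eps p ^ W.Q * (W.amp p k * (W.freq p k : ℝ) ^ b) ≤ vw W W.Q p (a + b) := fun p a b hp => by
    refine le_trans ?_ (hv1 p a b hp)
    exact mul_le_mul_of_nonneg_left (mul_le_mul_of_nonneg_left (pow_le_pow_right₀
      (by exact_mod_cast W.freq_pos p k hp) b.le_succ) (W.amp_nonneg p k))
      (pow_nonneg (eps_nonneg p) _)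
  have hn : ∀ p i, (0 : ℝ) ≤ eps p ^ W.Q * (W.amp p k * (W.freq p k : ℝ) ^ i) := fun p i =>
    mul_nonneg (pow_nonneg (eps_nonneg p) _)
      (mul_nonneg (W.amp_nonneg p k) (pow_nonneg (Nat.cast_nonneg _) _))
  refine ⟨?_, ?_, fun k' => ?_⟩
  · exact Cls.bilin _ hl hc (fun _ _ => zero_le_one) hn le_rfl le_rfl fun p a b hp _ => by
      rw [one_mul]; exact hv0 p a b hp
  · have e : dtF (sm (lc k) (sdF d (s k))) = sm (lc k) (dtF (sdF d (s k))) := by
      rw [sm, sm, dtF_mulF _ hl.js hc.js, show dtF (lc (d := d) k) = 0 from by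
        funext p y u; exact deriv_const u (y.1 k)]
      funext p y u; simp [mulF]
    rw [e]
    have hd : Cls (fun p i => eps p ^ W.Q * (W.amp p k * (W.freq p k : ℝ) ^ (i + 1))) ⊤
        (dtF (sdF d (s k))) :=
      hc.deriv (fun _ _ => le_top) fun _ _ => ⟨1, zero_le_one, fun _ _ => by rw [one_mul]⟩
    exact Cls.bilin _ hl hd (fun _ _ => zero_le_one) (fun p i => hn p (i + 1)) le_rfl le_rfl
      fun p a b hp _ => by rw [one_mul]; exact hv1 p a b hp
  · rw [sm, dk_mulF _ k' hl.js hc.js, dk_sdF hc.js]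
    have e : dk k' (lc (d := d) k) = fun _ _ _ => if k = k' then (1 : ℝ) else 0 := by
      funext p y u
      show fderiv ℝ (fun z : Zv d => z.1 k) y (pv k') = _
      rw [show (fun z : Zv d => z.1 k) = ⇑((ContinuousLinearMap.proj (R := ℝ) k).comp
        (ContinuousLinearMap.fst ℝ (Fin d → ℝ) E2)) from rfl, ContinuousLinearMap.fderiv]
      simp [pv, Pi.single_apply]
    rw [e]
    by_cases hk : k = k'
    · subst hk
      simp only [if_true]
      have h1 : mulF (ContinuousLinearMap.lsmul ℝ ℝ) (fun (_ : Ix) (_ : Zv d) (_ : ℝ) => (1 : ℝ))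
          (sdF d (s k)) + mulF (ContinuousLinearMap.lsmul ℝ ℝ) (lc k) 0 = sdF d (s k) := by
        funext p y u; simp [mulF]
      rw [h1]
      exact Cls.mono hc le_top fun _ _ => ⟨1, zero_le_one, fun p _ => by simp [sw]⟩
    · simp only [if_neg hk]
      have h1 : mulF (ContinuousLinearMap.lsmul ℝ ℝ) (fun (_ : Ix) (_ : Zv d) (_ : ℝ) => (0 : ℝ))
          (sdF d (s k)) + mulF (ContinuousLinearMap.lsmul ℝ ℝ) (lc k) (0 : Fm d R4) = 0 := by
        funext p y u; simp [mulF]
      rw [h1]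
      exact Cls.zero

/-- Seeds keep the errors one level above their size. -/
theorem insert_st {s : Fin d → Ix → E2 → ℝ → R4} (hs : ∀ k, Seed B W k (s k)) (hT : W.Tame)
    (hQ : 1 ≤ W.Q) {G : Fm d R4} {n : ℕ} (hn : W.Q + 1 ≤ n) (h : St B W n n (n + 1) n G) :
    St B W (W.Q + 1) (W.Q + 1) (W.Q + 2) (W.Q + 1) (G + parF s) := by
  set U := parF s with hU
  have hUU : Up W W.Q U := parF_up hs hT
  have hUo : Off B.S U := fun p z t hz => by simp [hU, parF, (hs _).off p z.2 t hz]
  have hsd : ∀ k p x (t : ℝ), DifferentiableAt ℝ (s k p x) t := fun k p x t =>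
    (((hs k).cls.js p).fast ((0 : Fin d → ℝ), x)).differentiable (by norm_num) t
  have hd : ∀ p z t, dtF U p z t = ∑ k, z.1 k • deriv (s k p z.2) t := fun p z t => by
    show deriv (fun u => ∑ k, z.1 k • s k p z.2 u) t = _
    rw [deriv_fun_sum fun k _ => (hsd k p z.2 t).fun_const_smul _]
    exact Finset.sum_congr rfl fun k _ => deriv_fun_const_smul _ (hsd k p z.2 t)
  have hy : ∀ p z t, B.χ * ⟪B.X1 z.2, dx (ev 1) U p z t⟫ = 0 := fun p z t => by
    rw [← pd_slice hUU.val.js p z.1 z.2 t 1]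
    have hsy : ∀ k, DifferentiableAt ℝ (fun y => s k p y t) z.2 := fun k =>
      ((((hs k).cls.js p).slow t).comp ((contDiff_const (c := (0 : Fin d → ℝ))).prodMk
        contDiff_id)).differentiable (by norm_num) z.2
    have e : pd 1 (fun y => U p (z.1, y) t) z.2 = ∑ k, z.1 k • pd 1 (fun y => s k p y t) z.2 := by
      show fderiv ℝ (fun y => ∑ k, z.1 k • s k p y t) z.2 (ev 1) = _
      rw [fderiv_fun_sum fun k _ => (hsy k).fun_const_smul _]
      simp [fderiv_fun_const_smul (hsy _), pd]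
    rw [e, inner_sum, Finset.mul_sum]
    exact Finset.sum_eq_zero fun k _ => by
      rw [inner_smul_right, mul_left_comm, (hs k).ker2, mul_zero]
  obtain ⟨E0, E1, B2, hE0, hE1, hB2, q0, q1, q2⟩ := Expand.perturb (B := B) h.up h.g hUU hQ
  have er0 : r0 B (G + U) = r0 B G + E0 := by
    funext p z t
    rw [q0, hd, inner_sum]
    simp [inner_smul_right, (hs _).ker0]
  have er1 : r1 B (G + U) = r1 B G + E1 := by
    funext p z t
    rw [q1, hd, inner_sum]
    simp [inner_smul_right, (hs _).ker1]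
  have er2 : r2 B (G + U) = r2 B G + fun p z t => B.χ • B2 p z t := by
    funext p z t
    rw [q2, hy]
    simp
  have hL0 : Low W (W.Q + 1) (r0 B (G + U)) := by rw [er0]; exact (h.l0.mono hn).add hE0
  have hL1 : Low W (W.Q + 1) (r1 B (G + U)) := by rw [er1]; exact (h.l1.mono hn).add hE1
  have hr2 : Up W (W.Q + 1) (r2 B (G + U)) := by
    rw [er2]; exact (h.u2.mono hn).add ((hB2.csmul _).mono (by omega))
  refine ⟨h.up.add (hUU.mono (Nat.zero_le _)), ?_, h.off.add hUo, hL0, hL1, hr2, ?_, hL0.mean,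
    hL1.mean, hr2.low.mean⟩
  · rw [dtF_add h.up.val.js hUU.val.js, add_sub_right_comm]
    exact h.g.add (hUU.dt.mono hQ)
  · have e : oscF (r2 B (G + U)) = oscF (r2 B G) + oscF fun p z t => B.χ • B2 p z t := by
      rw [oscF, oscF, oscF, er2, meanF_add h.u2.val.js (hB2.csmul B.χ).val.js]
      abel
    rw [e]
    exact (h.o2.mono (by omega)).add ((hB2.csmul _).sub (hB2.csmul _).low.mean)

end Vale.Agent.P205F.Expand
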