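import Vale.Agent.P205F.Expand.Seeds

/-!
# P205, expansions: kernel fields of the oscillating equations

`σ`-seeds turn with the frame: `p σ + ξ ρ` with `ξ' = w h p` and `∫ h p = 0`; `V`-seeds exist when
errors along `ν` are allowed.
-/

namespace Vale.Agent.P205F.Expand

open scoped ContDiff RealInnerProductSpace Topology
open Filter Set

variable {d : ℕ} {W : Wts d} {k : Fin d} {B : Base}

/-- A scalar cut-off carried by `S`. -/
structure Cut (B : Base) (m : E2 → ℝ) : Prop where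
  smooth : ContDiff ℝ ∞ m
  supp : tsupport m ⊆ B.S

lemma Cut.coef {m : E2 → ℝ} (h : Cut B m) : Coef fun x (_ : ℝ) => m x :=
  ⟨h.smooth.comp contDiff_fst, fun _ _ => rfl, B.S, B.S_compact, fun _ hx _ =>
    image_eq_zero_of_notMem_tsupport fun h' => hx (h.supp h')⟩

lemma Cut.zero {m : E2 → ℝ} (h : Cut B m) {x : E2} (hx : x ∉ B.S) : m x = 0 :=
  image_eq_zero_of_notMem_tsupport fun h' => hx (h.supp h')

lemma gain_mean_cls {X : Type} [NormedAddCommGroup X] [NormedSpace ℝ X] [CompleteSpace X]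
    {c : E2 → ℝ → X} (hc : Coef c) {L : Ix → ℕ} (hL : Freq L) {φ : ℝ → ℝ} (hφ : Profile φ) :
    Cls (ow L 1) ⊤ (meanF fun (p : Ix) (z : Zv d) t => pL d L (deriv φ) p z t • c z.2 t) := by
  obtain ⟨A, R, hA, hR, e⟩ := gain_mean (d := d) hc hL hφ
  have hj : ∀ p, Js fun (z : Zv d) t => pL d L (deriv φ) p z t • c z.2 t := fun p =>
    (pL_js L hφ.deriv p).smul (hc.js.pull (ContinuousLinearMap.snd ℝ (Fin d → ℝ) E2))
  refine (mean_ow hR).congr_adm (fun p => (mean_smooth (hj p)).comp contDiff_fst)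
    (fun p z t => rfl) fun p hp => ?_
  funext z t
  show Expand.mean (fun (z : Zv d) t => pL d L (deriv φ) p z t • c z.2 t) z = Expand.mean (R p) z
  rw [show (fun (z : Zv d) t => pL d L (deriv φ) p z t • c z.2 t) = dtF A p + R p from
      funext fun z => funext fun t => e p hp z t,
    mean_add (Φ := dtF A p) ((hA.js p).dt) (hR.js p), Pi.add_apply,
    show Expand.mean (dtF A p) z = 0 from mean_dt (hA.js p) (hA.per p) z, zero_add]

/-- `h / ∫ h²`, cut off. -/
noncomputable def normH (h : E2 → ℝ → ℝ) (m : E2 → ℝ) : E2 → ℝ → ℝ :=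
  fun x t => m x * (mean (fun x t => h x t ^ 2) x)⁻¹ * h x t

variable {X0 X1 : E2 → R4} (Lp : Loop B.S B.N B.X0 B.X1 B.V B.a) {m : E2 → ℝ} (hm : Cut B m)

include hm in
lemma normH_coef : Coef (normH Lp.h m) := by
  have h2 : Js fun x t => Lp.h x t ^ 2 := ContDiff.pow Lp.h_coef.js 2
  refine ⟨?_, fun x t => by simp [normH, Lp.h_coef.per x t], B.S, B.S_compact,
    fun x hx t => by simp [normH, hm.zero hx]⟩
  have hd : ContDiff ℝ ∞ fun x => m x * (mean (fun x t => Lp.h x t ^ 2) x)⁻¹ := by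
    refine contDiff_iff_contDiffAt.2 fun x => ?_
    by_cases hx : x ∈ tsupport m
    · exact hm.smooth.contDiffAt.mul ((mean_smooth h2).contDiffAt.inv
        (ne_of_gt (Lp.h_pos x (B.S_sub (hm.supp hx)))))
    · refine (contDiffAt_const (c := (0 : ℝ))).congr_of_eventuallyEq ?_
      filter_upwards [(isClosed_tsupport m).isOpen_compl.mem_nhds hx] with y hy
      simp [image_eq_zero_of_notMem_tsupport hy]
  exact ContDiff.mul (hd.comp contDiff_fst) Lp.h_coef.js

/-- `∫ h q'(L ·)`. -/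
noncomputable def cL (L : Ix → ℕ) (φ : ℝ → ℝ) (h : E2 → ℝ → ℝ) : Fm d ℝ :=
  meanF fun p z t => pL d L (deriv φ) p z t • h z.2 t

/-- The profile made orthogonal to `h`. -/
noncomputable def pHat (L : Ix → ℕ) (φ : ℝ → ℝ) : Fm d ℝ := fun p z t =>
  pL d L (deriv φ) p z t * m z.2 - cL L φ Lp.h p z t * normH Lp.h m z.2 t

/-- The coefficient turning the profile. -/
def whF : E2 → ℝ → ℝ := fun x t => Lp.w x * Lp.h x t

/-- The component along `ρ`. -/
noncomputable def xiF (m : E2 → ℝ) (L : Ix → ℕ) (φ : ℝ → ℝ) : Fm d ℝ := fun p =>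
  Expand.prim ((fun z t => pL d L (deriv φ) p z t • (whF Lp z.2 t * m z.2)) +
    fun z t => -(cL L φ Lp.h p z t * (whF Lp z.2 t * normH Lp.h m z.2 t)))

/-- The field of the `σ`-seed, without amplitude. -/
noncomputable def sigField (m : E2 → ℝ) (L : Ix → ℕ) (φ : ℝ → ℝ) : Fm d R4 := fun p z t =>
  pHat (m := m) Lp L φ p z t • Lp.σ z.2 t + xiF Lp m L φ p z t • Lp.ρ z.2 t

/-- The remainder of the `σ`-seed. -/
noncomputable def sigRem (m : E2 → ℝ) (L : Ix → ℕ) (φ : ℝ → ℝ) : Fm d R4 := fun p z t =>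
  (-(cL L φ Lp.h p z t * normH Lp.h m z.2 t)) • Lp.σ z.2 t + xiF Lp m L φ p z t • Lp.ρ z.2 t

lemma whF_coef : Coef (whF Lp) :=
  Lp.w_coef.mul (B' := ContinuousLinearMap.mul ℝ ℝ) Lp.h_coef

variable {L : Ix → ℕ} {φ : ℝ → ℝ} (hL : Freq L) (hφ : Profile φ)

include hm hφ in
lemma xi_mean0 (p : Ix) (z : Zv d) : Expand.mean
    ((fun z t => pL d L (deriv φ) p z t • (whF Lp z.2 t * m z.2)) +
      fun z t => -(cL L φ Lp.h p z t * (whF Lp z.2 t * normH Lp.h m z.2 t))) z = 0 := by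
  have hc : Continuous fun t => Lp.h z.2 t := (Lp.h_coef.js.fast z.2).continuous
  have hp : Continuous fun t => pL d L (deriv φ) p z t := ((pL_js L hφ.deriv p).fast z).continuous
  show ∫ t in (0 : ℝ)..1, pL d L (deriv φ) p z t * (whF Lp z.2 t * m z.2) +
    -(cL L φ Lp.h p z 0 * (whF Lp z.2 t * normH Lp.h m z.2 t)) = 0
  by_cases hx : m z.2 = 0
  · simp [normH, hx]
  have hN : z.2 ∈ B.N := B.S_sub (hm.supp (subset_tsupport m hx))
  set I := ∫ t in (0 : ℝ)..1, Lp.h z.2 t ^ 2 with hI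
  set J := ∫ t in (0 : ℝ)..1, pL d L (deriv φ) p z t * Lp.h z.2 t with hJ
  have hI0 : I ≠ 0 := ne_of_gt (Lp.h_pos z.2 hN)
  have e : ∀ t, pL d L (deriv φ) p z t * (whF Lp z.2 t * m z.2) +
      -(cL L φ Lp.h p z 0 * (whF Lp z.2 t * normH Lp.h m z.2 t)) =
      Lp.w z.2 * m z.2 * (pL d L (deriv φ) p z t * Lp.h z.2 t) -
        J * Lp.w z.2 * m z.2 * I⁻¹ * Lp.h z.2 t ^ 2 := fun t => by
    have hc' : cL L φ Lp.h p z 0 = J := rfl
    have hi : mean (fun x t => Lp.h x t ^ 2) z.2 = I := rfl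
    simp only [whF, normH, hc', hi]
    ring
  simp only [e]
  have i1 : IntervalIntegrable (fun t => Lp.w z.2 * m z.2 * (pL d L (deriv φ) p z t * Lp.h z.2 t))
      MeasureTheory.volume 0 1 := (continuous_const.mul (hp.mul hc)).intervalIntegrable 0 1
  have i2 : IntervalIntegrable (fun t => J * Lp.w z.2 * m z.2 * I⁻¹ * Lp.h z.2 t ^ 2)
      MeasureTheory.volume 0 1 := (continuous_const.mul (hc.pow 2)).intervalIntegrable 0 1
  rw [intervalIntegral.integral_sub i1 i2,
    intervalIntegral.integral_const_mul, intervalIntegral.integral_const_mul, ← hI, ← hJ,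
    mul_assoc _ I⁻¹ I, inv_mul_cancel₀ hI0]
  ring

include hm hL hφ in
lemma xiF_cls : Cls (ow L 1) ⊤ (xiF (d := d) Lp m L φ) := by
  have hc : Coef fun x t => whF Lp x t * m x :=
    (whF_coef Lp).mul (B' := ContinuousLinearMap.mul ℝ ℝ) hm.coef
  have hc' : Coef fun x t => whF Lp x t * normH Lp.h m x t :=
    (whF_coef Lp).mul (B' := ContinuousLinearMap.mul ℝ ℝ) (normH_coef Lp hm)
  have hcL : Cls (ow L 1) ⊤ (cL (d := d) L φ Lp.h) := gain_mean_cls Lp.h_coef hL hφ
  have hR : Cls (ow L 1) ⊤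
      fun p z t => -(cL (d := d) L φ Lp.h p z t * (whF Lp z.2 t * normH Lp.h m z.2 t)) :=
    ((hc'.mul_ow (ContinuousLinearMap.mul ℝ ℝ).flip hL hcL)).neg
  exact gain_prim hc hL hφ hR (fun p z => xi_mean0 Lp hm hφ p z)

include hm hL hφ in
lemma sigRem_cls : Cls (ow L 1) ⊤ (sigRem (d := d) Lp m L φ) := by
  have hcL : Cls (ow L 1) ⊤ (cL (d := d) L φ Lp.h) := gain_mean_cls Lp.h_coef hL hφ
  have hc : Coef fun x t => normH Lp.h m x t • Lp.σ x t :=
    (normH_coef Lp hm).mul (B' := ContinuousLinearMap.lsmul ℝ ℝ) Lp.σ_coef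
  have h1 := (hc.mul_ow (ContinuousLinearMap.lsmul ℝ ℝ).flip hL hcL).neg
  have h2 := Lp.ρ_coef.mul_ow (ContinuousLinearMap.lsmul ℝ ℝ).flip hL (xiF_cls (d := d) Lp hm hL hφ)
  have e : sigRem (d := d) Lp m L φ =
      -mulF (ContinuousLinearMap.lsmul ℝ ℝ).flip (cf d fun x t => normH Lp.h m x t • Lp.σ x t)
          (cL L φ Lp.h) +
        mulF (ContinuousLinearMap.lsmul ℝ ℝ).flip (cf d Lp.ρ) (xiF Lp m L φ) := by
    funext p z t
    simp [sigRem, mulF, cf, smul_smul, mul_comm]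
  rw [e]
  exact h1.add h2

lemma sigField_eq (p : Ix) (z : Zv d) (t : ℝ) : sigField Lp m L φ p z t =
    pL d L (deriv φ) p z t • (m z.2 • Lp.σ z.2 t) + sigRem Lp m L φ p z t := by
  simp only [sigField, sigRem, pHat]
  module

lemma sigField_zero (p : Ix) (z : Zv d) (hx : m z.2 = 0) (t : ℝ) :
    sigField Lp m L φ p z t = 0 := by
  have h1 : xiF Lp m L φ p z t = 0 := by
    simp [xiF, Expand.prim, int0, Expand.mean, hx, normH]
  simp [sigField, pHat, h1, hx, normH]

include hm hL hφ in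
lemma sigField_js (p : Ix) : Js (sigField (d := d) Lp m L φ p) := by
  rw [show sigField (d := d) Lp m L φ p = fun z t =>
      pL d L (deriv φ) p z t • (m z.2 • Lp.σ z.2 t) + sigRem Lp m L φ p z t from
    funext fun z => funext fun t => sigField_eq Lp p z t]
  exact ((pL_js L hφ.deriv p).smul ((hm.coef.mul (B' := ContinuousLinearMap.lsmul ℝ ℝ)
    Lp.σ_coef).js.pull (ContinuousLinearMap.snd ℝ (Fin d → ℝ) E2))).add
      ((sigRem_cls (d := d) Lp hm hL hφ).js p)

include hm hL hφ in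
/-- The kernel equations of a `σ`-seed. -/
lemma sigField_ker (hg : Lp.g0 = B.g0) (p : Ix) (z : Zv d) (t : ℝ) :
    ⟪B.X1 z.2, sigField Lp m L φ p z t⟫ = 0 ∧ ⟪B.V z.2, sigField Lp m L φ p z t⟫ = 0 ∧
    ⟪B.X0 z.2 + B.g0 z.2 t, deriv (sigField Lp m L φ p z) t⟫ = 0 ∧
    ⟪B.X1 z.2, deriv (sigField Lp m L φ p z) t⟫ = 0 := by
  by_cases hx : m z.2 = 0
  · have e : sigField Lp m L φ p z = fun _ => (0 : R4) :=
      funext fun s => sigField_zero Lp p z hx s
    simp [e]
  have hN : z.2 ∈ B.N := B.S_sub (hm.supp (subset_tsupport m hx))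
  obtain ⟨-, -, -, f1, f2, f3, f4, f5⟩ := Lp.frame z.2 hN t
  have hsmul : ∀ (u v : R4) (a b : ℝ), ⟪u, Lp.σ z.2 t⟫ = 0 → ⟪u, Lp.ρ z.2 t⟫ = 0 →
      ⟪u, a • Lp.σ z.2 t + b • Lp.ρ z.2 t⟫ = 0 := fun u v a b h h' => by
    simp [inner_add_right, inner_smul_right, h, h']
  refine ⟨hsmul _ 0 _ _ f3 f1, hsmul _ 0 _ _ f4 f2, ?_⟩
  have jp : Differentiable ℝ (pHat (m := m) Lp L φ p z) := by
    refine ((((pL_js L hφ.deriv p).fast z).differentiable (by norm_num)).fun_mul
      (differentiable_const _)).fun_sub (Differentiable.fun_mul ?_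
        (((normH_coef Lp hm).js.fast z.2).differentiable (by norm_num)))
    exact differentiable_const (cL L φ Lp.h p z 0)
  have hX := (xiF_cls (d := d) Lp hm hL hφ).js p
  have hI : Js ((fun (z : Zv d) t => pL d L (deriv φ) p z t • (whF Lp z.2 t * m z.2)) +
      fun z t => -(cL L φ Lp.h p z t * (whF Lp z.2 t * normH Lp.h m z.2 t))) := by
    have hcL : Js (cL (d := d) L φ Lp.h p) := (gain_mean_cls Lp.h_coef hL hφ).js p
    have s := ContinuousLinearMap.snd ℝ (Fin d → ℝ) E2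
    exact ((pL_js L hφ.deriv p).smul (((whF_coef Lp).mul (B' := ContinuousLinearMap.mul ℝ ℝ)
      hm.coef).js.pull (ContinuousLinearMap.snd ℝ (Fin d → ℝ) E2))).add
      ((hcL.mul (((whF_coef Lp).mul (B' := ContinuousLinearMap.mul ℝ ℝ) (normH_coef Lp hm)).js.pull
        (ContinuousLinearMap.snd ℝ (Fin d → ℝ) E2))).neg)
  have d1 : HasDerivAt (xiF Lp m L φ p z) (Lp.w z.2 * Lp.h z.2 t * pHat (m := m) Lp L φ p z t) t := by
    have e := congrFun (congrFun (dt_prim hI) z) t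
    refine ((hX.hasDerivAt_fast z t).differentiableAt.hasDerivAt).congr_deriv ?_
    show Expand.dt (xiF Lp m L φ p) z t = _
    rw [show Expand.dt (xiF Lp m L φ p) z t = _ from e]
    simp only [Pi.add_apply, smul_eq_mul, whF, pHat, cL, meanF]
    ring
  have d2 := (jp t).hasDerivAt
  have d3 : HasDerivAt (Lp.σ z.2) (-(Lp.w z.2 * Lp.h z.2 t) • Lp.ρ z.2 t) t := by
    rw [← (Lp.turn z.2 hN t).2]
    exact ((Lp.σ_coef.js.fast z.2).differentiable (by norm_num) t).hasDerivAt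
  have d4 : HasDerivAt (Lp.ρ z.2) ((Lp.w z.2 * Lp.h z.2 t) • Lp.σ z.2 t) t := by
    rw [← (Lp.turn z.2 hN t).1]
    exact ((Lp.ρ_coef.js.fast z.2).differentiable (by norm_num) t).hasDerivAt
  have d5 : HasDerivAt (sigField Lp m L φ p z)
      ((deriv (pHat (m := m) Lp L φ p z) t + xiF Lp m L φ p z t * (Lp.w z.2 * Lp.h z.2 t)) •
        Lp.σ z.2 t) t := by
    refine ((d2.fun_smul d3).fun_add (d1.fun_smul d4)).congr_deriv ?_
    simp only [smul_smul, add_smul, neg_smul, smul_neg]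
    rw [show pHat (m := m) Lp L φ p z t * (Lp.w z.2 * Lp.h z.2 t) =
      Lp.w z.2 * Lp.h z.2 t * pHat (m := m) Lp L φ p z t from mul_comm _ _]
    abel
  rw [d5.deriv, inner_smul_right, inner_smul_right, f3, ← hg, f5]
  simp

omit hm in
lemma amp_smul_cls {C : E2 → ℝ → R4} (hC : Coef C) {R : Fm d R4} (hR : Cls (ow L 1) ⊤ R)
    {s : Ix → E2 → ℝ → R4} (hj : ∀ p, Js (sdF d s p)) (hp : ∀ p, Per (sdF d s p))
    (he : ∀ p z t, sdF d s p z t =
      (eps p ^ W.Q * W.amp p k) • (pL d L (deriv φ) p z t • C z.2 t + R p z t))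
    (hL : Freq L) (hφ : Profile φ) (hf : ∀ p, W.freq p k = L p) :
    Cls (fun p i => eps p ^ W.Q * (W.amp p k * (W.freq p k : ℝ) ^ i)) ⊤ (sdF d s) := by
  have h0 : Cls (ow L 0) ⊤ ((mulF (ContinuousLinearMap.lsmul ℝ ℝ).flip (cf d C)
      (pL d L (deriv φ))) + R) :=
    (hC.mul_ow _ hL (pL_cls L hφ.deriv)).add (hR.mono_le fun p i hp => by
      refine mul_le_mul_of_nonneg_left ?_ (pow_nonneg (Nat.cast_nonneg _) _)
      simpa using inv_le_one_of_one_le₀ (Nat.one_le_cast.2 (hL p hp) : (1 : ℝ) ≤ L p))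
  refine (Cls.smul_ix h0 (fun p => eps p ^ W.Q * W.amp p k) fun p i _ => le_of_eq ?_).congr_adm
    hj hp fun p _ => ?_
  · rw [abs_of_nonneg (mul_nonneg (pow_nonneg (eps_nonneg p) _) (W.amp_nonneg p k)), ow, hf]
    simp
    ring
  · funext z t
    simp [he p z t, mulF, cf]

/-- The `σ`-seed. -/
noncomputable def sigSeed (W : Wts d) (k : Fin d) (m : E2 → ℝ) (L : Ix → ℕ) (φ : ℝ → ℝ) :
    Ix → E2 → ℝ → R4 :=
  fun p x t => (eps p ^ W.Q * W.amp p k) • sigField (d := d) Lp m L φ p (0, x) t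

include hm hL hφ in
theorem sigSeed_spec (hg : Lp.g0 = B.g0) (hf : ∀ p, W.freq p k = L p) :
    Seed B W k (sigSeed Lp W k m L φ) ∧
      Osc W k L φ (fun x t => m x • Lp.σ x t) (sigSeed Lp W k m L φ) (sigRem Lp m L φ) := by
  have hC : Coef fun x t => m x • Lp.σ x t :=
    hm.coef.mul (B' := ContinuousLinearMap.lsmul ℝ ℝ) Lp.σ_coef
  have he : ∀ p z t, sdF d (sigSeed Lp W k m L φ) p z t = (eps p ^ W.Q * W.amp p k) •
      (pL d L (deriv φ) p z t • (m z.2 • Lp.σ z.2 t) + sigRem Lp m L φ p z t) := fun p z t => by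
    show _ • sigField Lp m L φ p (0, z.2) t = _
    rw [sigField_eq]
    rfl
  have hO : Osc W k L φ (fun x t => m x • Lp.σ x t) (sigSeed Lp W k m L φ) (sigRem Lp m L φ) :=
    ⟨hC, sigRem_cls Lp hm hL hφ, he⟩
  have hR := sigRem_cls (d := d) Lp hm hL hφ
  have hj : ∀ p, Js (sdF d (sigSeed Lp W k m L φ) p) := fun p => by
    exact Js.pull (Φ := fun z t => (eps p ^ W.Q * W.amp p k) • sigField (d := d) Lp m L φ p z t)
      ((sigField_js (d := d) Lp hm hL hφ p).clm ((eps p ^ W.Q * W.amp p k) • ContinuousLinearMap.id ℝ R4))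
      ((0 : Zv d →L[ℝ] (Fin d → ℝ)).prod (ContinuousLinearMap.snd ℝ _ E2))
  have hp : ∀ p, Per (sdF d (sigSeed Lp W k m L φ) p) := fun p z t => by
    rw [he, he, pL_per L hφ.deriv p z t, hR.per p z t, Lp.σ_coef.per z.2 t]
  refine ⟨⟨amp_smul_cls hC hR hj hp he hL hφ hf, fun p x t hx => ?_, fun p x t => ?_,
    fun p x t => ?_, fun p x t => ?_⟩, hO⟩
  · show _ • sigField Lp m L φ p (0, x) t = 0
    rw [sigField_zero Lp p _ (hm.zero hx), smul_zero]
  · show ⟪_, deriv (fun s => _ • sigField Lp m L φ p (0, x) s) t⟫ = 0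
    rw [deriv_fun_const_smul _ (((sigField_js Lp hm hL hφ p).fast (0, x)).differentiable
      (by norm_num) t), inner_smul_right, (sigField_ker Lp hm hL hφ hg p (0, x) t).2.2.1, mul_zero]
  · show ⟪_, deriv (fun s => _ • sigField Lp m L φ p (0, x) s) t⟫ = 0
    rw [deriv_fun_const_smul _ (((sigField_js Lp hm hL hφ p).fast (0, x)).differentiable
      (by norm_num) t), inner_smul_right, (sigField_ker Lp hm hL hφ hg p (0, x) t).2.2.2, mul_zero]
  · by_cases hχ : B.χ = 0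
    · simp [hχ]
    by_cases hN : x ∈ B.N
    · obtain ⟨c, hc⟩ := B.V_eq hχ x hN
      have hs' := ((hj p).slow t).comp
        ((contDiff_const (c := (0 : Fin d → ℝ))).prodMk (contDiff_id (E := E2)))
      have hs : ContDiff ℝ ∞ fun y => sigSeed Lp W k m L φ p y t := by
        simpa only [Function.comp_def, sdF, id_eq] using hs'
      have hX : ContDiff ℝ ∞ B.X1 :=
        B.X1_coef.js.comp (contDiff_id.prodMk (contDiff_const (c := (0 : ℝ))))
      have h0' : fderiv ℝ (fun y => ⟪B.X1 y, sigSeed Lp W k m L φ p y t⟫) x (ev 1) = 0 := by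
        rw [show (fun y => ⟪B.X1 y, sigSeed Lp W k m L φ p y t⟫) = fun _ => (0 : ℝ) from funext fun y => by
          rw [sigSeed, inner_smul_right, (sigField_ker Lp hm hL hφ hg p (0, y) t).1, mul_zero]]
        simp
      rw [fderiv_inner_apply ℝ (hX.differentiable (by norm_num) _)
        (hs.differentiable (by norm_num) _), show fderiv ℝ B.X1 x (ev 1) = pd 1 B.X1 x from rfl, hc,
        inner_add_left, inner_smul_left] at h0'
      have k1 : ⟪B.V x, sigSeed Lp W k m L φ p x t⟫ = 0 := by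
        rw [sigSeed, inner_smul_right, (sigField_ker Lp hm hL hφ hg p (0, x) t).2.1, mul_zero]
      have k2 : ⟪B.X1 x, sigSeed Lp W k m L φ p x t⟫ = 0 := by
        rw [sigSeed, inner_smul_right, (sigField_ker Lp hm hL hφ hg p (0, x) t).1, mul_zero]
      rw [k1, k2, mul_zero, add_zero, add_zero] at h0'
      rw [show pd 1 (fun y => sigSeed Lp W k m L φ p y t) x =
        fderiv ℝ (fun y => sigSeed Lp W k m L φ p y t) x (ev 1) from rfl, h0', mul_zero]
    · have e : (fun y => sigSeed Lp W k m L φ p y t) =ᶠ[𝓝 x] fun _ => (0 : R4) := by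
        filter_upwards [B.S_compact.isClosed.isOpen_compl.mem_nhds fun h => hN (B.S_sub h)] with y hy
        show _ • sigField Lp m L φ p (0, y) t = 0
        rw [sigField_zero Lp p (0, y) (hm.zero (x := y) hy), smul_zero]
      simp [pd, e.fderiv_eq]

omit Lp in
/-- The `V`-seed. -/
noncomputable def vSeed (B : Base) (W : Wts d) (k : Fin d) (m : E2 → ℝ) (L : Ix → ℕ) (φ : ℝ → ℝ) :
    Ix → E2 → ℝ → R4 :=
  fun p x t => (eps p ^ W.Q * W.amp p k) • (deriv φ (L p * t) • ((1 - B.χ) * m x) • B.V x)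

omit Lp in
include hm hL hφ in
theorem vSeed_spec (h0 : ∀ x ∈ B.N, (1 - B.χ) * ⟪B.X0 x, B.V x⟫ = 0 ∧ ⟪B.X1 x, B.V x⟫ = 0)
    (hf : ∀ p, W.freq p k = L p) :
    Seed B W k (vSeed B W k m L φ) ∧
      Osc W k L φ (fun x _ => ((1 - B.χ) * m x) • B.V x) (vSeed B W k m L φ) 0 := by
  have hC : Coef fun x (_ : ℝ) => ((1 - B.χ) * m x) • B.V x := by
    have hVs : ContDiff ℝ ∞ B.V :=
      B.V_coef.js.comp (contDiff_id.prodMk (contDiff_const (c := (0 : ℝ))))
    exact ⟨((contDiff_const.mul hm.smooth).smul hVs).comp contDiff_fst, fun _ _ => rfl, B.S,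
      B.S_compact, fun x hx _ => by simp [hm.zero hx]⟩
  have he : ∀ p z t, sdF d (vSeed B W k m L φ) p z t = (eps p ^ W.Q * W.amp p k) •
      (pL d L (deriv φ) p z t • (((1 - B.χ) * m z.2) • B.V z.2) + (0 : Fm d R4) p z t) :=
    fun p z t => by simp [sdF, vSeed, pL]
  have hj : ∀ p, Js (sdF d (vSeed B W k m L φ) p) := fun p =>
    Js.clm (Φ := fun (z : Zv d) t => pL d L (deriv φ) p z t • (((1 - B.χ) * m z.2) • B.V z.2))
      ((pL_js L hφ.deriv p).smul (hC.js.pull (ContinuousLinearMap.snd ℝ (Fin d → ℝ) E2)))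
      ((eps p ^ W.Q * W.amp p k) • ContinuousLinearMap.id ℝ R4)
  have hp : ∀ p, Per (sdF d (vSeed B W k m L φ) p) := fun p z t => by
    rw [he, he, pL_per L hφ.deriv p z t]
    rfl
  have hd : ∀ p x t, deriv (vSeed B W k m L φ p x) t =
      (deriv (fun s => (eps p ^ W.Q * W.amp p k) • deriv φ (L p * s)) t) •
        (((1 - B.χ) * m x) • B.V x) := fun p x t => by
    have e : vSeed B W k m L φ p x = fun s => ((eps p ^ W.Q * W.amp p k) • deriv φ (L p * s)) •
        (((1 - B.χ) * m x) • B.V x) := by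
      funext s; simp only [vSeed, smul_assoc]
    rw [e, deriv_smul_const]
    exact ((hφ.deriv.smooth.differentiable (by norm_num) _).comp t
      (differentiableAt_id.const_mul _)).fun_const_smul _
  refine ⟨⟨amp_smul_cls hC Cls.zero hj hp he hL hφ hf, fun p x t hx => by
    simp [vSeed, hm.zero hx], fun p x t => ?_, fun p x t => ?_, fun p x t => ?_⟩,
    ⟨hC, Cls.zero, he⟩⟩
  · rw [hd, inner_smul_right, inner_smul_right, inner_add_left,
      real_inner_comm (B.V x) (B.g0 x t), B.loop_perp' x t, add_zero]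
    by_cases hx : m x = 0
    · simp [hx]
    · have := (h0 x (B.S_sub (hm.supp (subset_tsupport m hx)))).1
      linear_combination (deriv (fun s => (eps p ^ W.Q * W.amp p k) • deriv φ (L p * s)) t * m x) * this
  · rw [hd, inner_smul_right, inner_smul_right]
    by_cases hx : m x = 0
    · simp [hx]
    · rw [(h0 x (B.S_sub (hm.supp (subset_tsupport m hx)))).2, mul_zero, mul_zero]
  · rcases B.χ_or with h | ⟨h, -⟩
    · simp [h]
    · have e : (fun y => vSeed B W k m L φ p y t) = fun _ => (0 : R4) := by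
        funext y; simp [vSeed, h]
      simp [pd, e]

end Vale.Agent.P205F.Expand
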