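import Vale.Agent.P205F.Expand.LinF
import Vale.Agent.P205F.Expand.Kernel

/-!
# P205, expansions: leading terms of the jets of the seeds and bounds for the rest

A derivative in `x` of `q(L t) C` is `M L q'(L t) C` up to the factor `1/L`.
-/

namespace Vale.Agent.P205F.Expand

open scoped ContDiff RealInnerProductSpace Topology
open Filter

variable {d : ℕ} {X : Type} [NormedAddCommGroup X] [NormedSpace ℝ X] {L : Ix → ℕ} {ψ : ℝ → ℝ}
  {C : E2 → ℝ → X} {Φ : Fm d X}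

/-- A main term and a remainder of relative size `1/L`. -/
def HasLead (L : Ix → ℕ) (ψ : ℝ → ℝ) (C : E2 → ℝ → X) (Φ : Fm d X) : Prop :=
  ∃ R : Fm d X, Cls (ow L 1) ⊤ R ∧ ∀ p, Adm p → ∀ z t,
    Φ p z t = pL d L ψ p z t • C z.2 t + R p z t

lemma dir_lead (hψ : Profile ψ) (hC : Coef C) {R : Fm d X} (hR : ∀ p, Js (R p)) (p : Ix)
    (v : Zv d) (z : Zv d) (t : ℝ) :
    dir v (fun z t => pL d L ψ p z t • C z.2 t + R p z t) z t =
      pL d L ψ p z t • dir v.2 C z.2 t + dir v (R p) z t := by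
  have j1 : Js fun (z : Zv d) t => pL d L ψ p z t • C z.2 t :=
    (pL_js L hψ p).smul (hC.js.pull (ContinuousLinearMap.snd ℝ (Fin d → ℝ) E2))
  rw [show (fun z t => pL d L ψ p z t • C z.2 t + R p z t) =
    (fun (z : Zv d) t => pL d L ψ p z t • C z.2 t) + R p from rfl, j1.dir_add (hR p)]
  show fderiv ℝ (fun y : Zv d => ψ (L p * t) • C y.2 t) z v + _ = _
  have hd : HasFDerivAt (fun y : Zv d => C y.2 t)
      ((fderiv ℝ (fun y => C y t) z.2).comp (ContinuousLinearMap.snd ℝ (Fin d → ℝ) E2)) z :=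
    (((hC.js.slow t).differentiable (by norm_num) z.2).hasFDerivAt).comp z hasFDerivAt_snd
  rw [(hd.fun_const_smul (ψ (L p * t))).fderiv]
  rfl

lemma dt_lead (hψ : Profile ψ) (hC : Coef C) {R : Fm d X} (hR : ∀ p, Js (R p)) (p : Ix) (z : Zv d)
    (t : ℝ) : dt (fun z t => pL d L ψ p z t • C z.2 t + R p z t) z t =
      (L p : ℝ) • (pL d L (deriv ψ) p z t • C z.2 t) + pL d L ψ p z t • Expand.dt C z.2 t +
        dt (R p) z t := by
  have h1 : HasDerivAt (fun s => pL d L ψ p z s) ((L p : ℝ) * pL d L (deriv ψ) p z t) t := by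
    have e := congrFun (congrFun (congrFun (dt_pL (d := d) L ψ) p) z) t
    have hd : DifferentiableAt ℝ (fun s => pL d L ψ p z s) t :=
      ((pL_js L hψ p).fast z).differentiable (by norm_num) t
    exact hd.hasDerivAt.congr_deriv e
  have h2 : HasDerivAt (C z.2) (Expand.dt C z.2 t) t :=
    ((hC.js.hasDerivAt_fast z.2 t).differentiableAt).hasDerivAt
  have h3 : HasDerivAt (R p z) (dt (R p) z t) t :=
    ((hR p).hasDerivAt_fast z t).differentiableAt.hasDerivAt
  refine ((h1.fun_smul h2).add h3).deriv.trans ?_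
  rw [mul_smul]
  abel

/-- One derivative in `y`. -/
theorem HasLead.D1 (hψ : Profile ψ) (hC : Coef C) (h : HasLead L ψ C Φ) :
    HasLead L ψ (Expand.dir (ev 1) C) (Expand.D1 Φ) := by
  obtain ⟨R, hR, he⟩ := h
  refine ⟨Expand.D1 R, hR.D1, fun p hp z t => ?_⟩
  show dir _ (Φ p) z t = _
  rw [funext fun z => funext fun t => he p hp z t, dir_lead hψ hC hR.js]
  rfl

/-- One derivative in `x`, in units of `M L`. -/
theorem HasLead.D0 (hL : Freq L) (hψ : Profile ψ) (hC : Coef C) (h : HasLead L ψ C Φ) :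
    HasLead L (deriv ψ) C fun p z t => ((p.M : ℝ) * L p)⁻¹ • Expand.D0 Φ p z t := by
  obtain ⟨R, hR, he⟩ := h
  have hw : ∀ (p : Ix) i, Adm p → ow L 1 p i ≤ (p.M : ℝ) * ow L 0 p i ∧
      (p.M : ℝ) * ow L 1 p (i + 1) ≤ (p.M : ℝ) * ow L 0 p i := fun p i hp => by
    have h1 : (1 : ℝ) ≤ L p := Nat.one_le_cast.2 (hL p hp)
    refine ⟨?_, le_of_eq ?_⟩
    · refine le_trans ?_ (le_mul_of_one_le_left (ow_nonneg L 0 p i) hp.one_le_M)
      simp only [ow, pow_zero, inv_one, mul_one, pow_one]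
      exact mul_le_of_le_one_right (pow_nonneg (Nat.cast_nonneg _) _) (inv_le_one_of_one_le₀ h1)
    · simp only [ow, pow_zero, inv_one, mul_one, pow_one]
      rw [pow_succ, mul_assoc ((L p : ℝ) ^ i), mul_inv_cancel₀ (by linarith), mul_one]
  have hD : Cls (fun p i => (p.M : ℝ) * ow L 0 p i) ⊤ (Expand.D0 R) :=
    hR.D0 (fun _ _ => le_top) le_rfl hw
  have hsc : ∀ p, Adm p → |((p.M : ℝ) * L p)⁻¹| ≤ ((L p : ℝ))⁻¹ ∧
      |((p.M : ℝ) * L p)⁻¹| * p.M ≤ ((L p : ℝ))⁻¹ := fun p hp => by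
    have h1 : (0 : ℝ) < L p := by exact_mod_cast hL p hp
    rw [abs_of_nonneg (by positivity), mul_inv]
    refine ⟨mul_le_of_le_one_left (by positivity) (inv_le_one_of_one_le₀ hp.one_le_M), le_of_eq ?_⟩
    rw [mul_comm (p.M : ℝ)⁻¹, mul_assoc, inv_mul_cancel₀ hp.M_pos.ne', mul_one]
  have t1 : Cls (ow L 1) ⊤ fun (p : Ix) (z : Zv d) t =>
      ((L p : ℝ))⁻¹ • mulF (ContinuousLinearMap.lsmul ℝ ℝ).flip (cf d (Expand.dt C)) (pL d L ψ) p z t :=
    (cls_L_inv L (hC.deriv.mul_ow _ hL (pL_cls L hψ))).mono_le fun p i _ => le_of_eq (by simp [ow])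
  have t2 : Cls (ow L 1) ⊤ fun (p : Ix) (z : Zv d) t => ((p.M : ℝ) * L p)⁻¹ •
      mulF (ContinuousLinearMap.lsmul ℝ ℝ).flip (cf d (Expand.dir (ev 0) C)) (pL d L ψ) p z t :=
    Cls.smul_ix ((hC.dir _).mul_ow _ hL (pL_cls L hψ)) _ fun p i hp => by
      refine (mul_le_mul_of_nonneg_right (hsc p hp).1 (ow_nonneg L 0 p i)).trans (le_of_eq ?_)
      simp [ow, mul_comm]
  have t3 : Cls (ow L 1) ⊤ fun (p : Ix) (z : Zv d) t => ((p.M : ℝ) * L p)⁻¹ • Expand.D0 R p z t :=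
    Cls.smul_ix hD _ fun p i hp => by
      rw [← mul_assoc]
      refine (mul_le_mul_of_nonneg_right (hsc p hp).2 (ow_nonneg L 0 p i)).trans (le_of_eq ?_)
      simp [ow, mul_comm]
  refine ⟨_, (t1.add t2).add t3, fun p hp z t => ?_⟩
  have hp0 : (p.M : ℝ) * L p ≠ 0 :=
    mul_ne_zero hp.M_pos.ne' (Nat.cast_ne_zero.2 (by have := hL p hp; omega))
  have eΦ : Φ p = fun z t => pL d L ψ p z t • C z.2 t + R p z t :=
    funext fun z => funext fun t => he p hp z t
  simp only [Pi.add_apply, Expand.D0, dx, dtF, mulF, cf, ContinuousLinearMap.flip_apply,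
    ContinuousLinearMap.lsmul_apply, eΦ, dir_lead hψ hC hR.js, dt_lead hψ hC hR.js]
  have hl : ((L p : ℝ))⁻¹ = ((p.M : ℝ) * L p)⁻¹ * p.M := by
    rw [mul_inv, mul_comm (p.M : ℝ)⁻¹, mul_assoc, inv_mul_cancel₀ hp.M_pos.ne', mul_one]
  rw [hl]
  have hM := hp.M_pos.ne'
  have hL' : (L p : ℝ) ≠ 0 := right_ne_zero_of_mul hp0
  match_scalars <;> field_simp

/-! ### Iterates -/

lemma D0_smul_ix (h : ∀ p, Js (Φ p)) (c : Ix → ℝ) :
    D0 (fun p z t => c p • Φ p z t) = fun p z t => c p • D0 Φ p z t := by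
  funext p z t
  have e : dx (ev 0) (fun p z t => c p • Φ p z t) p z t = c p • dx (ev 0) Φ p z t :=
    congrFun (congrFun ((h p).dir_clm (c p • ContinuousLinearMap.id ℝ X) _) z) t
  simp only [D0, e, dtF_smul_ix h, smul_add, smul_comm (p.M : ℝ)]

lemma D1_smul_ix (h : ∀ p, Js (Φ p)) (c : Ix → ℝ) :
    D1 (fun p z t => c p • Φ p z t) = fun p z t => c p • D1 Φ p z t := by
  funext p; exact (h p).dir_clm (c p • ContinuousLinearMap.id ℝ X) _

lemma D1_iter_smul_ix (c : Ix → ℝ) : ∀ (b : ℕ) {Φ : Fm d X}, (∀ p, Js (Φ p)) →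
    D1^[b] (fun p z t => c p • Φ p z t) = fun p z t => c p • D1^[b] Φ p z t
  | 0, _, _ => rfl
  | b + 1, Φ, h => by
    rw [Function.iterate_succ_apply', D1_iter_smul_ix c b h, D1_smul_ix (D1_iter_js h b),
      Function.iterate_succ_apply']

lemma D0_iter_smul_ix (c : Ix → ℝ) : ∀ (a : ℕ) {Φ : Fm d X}, (∀ p, Js (Φ p)) →
    D0^[a] (fun p z t => c p • Φ p z t) = fun p z t => c p • D0^[a] Φ p z t
  | 0, _, _ => rfl
  | a + 1, Φ, h => by
    rw [Function.iterate_succ_apply', D0_iter_smul_ix c a h, D0_smul_ix (D0_iter_js h a),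
      Function.iterate_succ_apply']

/-- `∂y^b` of a coefficient. -/
noncomputable def dC (b : ℕ) (C : E2 → ℝ → X) : E2 → ℝ → X := (Expand.dir (ev 1))^[b] C

lemma dC_coef (hC : Coef C) : ∀ b, Coef (dC b C)
  | 0 => hC
  | b + 1 => by rw [dC, Function.iterate_succ_apply']; exact (dC_coef hC b).dir _

lemma dC_eq (C : E2 → ℝ → X) (x : E2) (t : ℝ) : ∀ b, dC b C x t = jd 0 b (fun y => C y t) x := by
  intro b
  induction b generalizing x with
  | zero => rfl
  | succ b ih =>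
    rw [dC, Function.iterate_succ_apply']
    show fderiv ℝ (fun y => dC b C y t) x (ev 1) = _
    rw [funext fun y => ih y]
    show _ = ((pd 1)^[b + 1] fun y => C y t) x
    rw [Function.iterate_succ_apply']
    rfl

theorem HasLead.iter (hL : Freq L) (hψ : Profile ψ) (hC : Coef C) (hj : ∀ p, Js (Φ p))
    (h : HasLead L ψ C Φ) (b : ℕ) : ∀ a, HasLead L (deriv^[a] ψ) (dC b C)
      fun p z t => (((p.M : ℝ) * L p) ^ a)⁻¹ • Expand.D0^[a] (Expand.D1^[b] Φ) p z t
  | 0 => by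
    simp only [pow_zero, inv_one, one_smul, Function.iterate_zero, id_eq]
    induction b with
    | zero => exact h
    | succ b ih =>
      simp only [Function.iterate_succ_apply', dC]
      exact ih.D1 hψ (dC_coef hC b)
  | a + 1 => by
    have := (HasLead.iter hL hψ hC hj h b a).D0 hL (hψ.iter a) (dC_coef hC b)
    rw [show deriv (deriv^[a] ψ) = deriv^[a + 1] ψ from (Function.iterate_succ_apply' _ _ _).symm,
      D0_smul_ix (D0_iter_js (D1_iter_js hj b) a) fun p => (((p.M : ℝ) * L p) ^ a)⁻¹] at this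
    simp only [Function.iterate_succ_apply', smul_smul, pow_succ', mul_inv] at this ⊢
    exact this

/-! ### Bounds -/

/-- Mixed derivatives of a family with weights `A L^i`. -/
theorem cls_D_bound {A : Ix → ℝ} (hA : ∀ p, Adm p → 0 ≤ A p) (hL : Freq L) {N : ℕ}
    (h : Cls (fun p i => A p * (L p : ℝ) ^ i) (N : ℕ) Φ) : ∀ (a : ℕ), a ≤ N → ∀ b,
      ∃ C, 0 ≤ C ∧ ∀ p, Adm p → ∀ z ∈ dom d, ∀ t,
        ‖D0^[a] (D1^[b] Φ) p z t‖ ≤ C * (A p * ((p.M : ℝ) * L p) ^ a) := by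
  intro a ha b
  have h1 : ∀ b, Cls (fun p i => A p * (L p : ℝ) ^ i) (N : ℕ) (D1^[b] Φ) := fun b => by
    induction b with
    | zero => exact h
    | succ b ih => rw [Function.iterate_succ_apply']; exact ih.D1
  have h2 : ∀ a, a ≤ N → Cls (fun p i => A p * ((p.M : ℝ) * L p) ^ a * (L p : ℝ) ^ i)
      ((N - a : ℕ) : ℕ) (D0^[a] (D1^[b] Φ)) := by
    intro a
    induction a with
    | zero => intro _; simpa using h1 b
    | succ a ih =>
      intro ha
      rw [Function.iterate_succ_apply']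
      refine (ih (by omega)).D0 (fun i hi => WithTop.coe_le_coe.2 ?_) ?_ fun p i hp => ?_
      · have : i ≤ N - (a + 1) := WithTop.coe_le_coe.1 hi
        show i + 1 ≤ N - a
        omega
      · exact WithTop.coe_le_coe.2 (show N - (a + 1) ≤ N - a by omega)
      · have hMpos := hp.M_pos
        have hL1 : (1 : ℝ) ≤ L p := Nat.one_le_cast.2 (hL p hp)
        have h0 : 0 ≤ A p * ((p.M : ℝ) * L p) ^ a := mul_nonneg (hA p hp) (by positivity)
        refine ⟨?_, le_of_eq (by ring)⟩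
        refine mul_le_mul_of_nonneg_right (mul_le_mul_of_nonneg_left ?_ (hA p hp)) (by positivity)
        exact pow_le_pow_right₀ (by nlinarith [hp.one_le_M]) a.le_succ
  obtain ⟨C, hC, hb⟩ := (h2 a ha).bd 0 0 (WithTop.coe_le_coe.2 (Nat.zero_le _))
  refine ⟨C, hC, fun p hp z hz t => ?_⟩
  simpa using hb p hp z hz t

/-- Jets of a realisation. -/
lemma jd_rl (h : ∀ p, Js (Φ p)) (p : Ix) (l : Fin d → ℝ) (a b : ℕ) (x : E2) :
    jd a b (fun y => rl Φ p (l, y)) x = rl (D0^[a] (D1^[b] Φ)) p (l, x) :=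
  congrFun (pd_iter_rl h p l a b) x

end Vale.Agent.P205F.Expand
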