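import Mathlib

/-!
# P205, expansions: square systems

A square system with a lower bound is solvable with the same bound; a nearly triangular system has
a lower bound; a Vandermonde system is solvable.
-/

namespace Vale.Agent.P205F.Expand

open Finset

variable {ι : Type} [Fintype ι]

/-- The action of a square array. -/
def mvec (A : ι → ι → ℝ) (u : ι → ℝ) : ι → ℝ := fun i => ∑ j, A i j * u j

/-- A lower bound gives solvability with the same bound. -/
theorem solve_square (T : (ι → ℝ) →ₗ[ℝ] ι → ℝ) {C : ℝ} (h : ∀ u, ‖u‖ ≤ C * ‖T u‖) (r : ι → ℝ) :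
    ∃ u, T u = r ∧ ‖u‖ ≤ C * ‖r‖ := by
  have hinj : Function.Injective T := by
    rw [← LinearMap.ker_eq_bot, LinearMap.ker_eq_bot']
    intro u hu
    have := h u
    rw [hu, norm_zero, mul_zero] at this
    exact norm_le_zero_iff.1 this
  obtain ⟨u, hu⟩ := LinearMap.injective_iff_surjective.1 hinj r
  exact ⟨u, hu, hu ▸ h u⟩

lemma abs_apply_le (u : ι → ℝ) (i : ι) : |u i| ≤ ‖u‖ := by
  simpa [Real.norm_eq_abs] using norm_le_pi_norm u i

/-- Nearly triangular arrays: lower bound. -/
theorem tri_bound (rk : ι → ℕ) {c B : ℝ} (hc : 0 < c) (hB : 0 ≤ B) :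
    ∃ C δ₀ : ℝ, 0 ≤ C ∧ 0 < δ₀ ∧ ∀ A : ι → ι → ℝ, (∀ i, c ≤ |A i i|) →
      (∀ i j, rk j < rk i → |A i j| ≤ B) →
      ∀ δ, δ ≤ δ₀ → (∀ i j, j ≠ i → rk i ≤ rk j → |A i j| ≤ δ) →
        ∀ u : ι → ℝ, ‖u‖ ≤ C * ‖mvec A u‖ := by
  classical
  set N : ℝ := (Fintype.card ι : ℝ)
  set K : ℕ → ℝ := fun r => ((fun k => (1 + N + B * N * k) / c)^[r]) 0 with hK
  have hK0 : ∀ r, 0 ≤ K r := by
    intro r
    induction r with
    | zero => simp [hK]
    | succ r ih =>
      simp only [hK, Function.iterate_succ_apply']
      have hN : 0 ≤ N := Nat.cast_nonneg _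
      have := mul_nonneg (mul_nonneg hB hN) ih
      exact div_nonneg (by simp only [hK] at this; linarith) hc.le
  set R := ∑ i : ι, (rk i + 1) with hR
  set Kt := ∑ r ∈ range (R + 1), K r with hKt
  have hKt0 : 0 ≤ Kt := sum_nonneg fun r _ => hK0 r
  refine ⟨2 * Kt, 1 / (2 * Kt + 2), by positivity, by positivity, ?_⟩
  intro A hd hl δ hδ hu u
  set Z := ‖mvec A u‖ + max δ 0 * ‖u‖ with hZ
  have hZ0 : 0 ≤ Z := by positivity
  have step : ∀ r i, rk i < r → |u i| ≤ (∑ s ∈ range (r + 1), K s) * Z := by
    intro r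
    induction r with
    | zero => intro i hi; exact absurd hi (Nat.not_lt_zero _)
    | succ r ih =>
      intro i hi
      rcases Nat.lt_or_ge (rk i) r with hir | hir
      · refine (ih i hir).trans (mul_le_mul_of_nonneg_right ?_ hZ0)
        exact sum_le_sum_of_subset_of_nonneg (range_mono (by omega)) fun s _ _ => hK0 s
      obtain rfl : r = rk i := by omega
      set S := ∑ s ∈ range (rk i + 1), K s with hS
      have hS0 : 0 ≤ S := sum_nonneg fun s _ => hK0 s
      have e : A i i * u i = mvec A u i - ∑ j ∈ univ.erase i, A i j * u j := by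
        rw [mvec, ← add_sum_erase univ (fun j => A i j * u j) (mem_univ i)]
        ring
      have hb : ∀ j ∈ univ.erase i, |A i j * u j| ≤ max δ 0 * ‖u‖ + B * (S * Z) := by
        intro j hj
        rw [abs_mul]
        rcases Nat.lt_or_ge (rk j) (rk i) with hji | hji
        · exact (mul_le_mul (hl i j hji) (ih j hji) (abs_nonneg _) hB).trans
            (le_add_of_nonneg_left (by positivity))
        · exact (mul_le_mul ((hu i j (ne_of_mem_erase hj) hji).trans (le_max_left _ _))
            (abs_apply_le u j) (abs_nonneg _) (le_max_right _ _)).trans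
            (le_add_of_nonneg_right (by positivity))
      have h1 : |A i i * u i| ≤ ‖mvec A u‖ + N * (max δ 0 * ‖u‖ + B * (S * Z)) := by
        rw [e]
        refine (abs_sub _ _).trans (add_le_add (abs_apply_le _ i) ?_)
        refine (abs_sum_le_sum_abs _ _).trans ((sum_le_sum hb).trans ?_)
        rw [sum_const, nsmul_eq_mul]
        refine mul_le_mul_of_nonneg_right ?_ (by positivity)
        exact Nat.cast_le.2 (card_erase_le.trans_eq card_univ)
      have h2 : c * |u i| ≤ (1 + N + B * N * S) * Z := by
        refine ((mul_le_mul_of_nonneg_right (hd i) (abs_nonneg _)).trans_eq (abs_mul _ _).symm).trans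
          (h1.trans ?_)
        have hN : (0 : ℝ) ≤ N := Nat.cast_nonneg _
        have : max δ 0 * ‖u‖ ≤ Z := le_add_of_nonneg_left (norm_nonneg _)
        have : ‖mvec A u‖ ≤ Z := le_add_of_nonneg_right (by positivity)
        nlinarith
      have hsum : (1 + N + B * N * S) / c ≤ ∑ s ∈ range (rk i + 1 + 1), K s := by
        -- the sum dominates each term of the recursion
        have mono : ∀ m, (1 + N + B * N * ∑ s ∈ range (m + 1), K s) / c ≤
            ∑ s ∈ range (m + 1 + 1), K s := by
          intro m
          induction m with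
          | zero => simp [hK, sum_range_succ]
          | succ m ihm =>
            rw [sum_range_succ _ (m + 1 + 1), sum_range_succ _ (m + 1)]
            have e1 : K (m + 1 + 1) = (1 + N + B * N * K (m + 1)) / c := by
              simp only [hK, Function.iterate_succ_apply']
            have hN : (0 : ℝ) ≤ N := Nat.cast_nonneg _
            rw [e1]
            have : (1 + N + B * N * (∑ s ∈ range (m + 1), K s + K (m + 1))) / c ≤
                (1 + N + B * N * ∑ s ∈ range (m + 1), K s) / c +
                  (1 + N + B * N * K (m + 1)) / c := by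
              rw [← add_div]
              exact div_le_div_of_nonneg_right (by nlinarith) hc.le
            rw [sum_range_succ _ (m + 1)] at ihm
            linarith
        exact mono (rk i)
      calc |u i| ≤ (1 + N + B * N * S) / c * Z := by
            rw [div_mul_eq_mul_div, le_div_iff₀ hc]; linarith
        _ ≤ _ := mul_le_mul_of_nonneg_right hsum hZ0
  have hmain : ‖u‖ ≤ Kt * Z := by
    refine (pi_norm_le_iff_of_nonneg (by positivity)).2 fun i => ?_
    rw [Real.norm_eq_abs]
    refine step R i ?_
    exact lt_of_lt_of_le (Nat.lt_succ_self _)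
      (single_le_sum (f := fun i => rk i + 1) (fun _ _ => Nat.zero_le _) (mem_univ i))
  have hsmall : Kt * (max δ 0 * ‖u‖) ≤ ‖u‖ / 2 := by
    rw [← mul_assoc, div_eq_mul_one_div ‖u‖, mul_comm ‖u‖]
    refine mul_le_mul_of_nonneg_right ?_ (norm_nonneg _)
    have h : max δ 0 ≤ 1 / (2 * Kt + 2) := max_le hδ (by positivity)
    refine (mul_le_mul_of_nonneg_left h hKt0).trans ?_
    rw [mul_one_div, div_le_iff₀ (by positivity)]
    linarith
  rw [hZ, mul_add] at hmain
  nlinarith [norm_nonneg (mvec A u)]

/-- Vandermonde systems are solvable. -/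
theorem vander_solve {n : ℕ} {v : Fin n → ℝ} (hv : Function.Injective v) (y : Fin n → ℝ) :
    ∃ x : Fin n → ℝ, ∀ j : Fin n, ∑ i, v i ^ (j : ℕ) * x i = y j := by
  have h : IsUnit (Matrix.vandermonde v).transpose := by
    rw [Matrix.isUnit_iff_isUnit_det, Matrix.det_transpose, isUnit_iff_ne_zero]
    exact Matrix.det_vandermonde_ne_zero_iff.2 hv
  obtain ⟨x, hx⟩ := (Matrix.mulVec_surjective_iff_isUnit.2 h) y
  exact ⟨x, fun j => by rw [← hx]; rfl⟩

end Vale.Agent.P205F.Expand
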