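import Vale.Agent.P205F.Defs

/-!
# P205, expansions: prolongation of the linearised equation at a point

If `Lin F w` has small reduced components, the jets of `w` at a point are controlled, polynomially
in the bounds of `F`, by the free components of these jets and by the two tangential components
along the second coordinate line.
-/

namespace Vale.Agent.P205F.Expand

open scoped ContDiff RealInnerProductSpace Topology

variable {X : Type} [NormedAddCommGroup X] [NormedSpace ℝ X] {g g' : E2 → X}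

lemma smooth_pd (h : ContDiff ℝ ∞ g) (i : Fin 2) : ContDiff ℝ ∞ (pd i g) :=
  (h.fderiv_right (m := ∞) (by exact_mod_cast le_top)).clm_apply contDiff_const

lemma smooth_iter (h : ContDiff ℝ ∞ g) (i : Fin 2) : ∀ n, ContDiff ℝ ∞ ((pd i)^[n] g)
  | 0 => h
  | n + 1 => by rw [Function.iterate_succ_apply']; exact smooth_pd (smooth_iter h i n) i

/-- `∂x^i ∂y^j`. -/
noncomputable def jd (i j : ℕ) (g : E2 → X) : E2 → X := (pd 0)^[i] ((pd 1)^[j] g)

lemma smooth_jd (h : ContDiff ℝ ∞ g) (i j : ℕ) : ContDiff ℝ ∞ (jd i j g) :=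
  smooth_iter (smooth_iter h 1 j) 0 i

lemma pd_comm' (h : ContDiff ℝ ∞ g) (a b : Fin 2) : pd a (pd b g) = pd b (pd a g) := by
  funext x
  have hd : DifferentiableAt ℝ (fderiv ℝ g) x :=
    (h.fderiv_right (m := ∞) (by exact_mod_cast le_top)).differentiable (by norm_num) x
  show fderiv ℝ (fun y => fderiv ℝ g y (ev b)) x (ev a) =
    fderiv ℝ (fun y => fderiv ℝ g y (ev a)) x (ev b)
  rw [fderiv_clm_apply hd (differentiableAt_const _), fderiv_clm_apply hd (differentiableAt_const _)]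
  have h2 : ContDiffAt ℝ 2 g x := (h.of_le (by norm_cast)).contDiffAt
  simpa using (h2.isSymmSndFDerivAt (by simp)).eq (ev a) (ev b)

lemma iter_pd_comm (h : ContDiff ℝ ∞ g) (a b : Fin 2) :
    ∀ n, (pd a)^[n] (pd b g) = pd b ((pd a)^[n] g)
  | 0 => rfl
  | n + 1 => by
    rw [Function.iterate_succ_apply', iter_pd_comm h a b n, Function.iterate_succ_apply',
      pd_comm' (smooth_iter h a n)]

lemma jd_succ_left (h : ContDiff ℝ ∞ g) (i j : ℕ) : jd (i + 1) j g = jd i j (pd 0 g) := by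
  rw [jd, jd, Function.iterate_succ_apply, iter_pd_comm h 1 0 j]

lemma jd_succ_right (i j : ℕ) : jd i (j + 1) g = jd i j (pd 1 g) := by
  rw [jd, jd, Function.iterate_succ_apply]

lemma pd_add' (h : ContDiff ℝ ∞ g) (h' : ContDiff ℝ ∞ g') (i : Fin 2) :
    pd i (g + g') = pd i g + pd i g' := by
  funext x
  simp [pd, fderiv_add (h.differentiable (by norm_num) x) (h'.differentiable (by norm_num) x)]

lemma iter_pd_add (i : Fin 2) : ∀ (n : ℕ) {g g' : E2 → X}, ContDiff ℝ ∞ g → ContDiff ℝ ∞ g' →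
    (pd i)^[n] (g + g') = (pd i)^[n] g + (pd i)^[n] g'
  | 0, _, _, _, _ => rfl
  | n + 1, _, _, h, h' => by
    simp only [Function.iterate_succ_apply, pd_add' h h' i]
    exact iter_pd_add i n (smooth_pd h i) (smooth_pd h' i)

lemma jd_add (h : ContDiff ℝ ∞ g) (h' : ContDiff ℝ ∞ g') (i j : ℕ) :
    jd i j (g + g') = jd i j g + jd i j g' := by
  rw [jd, iter_pd_add 1 j h h', iter_pd_add 0 i (smooth_iter h 1 j) (smooth_iter h' 1 j)]
  rfl

lemma jd_smul (h : ContDiff ℝ ∞ g) (c : ℝ) (i j : ℕ) : jd i j (c • g) = c • jd i j g := by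
  have key : ∀ (a : Fin 2) (n : ℕ) {g : E2 → X}, ContDiff ℝ ∞ g →
      (pd a)^[n] (c • g) = c • (pd a)^[n] g := by
    intro a n
    induction n with
    | zero => intro g _; rfl
    | succ n ih =>
      intro g hg
      have e : pd a (c • g) = c • pd a g := by
        funext x
        simp [pd, fderiv_const_smul (hg.differentiable (by norm_num) x)]
      rw [Function.iterate_succ_apply, e, ih (smooth_pd hg a), Function.iterate_succ_apply]
  rw [jd, key 1 j h, key 0 i (smooth_iter h 1 j)]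
  rfl

variable {Y Z : Type} [NormedAddCommGroup Y] [NormedSpace ℝ Y] [NormedAddCommGroup Z]
  [NormedSpace ℝ Z] (B : X →L[ℝ] Y →L[ℝ] Z)

lemma pd_bilin {v : E2 → X} {w : E2 → Y} (hv : ContDiff ℝ ∞ v) (hw : ContDiff ℝ ∞ w)
    (a : Fin 2) :
    pd a (fun x => B (v x) (w x)) = (fun x => B (pd a v x) (w x)) + fun x => B (v x) (pd a w x) := by
  funext x
  have h1 := (hv.differentiable (by norm_num) x).hasFDerivAt
  have h2 := (hw.differentiable (by norm_num) x).hasFDerivAt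
  have := (B.hasFDerivAt.comp x h1).clm_apply h2
  simp only [Function.comp_def] at this
  simp only [pd, Pi.add_apply]
  rw [this.fderiv]
  simp [add_comm]

lemma smooth_bilin {v : E2 → X} {w : E2 → Y} (hv : ContDiff ℝ ∞ v) (hw : ContDiff ℝ ∞ w) :
    ContDiff ℝ ∞ fun x => B (v x) (w x) := (B.contDiff.comp hv).clm_apply hw

/-- Leibniz bound for mixed partial derivatives. -/
theorem jd_bilin_le : ∀ (n i j : ℕ), i + j = n → ∀ {v : E2 → X} {w : E2 → Y}, ContDiff ℝ ∞ v →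
    ContDiff ℝ ∞ w → ∀ (x : E2) (P R : ℝ),
    (∀ a b, a ≤ i → b ≤ j → ‖jd a b v x‖ ≤ P) → (∀ a b, a ≤ i → b ≤ j → ‖jd a b w x‖ ≤ R) →
    ‖jd i j (fun y => B (v y) (w y)) x‖ ≤ 2 ^ n * ‖B‖ * P * R := by
  intro n
  induction n with
  | zero =>
    intro i j hn v w _ _ x P R hP hR
    obtain ⟨rfl, rfl⟩ : i = 0 ∧ j = 0 := by omega
    simp only [pow_zero, one_mul]
    exact (B.le_opNorm₂ _ _).trans (mul_le_mul (mul_le_mul_of_nonneg_left (hP 0 0 le_rfl le_rfl)
      B.opNorm_nonneg) (hR 0 0 le_rfl le_rfl) (norm_nonneg _)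
      (mul_nonneg B.opNorm_nonneg ((norm_nonneg _).trans (hP 0 0 le_rfl le_rfl))))
  | succ n ih =>
    intro i j hn v w hv hw x P R hP hR
    rcases Nat.eq_zero_or_pos i with rfl | hi
    · obtain ⟨j, rfl⟩ : ∃ j', j = j' + 1 := ⟨j - 1, by omega⟩
      rw [jd_succ_right, pd_bilin B hv hw, jd_add (smooth_bilin B (smooth_pd hv 1) hw)
        (smooth_bilin B hv (smooth_pd hw 1))]
      refine (norm_add_le _ _).trans ((add_le_add
        (ih 0 j (by omega) (smooth_pd hv 1) hw x P R (fun a b ha hb => ?_)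
          (fun a b ha hb => hR a b ha (by omega)))
        (ih 0 j (by omega) hv (smooth_pd hw 1) x P R (fun a b ha hb => hP a b ha (by omega))
          (fun a b ha hb => ?_))).trans_eq (by ring))
      · rw [← jd_succ_right]; exact hP a (b + 1) ha (by omega)
      · rw [← jd_succ_right]; exact hR a (b + 1) ha (by omega)
    · obtain ⟨i, rfl⟩ : ∃ i', i = i' + 1 := ⟨i - 1, by omega⟩
      rw [jd_succ_left (smooth_bilin B hv hw), pd_bilin B hv hw,
        jd_add (smooth_bilin B (smooth_pd hv 0) hw) (smooth_bilin B hv (smooth_pd hw 0))]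
      refine (norm_add_le _ _).trans ((add_le_add
        (ih i j (by omega) (smooth_pd hv 0) hw x P R (fun a b ha hb => ?_)
          (fun a b ha hb => hR a b (by omega) hb))
        (ih i j (by omega) hv (smooth_pd hw 0) x P R (fun a b ha hb => hP a b (by omega) hb)
          (fun a b ha hb => ?_))).trans_eq (by ring))
      · rw [← jd_succ_left hv]; exact hP (a + 1) b (by omega) hb
      · rw [← jd_succ_left hw]; exact hR (a + 1) b (by omega) hb

/-- The top term of the Leibniz formula, up to derivatives of lower order. -/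
theorem jd_bilin_sub_le : ∀ (n i j : ℕ), i + j = n → ∀ {v : E2 → X} {w : E2 → Y}, ContDiff ℝ ∞ v →
    ContDiff ℝ ∞ w → ∀ (x : E2) (P R : ℝ), 0 ≤ P → 0 ≤ R →
    (∀ a b, a ≤ i → b ≤ j → ‖jd a b v x‖ ≤ P) →
    (∀ a b, a ≤ i → b ≤ j → a + b < n → ‖jd a b w x‖ ≤ R) →
    ‖jd i j (fun y => B (v y) (w y)) x - B (v x) (jd i j w x)‖ ≤ 2 ^ n * ‖B‖ * P * R := by
  intro n
  induction n with
  | zero =>
    intro i j hn v w _ _ x P R hP0 hR0 _ _
    obtain ⟨rfl, rfl⟩ : i = 0 ∧ j = 0 := by omega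
    simp only [jd, Function.iterate_zero, id_eq, sub_self, norm_zero]
    have := B.opNorm_nonneg
    positivity
  | succ n ih =>
    intro i j hn v w hv hw x P R hP0 hR0 hP hR
    rcases Nat.eq_zero_or_pos i with rfl | hi
    · obtain ⟨j, rfl⟩ : ∃ j', j = j' + 1 := ⟨j - 1, by omega⟩
      rw [jd_succ_right, pd_bilin B hv hw, jd_add (smooth_bilin B (smooth_pd hv 1) hw)
        (smooth_bilin B hv (smooth_pd hw 1)), Pi.add_apply, jd_succ_right, add_sub_assoc]
      refine (norm_add_le _ _).trans ((add_le_add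
        (jd_bilin_le B n 0 j (by omega) (smooth_pd hv 1) hw x P R (fun a b ha hb => ?_)
          (fun a b ha hb => hR a b ha (by omega) (by omega)))
        (ih 0 j (by omega) hv (smooth_pd hw 1) x P R hP0 hR0
          (fun a b ha hb => hP a b ha (by omega)) (fun a b ha hb hab => ?_))).trans_eq (by ring))
      · rw [← jd_succ_right]; exact hP a (b + 1) ha (by omega)
      · rw [← jd_succ_right]; exact hR a (b + 1) ha (by omega) (by omega)
    · obtain ⟨i, rfl⟩ : ∃ i', i = i' + 1 := ⟨i - 1, by omega⟩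
      rw [jd_succ_left (smooth_bilin B hv hw), pd_bilin B hv hw,
        jd_add (smooth_bilin B (smooth_pd hv 0) hw) (smooth_bilin B hv (smooth_pd hw 0)),
        Pi.add_apply, jd_succ_left hw, add_sub_assoc]
      refine (norm_add_le _ _).trans ((add_le_add
        (jd_bilin_le B n i j (by omega) (smooth_pd hv 0) hw x P R (fun a b ha hb => ?_)
          (fun a b ha hb => hR a b (by omega) hb (by omega)))
        (ih i j (by omega) hv (smooth_pd hw 0) x P R hP0 hR0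
          (fun a b ha hb => hP a b (by omega) hb) (fun a b ha hb hab => ?_))).trans_eq (by ring))
      · rw [← jd_succ_left hv]; exact hP (a + 1) b (by omega) hb
      · rw [← jd_succ_left hw]; exact hR (a + 1) b (by omega) hb (by omega)

/-- The inner product. -/
noncomputable def ipB : R4 →L[ℝ] R4 →L[ℝ] ℝ := innerSL ℝ

lemma norm_ipB : ‖ipB‖ ≤ 1 :=
  ContinuousLinearMap.opNorm_le_bound₂ _ zero_le_one fun u v => by
    rw [one_mul]; exact norm_inner_le_norm u v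

/-- The hypotheses of a prolongation to order `N`: `T` bounds `F`, the coefficients and the frame,
`S` the free components, the data on the line and the small components of `Lin F w`. -/
structure PData (N : ℕ) (F w : E2 → R4) (ρ0 ρ1 : E2 → ℝ) (φ : R4 → ℝ) (χ : ℝ) (x : E2) (T S : ℝ) :
    Prop where
  hF : ContDiff ℝ ∞ F
  hw : ContDiff ℝ ∞ w
  hρ0 : ContDiff ℝ ∞ ρ0
  hρ1 : ContDiff ℝ ∞ ρ1
  hT : 2 ≤ T
  hS : 0 ≤ S
  hχ : |χ| ≤ 1
  bF : ∀ a b, a + b ≤ N + 2 → ‖jd a b F x‖ ≤ T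
  bρ : ∀ a b, a + b ≤ N → ‖jd a b ρ0 x‖ ≤ T ∧ ‖jd a b ρ1 x‖ ≤ T
  frame : ∀ V : R4, ‖V‖ ≤ T * (|⟪pd 0 F x, V⟫| + |⟪pd 1 F x, V⟫| +
    |χ * ⟪pd 1 (pd 1 F) x, V⟫| + φ V)
  free : ∀ a b, a + b ≤ N → φ (jd a b w x) ≤ S
  line : ∀ b, b ≤ N + 1 →
    ‖jd 0 b (fun y => ⟪pd 0 F y, w y⟫) x‖ ≤ S ∧ ‖jd 0 b (fun y => ⟪pd 1 F y, w y⟫) x‖ ≤ S
  small0 : ∀ a b, a + b ≤ N → ‖jd a b (fun y => Lin F w y 0 - ρ0 y * Lin F w y 2) x‖ ≤ S
  small1 : ∀ a b, a + b ≤ N → ‖jd a b (fun y => Lin F w y 1 - ρ1 y * Lin F w y 2) x‖ ≤ S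
  small2 : ∀ a b, a + b ≤ N → |χ| * ‖jd a b (fun y => Lin F w y 2) x‖ ≤ S

/-- The conclusion up to the `i`-th column. -/
def PConc (N i : ℕ) (F w : E2 → R4) (x : E2) (B : ℝ) : Prop :=
  (∀ a b, a ≤ i → a + b ≤ N + 1 →
    ‖jd a b (fun y => ⟪pd 0 F y, w y⟫) x‖ ≤ B ∧ ‖jd a b (fun y => ⟪pd 1 F y, w y⟫) x‖ ≤ B) ∧
  ∀ a b, a < i → a + b ≤ N → ‖jd a b w x‖ ≤ B

variable {N : ℕ} {F w : E2 → R4} {ρ0 ρ1 : E2 → ℝ} {φ : R4 → ℝ} {χ : ℝ} {x : E2} {T S : ℝ}

lemma PData.pow_mono (h : PData N F w ρ0 ρ1 φ χ x T S) {a b : ℕ} (hab : a ≤ b) :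
    T ^ a * S ≤ T ^ b * S :=
  mul_le_mul_of_nonneg_right (pow_le_pow_right₀ (by linarith [h.hT]) hab) h.hS

lemma PData.two_pow_le (h : PData N F w ρ0 ρ1 φ χ x T S) (k : ℕ) : (2 : ℝ) ^ k ≤ T ^ k :=
  pow_le_pow_left₀ zero_le_two h.hT k

lemma PData.smooth_tan (h : PData N F w ρ0 ρ1 φ χ x T S) (k : Fin 2) :
    ContDiff ℝ ∞ fun y => ⟪pd k F y, w y⟫ := (smooth_pd h.hF k).inner ℝ h.hw

lemma PData.jd_pd (h : PData N F w ρ0 ρ1 φ χ x T S) (k : Fin 2) (a b : ℕ)
    (hab : a + b ≤ N + 1) : ‖jd a b (pd k F) x‖ ≤ T := by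
  fin_cases k
  · show ‖jd a b (pd 0 F) x‖ ≤ T
    rw [← jd_succ_left h.hF]; exact h.bF _ _ (by omega)
  · show ‖jd a b (pd 1 F) x‖ ≤ T
    rw [← jd_succ_right]; exact h.bF _ _ (by omega)

lemma PData.jd_pd2 (h : PData N F w ρ0 ρ1 φ χ x T S) (k m : Fin 2) (a b : ℕ)
    (hab : a + b ≤ N) : ‖jd a b (pd k (pd m F)) x‖ ≤ T := by
  fin_cases k
  · show ‖jd a b (pd 0 (pd m F)) x‖ ≤ T
    rw [← jd_succ_left (smooth_pd h.hF m)]; exact h.jd_pd m _ _ (by omega)
  · show ‖jd a b (pd 1 (pd m F)) x‖ ≤ T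
    rw [← jd_succ_right]; exact h.jd_pd m _ _ (by omega)

lemma Lin2_eq (hF : ContDiff ℝ ∞ F) (hw : ContDiff ℝ ∞ w) :
    (fun y => Lin F w y 2) = (2 : ℝ) • pd 1 (fun y => ⟪pd 1 F y, w y⟫) +
      (-2 : ℝ) • fun y => ⟪pd 1 (pd 1 F) y, w y⟫ := by
  funext y
  have e : pd 1 (fun z => ⟪pd 1 F z, w z⟫) y = ⟪pd 1 (pd 1 F) y, w y⟫ + ⟪pd 1 F y, pd 1 w y⟫ :=
    congrFun (pd_bilin ipB (smooth_pd hF 1) hw 1) y
  simp [Lin, e]
  ring

lemma jd_Lin2 (hF : ContDiff ℝ ∞ F) (hw : ContDiff ℝ ∞ w) (a b : ℕ) :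
    jd a b (fun y => Lin F w y 2) x = 2 * jd a (b + 1) (fun y => ⟪pd 1 F y, w y⟫) x -
      2 * jd a b (fun y => ⟪pd 1 (pd 1 F) y, w y⟫) x := by
  have h1 : ContDiff ℝ ∞ fun y => ⟪pd 1 F y, w y⟫ := (smooth_pd hF 1).inner ℝ hw
  have h2 : ContDiff ℝ ∞ fun y => ⟪pd 1 (pd 1 F) y, w y⟫ :=
    (smooth_pd (smooth_pd hF 1) 1).inner ℝ hw
  rw [Lin2_eq hF hw, jd_add (g := (2 : ℝ) • pd 1 fun y => ⟪pd 1 F y, w y⟫)
    (g' := (-2 : ℝ) • fun y => ⟪pd 1 (pd 1 F) y, w y⟫) ((smooth_pd h1 1).const_smul (2 : ℝ))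
    (h2.const_smul (-2 : ℝ)),
    jd_smul (smooth_pd h1 1), jd_smul h2, jd_succ_right]
  simp
  ring

/-- One entry from lower ones. -/
lemma prolong_entry (h : PData N F w ρ0 ρ1 φ χ x T S) {i j e : ℕ} (hij : i + j ≤ N)
    (hl : ∀ a b, a ≤ i → b ≤ j → a + b < i + j → ‖jd a b w x‖ ≤ T ^ e * S)
    (ht : ‖jd i j (fun y => ⟪pd 0 F y, w y⟫) x‖ ≤ T ^ e * S ∧
      ‖jd i j (fun y => ⟪pd 1 F y, w y⟫) x‖ ≤ T ^ e * S ∧
      ‖jd i (j + 1) (fun y => ⟪pd 1 F y, w y⟫) x‖ ≤ T ^ e * S) :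
    ‖jd i j w x‖ ≤ T ^ (e + N + 5) * S := by
  have hT := h.hT
  have hS0 : 0 ≤ T ^ e * S := by have := h.hS; positivity
  have hT0 : (0 : ℝ) ≤ T := by linarith
  set L := T ^ (N + 1) * (T ^ e * S) with hL
  have low : ∀ v : E2 → R4, ContDiff ℝ ∞ v → (∀ a b, a ≤ i → b ≤ j → ‖jd a b v x‖ ≤ T) →
      |⟪v x, jd i j w x⟫| ≤ ‖jd i j (fun y => ⟪v y, w y⟫) x‖ + L := by
    intro v hv hb
    have h1 : |jd i j (fun y => ⟪v y, w y⟫) x - ⟪v x, jd i j w x⟫| ≤
        2 ^ (i + j) * ‖ipB‖ * T * (T ^ e * S) :=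
      jd_bilin_sub_le ipB (i + j) i j rfl hv h.hw x T (T ^ e * S) (by linarith) hS0 hb hl
    rw [Real.norm_eq_abs]
    have h2 : (2 : ℝ) ^ (i + j) * ‖ipB‖ * T * (T ^ e * S) ≤ L := by
      refine mul_le_mul_of_nonneg_right ?_ hS0
      calc (2 : ℝ) ^ (i + j) * ‖ipB‖ * T ≤ T ^ N * 1 * T := by
            refine mul_le_mul_of_nonneg_right (mul_le_mul ((h.two_pow_le _).trans
              (pow_le_pow_right₀ (by linarith) hij)) norm_ipB ipB.opNorm_nonneg (by positivity)) hT0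
        _ = T ^ (N + 1) := by ring
    have h3 := abs_sub_abs_le_abs_sub (⟪v x, jd i j w x⟫) (jd i j (fun y => ⟪v y, w y⟫) x)
    rw [abs_sub_comm] at h3
    linarith
  have l0 := low (pd 0 F) (smooth_pd h.hF 0) fun a b ha hb => h.jd_pd 0 a b (by omega)
  have l1 := low (pd 1 F) (smooth_pd h.hF 1) fun a b ha hb => h.jd_pd 1 a b (by omega)
  have l2 := low (pd 1 (pd 1 F)) (smooth_pd (smooth_pd h.hF 1) 1) fun a b ha hb =>
    h.jd_pd2 1 1 a b (by omega)
  have hS : S ≤ T ^ e * S := le_mul_of_one_le_left h.hS (one_le_pow₀ (by linarith))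
  have hy : |χ| * ‖jd i j (fun y => ⟪pd 1 (pd 1 F) y, w y⟫) x‖ ≤ 2 * (T ^ e * S) := by
    have e2 := jd_Lin2 (x := x) h.hF h.hw i j
    have h3 := h.small2 i j hij
    have h4 : |χ| * ‖jd i (j + 1) (fun y => ⟪pd 1 F y, w y⟫) x‖ ≤ T ^ e * S :=
      (mul_le_of_le_one_left (norm_nonneg _) h.hχ).trans ht.2.2
    simp only [Real.norm_eq_abs] at h3 h4 ⊢
    have h5 : |jd i j (fun y => ⟪pd 1 (pd 1 F) y, w y⟫) x| ≤
        |jd i (j + 1) (fun y => ⟪pd 1 F y, w y⟫) x| +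
          |jd i j (fun y => Lin F w y 2) x| / 2 := by
      rw [e2]
      have hab := abs_add_le (2 * jd i (j + 1) (fun y => ⟪pd 1 F y, w y⟫) x)
        (-(2 * jd i (j + 1) (fun y => ⟪pd 1 F y, w y⟫) x -
          2 * jd i j (fun y => ⟪pd 1 (pd 1 F) y, w y⟫) x))
      rw [abs_neg, show 2 * jd i (j + 1) (fun y => ⟪pd 1 F y, w y⟫) x +
        -(2 * jd i (j + 1) (fun y => ⟪pd 1 F y, w y⟫) x -
          2 * jd i j (fun y => ⟪pd 1 (pd 1 F) y, w y⟫) x) =
        2 * jd i j (fun y => ⟪pd 1 (pd 1 F) y, w y⟫) x by ring, abs_mul, abs_mul, abs_two] at hab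
      linarith
    have h6 := mul_le_mul_of_nonneg_left h5 (abs_nonneg χ)
    rw [mul_add, mul_div_assoc'] at h6
    linarith
  have hχ : |χ * ⟪pd 1 (pd 1 F) x, jd i j w x⟫| ≤ 2 * (T ^ e * S) + L := by
    rw [abs_mul]
    refine (mul_le_mul_of_nonneg_left l2 (abs_nonneg χ)).trans ?_
    rw [mul_add]
    exact add_le_add hy (mul_le_of_le_one_left (by positivity) h.hχ)
  have hLb : T ^ e * S ≤ L := le_mul_of_one_le_left hS0 (one_le_pow₀ (by linarith))
  have hLn : 0 ≤ L := hS0.trans hLb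
  calc ‖jd i j w x‖ ≤ T * (|⟪pd 0 F x, jd i j w x⟫| + |⟪pd 1 F x, jd i j w x⟫| +
        |χ * ⟪pd 1 (pd 1 F) x, jd i j w x⟫| + φ (jd i j w x)) := h.frame _
    _ ≤ T * ((2 : ℝ) ^ 3 * L) := by
        refine mul_le_mul_of_nonneg_left ?_ hT0
        have := h.free i j hij
        have := ht.1
        have := ht.2.1
        linarith
    _ ≤ T * (T ^ 3 * L) :=
        mul_le_mul_of_nonneg_left (mul_le_mul_of_nonneg_right (h.two_pow_le 3) hLn) hT0
    _ = T ^ (e + N + 5) * S := by rw [hL]; ring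

/-- One column of `w`. -/
lemma prolong_col (N i : ℕ) : ∀ (e j : ℕ), ∃ e' : ℕ, ∀ {F w : E2 → R4} {ρ0 ρ1 : E2 → ℝ}
    {φ : R4 → ℝ} {χ : ℝ} {x : E2} {T S : ℝ}, PData N F w ρ0 ρ1 φ χ x T S →
    PConc N i F w x (T ^ e * S) →
    ∀ b ≤ j, i + b ≤ N → ‖jd i b w x‖ ≤ T ^ e' * S := by
  intro e j
  induction j with
  | zero =>
    refine ⟨e + N + 5, fun {F w ρ0 ρ1 φ χ x T S} h hc b hb hib => ?_⟩
    obtain rfl : b = 0 := by omega
    exact prolong_entry h hib (fun a b ha hb hab => hc.2 a b (by omega) (by omega))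
      ⟨(hc.1 i 0 le_rfl (by omega)).1, (hc.1 i 0 le_rfl (by omega)).2,
        (hc.1 i 1 le_rfl (by omega)).2⟩
  | succ j ih =>
    obtain ⟨e₁, he₁⟩ := ih
    refine ⟨max e e₁ + N + 5, fun {F w ρ0 ρ1 φ χ x T S} h hc b hb hib => ?_⟩
    have h1 : T ^ e₁ * S ≤ T ^ max e e₁ * S := h.pow_mono (le_max_right _ _)
    have h0 : T ^ e * S ≤ T ^ max e e₁ * S := h.pow_mono (le_max_left _ _)
    rcases Nat.lt_or_ge j b with hjb | hjb
    · obtain rfl : b = j + 1 := by omega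
      refine prolong_entry h hib (fun a b ha hb hab => ?_)
        ⟨((hc.1 i _ le_rfl (by omega)).1).trans h0, ((hc.1 i _ le_rfl (by omega)).2).trans h0,
          ((hc.1 i _ le_rfl (by omega)).2).trans h0⟩
      rcases Nat.lt_or_ge a i with hai | hai
      · exact (hc.2 a b hai (by omega)).trans h0
      · obtain rfl : a = i := by omega
        exact (he₁ h hc b (by omega) (by omega)).trans h1
    · exact (he₁ h hc b hjb hib).trans (h.pow_mono (by omega))

lemma pd_inner' {u v : E2 → R4} (hu : ContDiff ℝ ∞ u) (hv : ContDiff ℝ ∞ v) (k : Fin 2) (y : E2) :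
    pd k (fun z => ⟪u z, v z⟫) y = ⟪pd k u y, v y⟫ + ⟪u y, pd k v y⟫ := by
  have e := congrFun (pd_bilin ipB hu hv k) y
  simp only [ipB, innerSL_apply_apply, Pi.add_apply] at e
  exact e

/-- The jets are controlled to order `N`. -/
theorem prolong (N : ℕ) : ∀ i : ℕ, ∃ e : ℕ, ∀ {F w : E2 → R4} {ρ0 ρ1 : E2 → ℝ}
    {φ : R4 → ℝ} {χ : ℝ} {x : E2} {T S : ℝ}, PData N F w ρ0 ρ1 φ χ x T S →
    PConc N i F w x (T ^ e * S) := by
  intro i
  induction i with
  | zero =>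
    refine ⟨0, fun {F w ρ0 ρ1 φ χ x T S} h => ?_⟩
    rw [pow_zero, one_mul]
    refine ⟨fun a b ha hab => ?_, fun a b ha => absurd ha (Nat.not_lt_zero a)⟩
    obtain rfl : a = 0 := by omega
    exact h.line b (by omega)
  | succ i ih =>
    obtain ⟨e₀, he₀⟩ := ih
    obtain ⟨e₁, he₁⟩ := prolong_col N i e₀ N
    refine ⟨max e₀ e₁ + 3 * N + 12, fun {F w ρ0 ρ1 φ χ x T S} h => ?_⟩
    have hc := he₀ h
    have hw : ∀ a b, a ≤ i → a + b ≤ N → ‖jd a b w x‖ ≤ T ^ max e₀ e₁ * S := fun a b ha hab => by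
      rcases Nat.lt_or_ge a i with hai | hai
      · exact (hc.2 a b hai hab).trans (h.pow_mono (le_max_left _ _))
      · obtain rfl : a = i := by omega
        exact (he₁ h hc b (by omega) hab).trans (h.pow_mono (le_max_right _ _))
    refine ⟨fun a b ha hab => ?_, fun a b ha hab => (hw a b (by omega) hab).trans
      (h.pow_mono (by omega))⟩
    rcases Nat.lt_or_ge a (i + 1) with hai | hai
    · exact ⟨((hc.1 a b (by omega) hab).1).trans (h.pow_mono (by omega)),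
        ((hc.1 a b (by omega) hab).2).trans (h.pow_mono (by omega))⟩
    obtain rfl : a = i + 1 := by omega
    have hT := h.hT
    have hT0 : (0 : ℝ) ≤ T := by linarith
    have hS0 : 0 ≤ T ^ max e₀ e₁ * S := by have := h.hS; positivity
    set R := T ^ max e₀ e₁ * S with hR
    set K := T ^ (2 * N + 5) * R with hK
    have hSR : S ≤ R := le_mul_of_one_le_left h.hS (one_le_pow₀ (by linarith))
    have hTR : R ≤ T ^ (N + 1) * R := le_mul_of_one_le_left hS0 (one_le_pow₀ (by linarith))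
    -- products with second derivatives
    have hprod : ∀ k m : Fin 2, ∀ a' b', a' ≤ i → b' ≤ b →
        ‖jd a' b' (fun y => ⟪pd k (pd m F) y, w y⟫) x‖ ≤ T ^ (N + 1) * R := fun k m a' b' ha' hb' => by
      have h1 : ‖jd a' b' (fun y => ⟪pd k (pd m F) y, w y⟫) x‖ ≤
          2 ^ (a' + b') * ‖ipB‖ * T * R :=
        jd_bilin_le ipB (a' + b') a' b' rfl (smooth_pd (smooth_pd h.hF m) k) h.hw x T R
          (fun a b ha hb => h.jd_pd2 k m a b (by omega))
          (fun a b ha hb => hw a b (by omega) (by omega))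
      refine h1.trans (mul_le_mul_of_nonneg_right ?_ hS0)
      calc (2 : ℝ) ^ (a' + b') * ‖ipB‖ * T ≤ T ^ N * 1 * T := by
            refine mul_le_mul_of_nonneg_right (mul_le_mul ((h.two_pow_le _).trans
              (pow_le_pow_right₀ (by linarith) (by omega))) norm_ipB ipB.opNorm_nonneg
              (by positivity)) hT0
        _ = T ^ (N + 1) := by ring
    -- the third component
    have hL2 : ∀ a' b', a' ≤ i → b' ≤ b →
        ‖jd a' b' (fun y => Lin F w y 2) x‖ ≤ T ^ (N + 3) * R := fun a' b' ha' hb' => by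
      rw [jd_Lin2 h.hF h.hw, Real.norm_eq_abs]
      have h1 := (hc.1 a' (b' + 1) (by omega) (by omega)).2.trans
        (h.pow_mono (le_max_left e₀ e₁))
      have h2 := hprod 1 1 a' b' ha' hb'
      rw [Real.norm_eq_abs] at h1 h2
      calc |2 * jd a' (b' + 1) (fun y => ⟪pd 1 F y, w y⟫) x -
            2 * jd a' b' (fun y => ⟪pd 1 (pd 1 F) y, w y⟫) x|
          ≤ 2 * R + 2 * (T ^ (N + 1) * R) := by
            refine (abs_sub _ _).trans (add_le_add ?_ ?_) <;> rw [abs_mul, abs_two] <;> linarith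
        _ ≤ 2 ^ 2 * (T ^ (N + 1) * R) := by linarith
        _ ≤ T ^ 2 * (T ^ (N + 1) * R) := mul_le_mul_of_nonneg_right (h.two_pow_le 2) (by positivity)
        _ = T ^ (N + 3) * R := by ring
    have hLs : ∀ k, ContDiff ℝ ∞ fun y => Lin F w y k := fun k => by
      have d0 := smooth_pd h.hF 0
      have d1 := smooth_pd h.hF 1
      have w0 := smooth_pd h.hw 0
      have w1 := smooth_pd h.hw 1
      fin_cases k
      · exact (contDiff_const (c := (2 : ℝ))).mul (d0.inner ℝ w0)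
      · exact (d0.inner ℝ w1).add (d1.inner ℝ w0)
      · exact (contDiff_const (c := (2 : ℝ))).mul (d1.inner ℝ w1)
    -- the other two components
    have hL01 : ‖jd i b (fun y => Lin F w y 0) x‖ ≤ K ∧ ‖jd i b (fun y => Lin F w y 1) x‖ ≤ K := by
      have key : ∀ (k : Fin 3) (ρ : E2 → ℝ), ContDiff ℝ ∞ ρ → (∀ a b, a + b ≤ N → ‖jd a b ρ x‖ ≤ T) →
          ‖jd i b (fun y => Lin F w y k - ρ y * Lin F w y 2) x‖ ≤ S →
          ‖jd i b (fun y => Lin F w y k) x‖ ≤ K := by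
        intro k ρ hρ hb hs
        have e : (fun y => Lin F w y k) = (fun y => Lin F w y k - ρ y * Lin F w y 2) +
            fun y => ContinuousLinearMap.mul ℝ ℝ (ρ y) (Lin F w y 2) := by
          funext y; simp
        rw [e, jd_add ((hLs k).sub (hρ.mul (hLs 2))) (smooth_bilin _ hρ (hLs 2))]
        refine (norm_add_le _ _).trans ?_
        have h1 := jd_bilin_le (ContinuousLinearMap.mul ℝ ℝ) (i + b) i b rfl hρ (hLs 2) x T
          (T ^ (N + 3) * R) (fun a b ha hb' => hb a b (by omega)) hL2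
        have h2 : (2 : ℝ) ^ (i + b) * ‖ContinuousLinearMap.mul ℝ ℝ‖ * T * (T ^ (N + 3) * R) ≤
            T ^ (2 * N + 4) * R := by
          calc _ ≤ T ^ N * 1 * T * (T ^ (N + 3) * R) := by
                refine mul_le_mul_of_nonneg_right (mul_le_mul_of_nonneg_right (mul_le_mul
                  ((h.two_pow_le _).trans (pow_le_pow_right₀ (by linarith) (by omega)))
                  (ContinuousLinearMap.opNorm_mul_le ℝ ℝ) (ContinuousLinearMap.opNorm_nonneg _) (by positivity)) hT0)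
                  (by positivity)
            _ = T ^ (2 * N + 4) * R := by ring
        have h3 : R ≤ T ^ (2 * N + 4) * R := le_mul_of_one_le_left hS0 (one_le_pow₀ (by linarith))
        calc _ ≤ S + T ^ (2 * N + 4) * R := add_le_add hs (h1.trans h2)
          _ ≤ 2 * (T ^ (2 * N + 4) * R) := by linarith
          _ ≤ T * (T ^ (2 * N + 4) * R) := mul_le_mul_of_nonneg_right hT (by positivity)
          _ = K := by rw [hK]; ring
      exact ⟨key 0 ρ0 h.hρ0 (fun a b hab => (h.bρ a b hab).1) (h.small0 i b (by omega)),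
        key 1 ρ1 h.hρ1 (fun a b hab => (h.bρ a b hab).2) (h.small1 i b (by omega))⟩
    have hd := fun k => smooth_pd h.hF k
    have s0 := h.smooth_tan 0
    have s1 := h.smooth_tan 1
    have hK0 : 0 ≤ K := by positivity
    have hPK : T ^ (N + 1) * R ≤ K :=
      mul_le_mul_of_nonneg_right (pow_le_pow_right₀ (by linarith) (by omega)) hS0
    have hfin : 4 * K ≤ T ^ (max e₀ e₁ + 3 * N + 12) * S := by
      calc 4 * K ≤ T ^ 2 * K := mul_le_mul_of_nonneg_right (by nlinarith) hK0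
        _ = T ^ (max e₀ e₁ + (2 * N + 7)) * S := by rw [hK, hR]; ring
        _ ≤ _ := h.pow_mono (by omega)
    constructor
    · have e : pd 0 (fun y => ⟪pd 0 F y, w y⟫) =
          (fun y => ⟪pd 0 (pd 0 F) y, w y⟫) + (1 / 2 : ℝ) • fun y => Lin F w y 0 := by
        funext y
        rw [pd_inner' (hd 0) h.hw]
        simp [Lin]
      rw [jd_succ_left s0, e, jd_add (g := fun y => ⟪pd 0 (pd 0 F) y, w y⟫)
        (g' := (1 / 2 : ℝ) • fun y => Lin F w y 0) ((smooth_pd (hd 0) 0).inner ℝ h.hw)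
        ((hLs 0).const_smul (1 / 2 : ℝ)), jd_smul (hLs 0)]
      refine (norm_add_le _ _).trans (le_trans ?_ hfin)
      have h1 := hprod 0 0 i b le_rfl le_rfl
      rw [Pi.smul_apply, norm_smul]
      have h2 := hL01.1
      have h3 : ‖(1 / 2 : ℝ)‖ = 1 / 2 := by norm_num
      rw [h3]
      linarith
    · have e : pd 0 (fun y => ⟪pd 1 F y, w y⟫) =
          (2 : ℝ) • (fun y => ⟪pd 0 (pd 1 F) y, w y⟫) + (fun y => Lin F w y 1) +
            (-1 : ℝ) • pd 1 (fun y => ⟪pd 0 F y, w y⟫) := by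
        funext y
        simp only [Pi.add_apply, Pi.smul_apply, smul_eq_mul, pd_inner' (hd 1) h.hw,
          pd_inner' (hd 0) h.hw]
        rw [congrFun (pd_comm' h.hF 1 0) y]
        simp [Lin]
        ring
      rw [jd_succ_left s1, e, jd_add
        (g := (2 : ℝ) • (fun y => ⟪pd 0 (pd 1 F) y, w y⟫) + fun y => Lin F w y 1)
        (g' := (-1 : ℝ) • pd 1 (fun y => ⟪pd 0 F y, w y⟫)) ((((smooth_pd (hd 1) 0).inner ℝ h.hw).const_smul (2 : ℝ)).add
        (hLs 1)) ((smooth_pd s0 1).const_smul (-1 : ℝ)),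
        jd_add (g := (2 : ℝ) • fun y => ⟪pd 0 (pd 1 F) y, w y⟫) (g' := fun y => Lin F w y 1)
          (((smooth_pd (hd 1) 0).inner ℝ h.hw).const_smul (2 : ℝ)) (hLs 1),
        jd_smul ((smooth_pd (hd 1) 0).inner ℝ h.hw), jd_smul (smooth_pd s0 1), ← jd_succ_right]
      refine le_trans ?_ hfin
      have h1 := hprod 0 1 i b le_rfl le_rfl
      have h2 := hL01.2
      have h3 := (hc.1 i (b + 1) le_rfl (by omega)).1.trans (h.pow_mono (le_max_left e₀ e₁))
      have h4 : R ≤ K := hTR.trans hPK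
      simp only [Pi.add_apply, Pi.smul_apply, smul_eq_mul, Real.norm_eq_abs] at h1 h2 h3 ⊢
      refine (abs_add_le _ _).trans ?_
      refine (add_le_add (abs_add_le _ _) le_rfl).trans ?_
      rw [abs_mul, abs_mul, abs_two, abs_neg, abs_one]
      linarith

end Vale.Agent.P205F.Expand
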