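import Vale.Agent.P205F.Expand.Est
import Vale.Agent.P205F.Expand.Prolong

/-!
# P205, expansions: jets along a line `x = const`, and uniform bounds of periodic coefficients
-/

namespace Vale.Agent.P205F.Expand

open scoped ContDiff RealInnerProductSpace Topology
open Filter Set

variable {X : Type} [NormedAddCommGroup X] [NormedSpace ℝ X]

/-- `pd 1` is the derivative along the line. -/
lemma pd1_line {u : E2 → X} (hu : ContDiff ℝ ∞ u) (y : E2) :
    pd 1 u y = deriv (fun s : ℝ => u (y + s • ev 1)) 0 := by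
  have h1 : HasDerivAt (fun s : ℝ => y + s • ev 1) (ev 1) 0 := by
    simpa using ((hasDerivAt_id (0 : ℝ)).smul_const (ev 1)).const_add y
  have h2 := (hu.differentiable (by norm_num) (y + (0 : ℝ) • ev 1)).hasFDerivAt.comp_hasDerivAt
    (0 : ℝ) h1
  exact (h2.deriv.trans (by rw [zero_smul, add_zero]; rfl)).symm

/-- Fields which agree on a line have the same jets along it. -/
lemma jd_line_congr : ∀ (b : ℕ) {u v : E2 → X}, ContDiff ℝ ∞ u → ContDiff ℝ ∞ v →
    ∀ (x : E2), (∀ y : E2, y 0 = x 0 → u y = v y) → jd 0 b u x = jd 0 b v x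
  | 0, _, _, _, _, x, h => h x rfl
  | b + 1, u, v, hu, hv, x, h => by
    rw [jd_succ_right, jd_succ_right]
    refine jd_line_congr b (smooth_pd hu 1) (smooth_pd hv 1) x fun y hy => ?_
    rw [pd1_line hu, pd1_line hv]
    congr 1
    funext s
    exact h _ (by simp [hy, ev])

/-- A periodic continuous coefficient is bounded over a compact set. -/
lemma per_bound {c : E2 → ℝ → X} (hc : Js c) (hp : Per c) {K : Set E2} (hK : IsCompact K) :
    ∃ C, 0 ≤ C ∧ ∀ x ∈ K, ∀ t, ‖c x t‖ ≤ C := by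
  obtain ⟨C, hC⟩ := (hK.prod (isCompact_Icc (a := (0 : ℝ)) (b := 1))).exists_bound_of_continuousOn
    (f := fun q : E2 × ℝ => c q.1 q.2) hc.continuous.continuousOn
  refine ⟨max C 0, le_max_right _ _, fun x hx t => ?_⟩
  have e := (show Function.Periodic (c x) 1 from hp x).sub_int_mul_eq ⌊t⌋ (x := t)
  rw [mul_one] at e
  rw [← e]
  exact (hC (x, Int.fract t) ⟨hx, Int.fract_nonneg t, (Int.fract_lt_one t).le⟩).trans (le_max_left _ _)

/-- All `y` derivatives of periodic coefficients are bounded over a compact set. -/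
lemma per_jet_bound {c : E2 → ℝ → X} (hc : Js c) (hp : Per c) {K : Set E2} (hK : IsCompact K)
    (N : ℕ) : ∃ C, 0 ≤ C ∧ ∀ x ∈ K, ∀ t, ∀ b ≤ N, ‖jd 0 b (fun y => c y t) x‖ ≤ C := by
  have hj : ∀ b, Js (dC b c) ∧ Per (dC b c) := fun b => by
    induction b with
    | zero => exact ⟨hc, hp⟩
    | succ b ih => rw [dC, Function.iterate_succ_apply']; exact ⟨ih.1.dir _, ih.2.dir _⟩
  choose C hC0 hC using fun b => per_bound (hj b).1 (hj b).2 hK
  refine ⟨∑ b ∈ Finset.range (N + 1), C b, Finset.sum_nonneg fun b _ => hC0 b,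
    fun x hx t b hb => ?_⟩
  rw [← dC_eq]
  exact (hC b x hx t).trans (Finset.single_le_sum (fun b _ => hC0 b)
    (Finset.mem_range.2 (by omega)))

/-- A continuous periodic positive function has a positive lower bound over a compact set. -/
lemma per_pos {c : E2 → ℝ → ℝ} (hc : Js c) (hp : Per c) {K : Set E2} (hK : IsCompact K)
    (h : ∀ x ∈ K, ∀ t, 0 < c x t) : ∃ m, 0 < m ∧ ∀ x ∈ K, ∀ t, m ≤ c x t := by
  obtain ⟨m, hm, hb⟩ := (hK.prod (isCompact_Icc (a := (0 : ℝ)) (b := 1))).exists_forall_le'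
    (f := fun q : E2 × ℝ => c q.1 q.2) (a := 0) hc.continuous.continuousOn fun q hq => h _ hq.1 _
  refine ⟨m, hm, fun x hx t => ?_⟩
  have e := (show Function.Periodic (c x) 1 from hp x).sub_int_mul_eq ⌊t⌋ (x := t)
  rw [mul_one] at e
  rw [← e]
  exact hb (x, Int.fract t) ⟨hx, Int.fract_nonneg t, (Int.fract_lt_one t).le⟩

/-- Inner products of jets along a line. -/
lemma ip_jd_le {u v : E2 → R4} (hu : ContDiff ℝ ∞ u) (hv : ContDiff ℝ ∞ v) {b : ℕ} {x : E2}
    {P R : ℝ} (hP : ∀ r ≤ b, ‖jd 0 r u x‖ ≤ P) (hR : ∀ r ≤ b, ‖jd 0 r v x‖ ≤ R) :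
    |jd 0 b (fun y => ⟪u y, v y⟫) x| ≤ 2 ^ b * P * R := by
  have hP0 : 0 ≤ P := (norm_nonneg _).trans (hP 0 (Nat.zero_le _))
  have hR0 : 0 ≤ R := (norm_nonneg _).trans (hR 0 (Nat.zero_le _))
  refine (jd_bilin_le ipB b 0 b (zero_add b) hu hv x P R
    (fun a r ha hr => by rw [Nat.le_zero.1 ha]; exact hP r hr)
    (fun a r ha hr => by rw [Nat.le_zero.1 ha]; exact hR r hr)).trans ?_
  gcongr
  exact mul_le_of_le_one_right (by positivity) norm_ipB

end Vale.Agent.P205F.Expand
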