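import Vale.Agent.P205F.Expand.Pack
import Vale.Agent.P205F.Expand.Lines
import Vale.Agent.P205F.Expand.GeomSpec

/-!
# P205, expansions: the data of the rows at a point

`RowsData` for the normalised variations `Wv`, with constants independent of the slow fields.
-/

namespace Vale.Agent.P205F.Expand

open scoped ContDiff RealInnerProductSpace Topology
open Filter Set

/-- Number of free directions. -/
def nfree (b : Bool) : ℕ := if b then 1 else 2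

lemma nfree_le (b : Bool) : nfree b ≤ 2 := by cases b <;> decide

variable {n : ℕ}

/-- Normalised variations. -/
noncomputable def Wv (W : Wts (dN n)) (G : Fm (dN n) R4) (p : Ix) (l : Fin (dN n) → ℝ) (sx : SIx n) :
    E2 → R4 :=
  (eps p ^ W.Q * W.amp p (eS n sx))⁻¹ • fun y => rl (dk (eS n sx) G) p (l, y)

/-- The two free vectors at a point. -/
noncomputable def sF (b : Bool) (B : Base) (Lp : Loop B.S B.N B.X0 B.X1 B.V B.a) (F : E2 → R4)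
    (x : E2) (t : ℝ) (c : Fin 2) : R4 :=
  if c = 0 then freePart b F x (Lp.σ x t) else free2 b B F x

/-- The leading tangent fields. -/
def leadP (B : Base) (k : Fin 2) (t : ℝ) (y : E2) : R4 :=
  if k = 0 then B.X0 y + B.g0 y t else B.X1 y

/-- The cut-off coefficient `⟪∂y X1, X1⟫/|X1|²`. -/
noncomputable def ccF (B : Base) (ψ : E2 → ℝ) (y : E2) : ℝ :=
  ψ y * (⟪pd 1 B.X1 y, B.X1 y⟫ / ⟪B.X1 y, B.X1 y⟫)

/-- The coefficients of the tangential model. -/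
noncomputable def qF (B : Base) (D : Dual B) (ψ : E2 → ℝ) (t : ℝ) (i : Fin 3) (y : E2) : ℝ :=
  if i = 0 then ⟪leadP B 0 t y, D.D0 y⟫
  else if i = 1 then ⟪leadP B 0 t y, D.D1 y⟫ - B.χ * ccF B ψ y * ⟪leadP B 0 t y, D.DV y⟫
  else B.χ * ⟪leadP B 0 t y, D.DV y⟫

/-- Smooth model of `Y0` near a point where `ψ = 1`. -/
noncomputable def Ysm (B : Base) (D : Dual B) (ψ : E2 → ℝ) (c : Fin 2) (j : ℕ) (y : E2) : R4 :=
  (slowData c j).1 y • D.D0 y + (slowData c j).2 y • D.D1 y +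
    (B.χ * (pd 1 (slowData c j).2 y - ccF B ψ y * (slowData c j).2 y)) • D.DV y

/-- Constants independent of the slow fields. -/
structure PtConst (b : Bool) (B : Base) (Lp : Loop B.S B.N B.X0 B.X1 B.V B.a) (D : Dual B)
    (ψ : E2 → ℝ) (K : Set E2) (C₀ : ℝ) : Prop where
  one : 1 ≤ C₀
  hx : ∀ x ∈ K, |x 1| ≤ C₀
  fld : ∀ c, ∀ x ∈ K, ∀ t, ∀ r ≤ 10, ‖jd 0 r (fun y => fldOf B Lp c y t) x‖ ≤ C₀
  lead : ∀ k, ∀ x ∈ K, ∀ t, ∀ r ≤ 3, ‖jd 0 r (leadP B k t) x‖ ≤ C₀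
  q : ∀ i, ∀ x ∈ K, ∀ t, ∀ r ≤ 3, |jd 0 r (qF B D ψ t i) x| ≤ C₀
  q0 : ∀ x ∈ K, ∀ t, C₀⁻¹ ≤ |qF B D ψ t 0 x|

variable {B : Base} (Lp : Loop B.S B.N B.X0 B.X1 B.V B.a) (D : Dual B) {ψ : E2 → ℝ}

lemma ccF_smooth (hψ : ContDiff ℝ ∞ ψ) (hψS : tsupport ψ ⊆ B.S)
    (hX : ∀ x ∈ B.N, 0 < ⟪B.X1 x, B.X1 x⟫) : ContDiff ℝ ∞ (ccF B ψ) := by
  refine contDiff_iff_contDiffAt.2 fun x => ?_
  by_cases hx : x ∈ tsupport ψ
  · exact hψ.contDiffAt.mul (((smooth_pd B.smooth_X1 1).inner ℝ B.smooth_X1).contDiffAt.div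
      (B.smooth_X1.inner ℝ B.smooth_X1).contDiffAt (hX x (B.S_sub (hψS hx))).ne')
  · refine (contDiffAt_const (c := (0 : ℝ))).congr_of_eventuallyEq ?_
    filter_upwards [(isClosed_tsupport ψ).isOpen_compl.mem_nhds hx] with y hy
    simp [ccF, image_eq_zero_of_notMem_tsupport hy]

lemma leadP_js (k : Fin 2) : Js (fun y t => leadP B k t y) ∧ Per (fun y t => leadP B k t y) := by
  unfold leadP
  split_ifs
  · exact ⟨(B.smooth_X0.comp contDiff_fst).add B.g0_coef.js, fun y t => by simp [B.g0_coef.per y t]⟩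
  · exact ⟨B.smooth_X1.comp contDiff_fst, fun _ _ => rfl⟩

lemma qF_js (hψ : ContDiff ℝ ∞ ψ) (hψS : tsupport ψ ⊆ B.S)
    (hX : ∀ x ∈ B.N, 0 < ⟪B.X1 x, B.X1 x⟫) (i : Fin 3) :
    Js (fun y t => qF B D ψ t i y) ∧ Per (fun y t => qF B D ψ t i y) := by
  obtain ⟨hj, hp⟩ := leadP_js (B := B) 0
  have i0 : Js fun y t => ⟪leadP B 0 t y, D.D0 y⟫ := ContDiff.inner ℝ hj (D.smooth0.comp contDiff_fst)
  have i1 : Js fun y t => ⟪leadP B 0 t y, D.D1 y⟫ := ContDiff.inner ℝ hj (D.smooth1.comp contDiff_fst)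
  have i2 : Js fun y t => ⟪leadP B 0 t y, D.DV y⟫ := ContDiff.inner ℝ hj (D.smoothV.comp contDiff_fst)
  unfold qF
  refine ⟨?_, fun y t => by simp only [hp y t]⟩
  split_ifs
  · exact i0
  · exact ContDiff.sub i1 ((contDiff_const.mul ((ccF_smooth hψ hψS hX).comp contDiff_fst)).mul i2)
  · exact (contDiff_const (c := B.χ)).mul i2

lemma fldOf_js (c : Fin 2) : Js (fldOf B Lp c) ∧ Per (fldOf B Lp c) := by
  have h : ∀ y t, fldOf B Lp c y t = if c = 0 then Lp.σ y t else (1 - B.χ) • B.V y := fun _ _ => rfl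
  by_cases hc : c = 0
  · rw [show fldOf B Lp c = Lp.σ by funext y t; rw [h, if_pos hc]]
    exact ⟨Lp.σ_coef.js, Lp.σ_coef.per⟩
  · rw [show fldOf B Lp c = fun y (_ : ℝ) => (1 - B.χ) • B.V y by funext y t; rw [h, if_neg hc]]
    exact ⟨((B.V_coef.js.slow 0).const_smul (1 - B.χ)).comp contDiff_fst, fun _ _ => rfl⟩

/-- The constants exist. -/
theorem exists_ptConst (b : Bool) (hψ : ContDiff ℝ ∞ ψ) (hψS : tsupport ψ ⊆ B.S)
    (hX : ∀ x ∈ B.N, 0 < ⟪B.X1 x, B.X1 x⟫) {K : Set E2} (hK : IsCompact K)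
    (hfwd : ∀ x ∈ K, ∀ t, 0 < ⟪B.X0 x + B.g0 x t, D.D0 x⟫) :
    ∃ C₀, PtConst b B Lp D ψ K C₀ := by
  obtain ⟨R, hR⟩ := hK.exists_bound_of_continuousOn
    (f := fun x : E2 => x 1) (EuclideanSpace.proj (𝕜 := ℝ) (1 : Fin 2)).continuous.continuousOn
  choose Cf hCf0 hCf using fun c => per_jet_bound (fldOf_js Lp c).1 (fldOf_js Lp c).2 hK 10
  choose Cl hCl0 hCl using fun k => per_jet_bound (leadP_js (B := B) k).1 (leadP_js k).2 hK 3
  choose Cq hCq0 hCq using fun i => per_jet_bound (qF_js D hψ hψS hX i).1 (qF_js D hψ hψS hX i).2 hK 3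
  obtain ⟨m, hm, hmb⟩ := per_pos (qF_js D hψ hψS hX 0).1 (qF_js D hψ hψS hX 0).2 hK
    fun x hx t => by simpa [qF, leadP] using hfwd x hx t
  set C₀ := 1 + |R| + ∑ c, Cf c + ∑ k, Cl k + ∑ i, Cq i + m⁻¹ with hC
  have hs := Finset.sum_nonneg (s := Finset.univ) fun c _ => hCf0 c
  have hl := Finset.sum_nonneg (s := Finset.univ) fun c _ => hCl0 c
  have hq := Finset.sum_nonneg (s := Finset.univ) fun c _ => hCq0 c
  have hmi : 0 < m⁻¹ := inv_pos.2 hm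
  have hR0 := abs_nonneg R
  refine ⟨C₀, by linarith, fun x hx => ?_, fun c x hx t r hr => ?_, fun k x hx t r hr => ?_,
    fun i x hx t r hr => ?_, fun x hx t => ?_⟩
  · have h1 := hR x hx
    rw [Real.norm_eq_abs] at h1
    exact h1.trans (by linarith [le_abs_self R])
  · refine (hCf c x hx t r hr).trans ?_
    linarith [Finset.single_le_sum (fun c _ => hCf0 c) (Finset.mem_univ c)]
  · refine (hCl k x hx t r hr).trans ?_
    linarith [Finset.single_le_sum (fun c _ => hCl0 c) (Finset.mem_univ k)]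
  · refine (Real.norm_eq_abs _ ▸ hCq i x hx t r hr).trans ?_
    linarith [Finset.single_le_sum (fun c _ => hCq0 c) (Finset.mem_univ i)]
  · refine le_trans ?_ ((hmb x hx t).trans (le_abs_self _))
    exact inv_le_of_inv_le₀ hm (by linarith)

/-- Normalisation of the weights. -/
lemma norm_pos (κ Q th : ℕ) (hth : 14 ≤ th) {p : Ix} (hp : Adm p) (sx : SIx n) :
    0 < eps p ^ Q * (mkW n κ Q th hth).amp p (eS n sx) := by
  refine mul_pos (pow_pos (inv_pos.2 hp.M_pos) _) ?_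
  rcases sx with ⟨fr, r⟩ | r
  · simp only [mkW, Equiv.symm_apply_apply, ampOf]
    have : 0 < LL κ fr p := LL_freq κ fr p hp
    positivity
  · simp [mkW, ampOf]

lemma norm_smul_pos {X : Type} [NormedAddCommGroup X] [NormedSpace ℝ X] {c : ℝ} (hc : 0 < c)
    {u v : X} {P δ : ℝ} (h : ‖u - (c * P) • v‖ ≤ δ) : ‖c⁻¹ • u - P • v‖ ≤ c⁻¹ * δ := by
  have e : c⁻¹ • u - P • v = c⁻¹ • (u - (c * P) • v) := by
    rw [smul_sub, smul_smul, ← mul_assoc, inv_mul_cancel₀ hc.ne', one_mul]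
  rw [e, norm_smul, Real.norm_eq_abs, abs_of_pos (inv_pos.2 hc)]
  exact mul_le_mul_of_nonneg_left h (inv_pos.2 hc).le

/-- Finitely many monotone bounds have a common one. -/
lemma exists_common {ι : Type} [Fintype ι] {P : ι → ℝ → Prop}
    (hm : ∀ i C C', C ≤ C' → P i C → P i C') (h : ∀ i, ∃ C, 0 ≤ C ∧ P i C) :
    ∃ C, 0 ≤ C ∧ ∀ i, P i C := by
  choose C hC0 hC using h
  exact ⟨∑ i, C i, Finset.sum_nonneg fun i _ => hC0 i,
    fun i => hm i _ _ (Finset.single_le_sum (fun i _ => hC0 i) (Finset.mem_univ i)) (hC i)⟩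

variable {Lp}
variable {Y : Fin n → Fin 2 → Fin 7 → E2 → R4} {κ Q th : ℕ} {hth : 14 ≤ th} {G : Fm (dN n) R4}

/-- Jets of the normalised oscillating variations. -/
theorem wv_osc (hG : ∀ p, Js (G p)) (hP : PackSpec B Lp ψ Y κ Q th hth G) :
    ∃ S, 0 ≤ S ∧ ∀ (fr c : Fin 2) (i : Fin 6 × Fin 2) (r a b : Fin 11),
      ∀ p, Adm p → ∀ l ∈ Box (dN n), ∀ x,
        ‖jd a b (Wv (mkW n κ Q th hth) G p l (.inl (fr, c, i, r))) x -
          ((p.M : ℝ) * LL κ fr p) ^ (a : ℕ) • (deriv^[(a : ℕ) + 1] (prof i) (LL κ fr p * (p.M * x 0)) •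
            jd 0 b (fun y => oscC B Lp ψ c r y (p.M * x 0)) x)‖ ≤
          S * (((LL κ fr p : ℝ))⁻¹ + eps p) * ((p.M : ℝ) * LL κ fr p) ^ (a : ℕ) := by
  obtain ⟨S, hS, h⟩ := exists_common (ι := Fin 2 × Fin 2 × (Fin 6 × Fin 2) × Fin 11 × Fin 11 × Fin 11)
    (P := fun q S => ∀ p, Adm p → ∀ l ∈ Box (dN n), ∀ x,
      ‖jd q.2.2.2.2.1 q.2.2.2.2.2 (Wv (mkW n κ Q th hth) G p l
          (.inl (q.1, q.2.1, q.2.2.1, q.2.2.2.1))) x -
        ((p.M : ℝ) * LL κ q.1 p) ^ (q.2.2.2.2.1 : ℕ) •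
          (deriv^[(q.2.2.2.2.1 : ℕ) + 1] (prof q.2.2.1) (LL κ q.1 p * (p.M * x 0)) •
            jd 0 q.2.2.2.2.2 (fun y => oscC B Lp ψ q.2.1 q.2.2.2.1 y (p.M * x 0)) x)‖ ≤
        S * (((LL κ q.1 p : ℝ))⁻¹ + eps p) * ((p.M : ℝ) * LL κ q.1 p) ^ (q.2.2.2.2.1 : ℕ))
    (fun q C C' hC h p hp l hl x => (h p hp l hl x).trans (by
      refine mul_le_mul_of_nonneg_right (mul_le_mul_of_nonneg_right hC ?_) (by positivity)
      exact add_nonneg (inv_nonneg.2 (Nat.cast_nonneg _)) (eps_nonneg p)))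
    fun q => by
      obtain ⟨fr, c, i, r, a, b⟩ := q
      obtain ⟨s, R, hs, hO, hE⟩ := hP.osc fr c i r
      obtain ⟨C, hC, h⟩ := osc_jet hO (LL_freq κ fr) (prof_profile i)
        (fun p => by simp [mkW, freqOf]) hG hE hs (show (a : ℕ) ≤ 11 by omega) b
      refine ⟨C, hC, fun p hp l hl x => ?_⟩
      have hc := norm_pos (n := n) κ Q th hth hp (.inl (fr, c, i, r))
      dsimp only
      rw [Wv, jd_smul (rl_smooth (Φ := dk (eS n (.inl (fr, c, i, r))) G)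
        (fun q => (hG q).dir (pv _)) p l), Pi.smul_apply]
      refine (norm_smul_pos hc (h p hp l hl x)).trans (le_of_eq ?_)
      generalize (mkW n κ Q th hth).amp p (eS n (.inl (fr, c, i, r))) = A at hc ⊢
      show (eps p ^ Q * A)⁻¹ * (C * (eps p ^ Q * A * _ * _)) = _
      rw [show ∀ E P d : ℝ, E⁻¹ * (C * (E * P * d)) = E⁻¹ * E * (C * d * P) from
        fun E P d => by ring, inv_mul_cancel₀ hc.ne', one_mul]
  exact ⟨S, hS, fun fr c i r a b => h (fr, c, i, r, a, b)⟩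

/-- Jets of the normalised slow variations. -/
theorem wv_abs (hG : ∀ p, Js (G p)) (hY : ∀ i c j, ContDiff ℝ ∞ (Y i c j))
    (hP : PackSpec B Lp ψ Y κ Q th hth G) {K : Set E2} (hK : IsCompact K) :
    ∃ S, 0 ≤ S ∧ ∀ (i : Fin n) (c : Fin 2) (j : Fin 7) (a b : Fin 11),
      ∀ p, Adm p → ∀ l ∈ Box (dN n), ∀ x ∈ K,
        ‖jd a b (Wv (mkW n κ Q th hth) G p l (.inr (i, c, j))) x - jd a b (Y i c j) x‖ ≤
          S * eps p * (p.M : ℝ) ^ (a : ℕ) ∧ ‖jd a b (Y i c j) x‖ ≤ S := by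
  obtain ⟨S, hS, h⟩ := exists_common (ι := Fin n × Fin 2 × Fin 7 × Fin 11 × Fin 11)
    (P := fun q S => ∀ p, Adm p → ∀ l ∈ Box (dN n), ∀ x ∈ K,
      ‖jd q.2.2.2.1 q.2.2.2.2 (Wv (mkW n κ Q th hth) G p l (.inr (q.1, q.2.1, q.2.2.1))) x -
          jd q.2.2.2.1 q.2.2.2.2 (Y q.1 q.2.1 q.2.2.1) x‖ ≤
        S * eps p * (p.M : ℝ) ^ (q.2.2.2.1 : ℕ) ∧
      ‖jd q.2.2.2.1 q.2.2.2.2 (Y q.1 q.2.1 q.2.2.1) x‖ ≤ S)
    (fun q C C' hC h p hp l hl x hx => ⟨(h p hp l hl x hx).1.trans (mul_le_mul_of_nonneg_right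
      (mul_le_mul_of_nonneg_right hC (eps_nonneg p)) (by positivity)),
      (h p hp l hl x hx).2.trans hC⟩)
    fun q => by
      obtain ⟨i, c, j, a, b⟩ := q
      obtain ⟨C, hC, h⟩ := slow_jet (W := mkW n κ Q th hth) (hY i c j) hG
        (fun p => by simp [mkW, freqOf]) (fun p => by simp [mkW, ampOf]) (hP.slow i c j)
        (show (a : ℕ) ≤ 11 by omega) b
      obtain ⟨C', hC'⟩ := hK.exists_bound_of_continuousOn
        (smooth_jd (hY i c j) a b).continuous.continuousOn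
      refine ⟨C + max C' 0, by positivity, fun p hp l hl x hx => ⟨?_, ?_⟩⟩
      · have hc : 0 < eps p ^ Q := pow_pos (inv_pos.2 hp.M_pos) _
        have ea : (mkW n κ Q th hth).amp p (eS n (.inr (i, c, j))) = 1 := by simp [mkW, ampOf]
        dsimp only
        rw [Wv, jd_smul (rl_smooth (Φ := dk (eS n (.inr (i, c, j))) G)
          (fun q => (hG q).dir (pv _)) p l), Pi.smul_apply, ea, mul_one]
        have h1 := h p hp l hl x
        have h' := norm_smul_pos (P := 1) hc (δ := C * (eps p ^ (Q + 1) * (p.M : ℝ) ^ (a : ℕ)))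
          (by rw [mul_one]; exact h1)
        rw [one_smul] at h'
        refine h'.trans ?_
        show (eps p ^ Q)⁻¹ * (C * (eps p ^ (Q + 1) * _)) ≤ _
        rw [pow_succ, show ∀ E P : ℝ, E⁻¹ * (C * (E * eps p * P)) = E⁻¹ * E * (C * eps p * P)
          from fun E P => by ring, inv_mul_cancel₀ hc.ne', one_mul]
        exact mul_le_mul_of_nonneg_right (mul_le_mul_of_nonneg_right
          (le_add_of_nonneg_right (le_max_right _ _)) (eps_nonneg p)) (by positivity)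
      · exact (hC' x hx).trans ((le_max_left _ _).trans (le_add_of_nonneg_left hC))
  exact ⟨S, hS, fun i c j a b => h (i, c, j, a, b)⟩

lemma oscC_js (hψ : ContDiff ℝ ∞ ψ) (c : Fin 2) (r : ℕ) : Js (oscC B Lp ψ c r) :=
  ((hψ.mul (((EuclideanSpace.proj (𝕜 := ℝ) (1 : Fin 2)).contDiff).pow r)).comp contDiff_fst).smul
    (fldOf_js Lp c).1

/-- Bounds of the leading terms along lines. -/
theorem lead_bound (hψ : ContDiff ℝ ∞ ψ) {K : Set E2} (hK : IsCompact K) :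
    ∃ S, 0 ≤ S ∧ ∀ (c : Fin 2) (r : Fin 11) (i : Fin 6 × Fin 2) (b : ℕ), b ≤ 3 → ∀ x ∈ K, ∀ t u : ℝ,
      ‖jd 0 b (deriv (prof i) u • fun y => oscC B Lp ψ c r y t) x‖ ≤ S := by
  obtain ⟨S, hS, h⟩ := exists_common (ι := Fin 2 × Fin 11 × (Fin 6 × Fin 2))
    (P := fun q S => ∀ b ≤ 3, ∀ x ∈ K, ∀ t u : ℝ,
      ‖jd 0 b (deriv (prof q.2.2) u • fun y => oscC B Lp ψ q.1 q.2.1 y t) x‖ ≤ S)
    (fun q C C' hC h b hb x hx t u => (h b hb x hx t u).trans hC) fun q => by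
      obtain ⟨C, hC, h⟩ := per_jet_bound (oscC_js (Lp := Lp) hψ q.1 q.2.1)
        (fun y t => by simp [oscC, (fldOf_js Lp q.1).2 y t]) hK 3
      obtain ⟨D, hD, hD'⟩ := (prof_profile q.2.2).deriv.bounded
      refine ⟨D * C, by positivity, fun b hb x hx t u => ?_⟩
      rw [jd_smul ((oscC_js (Lp := Lp) hψ q.1 q.2.1).slow t), Pi.smul_apply, norm_smul,
        Real.norm_eq_abs]
      exact mul_le_mul (hD' u) (h x hx t b hb) (norm_nonneg _) hD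
  exact ⟨S, hS, fun c r i b hb => h (c, r, i) b hb⟩

variable {f : E2 → R4}

/-- Tangential components along a line against their leading terms. -/
theorem tan_gen {F u v : E2 → R4} (hF : ContDiff ℝ ∞ F) (hu : ContDiff ℝ ∞ u) (hv : ContDiff ℝ ∞ v)
    {x : E2} {t : ℝ} {k : Fin 2} {P E R D' : ℝ}
    (hP : ∀ r ≤ 3, ‖jd 0 r (leadP B k t) x‖ ≤ P)
    (hD : ∀ r ≤ 3, ‖jd 0 r (fun y => pd k F y - leadP B k t y) x‖ ≤ D')
    (hR : ∀ r ≤ 3, ‖jd 0 r u x‖ ≤ R) (hE : ∀ r ≤ 3, ‖jd 0 r (fun y => u y - v y) x‖ ≤ E) {b : ℕ}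
    (hb : b ≤ 3) :
    |jd 0 b (fun y => ⟪pd k F y, u y⟫) x - jd 0 b (fun y => ⟪leadP B k t y, v y⟫) x| ≤
      8 * D' * R + 8 * P * E := by
  have hPs : ContDiff ℝ ∞ (leadP B k t) := (leadP_js (B := B) k).1.slow t
  have hd : ContDiff ℝ ∞ fun y => pd k F y - leadP B k t y := (smooth_pd hF k).sub hPs
  have huv : ContDiff ℝ ∞ fun y => u y - v y := hu.sub hv
  rw [← jd_sub 0 b ((smooth_pd hF k).inner ℝ hu) (hPs.inner ℝ hv), show
    (fun y => ⟪pd k F y, u y⟫ - ⟪leadP B k t y, v y⟫) =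
      (fun y => ⟪pd k F y - leadP B k t y, u y⟫) + fun y => ⟪leadP B k t y, u y - v y⟫ by
    funext y; simp [inner_sub_left, inner_sub_right],
    jd_add (hd.inner ℝ hu) (hPs.inner ℝ huv), Pi.add_apply]
  have h8 : (2 : ℝ) ^ b ≤ 8 := le_trans (pow_le_pow_right₀ one_le_two hb) (by norm_num)
  have hD0 : 0 ≤ D' := (norm_nonneg _).trans (hD 0 (Nat.zero_le _))
  have hP0 : 0 ≤ P := (norm_nonneg _).trans (hP 0 (Nat.zero_le _))
  have hR0 : 0 ≤ R := (norm_nonneg _).trans (hR 0 (Nat.zero_le _))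
  have hE0 : 0 ≤ E := (norm_nonneg _).trans (hE 0 (Nat.zero_le _))
  refine (abs_add_le _ _).trans (add_le_add
    ((ip_jd_le hd hu (fun r hr => hD r (hr.trans hb)) (fun r hr => hR r (hr.trans hb))).trans
      (by gcongr))
    ((ip_jd_le hPs huv (fun r hr => hP r (hr.trans hb)) (fun r hr => hE r (hr.trans hb))).trans
      (by gcongr)))

/-- The tangent fields against their leading terms along a line. -/
theorem pd_lead_line (hf : ContDiff ℝ ∞ f)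
    (hfX : ∀ x ∈ B.N, B.X0 x = pd 0 f x ∧ B.X1 x = pd 1 f x) {W : Wts (dN n)} (hG : Up W 0 G)
    (hgG : Low W 1 (dtF G - gF (dN n) B)) :
    ∃ S, 0 ≤ S ∧ ∀ p, Adm p → ∀ l ∈ Box (dN n), ∀ x ∈ B.N, ∀ (k : Fin 2) (r : ℕ), r ≤ 3 →
      ‖jd 0 r (fun y => pd k (famF f G p l) y - leadP B k (p.M * x 0) y) x‖ ≤ S * eps p := by
  obtain ⟨S, hS, h⟩ := exists_common (ι := Fin 4)
    (P := fun r S => ∀ p, Adm p → ∀ l ∈ Box (dN n), ∀ x,
      (∀ᶠ y in 𝓝 x, B.X0 y = pd 0 f y ∧ B.X1 y = pd 1 f y) →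
      ‖jd 0 r (fun y => pd 0 (famF f G p l) y - (B.X0 y + rl (gF (dN n) B) p (l, y))) x‖ ≤ S * eps p ∧
        ‖jd 0 r (fun y => pd 1 (famF f G p l) y - B.X1 y) x‖ ≤ S * eps p)
    (fun r C C' hC h p hp l hl x hx => ⟨(h p hp l hl x hx).1.trans
      (mul_le_mul_of_nonneg_right hC (eps_nonneg p)),
      (h p hp l hl x hx).2.trans (mul_le_mul_of_nonneg_right hC (eps_nonneg p))⟩)
    fun r => pd_lead (B := B) hf hG hgG r
  refine ⟨S, hS, fun p hp l hl x hx k r hr => ?_⟩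
  obtain ⟨b0, b1⟩ := h ⟨r, by omega⟩ p hp l hl x
    (eventually_of_mem (B.N_open.mem_nhds hx) hfX)
  have hFs : ContDiff ℝ ∞ (famF f G p l) :=
    (famF_smooth hf hG.val.js p).comp (contDiff_const.prodMk contDiff_id)
  fin_cases k
  · refine le_trans (le_of_eq (congrArg (‖·‖) ?_)) b0
    refine jd_line_congr r ((smooth_pd hFs 0).sub ((leadP_js (B := B) 0).1.slow _)) ?_ x fun y hy => ?_
    · exact (smooth_pd hFs 0).sub (B.smooth_X0.add (rl_smooth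
        (fun q => B.g0_coef.js.pull (ContinuousLinearMap.snd ℝ (Fin (dN n) → ℝ) E2)) p l))
    · simp [leadP, rl, gF, cf, phase_apply, hy]
  · simpa [leadP] using b1

/-- Oscillating leading terms are normal to the leading tangent fields. -/
theorem lead_perp (b : Bool) (hχ : B.χ = if b then 1 else 0)
    (hV : ∀ x ∈ B.N, ⟪B.X1 x, B.V x⟫ = 0 ∧ LinearIndependent ℝ ![B.X0 x, B.X1 x, B.V x] ∧
      (b = false → ‖B.V x‖ = 1 ∧ ⟪B.X0 x, B.V x⟫ = 0))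
    (hg : Lp.g0 = B.g0) (c : Fin 2) (r : ℕ) (k : Fin 2) (t : ℝ) {y : E2} (hy : y ∈ B.N) :
    ⟪leadP B k t y, oscC B Lp ψ c r y t⟫ = 0 := by
  obtain ⟨f1, f2, f3, f4, f5, f6, f7, f8⟩ := Lp.frame y hy t
  rw [oscC, inner_smul_right]
  have : ⟪leadP B k t y, fldOf B Lp c y t⟫ = 0 := by
    unfold leadP fldOf
    split_ifs
    · rw [← hg]; exact f8
    · rw [inner_smul_right, inner_add_left, real_inner_comm (B.V y) (B.g0 y t), B.loop_perp',
        add_zero]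
      cases b
      · rw [((hV y hy).2.2 rfl).2, mul_zero]
      · simp [hχ]
    · exact f6
    · rw [inner_smul_right, (hV y hy).1, mul_zero]
  rw [this, mul_zero]

/-- The free fields are orthonormal. -/
theorem fld_orth (b : Bool) (hχ : B.χ = if b then 1 else 0)
    (hV : ∀ x ∈ B.N, ⟪B.X1 x, B.V x⟫ = 0 ∧ LinearIndependent ℝ ![B.X0 x, B.X1 x, B.V x] ∧
      (b = false → ‖B.V x‖ = 1 ∧ ⟪B.X0 x, B.V x⟫ = 0))
    {x : E2} (hx : x ∈ B.N) (t : ℝ) (c c' : Fin (nfree b)) :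
    ⟪fldOf B Lp (Fin.castLE (nfree_le b) c) x t, fldOf B Lp (Fin.castLE (nfree_le b) c') x t⟫ =
      if c = c' then (1 : ℝ) else 0 := by
  obtain ⟨f1, f2, f3, f4, f5, f6, f7, f8⟩ := Lp.frame x hx t
  cases b
  · have hV1 := ((hV x hx).2.2 rfl).1
    have e1 : ⟪Lp.σ x t, Lp.σ x t⟫ = 1 := by rw [real_inner_self_eq_norm_sq, f2]; norm_num
    have e2 : ⟪B.V x, B.V x⟫ = 1 := by rw [real_inner_self_eq_norm_sq, hV1]; norm_num
    have e3 : ⟪Lp.σ x t, B.V x⟫ = 0 := by rw [real_inner_comm]; exact f7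
    fin_cases c <;> fin_cases c' <;> simp [fldOf, hχ, e3, f7, f2, hV1, Fin.ext_iff]
  · have h0 : ∀ d : Fin (nfree true), (d : ℕ) = 0 := fun d => by
      have := d.isLt; simp [nfree] at this; omega
    have e : ∀ d : Fin (nfree true), Fin.castLE (nfree_le true) d = (0 : Fin 2) := fun d =>
      Fin.ext (by simp [h0 d])
    rw [e c, e c', if_pos (Fin.ext (by rw [h0 c, h0 c']))]
    simp [fldOf, f2]

/-- The model of a slow field. -/
theorem model_eq {x₀ : E2} (hx : x₀ ∈ B.N) (t : ℝ) (k c : Fin 2) (j : ℕ) :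
    (fun y => ⟪leadP B k t y, Ysm B D ψ c j y⟫) =ᶠ[𝓝 x₀] tanModel (qF B D ψ t) k c j := by
  filter_upwards [B.N_open.mem_nhds hx] with y hy
  obtain ⟨a0, a1, -⟩ := D.eq0 y hy
  obtain ⟨b0, b1, -⟩ := D.eq1 y hy
  obtain ⟨d0, d1, -⟩ := D.eqV y hy
  have hpd : pd 1 (fun z : E2 => z 1 ^ j) y = (j : ℕ) * y 1 ^ (j - 1) := by
    have h1 := ((EuclideanSpace.proj (𝕜 := ℝ) (1 : Fin 2)).hasFDerivAt (x := y)).pow j
    have h2 : fderiv ℝ (fun z : E2 => z 1 ^ j) y = _ := h1.fderiv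
    rw [pd, h2]
    simp [ev]
  have hpd0 : pd 1 (fun _ : E2 => (0 : ℝ)) y = 0 := by simp [pd]
  fin_cases k <;> fin_cases c <;>
    simp [tanModel, Ysm, slowData, qF, leadP, inner_add_right, real_inner_smul_right, a1, b1, d1,
      hpd, hpd0] <;> ring

lemma slow_tan {b : ℕ} (hb : b ≤ 3) (hψ : ContDiff ℝ ∞ ψ) (hψS : tsupport ψ ⊆ B.S)
    (hX : ∀ x ∈ B.N, 0 < ⟪B.X1 x, B.X1 x⟫) {F u Yf : E2 → R4} (hF : ContDiff ℝ ∞ F)
    (hu : ContDiff ℝ ∞ u) (hYf : ContDiff ℝ ∞ Yf) {x : E2} (hxN : x ∈ B.N)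
    (hψ1 : ψ =ᶠ[𝓝 x] fun _ => 1) {t : ℝ} {k c : Fin 2} {j : ℕ} {P E E' R D' : ℝ}
    (hP : ∀ r ≤ 3, ‖jd 0 r (leadP B k t) x‖ ≤ P)
    (hD : ∀ r ≤ 3, ‖jd 0 r (fun y => pd k F y - leadP B k t y) x‖ ≤ D')
    (hR : ∀ r ≤ 3, ‖jd 0 r u x‖ ≤ R) (hE : ∀ r ≤ 3, ‖jd 0 r (fun y => u y - Yf y) x‖ ≤ E)
    (hE' : ∀ r ≤ 3, ‖jd 0 r (fun y => Yf y - Y0 B D (slowData c j).1 (slowData c j).2 y) x‖ ≤ E') :
    |jd 0 b (fun y => ⟪pd k F y, u y⟫) x - jd 0 b (tanModel (qF B D ψ t) k c j) x| ≤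
      8 * D' * R + 8 * P * (E + E') := by
  have hcc := ccF_smooth (B := B) hψ hψS hX
  have hmn : ContDiff ℝ ∞ fun y : E2 => y 1 ^ j :=
    ((EuclideanSpace.proj (𝕜 := ℝ) (1 : Fin 2)).contDiff).pow _
  have hα : ContDiff ℝ ∞ (slowData c j).1 := by
    unfold slowData; split_ifs <;> [exact hmn; exact contDiff_const]
  have hβ : ContDiff ℝ ∞ (slowData c j).2 := by
    unfold slowData; split_ifs <;> [exact contDiff_const; exact hmn]
  have hys : ContDiff ℝ ∞ (Ysm B D ψ c j) := ((hα.smul D.smooth0).add (hβ.smul D.smooth1)).add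
    ((contDiff_const.mul ((smooth_pd hβ 1).sub (hcc.mul hβ))).smul D.smoothV)
  have heq : Ysm B D ψ c j =ᶠ[𝓝 x] Y0 B D (slowData c j).1 (slowData c j).2 := by
    filter_upwards [hψ1] with y hy
    simp [Ysm, Y0, ccF, hy]
  have hd : ∀ r ≤ 3, ‖jd 0 r (fun y => u y - Ysm B D ψ c j y) x‖ ≤ E + E' := fun r hr => by
    rw [show (fun y => u y - Ysm B D ψ c j y) = (fun y => u y - Yf y) +
        fun y => Yf y - Ysm B D ψ c j y by funext y; simp,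
      jd_add (hu.sub hYf) (hYf.sub hys), Pi.add_apply]
    refine (norm_add_le _ _).trans (add_le_add (hE r hr) ?_)
    rw [jd_congr_at (g' := fun y => Yf y - Y0 B D (slowData c j).1 (slowData c j).2 y)
      (heq.mono fun y hy => by simp only [hy]) 0 r]
    exact hE' r hr
  have := tan_gen hF hu hys hP hD hR hd hb
  rwa [jd_congr_at (model_eq D hxN t k c j) 0 b] at this

/-- An oscillating variation is almost normal along the line. -/
lemma osc_tan (bb : Bool) (hχ : B.χ = if bb then 1 else 0)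
    (hV : ∀ x ∈ B.N, ⟪B.X1 x, B.V x⟫ = 0 ∧ LinearIndependent ℝ ![B.X0 x, B.X1 x, B.V x] ∧
      (bb = false → ‖B.V x‖ = 1 ∧ ⟪B.X0 x, B.V x⟫ = 0))
    (hg : Lp.g0 = B.g0) (hψ : ContDiff ℝ ∞ ψ) {F u : E2 → R4} (hF : ContDiff ℝ ∞ F)
    (hu : ContDiff ℝ ∞ u) {x : E2} (hxN : x ∈ B.N) {t dv : ℝ} {k c : Fin 2} {r : ℕ}
    {P D' R E : ℝ} (hP : ∀ q ≤ 3, ‖jd 0 q (leadP B k t) x‖ ≤ P)
    (hD : ∀ q ≤ 3, ‖jd 0 q (fun y => pd k F y - leadP B k t y) x‖ ≤ D')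
    (hR : ∀ q ≤ 3, ‖jd 0 q u x‖ ≤ R)
    (hE : ∀ q ≤ 3, ‖jd 0 q (fun y => u y - dv • oscC B Lp ψ c r y t) x‖ ≤ E) {b : ℕ} (hb : b ≤ 3) :
    |jd 0 b (fun y => ⟪pd k F y, u y⟫) x| ≤ 8 * D' * R + 8 * P * E := by
  have hv : ContDiff ℝ ∞ fun y => dv • oscC B Lp ψ c r y t :=
    ((oscC_js (Lp := Lp) hψ c r).slow t).const_smul dv
  have hz : jd 0 b (fun y => ⟪leadP B k t y, dv • oscC B Lp ψ c r y t⟫) x = 0 := by
    have h0 : ∀ r, jd 0 r (fun _ : E2 => (0 : ℝ)) = fun _ => 0 := fun r => by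
      induction r with
      | zero => rfl
      | succ r ih =>
        rw [jd_succ_right, show pd 1 (fun _ : E2 => (0 : ℝ)) = fun _ => 0 from by
          funext y; simp [pd]]
        exact ih
    rw [jd_congr_at (g' := fun _ => (0 : ℝ))
      (eventually_of_mem (B.N_open.mem_nhds hxN) fun y hy => ?_) 0 b, h0]
    simp only [inner_smul_right, lead_perp _ hχ hV hg c r k t hy, mul_zero]
  have := tan_gen hF hu hv hP hD hR hE hb
  rwa [hz, sub_zero] at this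

/-- THE DATA OF THE ROWS. -/
theorem rows_point (b : Bool) (hχ : B.χ = if b then 1 else 0)
    (hV : ∀ x ∈ B.N, ⟪B.X1 x, B.V x⟫ = 0 ∧ LinearIndependent ℝ ![B.X0 x, B.X1 x, B.V x] ∧
      (b = false → ‖B.V x‖ = 1 ∧ ⟪B.X0 x, B.V x⟫ = 0))
    (hg : Lp.g0 = B.g0) (hψ : ContDiff ℝ ∞ ψ) (hψS : tsupport ψ ⊆ B.S) {K : Set E2} (hK : IsCompact K)
    (hKN : K ⊆ B.N) (hψ1 : ∀ x ∈ K, ψ =ᶠ[𝓝 x] fun _ => 1) (hf : ContDiff ℝ ∞ f)
    (hfX : ∀ x ∈ B.N, B.X0 x = pd 0 f x ∧ B.X1 x = pd 1 f x)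
    {C₀ : ℝ} (hC₀ : PtConst b B Lp D ψ K C₀) (hY : ∀ i c j, ContDiff ℝ ∞ (Y i c j))
    (hG : Up (mkW n κ Q th hth) 0 G) (hgG : Low (mkW n κ Q th hth) 1 (dtF G - gF (dN n) B))
    (hP : PackSpec B Lp ψ Y κ Q th hth G) :
    ∃ Bd C₁, 1 ≤ Bd ∧ 0 ≤ C₁ ∧ ∀ p, Adm p → ∀ l ∈ Box (dN n), ∀ x ∈ K, ∀ (fr : Fin 2) (i₀ : Fin n)
      (ηY ηg : ℝ), 0 ≤ ηg → ηg ≤ 1 →
      (∀ (c : Fin 2) (j : Fin 7) (r : ℕ), r ≤ 6 →
        ‖jd 0 r (fun y => Y i₀ c j y - Y0 B D (slowData c j).1 (slowData c j).2 y) x‖ ≤ ηY) →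
      (∀ c, (b = false ∨ c = 0) →
        ‖sF b B Lp (famF f G p l) x (p.M * x 0) c - fldOf B Lp c x (p.M * x 0)‖ ≤ ηg) →
      RowsData (nfree b) (nfree_le b) (famF f G p l) (Wv (mkW n κ Q th hth) G p l) ψ
        (fun c y => fldOf B Lp c y (p.M * x 0)) (qF B D ψ (p.M * x 0))
        (sF b B Lp (famF f G p l) x (p.M * x 0)) x fr i₀ (LL κ fr p * (p.M * x 0))
        ((p.M : ℝ) * LL κ fr p) (C₀ + 2) Bd (C₁ * eps p + 8 * C₀ * ηY + ηg)
        (C₁ * (((LL κ fr p : ℝ))⁻¹ + eps p)) := by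
  have hX1pos : ∀ x ∈ B.N, 0 < ⟪B.X1 x, B.X1 x⟫ := fun x hx => by
    have h := (hV x hx).2.1.ne_zero 1
    simp only [Matrix.cons_val_one, Matrix.cons_val_zero] at h
    exact real_inner_self_pos.2 h
  have hGj := hG.val.js
  obtain ⟨S1, p1, hO⟩ := wv_osc hGj hP
  obtain ⟨S2, p2, hA⟩ := wv_abs hGj hY hP hK
  obtain ⟨S4, p4, hD⟩ := pd_lead_line hf hfX hG hgG
  obtain ⟨S5, p5, hL⟩ := lead_bound (Lp := Lp) hψ hK
  have hC0 : 0 ≤ C₀ := zero_le_one.trans hC₀.one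
  set C₁ := S1 + 8 * S4 * (S5 + 2 * S1) + 8 * C₀ * S1 + (8 * S4 * (2 * S2) + 8 * C₀ * S2) with hC₁
  have hC1a : S1 ≤ C₁ := by
    have : 0 ≤ 8 * S4 * (S5 + 2 * S1) + 8 * C₀ * S1 + (8 * S4 * (2 * S2) + 8 * C₀ * S2) := by
      positivity
    linarith
  refine ⟨1 + 2 * S2, C₁, by linarith, by positivity,
    fun p hp l hl x hx fr i₀ ηY ηg hηg0 hηg1 hYc hs' => ?_⟩
  set t := (p.M : ℝ) * x 0 with ht
  have hε := eps_nonneg p
  have hε1 := eps_le_one hp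
  have hL1 : (1 : ℝ) ≤ LL κ fr p := Nat.one_le_cast.2 (LL_freq κ fr p hp)
  set δL := ((LL κ fr p : ℝ))⁻¹ + eps p with hδL
  have hεL : eps p ≤ δL := le_add_of_nonneg_left (inv_nonneg.2 (by linarith))
  have hδ0 : 0 ≤ δL := hε.trans hεL
  have hδ2 : δL ≤ 2 := by linarith [inv_le_one_of_one_le₀ hL1]
  have hηY : 0 ≤ ηY := (norm_nonneg _).trans (hYc 0 0 0 (Nat.zero_le _))
  have hΛ : (1 : ℝ) ≤ (p.M : ℝ) * LL κ fr p := one_le_mul_of_one_le_of_one_le hp.one_le_M hL1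
  have hWs : ∀ sx, ContDiff ℝ ∞ (Wv (mkW n κ Q th hth) G p l sx) := fun sx =>
    (rl_smooth (Φ := dk (eS n sx) G) (fun q => (hGj q).dir (pv _)) p l).const_smul
      ((eps p ^ (mkW n κ Q th hth).Q * (mkW n κ Q th hth).amp p (eS n sx))⁻¹)
  have hFs : ContDiff ℝ ∞ (famF f G p l) :=
    (famF_smooth hf hGj p).comp (contDiff_const.prodMk contDiff_id)
  refine ⟨hΛ, (hC₀.hx x hx).trans (by linarith), hψ1 x hx, hψ, fun c => ?_, fun i => ?_, ?_, ?_,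
    ?_, hWs, fun c i r a b ha hb => ?_, fun c j a b ha hb => ?_, fun c i r k b hb => ?_,
    fun c j k b hb => ?_⟩
  · exact ⟨(fldOf_js Lp c).1.slow t, fun b hb => (hC₀.fld c x hx t b hb).trans (by linarith)⟩
  · exact ⟨(qF_js D hψ hψS hX1pos i).1.slow t, fun b hb => (hC₀.q i x hx t b hb).trans (by linarith)⟩
  · exact le_trans (inv_anti₀ (by linarith [hC₀.one]) (by linarith)) (hC₀.q0 x hx t)
  · intro c
    by_cases hc : b = false ∨ c = 0
    · have h2 : ‖fldOf B Lp c x t‖ ≤ C₀ := hC₀.fld c x hx t 0 (Nat.zero_le _)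
      calc ‖sF b B Lp (famF f G p l) x t c‖ ≤ ‖fldOf B Lp c x t‖ +
            ‖sF b B Lp (famF f G p l) x t c - fldOf B Lp c x t‖ := norm_le_norm_add_norm_sub' _ _
        _ ≤ C₀ + 2 := by linarith [hs' c hc]
    · have hb' : b = true := by cases b <;> simp_all
      have hc' : c ≠ 0 := fun h => hc (Or.inr h)
      simp only [sF, free2, hb', hc', if_true, if_false, norm_zero]
      linarith
  · intro c c'
    have hc : b = false ∨ Fin.castLE (nfree_le b) c' = 0 := by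
      cases b
      · exact Or.inl rfl
      · refine Or.inr (Fin.ext ?_)
        have := c'.isLt
        simp [nfree] at this
        simp [this]
    rw [← fld_orth b hχ hV (hKN hx) t c c', ← inner_sub_right]
    refine (abs_real_inner_le_norm _ _).trans ?_
    have h1 : ‖fldOf B Lp (Fin.castLE (nfree_le b) c) x t‖ = 1 := by
      have h := fld_orth (Lp := Lp) b hχ hV (hKN hx) t c c
      rw [if_pos rfl, real_inner_self_eq_norm_sq] at h
      nlinarith [norm_nonneg (fldOf B Lp (Fin.castLE (nfree_le b) c) x t)]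
    rw [h1, one_mul]
    refine (hs' _ hc).trans (le_add_of_nonneg_left ?_)
    positivity
  · refine (hO fr c i r ⟨a, by omega⟩ ⟨b, by omega⟩ p hp l hl x).trans ?_
    exact mul_le_mul_of_nonneg_right (mul_le_mul_of_nonneg_right hC1a hδ0) (by positivity)
  · obtain ⟨h1, h2⟩ := hA i₀ c j ⟨a, by omega⟩ ⟨b, by omega⟩ p hp l hl x hx
    refine (norm_le_norm_add_norm_sub' _ (jd a b (Y i₀ c j) x)).trans ?_
    refine (add_le_add h2 h1).trans ?_
    have h3 : (1 : ℝ) ≤ ((p.M : ℝ) * LL κ fr p) ^ a := one_le_pow₀ hΛ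
    have h4 : (p.M : ℝ) ^ a ≤ ((p.M : ℝ) * LL κ fr p) ^ a := pow_le_pow_left₀ (Nat.cast_nonneg _)
      (le_mul_of_one_le_right (Nat.cast_nonneg _) hL1) a
    have h5 : S2 * eps p * (p.M : ℝ) ^ a ≤ S2 * ((p.M : ℝ) * LL κ fr p) ^ a :=
      mul_le_mul (mul_le_of_le_one_right p2 hε1) h4 (by positivity) p2
    show S2 + S2 * eps p * (p.M : ℝ) ^ a ≤ _
    nlinarith only [h3, h5, p2]
  · have hC : ContDiff ℝ ∞ fun y => oscC B Lp ψ c r y t := (oscC_js (Lp := Lp) hψ c r).slow t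
    generalize hdv : deriv (prof i) (LL κ fr p * t) = dv
    have hd : ∀ q ≤ 3, ‖jd 0 q (fun y => Wv (mkW n κ Q th hth) G p l (.inl (fr, c, i, r)) y -
        dv • oscC B Lp ψ c r y t) x‖ ≤ S1 * δL := fun q hq => by
      erw [jd_sub 0 q (g' := dv • fun y => oscC B Lp ψ c r y t) (hWs _) (hC.const_smul dv)]
      rw [jd_smul hC, Pi.smul_apply, ← hdv]
      simpa using hO fr c i r 0 ⟨q, by omega⟩ p hp l hl x
    have hu : ∀ q ≤ 3, ‖jd 0 q (Wv (mkW n κ Q th hth) G p l (.inl (fr, c, i, r))) x‖ ≤ S5 + 2 * S1 :=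
      fun q hq => by
      refine (norm_le_norm_add_norm_sub' _ (jd 0 q (dv • fun y => oscC B Lp ψ c r y t) x)).trans
        (add_le_add (hdv ▸ hL c r i q hq x hx t _) ?_)
      have h1 := hd q hq
      erw [jd_sub 0 q (g' := dv • fun y => oscC B Lp ψ c r y t) (hWs _) (hC.const_smul dv)] at h1
      rw [mul_comm 2 S1]
      exact h1.trans (mul_le_mul_of_nonneg_left hδ2 p1)
    refine (osc_tan _ hχ hV hg hψ hFs (hWs _) (hKN hx) (fun r hr => hC₀.lead k x hx t r hr)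
      (fun r hr => hD p hp l hl x (hKN hx) k r hr) hu hd hb).trans ?_
    have u1 : 8 * (S4 * eps p) * (S5 + 2 * S1) ≤ 8 * S4 * (S5 + 2 * S1) * δL := by
      calc 8 * (S4 * eps p) * (S5 + 2 * S1) = 8 * S4 * (S5 + 2 * S1) * eps p := by ring
        _ ≤ _ := mul_le_mul_of_nonneg_left hεL (by positivity)
    have u2 : 0 ≤ (S1 + (8 * S4 * (2 * S2) + 8 * C₀ * S2)) * δL := by positivity
    rw [hC₁]
    linarith only [u1, u2]
  · have hu : ∀ q ≤ 3, ‖jd 0 q (Wv (mkW n κ Q th hth) G p l (.inr (i₀, c, j))) x‖ ≤ 2 * S2 :=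
      fun q hq => by
      obtain ⟨h1, h2⟩ := hA i₀ c j 0 ⟨q, by omega⟩ p hp l hl x hx
      refine (norm_le_norm_add_norm_sub' _ (jd 0 q (Y i₀ c j) x)).trans ((add_le_add h2 h1).trans ?_)
      simp only [Fin.val_zero, pow_zero, mul_one]
      linarith [mul_le_of_le_one_right p2 hε1]
    have hE : ∀ q ≤ 3, ‖jd 0 q (fun y => Wv (mkW n κ Q th hth) G p l (.inr (i₀, c, j)) y - Y i₀ c j y) x‖ ≤
        S2 * eps p := fun q hq => by
      rw [jd_sub 0 q (hWs _) (hY i₀ c j)]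
      simpa using (hA i₀ c j 0 ⟨q, by omega⟩ p hp l hl x hx).1
    refine (slow_tan D hb hψ hψS hX1pos hFs (hWs _) (hY i₀ c j) (hKN hx) (hψ1 x hx)
      (fun r hr => hC₀.lead k x hx t r hr) (fun r hr => hD p hp l hl x (hKN hx) k r hr) hu hE
      (fun r hr => hYc c j r (by omega))).trans ?_
    have u2 : 0 ≤ (S1 + 8 * S4 * (S5 + 2 * S1) + 8 * C₀ * S1) * eps p := by positivity
    rw [hC₁]
    linarith only [u2, hηg0]

end Vale.Agent.P205F.Expand
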