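import Vale.Agent.P205F.Expand.Profiles

/-!
# P205, expansions: specification of the system of rows at one point

`Wv k` are normalised variations of a family near `x`. Oscillating ones have known leading jets,
those of slow fields are close on the line to `(y^j, 0)` and `(0, y^j)` in tangential coordinates.
-/

namespace Vale.Agent.P205F.Expand

open scoped ContDiff RealInnerProductSpace Topology

/-- Indices of oscillating seeds: frequency, field, profile, power of `y`. -/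
abbrev OscI : Type := Fin 2 × Fin 2 × (Fin 6 × Fin 2) × Fin 11

/-- Indices of slow seeds. -/
abbrev AbsI (n : ℕ) : Type := Fin n × Fin 2 × Fin 7

/-- Indices of all seeds. -/
abbrev SIx (n : ℕ) : Type := OscI ⊕ AbsI n

/-- Indices of the rows: free jets (with `m` free directions) and tangential line data. -/
abbrev VIx (m : ℕ) : Type := (Fin 11 × Fin 11 × Fin m) ⊕ (Fin 2 × Fin 4)

/-- The rows of `∑ u k • Wv k` at `x`. -/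
noncomputable def rowsOf {n m : ℕ} (F : E2 → R4) (Wv : SIx n → E2 → R4) (s : Fin 2 → R4)
    (hm : m ≤ 2) (x : E2) (Λ : ℝ) (u : SIx n → ℝ) : VIx m → ℝ
  | .inl (a, b, c) => ⟪∑ k, u k • jd a b (Wv k) x, s (Fin.castLE hm c)⟫ / Λ ^ (a : ℕ)
  | .inr (k, b) => ∑ k', u k' * jd 0 b (fun y => ⟪pd k F y, Wv k' y⟫) x

/-- The model of a tangential component of a slow seed, read from `q : Fin 3 → E2 → ℝ`. -/
noncomputable def tanModel (q : Fin 3 → E2 → ℝ) (k c : Fin 2) (j : ℕ) (y : E2) : ℝ :=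
  if k = 1 then (if c = 0 then 0 else y 1 ^ j)
  else if c = 0 then y 1 ^ j * q 0 y else y 1 ^ j * q 1 y + j * y 1 ^ (j - 1) * q 2 y

/-- What is known about the variations at the point. -/
structure RowsData {n : ℕ} (m : ℕ) (hm : m ≤ 2) (F : E2 → R4) (Wv : SIx n → E2 → R4)
    (ψ : E2 → ℝ) (Fld : Fin 2 → E2 → R4) (q : Fin 3 → E2 → ℝ) (s : Fin 2 → R4) (x : E2)
    (fr : Fin 2) (i₀ : Fin n) (t₀ Λ C₀ B δ δ' : ℝ) : Prop where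
  hΛ : 1 ≤ Λ
  hx : |x 1| ≤ C₀
  hψ : ψ =ᶠ[𝓝 x] fun _ => 1
  hψs : ContDiff ℝ ∞ ψ
  hFld : ∀ c, ContDiff ℝ ∞ (Fld c) ∧ ∀ b ≤ 10, ‖jd 0 b (Fld c) x‖ ≤ C₀
  hq : ∀ i, ContDiff ℝ ∞ (q i) ∧ ∀ b ≤ 3, |jd 0 b (q i) x| ≤ C₀
  hq0 : C₀⁻¹ ≤ |q 0 x|
  hs : ∀ c, ‖s c‖ ≤ C₀
  orth : ∀ c c' : Fin m, |⟪Fld (Fin.castLE hm c) x, s (Fin.castLE hm c')⟫ -
    if c = c' then (1 : ℝ) else 0| ≤ δ
  hW : ∀ k, ContDiff ℝ ∞ (Wv k)
  freeOsc : ∀ (c : Fin 2) (i : Fin 6 × Fin 2) (r : Fin 11) (a b : ℕ), a ≤ 10 → b ≤ 10 →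
    ‖jd a b (Wv (.inl (fr, c, i, r))) x -
      Λ ^ a • (deriv^[a + 1] (prof i) t₀ • jd 0 b (fun y => mono ψ r y • Fld c y) x)‖ ≤
      δ' * Λ ^ a
  freeAbs : ∀ (c : Fin 2) (j : Fin 7) (a b : ℕ), a ≤ 10 → b ≤ 10 →
    ‖jd a b (Wv (.inr (i₀, c, j))) x‖ ≤ B * Λ ^ a
  tanOsc : ∀ (c : Fin 2) (i : Fin 6 × Fin 2) (r : Fin 11) (k : Fin 2) (b : ℕ), b ≤ 3 →
    |jd 0 b (fun y => ⟪pd k F y, Wv (.inl (fr, c, i, r)) y⟫) x| ≤ δ'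
  tanAbs : ∀ (c : Fin 2) (j : Fin 7) (k : Fin 2) (b : ℕ), b ≤ 3 →
    |jd 0 b (fun y => ⟪pd k F y, Wv (.inr (i₀, c, j)) y⟫) x - jd 0 b (tanModel q k c j) x| ≤ δ

/-- THE ROWS MODULE: suitable combinations of the variations have rows bounded below. The bound
`δ` on the slow part does not see the jets `B` of the slow fields; `δ'` does. -/
def RowsStmt : Prop :=
  ∀ (m : ℕ) (hm : m ≤ 2) (C₀ : ℝ), 1 ≤ C₀ → ∃ δ₀ : ℝ, 0 < δ₀ ∧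
    ∀ (n : ℕ) (B : ℝ), 1 ≤ B → ∃ C δ₁ : ℝ, 1 ≤ C ∧ 0 < δ₁ ∧
    ∀ (F : E2 → R4) (Wv : SIx n → E2 → R4) (ψ : E2 → ℝ) (Fld : Fin 2 → E2 → R4)
      (q : Fin 3 → E2 → ℝ) (s : Fin 2 → R4) (x : E2) (fr : Fin 2) (i₀ : Fin n) (t₀ Λ δ δ' : ℝ),
      RowsData m hm F Wv ψ Fld q s x fr i₀ t₀ Λ C₀ B δ δ' → δ ≤ δ₀ → δ' ≤ δ₁ →
      ∃ Φ : (VIx m → ℝ) →ₗ[ℝ] SIx n → ℝ, (∀ U, ‖Φ U‖ ≤ C * ‖U‖) ∧
        (∀ U k, Φ U k ≠ 0 →
          (∃ r, k = .inl (fr, r)) ∨ ∃ r : Fin 2 × Fin 7, k = .inr (i₀, r)) ∧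
        ∀ U, ‖U‖ ≤ C * ‖rowsOf F Wv s hm x Λ (Φ U)‖

end Vale.Agent.P205F.Expand
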