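import Vale.Agent.P205F.Expand.Est
import Vale.Agent.P205F.Expand.RowsSpec
import Vale.Agent.P205F.Expand.SlowFields

/-!
# P205, expansions: the seeds of a twist and their family

Finitely many seeds: two frequencies (`L0` and `M^(κ+1)`), two fields (`σ` and, when errors along `ν`
are allowed, `V`), twelve profiles, powers of `y`; and finitely many slow homogeneous fields.
-/

namespace Vale.Agent.P205F.Expand

open scoped ContDiff RealInnerProductSpace Topology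
open Filter Set

/-- Number of parameters. -/
abbrev dN (n : ℕ) : ℕ := Fintype.card (SIx n)

/-- The numbering of the seeds. -/
noncomputable def eS (n : ℕ) : SIx n ≃ Fin (dN n) := Fintype.equivFin _

/-- The two frequencies. -/
def LL (κ : ℕ) (fr : Fin 2) (p : Ix) : ℕ := if fr = 0 then p.L0 else p.M ^ (κ + 1)

lemma LL_freq (κ : ℕ) (fr : Fin 2) : Freq (LL κ fr) := fun p hp => by
  unfold LL
  split_ifs
  · exact hp.2.1
  · exact Nat.one_le_pow _ _ (by have := hp.1; omega)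

lemma LL_le_Lam (κ : ℕ) (fr : Fin 2) {p : Ix} (hp : Adm p) : (LL κ fr p : ℝ) ≤ Lam κ p := by
  unfold LL Lam
  split_ifs
  · calc (p.L0 : ℝ) ≤ p.M := by exact_mod_cast hp.2.2
      _ ≤ (p.M : ℝ) ^ (κ + 1) := le_self_pow₀ hp.one_le_M (by omega)
  · push_cast; exact le_rfl

/-- Frequency of a seed. -/
def freqOf (n κ : ℕ) (p : Ix) : SIx n → ℕ
  | .inl (fr, _) => LL κ fr p
  | .inr _ => 1

/-- Amplitude of a seed. -/
noncomputable def ampOf (n κ th : ℕ) (p : Ix) : SIx n → ℝ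
  | .inl (fr, _) => ((LL κ fr p : ℝ) ^ (th + 1))⁻¹
  | .inr _ => 1

/-- The weights of the seeds. -/
noncomputable def mkW (n κ Q th : ℕ) (hth : 14 ≤ th) : Wts (dN n) where
  κ := κ
  Q := Q
  freq p k := freqOf n κ p ((eS n).symm k)
  amp p k := ampOf n κ th p ((eS n).symm k)
  th := th
  th_le := hth
  amp_nonneg p k := by
    rcases (eS n).symm k with ⟨fr, i⟩ | i <;> simp [ampOf]
  freq_pos p k hp := by
    rcases (eS n).symm k with ⟨fr, i⟩ | i
    · exact LL_freq κ fr p hp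
    · exact le_rfl

lemma mkW_tame (n κ Q th : ℕ) (hth : 14 ≤ th) : (mkW n κ Q th hth).Tame := by
  intro p k i hp
  show ampOf n κ th p ((eS n).symm k) * (freqOf n κ p ((eS n).symm k) : ℝ) ^ (i + 1) ≤
    Lam κ p ^ (i - th)
  rcases (eS n).symm k with ⟨fr, j⟩ | j
  · have h1 : (1 : ℝ) ≤ LL κ fr p := Nat.one_le_cast.2 (LL_freq κ fr p hp)
    refine le_trans ?_ (pow_le_pow_left₀ (by linarith) (LL_le_Lam κ fr hp) (i - th))
    show ((LL κ fr p : ℝ) ^ (th + 1))⁻¹ * (LL κ fr p : ℝ) ^ (i + 1) ≤ _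
    rw [inv_mul_le_iff₀ (by positivity), ← pow_add]
    exact pow_le_pow_right₀ h1 (by omega)
  · simp only [ampOf, freqOf, Nat.cast_one, one_pow, mul_one]
    exact one_le_pow₀ (one_le_Lam κ hp)

/-- The two free fields. -/
def fldOf (B : Base) (Lp : Loop B.S B.N B.X0 B.X1 B.V B.a) (c : Fin 2) (x : E2) (t : ℝ) : R4 :=
  if c = 0 then Lp.σ x t else (1 - B.χ) • B.V x

/-- The coefficient of an oscillating seed. -/
def oscC (B : Base) (Lp : Loop B.S B.N B.X0 B.X1 B.V B.a) (ψ : E2 → ℝ) (c : Fin 2) (r : ℕ)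
    (x : E2) (t : ℝ) : R4 :=
  mono ψ r x • fldOf B Lp c x t

/-- The seeds. -/
noncomputable def seedOf (B : Base) (Lp : Loop B.S B.N B.X0 B.X1 B.V B.a) {n : ℕ} (ψ : E2 → ℝ)
    (Y : Fin n → Fin 2 → Fin 7 → E2 → R4) (W : Wts (dN n)) (κ : ℕ) (k : Fin (dN n)) :
    Ix → E2 → ℝ → R4 :=
  match (eS n).symm k with
  | .inl (fr, c, i, r) =>
    if c = 0 then sigSeed Lp W k (mono ψ r) (LL κ fr) (prof i)
    else vSeed B W k (mono ψ r) (LL κ fr) (prof i)
  | .inr (i, c, j) => fun p x _ => eps p ^ W.Q • Y i c j x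

/-- The estimates of one seed that the rows use. -/
structure PackSpec (B : Base) (Lp : Loop B.S B.N B.X0 B.X1 B.V B.a) {n : ℕ} (ψ : E2 → ℝ)
    (Y : Fin n → Fin 2 → Fin 7 → E2 → R4) (κ Q th : ℕ) (hth : 14 ≤ th)
    (G : Fm (dN n) R4) : Prop where
  osc : ∀ (fr c : Fin 2) (i : Fin 6 × Fin 2) (r : Fin 11),
    ∃ (s : Ix → E2 → ℝ → R4) (R : Fm (dN n) R4), (∀ p, Js (sdF (dN n) s p)) ∧
      Osc (mkW n κ Q th hth) (eS n (.inl (fr, c, i, r))) (LL κ fr) (prof i) (oscC B Lp ψ c r) s R ∧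
      Cls (tw (mkW n κ Q th hth) (eS n (.inl (fr, c, i, r))) Q
        fun p => ((LL κ fr p : ℝ))⁻¹ + eps p) (12 : ℕ)
        (dk (eS n (.inl (fr, c, i, r))) G - sdF (dN n) s)
  slow : ∀ (i : Fin n) (c : Fin 2) (j : Fin 7),
    Cls (tw (mkW n κ Q th hth) (eS n (.inr (i, c, j))) Q fun p => eps p + eps p) (12 : ℕ)
      (dk (eS n (.inr (i, c, j))) G - sdF (dN n) fun p x _ => eps p ^ Q • Y i c j x)

/-- THE FAMILY WITH ITS SEEDS. -/
theorem exists_pack (B : Base) (Lp : Loop B.S B.N B.X0 B.X1 B.V B.a) (hg : Lp.g0 = B.g0)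
    (h0 : ∀ x ∈ B.N, (1 - B.χ) * ⟪B.X0 x, B.V x⟫ = 0 ∧ ⟪B.X1 x, B.V x⟫ = 0)
    {n : ℕ} {ψ : E2 → ℝ} (hψ : ContDiff ℝ ∞ ψ) (hψS : tsupport ψ ⊆ B.S)
    {Y : Fin n → Fin 2 → Fin 7 → E2 → R4}
    (hY : ∀ i c j, ContDiff ℝ ∞ (Y i c j) ∧ (∀ x ∉ B.S, Y i c j x = 0) ∧ ∀ x,
        2 * ⟪B.X0 x, pd 0 (Y i c j) x⟫ - B.r x ^ 2 * (2 * ⟪B.X1 x, pd 1 (Y i c j) x⟫) = 0 ∧
        ⟪B.X0 x, pd 1 (Y i c j) x⟫ + ⟪B.X1 x, pd 0 (Y i c j) x⟫ -
          B.r x * (2 * ⟪B.X1 x, pd 1 (Y i c j) x⟫) = 0 ∧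
        B.χ * ⟪B.X1 x, pd 1 (Y i c j) x⟫ = 0)
    (κ Q th : ℕ) (hth : 14 ≤ th) (hQ : 1 ≤ Q) (S' : Set E2) (hS' : IsClosed S') (hsub : S' ⊆ B.S)
    (ha : ∀ x ∉ S', B.a x = 0) (hg' : ∀ x ∉ S', ∀ t, B.g0 x t = 0) (Uk : Fm 0 R4)
    (hUk : Uk = 0 ∨ (B.χ = 0 ∧ Off S' Uk ∧ ∀ W₀ : Wts 0, Up W₀ 1 Uk))
    (J : ℕ) (hJ : Q + 2 ≤ J) :
    ∃ G : Fm (dN n) R4, St B (mkW n κ Q th hth) J J (J + 1) J G ∧
      (∃ Gb : Fm (dN n) R4, Up (mkW n κ Q th hth) Q (G - Gb) ∧ Off S' Gb) ∧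
      (B.χ = 0 → ∃ U : Fm (dN n) R4, Up (mkW n κ Q th hth) Q U ∧ ∀ p z t,
        ⟪B.V z.2, dtF G p z t⟫ = ⟪B.V z.2, dtF (liftF (dN n) Uk + U) p z t⟫) ∧
      PackSpec B Lp ψ Y κ Q th hth G := by
  set W := mkW n κ Q th hth with hW
  have hm : ∀ r, Cut B (mono ψ r) := fun r =>
    ⟨hψ.mul (((EuclideanSpace.proj (𝕜 := ℝ) (1 : Fin 2)).contDiff).pow r),
      (closure_mono fun x hx => left_ne_zero_of_mul hx).trans hψS⟩
  have hfk : ∀ fr c i r p, W.freq p (eS n (.inl (fr, c, i, r))) = LL κ fr p := fun fr c i r p => by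
    simp [hW, mkW, freqOf]
  set τ : Fin (dN n) → Ix → ℝ := fun k p => match (eS n).symm k with
    | .inl (fr, _) => ((LL κ fr p : ℝ))⁻¹
    | .inr _ => eps p with hτdef
  have hτ : ∀ k p, 0 ≤ τ k p := fun k p => by
    simp only [hτdef]
    rcases (eS n).symm k with ⟨fr, i⟩ | i
    · exact inv_nonneg.2 (Nat.cast_nonneg _)
    · exact eps_nonneg p
  -- the oscillating seeds
  have hosc : ∀ (fr c : Fin 2) (i : Fin 6 × Fin 2) (r : Fin 11),
      Seed B W (eS n (.inl (fr, c, i, r))) (seedOf B Lp ψ Y W κ (eS n (.inl (fr, c, i, r)))) ∧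
        ∃ R, Osc W (eS n (.inl (fr, c, i, r))) (LL κ fr) (prof i) (oscC B Lp ψ c r)
          (seedOf B Lp ψ Y W κ (eS n (.inl (fr, c, i, r)))) R := fun fr c i r => by
    set k := eS n (.inl (fr, c, i, r)) with hk
    have e : seedOf B Lp ψ Y W κ k = if c = 0 then sigSeed Lp W k (mono ψ r) (LL κ fr) (prof i)
        else vSeed B W k (mono ψ r) (LL κ fr) (prof i) := by simp [seedOf, hk]
    rw [e]
    by_cases hc : c = 0
    · rw [if_pos hc]
      obtain ⟨h1, h2⟩ := sigSeed_spec (W := W) (k := k) Lp (hm r) (LL_freq κ fr) (prof_profile i) hg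
        (hfk fr c i r)
      refine ⟨h1, sigRem Lp (mono ψ r) (LL κ fr) (prof i), ?_⟩
      rw [show oscC B Lp ψ c r = fun x t => mono ψ r x • Lp.σ x t by
        funext x t; simp [oscC, fldOf, hc]]
      exact h2
    · rw [if_neg hc]
      obtain ⟨h1, h2⟩ := vSeed_spec (W := W) (k := k) (hm r) (LL_freq κ fr) (prof_profile i) h0
        (hfk fr c i r)
      refine ⟨h1, 0, ?_⟩
      rw [show oscC B Lp ψ c r = fun x _ => ((1 - B.χ) * mono ψ r x) • B.V x by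
        funext x t; simp [oscC, fldOf, hc, smul_smul, mul_comm]]
      exact h2
  -- the slow seeds
  have hslow : ∀ (i : Fin n) (c : Fin 2) (j : Fin 7),
      Seed B W (eS n (.inr (i, c, j))) (fun p x _ => eps p ^ Q • Y i c j x) ∧
        SlowSeed B (fun p x (_ : ℝ) => eps p ^ Q • Y i c j x) := fun i c j => by
    obtain ⟨hs, ho, he⟩ := hY i c j
    have hc : Coef fun x (_ : ℝ) => Y i c j x := ⟨hs.comp contDiff_fst, fun _ _ => rfl, B.S,
      B.S_compact, fun x hx _ => ho x hx⟩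
    have hp : ∀ (p : Ix) (e : Fin 2) x, pd e (fun y => eps p ^ Q • Y i c j y) x =
        eps p ^ Q • pd e (Y i c j) x := fun p e x => by
      show fderiv ℝ _ x _ = _
      rw [fderiv_fun_const_smul (hs.differentiable (by norm_num) x)]
      rfl
    refine ⟨⟨?_, fun p x t hx => by simp [ho x hx], fun p x t => by simp, fun p x t => by simp,
      fun p x t => ?_⟩, ⟨fun _ _ _ => rfl, fun p x => ?_, fun p x => ?_⟩⟩
    · refine Cls.smul_ix (Φ := cf (dN n) fun x _ => Y i c j x)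
        (Cls.coef hc.js hc.per hc.supp.choose_spec.1 hc.supp.choose_spec.2) (fun p => eps p ^ Q)
        fun p a hp => le_of_eq ?_
      rw [abs_of_nonneg (pow_nonneg (eps_nonneg p) _)]
      simp [hW, mkW, ampOf, freqOf]
    · rw [hp, inner_smul_right]
      linear_combination (eps p ^ Q) * (he x).2.2
    · simp only [hp, inner_smul_right]
      linear_combination (eps p ^ Q) * (he x).1
    · simp only [hp, inner_smul_right]
      linear_combination (eps p ^ Q) * (he x).2.1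
  have hsl : ∀ i c j, seedOf B Lp ψ Y W κ (eS n (.inr (i, c, j))) =
      fun p x _ => eps p ^ Q • Y i c j x := fun i c j => by simp [seedOf, hW, mkW]
  have hall : ∀ k, Seed B W k (seedOf B Lp ψ Y W κ k) ∧ (Gain W k (seedOf B Lp ψ Y W κ k) (τ k) ∨
      (SlowSeed B (seedOf B Lp ψ Y W κ k) ∧ τ k = eps)) := fun k => by
    obtain ⟨x, rfl⟩ := (eS n).surjective k
    rcases x with ⟨fr, c, i, r⟩ | ⟨i, c, j⟩
    · obtain ⟨h1, R, h2⟩ := hosc fr c i r
      refine ⟨h1, Or.inl ?_⟩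
      rw [show τ (eS n (.inl (fr, c, i, r))) = fun p => ((LL κ fr p : ℝ))⁻¹ by
        funext p; simp [hτdef]]
      exact h2.gain (LL_freq κ fr) (prof_profile i)
    · rw [hsl]
      exact ⟨(hslow i c j).1, Or.inr ⟨(hslow i c j).2, by funext p; simp [hτdef]⟩⟩
  have hUk' : Uk = 0 ∨ (Up (W0 W) 1 Uk ∧ Off S' Uk ∧ B.χ = 0) :=
    hUk.imp id fun ⟨a, b, c⟩ => ⟨c _, b, a⟩
  obtain ⟨G, hSt, hdk, hGb, hU⟩ := expansion B (W := W) hQ (mkW_tame n κ Q th hth)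
    (seedOf B Lp ψ Y W κ) (fun k => (hall k).1) τ hτ (fun k => (hall k).2) S' hS' hsub ha hg' Uk hUk'
    J hJ
  refine ⟨G, hSt, hGb, fun hχ => ⟨parF (seedOf B Lp ψ Y W κ),
    parF_up (fun k => (hall k).1) (mkW_tame n κ Q th hth), hU hχ⟩, ⟨fun fr c i r => ?_, fun i c j => ?_⟩⟩
  · obtain ⟨h1, R, h2⟩ := hosc fr c i r
    refine ⟨_, R, h1.cls.js, h2, ?_⟩
    have h := hdk (eS n (.inl (fr, c, i, r)))
    simp only [hτdef, Equiv.symm_apply_apply] at h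
    exact h
  · have h := hdk (eS n (.inr (i, c, j)))
    simp only [hτdef, Equiv.symm_apply_apply, hsl] at h
    exact h

end Vale.Agent.P205F.Expand
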