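import Vale.Agent.P205F.Expand.Prolong

/-!
# P205, expansions: pointwise consequences of the prolongation

`w` is an almost solution of the linearised equation of `F` at the point `x`.
-/

namespace Vale.Agent.P205F.Expand

open scoped ContDiff RealInnerProductSpace

/-- Prolongation: all jets, the tangential components to one order more, and the linearised
metric. -/
def ProlongAllStmt : Prop :=
  ∀ N : ℕ, ∃ e : ℕ, ∀ (F w : E2 → R4) (ρ0 ρ1 : E2 → ℝ) (φ : R4 → ℝ) (χ : ℝ) (x : E2) (T S : ℝ),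
    PData N F w ρ0 ρ1 φ χ x T S →
    (∀ a b, a + b ≤ N → ‖jd a b w x‖ ≤ T ^ e * S) ∧
    (∀ a b, a + b ≤ N + 1 → ∀ k : Fin 2, ‖jd a b (fun y => ⟪pd k F y, w y⟫) x‖ ≤ T ^ e * S) ∧
    (∀ a b, a + b ≤ N + 1 → ∀ k : Fin 2, |⟪pd k F x, jd a b w x⟫| ≤
      T ^ e * S + T ^ e * ∑ p ∈ (Finset.range (a + 1) ×ˢ Finset.range (b + 1)).filter
        (fun p => p.1 + p.2 < a + b), ‖jd p.1 p.2 w x‖) ∧
    ∀ a b, a + b ≤ N → ‖jd a b (Lin F w) x‖ ≤ T ^ e * S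

/-- The data at a point of a final twist: `χ = 1`, bounded jets, frame, the linearised metric tiny
to the order `N`. -/
structure AData (N : ℕ) (F w : E2 → R4) (φ : R4 → ℝ) (A : R4) (x : E2) (T R : ℝ) : Prop where
  hF : ContDiff ℝ ∞ F
  hw : ContDiff ℝ ∞ w
  hT : 2 ≤ T
  hR : 0 ≤ R
  bF : ∀ a b, a + b ≤ N + 3 → ‖jd a b F x‖ ≤ T
  frame : ∀ V : R4, ‖V‖ ≤ T * (|⟪pd 0 F x, V⟫| + |⟪pd 1 F x, V⟫| +
    |⟪pd 1 (pd 1 F) x, V⟫| + φ V)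
  absorber : ∃ c0 c1 : ℝ, A = pd 1 (pd 1 F) x + c0 • pd 0 F x + c1 • pd 1 F x ∧
    |c0| ≤ T ∧ |c1| ≤ T
  small : ∀ a b, a + b ≤ N → ‖jd a b (Lin F w) x‖ ≤ R

/-- The absorber components of the jets `1, x, y, xy, y²` control the line data. -/
def GammaStmt : Prop :=
  ∃ e : ℕ, ∀ (F w : E2 → R4) (φ : R4 → ℝ) (A : R4) (x : E2) (T R : ℝ), AData 3 F w φ A x T R →
    (∀ a b, a + b ≤ 3 → φ (jd a b w x) ≤ R) →
    |⟪pd 0 F x, w x⟫| ≤ R → |⟪pd 1 F x, w x⟫| ≤ R →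
    |jd 0 1 (fun y => ⟪pd 0 F y, w y⟫) x| ≤ R →
    (∀ a b, a + b ≤ 2 → a ≤ 1 → |⟪A, jd a b w x⟫| ≤ R) →
    ∀ b ≤ 3, ∀ k : Fin 2, |jd 0 b (fun y => ⟪pd k F y, w y⟫) x| ≤ T ^ e * R

/-- The absorber component of a top jet with one `x`. -/
def TopAbsStmt : Prop :=
  ∀ n : ℕ, ∃ e : ℕ, ∀ (F w : E2 → R4) (φ : R4 → ℝ) (A : R4) (x : E2) (T R : ℝ),
    AData n F w φ A x T R → 2 ≤ n → n ≤ 10 →
    (∀ a b, a + b < n → ‖jd a b w x‖ ≤ R) → (∀ b ≤ n + 1, ‖jd 0 b w x‖ ≤ R) →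
    |⟪A, jd 1 (n - 1) w x⟫| ≤ T ^ e * R

end Vale.Agent.P205F.Expand
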