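import Vale.Agent.P205F.Expand.Kernel
import Vale.Agent.P205F.Expand.Linalg
import Vale.Agent.P205F.Expand.Prolong

/-!
# P205, expansions: finitely many profiles and monomials

Twelve trigonometric profiles realise any derivatives of orders `1..11` at any phase with bounded
coefficients, and cut-off powers of `y` give, centred at a point, triangular jets on its line.
-/

namespace Vale.Agent.P205F.Expand

open scoped ContDiff RealInnerProductSpace
open Finset Real

/-- Frequencies of the profiles. -/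
noncomputable def wn (n : Fin 6) : ℝ := 2 * π * ((n : ℕ) + 1)

/-- The profiles. -/
noncomputable def prof (i : Fin 6 × Fin 2) : ℝ → ℝ :=
  if i.2 = 0 then fun t => Real.cos (wn i.1 * t) else fun t => Real.sin (wn i.1 * t)

lemma wn_pos (n : Fin 6) : 0 < wn n := mul_pos Real.two_pi_pos (by positivity)

theorem prof_profile (i : Fin 6 × Fin 2) : Profile (prof i) := by
  have e : ∀ t, wn i.1 * (t + 1) = wn i.1 * t + ((i.1 : ℕ) + 1 : ℕ) * (2 * π) := fun t => by
    simp only [wn]; push_cast; ring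
  unfold prof
  split_ifs
  · exact ⟨contDiff_cos.comp (contDiff_const.mul contDiff_id), fun t => by
      show Real.cos _ = Real.cos _; rw [e, Real.cos_add_nat_mul_two_pi]⟩
  · exact ⟨contDiff_sin.comp (contDiff_const.mul contDiff_id), fun t => by
      show Real.sin _ = Real.sin _; rw [e, Real.sin_add_nat_mul_two_pi]⟩

lemma deriv_cos_lin (a w t : ℝ) :
    deriv (fun s => a * Real.cos (w * s)) t = -(a * w) * Real.sin (w * t) := by
  refine HasDerivAt.deriv ((((Real.hasDerivAt_cos (w * t)).comp t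
    ((hasDerivAt_id t).const_mul w)).const_mul a).congr_deriv ?_)
  ring

lemma deriv_sin_lin (a w t : ℝ) :
    deriv (fun s => a * Real.sin (w * s)) t = a * w * Real.cos (w * t) := by
  refine HasDerivAt.deriv ((((Real.hasDerivAt_sin (w * t)).comp t
    ((hasDerivAt_id t).const_mul w)).const_mul a).congr_deriv ?_)
  ring

lemma prof_deriv (n : Fin 6) : ∀ j : ℕ,
    deriv^[2 * j] (prof (n, 0)) = (fun t => (-(wn n ^ 2)) ^ j * Real.cos (wn n * t)) ∧
    deriv^[2 * j] (prof (n, 1)) = (fun t => (-(wn n ^ 2)) ^ j * Real.sin (wn n * t))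
  | 0 => by constructor <;> funext t <;> simp [prof]
  | j + 1 => by
    obtain ⟨h0, h1⟩ := prof_deriv n j
    have e : ∀ g : ℝ → ℝ, deriv^[2 * (j + 1)] g = deriv (deriv (deriv^[2 * j] g)) := fun g => by
      rw [show 2 * (j + 1) = 2 * j + 1 + 1 by ring, Function.iterate_succ_apply',
        Function.iterate_succ_apply']
    refine ⟨?_, ?_⟩ <;> rw [e]
    · rw [h0, funext (deriv_cos_lin _ _)]
      funext t
      rw [deriv_sin_lin]
      ring
    · rw [h1, funext (deriv_sin_lin _ _)]
      funext t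
      rw [deriv_cos_lin]
      ring

lemma prof_deriv_odd (n : Fin 6) (j : ℕ) (t : ℝ) :
    deriv^[2 * j + 1] (prof (n, 0)) t = -((-(wn n ^ 2)) ^ j * wn n) * Real.sin (wn n * t) ∧
    deriv^[2 * j + 1] (prof (n, 1)) t = (-(wn n ^ 2)) ^ j * wn n * Real.cos (wn n * t) := by
  constructor <;> rw [Function.iterate_succ_apply']
  · rw [(prof_deriv n j).1, deriv_cos_lin]
  · rw [(prof_deriv n j).2, deriv_sin_lin]

/-- Derivatives of orders `1..11` at a phase are prescribable with bounded coefficients. -/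
theorem profile_solve (a : Fin 11) : ∃ C : ℝ, 0 ≤ C ∧ ∀ t₀ : ℝ, ∃ c : Fin 6 × Fin 2 → ℝ,
    (∀ i, |c i| ≤ C) ∧ ∀ a' : Fin 11, ∑ i, c i * deriv^[(a' : ℕ) + 1] (prof i) t₀ =
      if a' = a then 1 else 0 := by
  set v : Fin 6 → ℝ := fun n => -(wn n ^ 2) with hv
  have hvi : Function.Injective v := fun n m h => by
    have h1 : wn n = wn m := by
      have := (pow_left_inj₀ (wn_pos n).le (wn_pos m).le two_ne_zero).1 (neg_inj.1 h)
      exact this
    have h2 : ((n : ℕ) : ℝ) + 1 = (m : ℕ) + 1 := mul_left_cancel₀ Real.two_pi_pos.ne' h1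
    exact Fin.ext (by exact_mod_cast add_right_cancel h2)
  obtain ⟨xe, he⟩ := vander_solve hvi fun j => if 2 * (j : ℕ) + 1 = (a : ℕ) then (1 : ℝ) else 0
  obtain ⟨xo, ho⟩ := vander_solve hvi fun j => if 2 * (j : ℕ) = (a : ℕ) then (1 : ℝ) else 0
  set A : Fin 6 → ℝ := fun n => xe n / v n with hA
  set B : Fin 6 → ℝ := fun n => xo n / wn n with hB
  refine ⟨∑ n, (|A n| + |B n|), sum_nonneg fun n _ => by positivity, fun t₀ => ?_⟩
  set cs : Fin 6 → ℝ := fun n => Real.cos (wn n * t₀)
  set sn : Fin 6 → ℝ := fun n => Real.sin (wn n * t₀)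
  refine ⟨fun i => if i.2 = 0 then A i.1 * cs i.1 - B i.1 * sn i.1
    else A i.1 * sn i.1 + B i.1 * cs i.1, fun i => ?_, fun a' => ?_⟩
  · have h1 := single_le_sum (f := fun n => |A n| + |B n|) (fun n _ => by positivity) (mem_univ i.1)
    have hc : |cs i.1| ≤ 1 := Real.abs_cos_le_one _
    have hs : |sn i.1| ≤ 1 := Real.abs_sin_le_one _
    have b0 : ∀ x y u w : ℝ, |u| ≤ 1 → |w| ≤ 1 → |x * u + y * w| ≤ |x| + |y| := fun x y u w hu hw =>
      (abs_add_le _ _).trans (add_le_add
        (by rw [abs_mul]; exact mul_le_of_le_one_right (abs_nonneg _) hu)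
        (by rw [abs_mul]; exact mul_le_of_le_one_right (abs_nonneg _) hw))
    refine le_trans ?_ h1
    dsimp only
    split_ifs
    · rw [sub_eq_add_neg, neg_mul_eq_mul_neg]
      exact b0 _ _ _ _ hc (by rw [abs_neg]; exact hs)
    · exact b0 _ _ _ _ hs hc
  · have hcs : ∀ n, cs n ^ 2 + sn n ^ 2 = 1 := fun n => Real.cos_sq_add_sin_sq _
    have hlt := a'.isLt
    rw [Fintype.sum_prod_type]
    simp only [Fin.sum_univ_two, Fin.isValue, if_true, one_ne_zero, if_false]
    rcases Nat.even_or_odd' ((a' : ℕ) + 1) with ⟨j, hj | hj⟩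
    · obtain ⟨k, rfl⟩ : ∃ k, j = k + 1 := ⟨j - 1, by omega⟩
      have hk : k < 6 := by omega
      have e : ∀ n, (A n * cs n - B n * sn n) * deriv^[(a' : ℕ) + 1] (prof (n, 0)) t₀ +
          (A n * sn n + B n * cs n) * deriv^[(a' : ℕ) + 1] (prof (n, 1)) t₀ = v n ^ k * xe n := fun n => by
        rw [hj, (prof_deriv n (k + 1)).1, (prof_deriv n (k + 1)).2]
        have hv0 : v n ≠ 0 := by simp [hv, (wn_pos n).ne']
        have : v n * A n = xe n := mul_div_cancel₀ _ hv0
        show (A n * cs n - B n * sn n) * (v n ^ (k + 1) * cs n) +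
          (A n * sn n + B n * cs n) * (v n ^ (k + 1) * sn n) = _
        linear_combination (v n ^ k * v n * A n) * hcs n + v n ^ k * this
      rw [sum_congr rfl fun n _ => e n, he ⟨k, hk⟩]
      refine if_congr ?_ rfl rfl
      rw [Fin.ext_iff]
      simp only
      omega
    · have hk : j < 6 := by omega
      have e : ∀ n, (A n * cs n - B n * sn n) * deriv^[(a' : ℕ) + 1] (prof (n, 0)) t₀ +
          (A n * sn n + B n * cs n) * deriv^[(a' : ℕ) + 1] (prof (n, 1)) t₀ = v n ^ j * xo n := fun n => by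
        rw [hj, (prof_deriv_odd n j t₀).1, (prof_deriv_odd n j t₀).2]
        have : wn n * B n = xo n := mul_div_cancel₀ _ (wn_pos n).ne'
        show (A n * cs n - B n * sn n) * (-(v n ^ j * wn n) * sn n) +
          (A n * sn n + B n * cs n) * (v n ^ j * wn n * cs n) = _
        linear_combination (v n ^ j * wn n * B n) * hcs n + v n ^ j * this
      rw [sum_congr rfl fun n _ => e n, ho ⟨j, hk⟩]
      refine if_congr ?_ rfl rfl
      rw [Fin.ext_iff]
      simp only
      omega

/-! ### Monomials on a line -/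

variable {X : Type} [NormedAddCommGroup X] [NormedSpace ℝ X]

/-- Cut-off powers of `y`. -/
def mono (ψ : E2 → ℝ) (r : ℕ) (x : E2) : ℝ := ψ x * x 1 ^ r

/-- Coefficients of `(y - c)^j / j!` in the powers. -/
noncomputable def monoCo (c : ℝ) (j r : ℕ) : ℝ := (j.choose r : ℝ) * (-c) ^ (j - r) / j.factorial

/-- A centred monomial. -/
noncomputable def cmon (c : ℝ) (j : ℕ) (x : E2) : ℝ := (x 1 - c) ^ j / j.factorial

lemma cmon_eq (ψ : E2 → ℝ) (c : ℝ) (j : ℕ) (x : E2) {n : ℕ} (hn : j < n) :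
    ∑ r : Fin n, monoCo c j r * mono ψ r x = ψ x * cmon c j x := by
  rw [cmon, sub_eq_add_neg, add_pow, sum_div, mul_sum, Fin.sum_univ_eq_sum_range
    (fun r => monoCo c j r * mono ψ r x) n]
  refine (sum_subset (range_mono (by omega)) fun r _ hr => ?_).symm.trans
    (sum_congr rfl fun r _ => ?_)
  · rw [monoCo, Nat.choose_eq_zero_of_lt (by simp at hr; omega)]
    simp
  · simp only [monoCo, mono]; ring

lemma monoCo_bound {R : ℝ} (n : ℕ) : ∃ C : ℝ, 0 ≤ C ∧ ∀ c, |c| ≤ R → ∀ j < n, ∀ r < n,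
    |monoCo c j r| ≤ C := by
  refine ⟨∑ j ∈ range n, ∑ r ∈ range n, (j.choose r : ℝ) * |R| ^ (j - r),
    sum_nonneg fun _ _ => sum_nonneg fun _ _ => by positivity, fun c hc j hj r hr => ?_⟩
  refine le_trans ?_ (single_le_sum (f := fun j => ∑ r ∈ range n, (j.choose r : ℝ) * |R| ^ (j - r))
    (fun _ _ => sum_nonneg fun _ _ => by positivity) (mem_range.2 hj))
  refine le_trans ?_ (single_le_sum (f := fun r => (j.choose r : ℝ) * |R| ^ (j - r))
    (fun _ _ => by positivity) (mem_range.2 hr))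
  rw [monoCo, abs_div, abs_mul, Nat.abs_cast, abs_pow, abs_neg, Nat.abs_cast]
  refine (div_le_self (by positivity) (by exact_mod_cast j.factorial_pos)).trans ?_
  exact mul_le_mul_of_nonneg_left (pow_le_pow_left₀ (abs_nonneg c) (hc.trans (le_abs_self R)) _)
    (Nat.cast_nonneg _)

/-- The jets of centred monomials times a field on their line: triangular. -/
theorem jd_cmon : ∀ (b j : ℕ), b ≤ j → ∀ {C : E2 → X}, ContDiff ℝ ∞ C → ∀ x : E2,
    jd 0 b (fun y => cmon (x 1) j y • C y) x = if b = j then C x else 0 := by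
  intro b
  induction b with
  | zero =>
    intro j _ C _ x
    rcases Nat.eq_zero_or_pos j with rfl | hj
    · simp [jd, cmon]
    · simp [jd, cmon, zero_pow hj.ne', hj.ne]
  | succ b ih =>
    intro j hbj C hC x
    obtain ⟨i, rfl⟩ : ∃ i, j = i + 1 := ⟨j - 1, by omega⟩
    have hm : ∀ i, ContDiff ℝ ∞ (cmon (x 1) i) := fun i => by
      show ContDiff ℝ ∞ fun y : E2 => (EuclideanSpace.proj (𝕜 := ℝ) (1 : Fin 2) y - x 1) ^ i /
        (i.factorial : ℝ)
      exact ((((EuclideanSpace.proj (𝕜 := ℝ) (1 : Fin 2)).contDiff).sub contDiff_const).pow i).div_const _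
    have hd : ∀ y, fderiv ℝ (cmon (x 1) (i + 1)) y (ev 1) = cmon (x 1) i y := fun y => by
      have h1 := ((((EuclideanSpace.proj (𝕜 := ℝ) (1 : Fin 2)).hasFDerivAt (x := y)).sub_const
        (x 1)).pow (i + 1)).mul_const (((i + 1).factorial : ℝ)⁻¹)
      rw [show cmon (x 1) (i + 1) = fun z : E2 => ((EuclideanSpace.proj (𝕜 := ℝ) (1 : Fin 2)) z -
        x 1) ^ (i + 1) * (((i + 1).factorial : ℝ)⁻¹) from funext fun z => div_eq_mul_inv _ _]
      erw [h1.fderiv]
      have e0 : (0 : ℝ) < (i.factorial : ℝ) := by exact_mod_cast i.factorial_pos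
      simp [cmon, ev, Nat.factorial_succ, Nat.cast_mul]
      field_simp
    rw [jd_succ_right, show pd 1 (fun y => cmon (x 1) (i + 1) y • C y) =
      (fun y => cmon (x 1) i y • C y) + fun y => cmon (x 1) (i + 1) y • pd 1 C y from by
      funext y
      show fderiv ℝ (fun y => cmon (x 1) (i + 1) y • C y) y (ev 1) = _
      rw [fderiv_fun_smul ((hm _).differentiable (by norm_num) y)
        (hC.differentiable (by norm_num) y)]
      simp [hd, pd, add_comm],
      jd_add (g := fun y => cmon (x 1) i y • C y) (g' := fun y => cmon (x 1) (i + 1) y • pd 1 C y)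
        ((hm i).smul hC) ((hm _).smul (smooth_pd hC 1)), Pi.add_apply, ih i (by omega) hC x,
      ih (i + 1) (by omega) (smooth_pd hC 1) x, if_neg (by omega : b ≠ i + 1), add_zero]
    exact if_congr (by omega) rfl rfl

end Vale.Agent.P205F.Expand
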