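import Vale.Agent.P205F.Expand.Iter

/-!
# P205, expansions: the response to one parameter

After the seeds are inserted and their means removed, the variation of the expansion in the
parameter `k` is the seed up to a relative error `τ + 1/M`, where `τ` is the relative size of the
mean error of the seed: `1/L` for oscillating seeds, `1/M` for homogeneous slow fields.
-/

set_option maxSynthPendingDepth 3

namespace Vale.Agent.P205F.Expand

open scoped ContDiff RealInnerProductSpace Topology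
open Filter Set

variable {d : ℕ} {W : Wts d} {i j : ℕ} {B : Base} {k : Fin d}
variable {X : Type} [NormedAddCommGroup X] [NormedSpace ℝ X]

/-- Weight of the seed at level `j`, with a relative factor. -/
noncomputable def tw (W : Wts d) (k : Fin d) (j : ℕ) (τ : Ix → ℝ) (p : Ix) (i : ℕ) : ℝ :=
  eps p ^ j * (W.amp p k * (W.freq p k : ℝ) ^ i) * τ p

lemma tw_nonneg {τ : Ix → ℝ} (hτ : ∀ p, 0 ≤ τ p) (k : Fin d) (j : ℕ) (p : Ix) (i : ℕ) :
    0 ≤ tw W k j τ p i :=
  mul_nonneg (mul_nonneg (pow_nonneg (eps_nonneg p) _)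
    (mul_nonneg (W.amp_nonneg p k) (pow_nonneg (Nat.cast_nonneg _) _))) (hτ p)

lemma tw_mono {τ τ' : Ix → ℝ} (hτ' : ∀ p, 0 ≤ τ' p) (hτ : ∀ p, Adm p → τ' p ≤ τ p) {j j' : ℕ}
    (hj : j ≤ j') {p : Ix} (hp : Adm p) (i : ℕ) : tw W k j' τ' p i ≤ tw W k j τ p i := by
  have h0 : (0 : ℝ) ≤ W.amp p k * (W.freq p k : ℝ) ^ i :=
    mul_nonneg (W.amp_nonneg p k) (pow_nonneg (Nat.cast_nonneg _) _)
  exact mul_le_mul (mul_le_mul_of_nonneg_right (eps_pow_le hp hj) h0) (hτ p hp) (hτ' p)
    (mul_nonneg (pow_nonneg (eps_nonneg p) _) h0)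

/-- Coefficient operators keep classes with monotone weights. -/
theorem Cls.sop {wt : Ix → ℕ → ℝ} {N : ℕ∞} {Φ : Fm d S3} (h : Cls wt N Φ) (R : SOp)
    (h0 : ∀ p i, 0 ≤ wt p i) (hw : ∀ p a b, Adm p → wt p b ≤ wt p (a + b)) :
    Cls wt N (R.fam Φ) := by
  have hJ : ∀ k, Cls wt N (Expand.jetF k Φ) := by
    intro k
    induction k with
    | zero =>
      exact h.clm (continuousMultilinearCurryFin0 ℝ E2 S3).symm.toContinuousLinearEquiv.toContinuousLinearMap
    | succ k ih =>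
      exact (((ih.dir _).clm (ContinuousLinearMap.smulRightL ℝ E2 _ (EuclideanSpace.proj 0))).add
        ((ih.dir _).clm (ContinuousLinearMap.smulRightL ℝ E2 _ (EuclideanSpace.proj 1)))).clm
        (continuousMultilinearCurryLeftEquiv ℝ (fun _ : Fin (k + 1) => E2)
          S3).symm.toContinuousLinearEquiv.toContinuousLinearMap
  have e : R.fam Φ = ∑ k : Fin (R.L + 1), mulF (ContinuousLinearMap.id ℝ
      (ContinuousMultilinearMap ℝ (fun _ : Fin (k : ℕ) => E2) S3 →L[ℝ] R4))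
        (fun (_ : Ix) (z : Zv d) (_ : ℝ) => R.c k z.2) (Expand.jetF (k : ℕ) Φ) := by
    funext p z t
    simp only [Finset.sum_apply, SOp.fam, SOp.app, mulF, ContinuousLinearMap.id_apply]
    exact Finset.sum_congr rfl fun k _ => by rw [← jetF_eq h.js p z.1 t k z.2]
  rw [e]
  refine Finset.sum_induction _ (fun g => Cls wt N g) (fun _ _ => Cls.add) Cls.zero fun k _ => ?_
  exact Cls.bilin _ (Cls.coef (h := fun x _ => R.c k x) ((R.smooth k).comp contDiff_fst)
    (fun _ _ => rfl) R.compact fun x hx _ => R.zero k x hx) (hJ k) (fun _ _ => zero_le_one) h0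
    le_top le_rfl fun p a b hp _ => by rw [one_mul]; exact hw p a b hp

lemma dk_clm2 {Y Z' : Type} [NormedAddCommGroup Y] [NormedSpace ℝ Y] [NormedAddCommGroup Z']
    [NormedSpace ℝ Z'] (k : Fin d) {A C : Fm d X} (hA : ∀ p, Js (A p)) (hC : ∀ p, Js (C p))
    (L0 L1 : X →L[ℝ] Y) (L : Y →L[ℝ] Z') :
    dk k (fun p z t => L (L0 (A p z t) + L1 (C p z t))) =
      fun p z t => L (L0 (dk k A p z t) + L1 (dk k C p z t)) := by
  funext p
  show Expand.dir (pv k) (fun z t => L (((fun z t => L0 (A p z t)) + fun z t => L1 (C p z t)) z t)) = _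
  rw [Js.dir_clm (((hA p).clm L0).add ((hC p).clm L1)), Js.dir_add ((hA p).clm L0) ((hC p).clm L1),
    (hA p).dir_clm, (hC p).dir_clm]
  rfl

/-- The operator commutes with variations. -/
lemma dk_sop {Φ : Fm d S3} (h : ∀ p, Js (Φ p)) (R : SOp) (k : Fin d) :
    dk k (R.fam Φ) = R.fam (dk k Φ) := by
  have hJs : ∀ k p, Js (Expand.jetF k Φ p) := jetF_eq.jetF_js h
  have hdj : ∀ n, dk k (Expand.jetF n Φ) = Expand.jetF n (dk k Φ) := by
    intro n
    induction n with
    | zero =>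
      exact dk_clm k h
        (continuousMultilinearCurryFin0 ℝ E2 S3).symm.toContinuousLinearEquiv.toContinuousLinearMap
    | succ n ih =>
      have hs := fun v p => (hJs n p).dir (((0 : Fin d → ℝ), v) : Zv d)
      have e0 : dk k (dx (ev 0) (Expand.jetF n Φ)) = dx (ev 0) (Expand.jetF n (dk k Φ)) := by
        rw [dk_dx k _ (hJs n), ih]
      have e1 : dk k (dx (ev 1) (Expand.jetF n Φ)) = dx (ev 1) (Expand.jetF n (dk k Φ)) := by
        rw [dk_dx k _ (hJs n), ih]
      refine (dk_clm2 k (hs (ev 0)) (hs (ev 1)) _ _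
        (continuousMultilinearCurryLeftEquiv ℝ (fun _ : Fin (n + 1) => E2)
          S3).symm.toContinuousLinearEquiv.toContinuousLinearMap).trans ?_
      funext p z t
      show (continuousMultilinearCurryLeftEquiv ℝ (fun _ : Fin (n + 1) => E2)
          S3).symm.toContinuousLinearEquiv.toContinuousLinearMap
        ((ContinuousLinearMap.smulRightL ℝ E2 _ (EuclideanSpace.proj 0))
          (dk k (dx (ev 0) (Expand.jetF n Φ)) p z t) +
        (ContinuousLinearMap.smulRightL ℝ E2 _ (EuclideanSpace.proj 1))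
          (dk k (dx (ev 1) (Expand.jetF n Φ)) p z t)) = _
      rw [e0, e1]
      rfl
  have e : ∀ Ψ : Fm d S3, (∀ p, Js (Ψ p)) → R.fam Ψ = ∑ k : Fin (R.L + 1), mulF (ContinuousLinearMap.id ℝ
      (ContinuousMultilinearMap ℝ (fun _ : Fin (k : ℕ) => E2) S3 →L[ℝ] R4))
        (cf d fun x _ => R.c k x) (Expand.jetF (k : ℕ) Ψ) := by
    intro Ψ hΨ
    funext p z t
    simp only [Finset.sum_apply, SOp.fam, SOp.app, mulF, ContinuousLinearMap.id_apply, cf]
    exact Finset.sum_congr rfl fun k _ => by rw [← jetF_eq hΨ p z.1 t k z.2]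
  have hd : ∀ p, Js (dk k Φ p) := fun p => (h p).dir _
  rw [e Φ h, e (dk k Φ) hd]
  have hc : ∀ (n : Fin (R.L + 1)) p, Js (cf d (fun x _ => R.c n x) p) := fun n p =>
    Js.pull (Φ := fun x (_ : ℝ) => R.c n x) ((R.smooth n).comp contDiff_fst)
      (ContinuousLinearMap.snd ℝ (Fin d → ℝ) E2)
  have hdc : ∀ n : Fin (R.L + 1), dk k (cf d fun x _ => R.c n x) = 0 := fun n =>
    dk_sdF (s := fun _ x _ => R.c n x) (hc n) k
  have hsum : ∀ s : Finset (Fin (R.L + 1)),
      dk k (∑ n ∈ s, mulF (ContinuousLinearMap.id ℝ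
        (ContinuousMultilinearMap ℝ (fun _ : Fin (n : ℕ) => E2) S3 →L[ℝ] R4))
          (cf d fun x _ => R.c n x) (Expand.jetF (n : ℕ) Φ)) =
      ∑ n ∈ s, mulF (ContinuousLinearMap.id ℝ
        (ContinuousMultilinearMap ℝ (fun _ : Fin (n : ℕ) => E2) S3 →L[ℝ] R4))
          (cf d fun x _ => R.c n x) (Expand.jetF (n : ℕ) (dk k Φ)) := by
    intro s
    induction s using Finset.cons_induction with
    | empty => funext p z t; simp [dk, Expand.dir]
    | cons a s ha ih =>
      rw [Finset.sum_cons, Finset.sum_cons,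
        dk_add k (Φ := mulF (ContinuousLinearMap.id ℝ
          (ContinuousMultilinearMap ℝ (fun _ : Fin (a : ℕ) => E2) S3 →L[ℝ] R4))
            (cf d fun x _ => R.c a x) (Expand.jetF (a : ℕ) Φ))
          (fun p => Js.bilin _ (hc a p) (hJs _ p)) (fun p => ?_), ih, dk_mulF _ k (hc a) (hJs _),
        hdc, hdj]
      · congr 1
        funext p z t; simp [mulF]
      · rw [Finset.sum_apply]
        exact Finset.sum_induction _ Js (fun _ _ => Js.add) contDiff_const fun n _ =>
          Js.bilin _ (hc n p) (hJs _ p)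
  exact hsum Finset.univ

/-! ### Linear forms of the error -/

/-- Variation of `e0` along a field. -/
noncomputable def l0F (B : Base) (G S : Fm d R4) : Fm d ℝ :=
  ip (cf d (fun x _ => B.X0 x) + h0 G) (h0 S) + ip (cf d (fun x _ => B.X0 x) + h0 G) (h0 S)

/-- Variation of `e1` along a field. -/
noncomputable def l1F (B : Base) (G S : Fm d R4) : Fm d ℝ :=
  ip (cf d (fun x _ => B.X0 x) + h0 G) (h1 S) + ip (cf d (fun x _ => B.X1 x) + h1 G) (h0 S)

/-- Variation of `e2` along a field. -/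
noncomputable def l2F (B : Base) (G S : Fm d R4) : Fm d ℝ :=
  ip (cf d (fun x _ => B.X1 x) + h1 G) (h1 S) + ip (cf d (fun x _ => B.X1 x) + h1 G) (h1 S)

/-- Variation of `r0` along a field. -/
noncomputable def m0F (B : Base) (G S : Fm d R4) : Fm d ℝ :=
  l0F B G S - sm (sm (rF d B) (rF d B)) (l2F B G S)

/-- Variation of `r1` along a field. -/
noncomputable def m1F (B : Base) (G S : Fm d R4) : Fm d ℝ :=
  l1F B G S - sm (rF d B) (l2F B G S)

/-- Variation of `r2` along a field. -/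
noncomputable def m2F (B : Base) (G S : Fm d R4) : Fm d ℝ := fun p z t => B.χ • l2F B G S p z t

theorem dk_r {G : Fm d R4} (h : Up W 0 G) (k : Fin d) :
    dk k (r0 B G) = m0F B G (dk k G) ∧ dk k (r1 B G) = m1F B G (dk k G) ∧
      dk k (r2 B G) = m2F B G (dk k G) := by
  have hGj := h.val.js
  have hline : ∀ {Y : Type} [NormedAddCommGroup Y] [NormedSpace ℝ Y] (Φ : Fm d Y), (∀ p, Js (Φ p)) →
      ∀ p z t, HasDerivAt (fun s : ℝ => Φ p (z + s • pv k) t) (dk k Φ p z t) 0 := by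
    intro Y _ _ Φ hΦ p z t
    have h1 := (((hΦ p).slow t).differentiable (by norm_num) z).hasFDerivAt
    have h2 : HasDerivAt (fun s : ℝ => z + s • pv k) (pv k) 0 := by
      simpa using (((hasDerivAt_id (0 : ℝ)).smul_const (pv k)).const_add z)
    rw [show z = z + (0 : ℝ) • pv k by simp] at h1
    have := h1.comp_hasDerivAt (0 : ℝ) h2
    simp only [zero_smul, add_zero] at this
    exact this
  have hsnd : ∀ (z : Zv d) (s : ℝ), (z + s • pv k).2 = z.2 := fun z s => by simp [pv]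
  have hj : ∀ p, Js ((fun p z t => eps p • dx (ev 0) G p z t : Fm d R4) p) := fun p =>
    ((hGj p).dir _).clm (eps p • ContinuousLinearMap.id ℝ R4)
  have e0' : dk k (h0 G) = h0 (dk k G) := by
    funext p
    show Expand.dir (pv k) (dt (G p) + fun z t => eps p • dx (ev 0) G p z t) =
      dt (dk k G p) + fun z t => eps p • dx (ev 0) (dk k G) p z t
    rw [Js.dir_add (hGj p).dt (hj p), show dk k G p = Expand.dir (pv k) (G p) from rfl,
      (hGj p).dt_dir, ← dk_dx k _ hGj]
    congr 1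
    exact congrFun (dk_smul_ix k (fun p => (hGj p).dir _) eps) p
  have e1' : dk k (h1 G) = h1 (dk k G) := by
    show dk k (fun p z t => eps p • dx (ev 1) G p z t) = fun p z t => eps p • dx (ev 1) (dk k G) p z t
    rw [dk_smul_ix (Φ := dx (ev 1) G) k (fun p => (hGj p).dir _) eps, dk_dx k _ hGj]
  have H0 := hline (h0 G) h.h0.val.js
  have H1 := hline (h1 G) h.h1.val.js
  rw [e0'] at H0
  rw [e1'] at H1
  set S := dk k G
  have key : ∀ p z t,
      HasDerivAt (fun s : ℝ => e0 B G p (z + s • pv k) t) (l0F B G S p z t) 0 ∧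
      HasDerivAt (fun s : ℝ => e1 B G p (z + s • pv k) t) (l1F B G S p z t) 0 ∧
      HasDerivAt (fun s : ℝ => e2 B G p (z + s • pv k) t) (l2F B G S p z t) 0 := fun p z t => by
    refine ⟨?_, ?_, ?_⟩
    · have := ((((hasDerivAt_const (0 : ℝ) (B.X0 z.2)).inner ℝ (H0 p z t)).const_mul 2).add
        ((H0 p z t).inner ℝ (H0 p z t))).sub_const (B.a z.2 ^ 2)
      simp only [e0, hsnd]
      refine this.congr_deriv ?_
      simp [l0F, ip_apply, cf, inner_add_left, zero_smul]
      rw [real_inner_comm (h0 G p z t) (h0 S p z t)]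
      ring
    · have := (((hasDerivAt_const (0 : ℝ) (B.X0 z.2)).inner ℝ (H1 p z t)).add
        ((hasDerivAt_const (0 : ℝ) (B.X1 z.2)).inner ℝ (H0 p z t))).add
        ((H0 p z t).inner ℝ (H1 p z t))
      simp only [e1, hsnd]
      refine this.congr_deriv ?_
      simp [l1F, ip_apply, cf, inner_add_left, zero_smul]
      rw [real_inner_comm (h1 G p z t) (h0 S p z t)]
      ring
    · have := (((hasDerivAt_const (0 : ℝ) (B.X1 z.2)).inner ℝ (H1 p z t)).const_mul 2).add
        ((H1 p z t).inner ℝ (H1 p z t))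
      simp only [e2, hsnd]
      refine this.congr_deriv ?_
      simp [l2F, ip_apply, cf, inner_add_left, zero_smul]
      rw [real_inner_comm (h1 G p z t) (h1 S p z t)]
      ring
  have hread : ∀ (Φ : Fm d ℝ) (c : ℝ) p z t, (∀ p, Js (Φ p)) →
      HasDerivAt (fun s : ℝ => Φ p (z + s • pv k) t) c 0 → dk k Φ p z t = c :=
    fun Φ c p z t hΦ hc => (hline Φ hΦ p z t).unique hc
  have hj0 : ∀ p, Js (r0 B G p) ∧ Js (r1 B G p) ∧ Js (r2 B G p) := fun p => by
    have c0 := (Up.cf (W := W) B.X0_coef).val.js p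
    have c1 := (Up.cf (W := W) B.X1_coef).val.js p
    have cr : Js fun (z : Zv d) (_ : ℝ) => B.r z.2 := (Up.cf (W := W) B.r_coef).val.js p
    have ca : Js fun (z : Zv d) (_ : ℝ) => B.a z.2 := (Up.cf (W := W) B.a_coef).val.js p
    have a0 := h.h0.val.js p
    have a1 := h.h1.val.js p
    have j2 : Js (e2 B G p) :=
      ((contDiff_const (c := (2 : ℝ))).mul (ContDiff.inner ℝ c1 a1)).add (ContDiff.inner ℝ a1 a1)
    have j0 : Js (e0 B G p) :=
      (((contDiff_const (c := (2 : ℝ))).mul (ContDiff.inner ℝ c0 a0)).add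
        (ContDiff.inner ℝ a0 a0)).sub (ContDiff.pow ca 2)
    have j1 : Js (e1 B G p) :=
      ((ContDiff.inner ℝ c0 a1).add (ContDiff.inner ℝ c1 a0)).add (ContDiff.inner ℝ a0 a1)
    exact ⟨ContDiff.sub j0 ((ContDiff.pow cr 2).mul j2), ContDiff.sub j1 (ContDiff.mul cr j2),
      (contDiff_const (c := B.χ)).mul j2⟩
  refine ⟨?_, ?_, ?_⟩ <;> funext p z t
  · refine hread _ _ p z t (fun p => (hj0 p).1) ?_
    simp only [r0, hsnd]
    refine ((key p z t).1.sub ((key p z t).2.2.const_mul (B.r z.2 ^ 2))).congr_deriv ?_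
    simp only [m0F, Pi.sub_apply, sm_apply, rF, cf, smul_eq_mul]
    ring
  · refine hread _ _ p z t (fun p => (hj0 p).2.1) ?_
    simp only [r1, hsnd]
    refine ((key p z t).2.1.sub ((key p z t).2.2.const_mul (B.r z.2))).congr_deriv ?_
    simp only [m1F, Pi.sub_apply, sm_apply, rF, cf, smul_eq_mul]
  · refine hread _ _ p z t (fun p => (hj0 p).2.2) ?_
    simp only [r2]
    refine ((key p z t).2.2.const_mul B.χ).congr_deriv ?_
    simp only [m2F, smul_eq_mul]

/-! ### Means -/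

/-- Bounded derivatives at level `i`. -/
def Vb (i N : ℕ) (c : Fm d X) : Prop := Cls (fun p _ => eps p ^ i) (N : ℕ) c

lemma Vc.vb {c : Fm d X} (h : Vc W i c) {N : ℕ} (hN : N ≤ 14) : Vb i N c :=
  Cls.mono (N' := (N : ℕ)) h le_top fun a ha => ⟨1, zero_le_one, fun p _ => by
    rw [one_mul, vw_small (((WithTop.coe_le_coe.1 ha).trans hN).trans W.th_le)]⟩

lemma Vb.dt {c : Fm d X} (h : Vb i 3 c) : Vb i 2 (dtF c) :=
  Cls.deriv h (fun a ha => WithTop.coe_le_coe.2 (Nat.succ_le_succ (WithTop.coe_le_coe.1 ha)))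
    fun _ _ => ⟨1, zero_le_one, fun p _ => by rw [one_mul]⟩

/-- Pairings of the seed with fields of size `M^-i` have means of relative size `τ`. -/
def Gain (W : Wts d) (k : Fin d) (s : Ix → E2 → ℝ → R4) (τ : Ix → ℝ) : Prop :=
  ∀ (i : ℕ) (c : Fm d R4), Vb i 2 c →
    Cls (tw W k (i + W.Q) τ) (12 : ℕ) (meanF (ip c (sdF d s))) ∧
    ∀ m, Cls (tw W k (i + W.Q) τ) (12 : ℕ) (meanF (ip c (dx (ev m) (sdF d s))))

/-- A slow field annihilated by the reduced linearisation of the base. -/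
structure SlowSeed (B : Base) (s : Ix → E2 → ℝ → R4) : Prop where
  slow : ∀ p x t, s p x t = s p x 0
  lin0 : ∀ p x, 2 * ⟪B.X0 x, pd 0 (fun y => s p y 0) x⟫ -
    B.r x ^ 2 * (2 * ⟪B.X1 x, pd 1 (fun y => s p y 0) x⟫) = 0
  lin1 : ∀ p x, ⟪B.X0 x, pd 1 (fun y => s p y 0) x⟫ + ⟪B.X1 x, pd 0 (fun y => s p y 0) x⟫ -
    B.r x * (2 * ⟪B.X1 x, pd 1 (fun y => s p y 0) x⟫) = 0

/-- The means of the variations of the reduced errors. -/
def MeanSmall (B : Base) (W : Wts d) (k : Fin d) (G : Fm d R4) (τ : Ix → ℝ) : Prop :=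
  Cls (tw W k (W.Q + 1) τ) (12 : ℕ) (meanF (dk k (r0 B G))) ∧
    Cls (tw W k (W.Q + 1) τ) (12 : ℕ) (meanF (dk k (r1 B G))) ∧
    Cls (tw W k (W.Q + 1) τ) (12 : ℕ) (meanF (dk k (r2 B G)))

lemma meanF_smul_ix (Φ : Fm d ℝ) (c : Ix → ℝ) :
    meanF (fun p z t => c p • Φ p z t) = fun p z t => c p • meanF Φ p z t := by
  funext p z t
  exact intervalIntegral.integral_smul (c p) (fun s => Φ p z s)

lemma meanF_const_smul (Φ : Fm d ℝ) (c : ℝ) :
    meanF (fun p z t => c • Φ p z t) = fun p z t => c • meanF Φ p z t :=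
  meanF_smul_ix Φ fun _ => c

lemma meanF_sub {Φ Φ' : Fm d ℝ} (h : ∀ p, Js (Φ p)) (h' : ∀ p, Js (Φ' p)) :
    meanF (Φ - Φ') = meanF Φ - meanF Φ' := by
  funext p z t
  exact intervalIntegral.integral_sub ((Js.fast (h p) z).continuous.intervalIntegrable 0 1)
    ((Js.fast (h' p) z).continuous.intervalIntegrable 0 1)

lemma meanF_ip_parts {c S : Fm d R4} (hc : ∀ p, Js (c p)) (hS : ∀ p, Js (S p))
    (pc : ∀ p, Per (c p)) (pS : ∀ p, Per (S p)) :
    meanF (ip c (dtF S)) = -meanF (ip (dtF c) S) := by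
  funext p z t
  have h1 : Js (ip c S p) := Js.bilin _ (hc p) (hS p)
  have hp : Per (ip c S p) := fun y s => by simp [ip_apply, pc p y s, pS p y s]
  have h0 := mean_dt h1 hp z
  have e : dt (ip c S p) = (ip (dtF c) S p) + ip c (dtF S) p := Js.dt_bilin ipL (hc p) (hS p)
  rw [e, mean_add (Φ := ip (dtF c) S p) (Ψ := ip c (dtF S) p) (Js.bilin ipL (hc p).dt (hS p))
    (Js.bilin ipL (hc p) (hS p).dt)] at h0
  show Expand.mean (ip c (dtF S) p) z = -Expand.mean (ip (dtF c) S p) z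
  exact eq_neg_of_add_eq_zero_right (by simpa using h0)

lemma Up.smul_vb {a : Fm d ℝ} {c : Fm d R4} (ha : Up W 0 a) (hc : Up W 0 c) :
    Vb 0 3 (Expand.sm a c) :=
  ((ha.sm hc).mono (le_refl _)).val.vb (by norm_num)

/-- Oscillating seeds. -/
theorem meanSmall_osc {G : Fm d R4} (hG : Up W 0 G) (hg : Low W 1 (dtF G - gF d B))
    {s : Ix → E2 → ℝ → R4} (hs : Seed B W k s) (hd : dk k G = sdF d s) {τ : Ix → ℝ}
    (hgain : Gain W k s τ) : MeanSmall B W k G τ := by
  set S := sdF d s with hS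
  have hSj := hs.cls.js
  have hSp := hs.cls.per
  set X0F : Fm d R4 := cf d fun x _ => B.X0 x with hX0F
  set X1F : Fm d R4 := cf d fun x _ => B.X1 x with hX1F
  have hX0 : Up W 0 X0F := Up.cf B.X0_coef
  have hX1 : Up W 0 X1F := Up.cf B.X1_coef
  have hr : Up W 0 (rF d B) := Up.cf B.r_coef
  set dg : Fm d R4 := dtF G - gF d B + fun p z t => eps p • dx (ev 0) G p z t with hdg
  have hdgV : Vc W 1 dg := (hg.add hG.dx0_smul.low).val
  have hP : Vc W 0 (X0F + h0 G) := (hX0.low.add hG.h0).val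
  have hQ : Vc W 0 (X1F + h1 G) := (hX1.add (hG.h1.mono (Nat.zero_le _))).val
  have hQU : Up W 0 (X1F + h1 G) := hX1.add (hG.h1.mono (Nat.zero_le _))
  have hrQ : Vc W 0 (sm (rF d B) (X1F + h1 G)) := ((hr.sm hQU).mono le_rfl).val
  have hrrQ : Vc W 0 (sm (sm (rF d B) (rF d B)) (X1F + h1 G)) :=
    (((hr.sm hr).sm hQU).mono le_rfl).val
  have TA : ∀ c : Fm d R4, Vc W 1 c →
      Cls (tw W k (W.Q + 1) τ) (12 : ℕ) (meanF (ip c (dtF S))) := fun c hc => by
    have h2 := (hgain 1 _ (hc.vb (N := 3) (by norm_num)).dt).1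
    rw [add_comm 1 W.Q] at h2
    rw [meanF_ip_parts hc.js hSj hc.per hSp]
    exact h2.neg
  have TB : ∀ (m : Fin 2) (c : Fm d R4), Vc W 0 c → Cls (tw W k (W.Q + 1) τ) (12 : ℕ)
      (meanF (ip c fun p z t => eps p • dx (ev m) S p z t)) := fun m c hc => by
    have h2 := (hgain 0 c (hc.vb (by norm_num))).2 m
    have e : ip c (fun p z t => eps p • dx (ev m) S p z t) =
        fun p z t => eps p • ip c (dx (ev m) S) p z t := by
      funext p z t; simp [ip_apply, inner_smul_right]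
    rw [e, meanF_smul_ix]
    refine Cls.smul_ix h2 eps fun p a hp => le_of_eq ?_
    rw [abs_of_nonneg (eps_nonneg p), tw, tw, zero_add, pow_succ']
    ring
  have jx : ∀ (m : Fin 2) p, Js ((fun p z t => eps p • dx (ev m) S p z t : Fm d R4) p) :=
    fun m p => ((hSj p).dir _).clm (eps p • ContinuousLinearMap.id ℝ R4)
  have jip : ∀ {A C : Fm d R4}, (∀ p, Js (A p)) → (∀ p, Js (C p)) → ∀ p, Js (ip A C p) :=
    fun hA hC p => Js.bilin _ (hA p) (hC p)
  set sx : Fm d R4 := fun p z t => eps p • dx (ev 0) S p z t with hsx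
  set sy : Fm d R4 := fun p z t => eps p • dx (ev 1) S p z t with hsy
  have hker : ∀ p z t, ⟪B.X0 z.2 + B.g0 z.2 t, dtF S p z t⟫ = 0 ∧
      ⟪B.X1 z.2, dtF S p z t⟫ = 0 := fun p z t => ⟨hs.ker0 p z.2 t, hs.ker1 p z.2 t⟩
  obtain ⟨q0, q1, q2⟩ := dk_r (B := B) hG k
  rw [hd] at q0 q1 q2
  have f0 : m0F B G S = (ip dg (dtF S) + ip dg (dtF S)) +
      (ip (X0F + h0 G) sx + ip (X0F + h0 G) sx) -
      (ip (sm (sm (rF d B) (rF d B)) (X1F + h1 G)) sy +
        ip (sm (sm (rF d B) (rF d B)) (X1F + h1 G)) sy) := by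
    funext p z t
    have e1 : h0 S p z t = dtF S p z t + sx p z t := rfl
    have e2 : h0 G p z t = B.g0 z.2 t + dg p z t := by simp [hdg, h0, gF, cf]; abel
    have e3 : h1 S p z t = sy p z t := rfl
    obtain ⟨k0, -⟩ := hker p z t
    simp only [m0F, l0F, l2F, Pi.add_apply, Pi.sub_apply, ip_apply, sm_apply, hX0F, hX1F, cf, rF,
      e1, e2, e3, inner_add_left, inner_add_right, real_inner_smul_left, smul_eq_mul] at k0 ⊢
    linear_combination 2 * k0
  have f1 : m1F B G S = ip (h1 G) (dtF S) + ip (X1F + h1 G) sx + ip (X0F + h0 G) sy -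
      (ip (sm (rF d B) (X1F + h1 G)) sy + ip (sm (rF d B) (X1F + h1 G)) sy) := by
    funext p z t
    have e1 : h0 S p z t = dtF S p z t + sx p z t := rfl
    have e3 : h1 S p z t = sy p z t := rfl
    obtain ⟨-, k1⟩ := hker p z t
    simp only [m1F, l1F, l2F, Pi.add_apply, Pi.sub_apply, ip_apply, sm_apply, hX0F, hX1F, cf, rF,
      e1, e3, inner_add_left, inner_add_right, real_inner_smul_left, smul_eq_mul] at k1 ⊢
    linear_combination k1
  have f2 : m2F B G S = fun p z t => B.χ • (ip (X1F + h1 G) sy + ip (X1F + h1 G) sy) p z t := by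
    funext p z t
    simp only [m2F, l2F, hX1F]
    rfl
  have jd : ∀ p, Js (dtF S p) := fun p => (hSj p).dt
  have ja := jip hdgV.js jd
  have jb := jip hP.js (jx 0)
  have jc := jip hrrQ.js (jx 1)
  refine ⟨?_, ?_, ?_⟩
  · rw [q0, f0, meanF_sub (Φ := ip dg (dtF S) + ip dg (dtF S) +
        (ip (X0F + h0 G) sx + ip (X0F + h0 G) sx))
      (Φ' := ip (sm (sm (rF d B) (rF d B)) (X1F + h1 G)) sy +
        ip (sm (sm (rF d B) (rF d B)) (X1F + h1 G)) sy)
      (fun p => ((ja p).add (ja p)).add ((jb p).add (jb p)))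
      (fun p => (jc p).add (jc p)),
      meanF_add (Φ := ip dg (dtF S) + ip dg (dtF S)) (Φ' := ip (X0F + h0 G) sx + ip (X0F + h0 G) sx)
        (fun p => (ja p).add (ja p)) (fun p => (jb p).add (jb p)),
      meanF_add ja ja, meanF_add jb jb, meanF_add jc jc]
    exact (((TA dg hdgV).add (TA dg hdgV)).add ((TB 0 _ hP).add (TB 0 _ hP))).sub
      ((TB 1 _ hrrQ).add (TB 1 _ hrrQ))
  · have ja := jip hG.h1.val.js jd
    have jb := jip hQ.js (jx 0)
    have jb' := jip hP.js (jx 1)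
    have jc := jip hrQ.js (jx 1)
    rw [q1, f1, meanF_sub (Φ := ip (h1 G) (dtF S) + ip (X1F + h1 G) sx + ip (X0F + h0 G) sy)
      (Φ' := ip (sm (rF d B) (X1F + h1 G)) sy + ip (sm (rF d B) (X1F + h1 G)) sy)
      (fun p => ((ja p).add (jb p)).add (jb' p)) (fun p => (jc p).add (jc p)),
      meanF_add (Φ := ip (h1 G) (dtF S) + ip (X1F + h1 G) sx) (fun p => (ja p).add (jb p)) jb',
      meanF_add ja jb, meanF_add jc jc]
    exact (((TA _ hG.h1.val).add (TB 0 _ hQ)).add (TB 1 _ hP)).sub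
      ((TB 1 _ hrQ).add (TB 1 _ hrQ))
  · have jb := jip hQ.js (jx 1)
    rw [q2, f2, meanF_const_smul, meanF_add jb jb]
    exact ((TB 1 _ hQ).add (TB 1 _ hQ)).clm (B.χ • ContinuousLinearMap.id ℝ ℝ)

/-- Homogeneous slow seeds. -/
theorem meanSmall_slow {G : Fm d R4} (hG : Up W 0 G) {s : Ix → E2 → ℝ → R4} (hs : Seed B W k s)
    (hl : SlowSeed B s) (hd : dk k G = sdF d s) : MeanSmall B W k G eps := by
  set S := sdF d s with hS
  have hSj := hs.cls.js
  set sx : Fm d R4 := fun p z t => eps p • dx (ev 0) S p z t with hsx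
  set sy : Fm d R4 := fun p z t => eps p • dx (ev 1) S p z t with hsy
  set gx : Fm d R4 := fun p z t => eps p • dx (ev 0) G p z t with hgx
  have jx : ∀ (m : Fin 2) p, Js ((fun p z t => eps p • dx (ev m) S p z t : Fm d R4) p) :=
    fun m p => ((hSj p).dir _).clm (eps p • ContinuousLinearMap.id ℝ R4)
  have jip : ∀ {A C : Fm d R4}, (∀ p, Js (A p)) → (∀ p, Js (C p)) → ∀ p, Js (ip A C p) :=
    fun hA hC p => Js.bilin _ (hA p) (hC p)
  have hconst : ∀ (v : E2) p z t, dx v S p z t = dx v S p z 0 := fun v p z t => by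
    show fderiv ℝ (fun y => s p y.2 t) z _ = fderiv ℝ (fun y => s p y.2 0) z _
    rw [show (fun y : Zv d => s p y.2 t) = fun y => s p y.2 0 from funext fun y => hl.slow p y.2 t]
  have hdt : dtF S = 0 := by
    funext p z t
    show deriv (s p z.2) t = 0
    rw [show s p z.2 = fun _ => s p z.2 0 from funext fun u => hl.slow p z.2 u]
    exact deriv_const t _
  have hr : Up W 0 (rF d B) := Up.cf B.r_coef
  have TC : ∀ (m : Fin 2) (c : Fm d R4), Vc W 1 c → Cls (tw W k (W.Q + 1) eps) (12 : ℕ)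
      (meanF (ip c fun p z t => eps p • dx (ev m) S p z t)) := fun m c hc => by
    have h1 : Cls (fun p i => eps p ^ W.Q * (W.amp p k * (W.freq p k : ℝ) ^ i)) (12 : ℕ)
        (dx (ev m) S) :=
      Cls.mono (hs.cls.dir _) le_top fun _ _ => ⟨1, zero_le_one, fun _ _ => by rw [one_mul]⟩
    have h2 := Cls.smul_ix h1 eps (w₂ := tw W k W.Q eps) fun p a _ => le_of_eq (by
      rw [abs_of_nonneg (eps_nonneg p), tw]; ring)
    have h3 : Cls (tw W k (W.Q + 1) eps) (12 : ℕ) (ip c fun p z t => eps p • dx (ev m) S p z t) :=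
      Cls.bilin ipL (hc.vb (N := 12) (by norm_num)) h2
        (fun p _ => pow_nonneg (eps_nonneg p) _) (tw_nonneg eps_nonneg k _) le_rfl le_rfl
        fun p a b hp _ => by
          have hf : (W.freq p k : ℝ) ^ b ≤ (W.freq p k : ℝ) ^ (a + b) :=
            pow_le_pow_right₀ (by exact_mod_cast W.freq_pos p k hp) (by omega)
          calc eps p ^ 1 * tw W k W.Q eps p b
              = eps p ^ (W.Q + 1) * (W.amp p k * (W.freq p k : ℝ) ^ b) * eps p := by
                rw [tw]; ring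
            _ ≤ tw W k (W.Q + 1) eps p (a + b) :=
                mul_le_mul_of_nonneg_right (mul_le_mul_of_nonneg_left
                  (mul_le_mul_of_nonneg_left hf (W.amp_nonneg p k))
                  (pow_nonneg (eps_nonneg p) _)) (eps_nonneg p)
    exact Cls.mono (Cls.mean h3 (fun p => tw_nonneg eps_nonneg k _ p 0) fun _ _ => le_rfl) le_top
      fun _ _ => ⟨1, zero_le_one, fun _ _ => by rw [one_mul]⟩
  have hz : ∀ m : Fin 2, meanF (ip (dtF G) fun p z t => eps p • dx (ev m) S p z t) = 0 :=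
    fun m => meanF_ip_dt hG.val.js hG.val.per fun p z t => by
      show eps p • _ = eps p • _
      rw [hconst]
  have hpd : ∀ (m : Fin 2) p z t, dx (ev m) S p z t = pd m (fun y => s p y 0) z.2 :=
    fun m p z t => by
      rw [hconst]
      exact (pd_slice hSj p z.1 z.2 0 m).symm
  obtain ⟨q0, q1, q2⟩ := dk_r (B := B) hG k
  rw [hd] at q0 q1 q2
  have hrU : Up W 0 (rF d B) := hr
  have hQ : Vc W 1 (h1 G) := hG.h1.val
  have hgxV : Vc W 1 gx := hG.dx0_smul.val
  have hrQ : Vc W 1 (sm (rF d B) (h1 G)) := ((hr.sm hG.h1).mono (by omega)).val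
  have hrrQ : Vc W 1 (sm (sm (rF d B) (rF d B)) (h1 G)) :=
    (((hr.sm hr).sm hG.h1).mono (by omega)).val
  have eh : ∀ p z t, h0 S p z t = sx p z t := fun p z t => by
    simp [h0, hdt, hsx]
  have f0 : m0F B G S = (ip (dtF G) sx + ip (dtF G) sx) + (ip gx sx + ip gx sx) -
      (ip (sm (sm (rF d B) (rF d B)) (h1 G)) sy + ip (sm (sm (rF d B) (rF d B)) (h1 G)) sy) := by
    funext p z t
    have e2 : h0 G p z t = dtF G p z t + gx p z t := rfl
    have e3 : h1 S p z t = sy p z t := rfl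
    have hl0 := hl.lin0 p z.2
    rw [← hpd 0 p z t, ← hpd 1 p z t] at hl0
    simp only [m0F, l0F, l2F, Pi.add_apply, Pi.sub_apply, ip_apply, sm_apply, cf, rF, eh, e2, e3,
      inner_add_left, inner_add_right, real_inner_smul_left, smul_eq_mul, hsx, hsy,
      real_inner_smul_right] at hl0 ⊢
    linear_combination eps p * hl0
  have f1 : m1F B G S = ip (dtF G) sy + ip gx sy + ip (h1 G) sx -
      (ip (sm (rF d B) (h1 G)) sy + ip (sm (rF d B) (h1 G)) sy) := by
    funext p z t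
    have e2 : h0 G p z t = dtF G p z t + gx p z t := rfl
    have e3 : h1 S p z t = sy p z t := rfl
    have hl1 := hl.lin1 p z.2
    rw [← hpd 0 p z t, ← hpd 1 p z t] at hl1
    simp only [m1F, l1F, l2F, Pi.add_apply, Pi.sub_apply, ip_apply, sm_apply, cf, rF, eh, e2, e3,
      inner_add_left, inner_add_right, real_inner_smul_left, smul_eq_mul, hsx, hsy,
      real_inner_smul_right] at hl1 ⊢
    linear_combination eps p * hl1
  have f2 : m2F B G S = fun p z t => B.χ • (ip (h1 G) sy + ip (h1 G) sy) p z t := by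
    funext p z t
    have hl2 := hs.ker2 p z.2 0
    rw [← hpd 1 p z t] at hl2
    have e3 : h1 S p z t = sy p z t := rfl
    simp only [m2F, l2F, Pi.add_apply, ip_apply, cf, e3, inner_add_left, smul_eq_mul, hsy,
      real_inner_smul_right]
    linear_combination 2 * eps p * hl2
  have jd := hG.dt.val.js
  have ja := jip jd (jx 0)
  have jb := jip hgxV.js (jx 0)
  have jc := jip hrrQ.js (jx 1)
  refine ⟨?_, ?_, ?_⟩
  · rw [q0, f0, meanF_sub (Φ := ip (dtF G) sx + ip (dtF G) sx + (ip gx sx + ip gx sx))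
      (Φ' := ip (sm (sm (rF d B) (rF d B)) (h1 G)) sy + ip (sm (sm (rF d B) (rF d B)) (h1 G)) sy)
      (fun p => ((ja p).add (ja p)).add ((jb p).add (jb p)))
      (fun p => (jc p).add (jc p)),
      meanF_add (Φ := ip (dtF G) sx + ip (dtF G) sx) (Φ' := ip gx sx + ip gx sx)
        (fun p => (ja p).add (ja p)) (fun p => (jb p).add (jb p)),
      meanF_add ja ja, meanF_add jb jb, meanF_add jc jc, hz 0, add_zero, zero_add]
    exact ((TC 0 _ hgxV).add (TC 0 _ hgxV)).sub ((TC 1 _ hrrQ).add (TC 1 _ hrrQ))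
  · have ja := jip jd (jx 1)
    have jb := jip hgxV.js (jx 1)
    have jb' := jip hQ.js (jx 0)
    have jc := jip hrQ.js (jx 1)
    rw [q1, f1, meanF_sub (Φ := ip (dtF G) sy + ip gx sy + ip (h1 G) sx)
      (Φ' := ip (sm (rF d B) (h1 G)) sy + ip (sm (rF d B) (h1 G)) sy)
      (fun p => ((ja p).add (jb p)).add (jb' p)) (fun p => (jc p).add (jc p)),
      meanF_add (Φ := ip (dtF G) sy + ip gx sy) (fun p => (ja p).add (jb p)) jb',
      meanF_add ja jb, meanF_add jc jc, hz 1, zero_add]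
    exact ((TC 1 _ hgxV).add (TC 0 _ hQ)).sub ((TC 1 _ hrQ).add (TC 1 _ hrQ))
  · have jb := jip hQ.js (jx 1)
    rw [q2, f2, meanF_const_smul, meanF_add jb jb]
    exact ((TC 1 _ hQ).add (TC 1 _ hQ)).clm (B.χ • ContinuousLinearMap.id ℝ ℝ)

end Vale.Agent.P205F.Expand
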