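import Vale.Agent.P205F.Expand.Expansion
import Vale.Agent.P205F.Expand.LoopSpec

/-!
# P205, expansions: the oscillating seeds

For a periodic profile `q` and a frequency `L` the seed is a kernel field of the oscillating
equations whose main term is `q'(L t) σ`; everything else is smaller by the factor `1/L`, and so
are its means against slowly oscillating fields.
-/

namespace Vale.Agent.P205F.Expand

open scoped ContDiff RealInnerProductSpace Topology
open Filter Set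

variable {d : ℕ} {W : Wts d} {k : Fin d} {B : Base}
variable {X Y V : Type} [NormedAddCommGroup X] [NormedSpace ℝ X] [NormedAddCommGroup Y]
  [NormedSpace ℝ Y] [NormedAddCommGroup V] [NormedSpace ℝ V]

/-- A periodic profile. -/
structure Profile (φ : ℝ → ℝ) : Prop where
  smooth : ContDiff ℝ ∞ φ
  per : ∀ t, φ (t + 1) = φ t

lemma Profile.deriv {φ : ℝ → ℝ} (h : Profile φ) : Profile (deriv φ) := by
  refine ⟨(contDiff_infty_iff_deriv.1 h.smooth).2, fun t => ?_⟩
  rw [← deriv_comp_add_const, show (fun s => φ (s + 1)) = φ from funext h.per]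

lemma Profile.iter {φ : ℝ → ℝ} (h : Profile φ) : ∀ i, Profile (_root_.deriv^[i] φ)
  | 0 => h
  | i + 1 => by rw [Function.iterate_succ_apply']; exact (Profile.iter h i).deriv

lemma Profile.bounded {φ : ℝ → ℝ} (h : Profile φ) : ∃ C, 0 ≤ C ∧ ∀ t, |φ t| ≤ C := by
  obtain ⟨C, hC⟩ := (isCompact_Icc (a := (0 : ℝ)) (b := 1)).exists_bound_of_continuousOn
    h.smooth.continuous.continuousOn
  refine ⟨max C 0, le_max_right _ _, fun t => ?_⟩
  rw [show φ t = φ (Int.fract t) from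
    ((Function.Periodic.sub_int_mul_eq (show Function.Periodic φ 1 from h.per) ⌊t⌋).symm.trans
      (by rw [mul_one]; rfl))]
  exact (Real.norm_eq_abs _ ▸ hC _ ⟨Int.fract_nonneg t, (Int.fract_lt_one t).le⟩).trans
    (le_max_left _ _)

/-- A profile at frequency `L`. -/
def pL (d : ℕ) (L : Ix → ℕ) (φ : ℝ → ℝ) : Fm d ℝ := fun p _ t => φ (L p * t)

/-- Weights of oscillating terms, with a gain `L^-m`. -/
noncomputable def ow (L : Ix → ℕ) (m : ℕ) (p : Ix) (i : ℕ) : ℝ :=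
  (L p : ℝ) ^ i * ((L p : ℝ) ^ m)⁻¹

lemma ow_nonneg (L : Ix → ℕ) (m : ℕ) (p : Ix) (i : ℕ) : 0 ≤ ow L m p i :=
  mul_nonneg (pow_nonneg (Nat.cast_nonneg _) _) (inv_nonneg.2 (pow_nonneg (Nat.cast_nonneg _) _))

lemma dt_pL (L : Ix → ℕ) (φ : ℝ → ℝ) :
    dtF (pL d L φ) = fun p z t => (L p : ℝ) • pL d L (deriv φ) p z t := by
  funext p z t
  show deriv (fun s => φ (L p * s)) t = _
  rw [deriv_comp_mul_left]
  rfl

lemma pL_js (L : Ix → ℕ) {φ : ℝ → ℝ} (h : Profile φ) (p : Ix) : Js (pL d L φ p) :=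
  h.smooth.comp (contDiff_const.mul contDiff_snd)

lemma pL_per (L : Ix → ℕ) {φ : ℝ → ℝ} (h : Profile φ) (p : Ix) : Per (pL d L φ p) := fun z t => by
  show φ (L p * (t + 1)) = φ (L p * t)
  have := (show Function.Periodic φ 1 from h.per).nat_mul (L p) (L p * t)
  rw [mul_one] at this
  rw [mul_add, mul_one]
  exact this

lemma pL_dt_iter (L : Ix → ℕ) {φ : ℝ → ℝ} (h : Profile φ) (p : Ix) : ∀ i,
    dt^[i] (pL d L φ p) = fun z t => (L p : ℝ) ^ i * pL d L (deriv^[i] φ) p z t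
  | 0 => by funext z t; simp
  | i + 1 => by
    rw [Function.iterate_succ_apply', pL_dt_iter L h p i]
    funext z t
    show deriv (fun s => (L p : ℝ) ^ i * (deriv^[i] φ) (L p * s)) t = _
    rw [deriv_const_mul_field, deriv_comp_mul_left, Function.iterate_succ_apply']
    simp [pL, pow_succ]
    ring

theorem pL_cls (L : Ix → ℕ) {φ : ℝ → ℝ} (h : Profile φ) :
    Cls (ow L 0) ⊤ (pL d L φ) := by
  refine ⟨pL_js L h, pL_per L h, fun a i _ => ?_⟩
  obtain ⟨C, hC, hb⟩ := (h.iter i).bounded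
  refine ⟨C, hC, fun p _ z _ t => ?_⟩
  rw [pL_dt_iter L h p i]
  match a with
  | 0 =>
    rw [norm_iteratedFDeriv_zero, Real.norm_eq_abs, abs_mul, abs_pow, Nat.abs_cast, ow, pow_zero,
      inv_one, mul_one, mul_comm C]
    exact mul_le_mul_of_nonneg_left (hb _) (pow_nonneg (Nat.cast_nonneg _) _)
  | a + 1 =>
    show ‖iteratedFDeriv ℝ (a + 1) (fun _ : Zv d => (L p : ℝ) ^ i * (deriv^[i] φ) (L p * t)) z‖ ≤ _
    rw [iteratedFDeriv_succ_const]
    simp only [Pi.zero_apply, norm_zero]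
    exact mul_nonneg hC (ow_nonneg L 0 p i)

/-- Frequencies are positive on admissible indices. -/
def Freq (L : Ix → ℕ) : Prop := ∀ p, Adm p → 1 ≤ L p

lemma ow_mono {L : Ix → ℕ} (hL : Freq L) (m : ℕ) {p : Ix} (hp : Adm p) {i i' : ℕ} (hi : i ≤ i') :
    ow L m p i ≤ ow L m p i' :=
  mul_le_mul_of_nonneg_right (pow_le_pow_right₀ (by exact_mod_cast hL p hp) hi)
    (inv_nonneg.2 (pow_nonneg (Nat.cast_nonneg _) _))

/-- Products with coefficients. -/
lemma Coef.mul_ow (B' : X →L[ℝ] Y →L[ℝ] V) {c : E2 → ℝ → X} (hc : Coef c) {L : Ix → ℕ}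
    (hL : Freq L) {m : ℕ} {Φ : Fm d Y} (h : Cls (ow L m) ⊤ Φ) :
    Cls (ow L m) ⊤ (mulF B' (cf d c) Φ) := by
  obtain ⟨K, hK, h0⟩ := hc.supp
  exact Cls.bilin B' (Cls.coef hc.js hc.per hK h0) h (fun _ _ => zero_le_one) (ow_nonneg L m)
    le_rfl le_rfl fun p a b hp _ => by rw [one_mul]; exact ow_mono hL m hp (by omega)

lemma Coef.mul {B' : X →L[ℝ] Y →L[ℝ] V} {c : E2 → ℝ → X} {c' : E2 → ℝ → Y} (hc : Coef c)
    (hc' : Coef c') : Coef fun x t => B' (c x t) (c' x t) := by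
  refine ⟨hc.js.bilin B' hc'.js, fun x t => by simp only [hc.per x t, hc'.per x t], ?_⟩
  obtain ⟨K, hK, h0⟩ := hc.supp
  exact ⟨K, hK, fun x hx t => by simp [h0 x hx t]⟩

lemma Coef.deriv {c : E2 → ℝ → X} (hc : Coef c) : Coef (Expand.dt c) := by
  obtain ⟨K, hK, h0⟩ := hc.supp
  exact ⟨hc.js.dt, hc.per.dt, K, hK, fun x hx t => by
    simp [Expand.dt, show c x = fun _ => (0 : X) from funext (h0 x hx)]⟩

lemma Coef.dir {c : E2 → ℝ → X} (hc : Coef c) (v : E2) : Coef (Expand.dir v c) := by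
  obtain ⟨K, hK, h0⟩ := hc.supp
  refine ⟨hc.js.dir v, hc.per.dir v, K, hK, fun x hx t => ?_⟩
  have e : (fun y => c y t) =ᶠ[𝓝 x] fun _ => (0 : X) := by
    filter_upwards [hK.isClosed.isOpen_compl.mem_nhds hx] with y hy using h0 y hy t
  simp [Expand.dir, e.fderiv_eq]

lemma cls_L_inv (L : Ix → ℕ) {wt : Ix → ℕ → ℝ} {N : ℕ∞}
    {Φ : Fm d X} (h : Cls wt N Φ) :
    Cls (fun p i => wt p i * ((L p : ℝ))⁻¹) N fun p z t => ((L p : ℝ))⁻¹ • Φ p z t :=
  Cls.smul_ix h _ fun p i _ => by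
    rw [abs_of_nonneg (inv_nonneg.2 (Nat.cast_nonneg _)), mul_comm]

lemma hasDerivAt_invpL {φ : ℝ → ℝ} (h : Profile φ) {a : ℝ} (ha : a ≠ 0) (t : ℝ) :
    HasDerivAt (fun s => a⁻¹ • φ (a * s)) (deriv φ (a * t)) t := by
  have h1 : HasDerivAt (fun s => φ (a * s)) (deriv φ (a * t) * (a * 1)) t :=
    (h.smooth.differentiable (by norm_num) (a * t)).hasDerivAt.comp t
      ((hasDerivAt_id t).const_mul a)
  refine (h1.fun_const_smul a⁻¹).congr_deriv ?_
  rw [smul_eq_mul, mul_one, mul_comm, mul_assoc, mul_inv_cancel₀ ha, mul_one]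

variable [CompleteSpace X]

omit [CompleteSpace X] in
/-- Means of coefficients against a derivative profile gain `1/L`. -/
theorem gain_mean {c : E2 → ℝ → X} (hc : Coef c) {L : Ix → ℕ} (hL : Freq L) {φ : ℝ → ℝ}
    (hφ : Profile φ) :
    ∃ A R : Fm d X, Cls (ow L 1) ⊤ A ∧ Cls (ow L 1) ⊤ R ∧
      ∀ p, Adm p → ∀ z t, pL d L (deriv φ) p z t • c z.2 t = dtF A p z t + R p z t := by
  set P : Fm d ℝ := fun p z t => ((L p : ℝ))⁻¹ • pL d L φ p z t with hP
  have hP1 : Cls (ow L 1) ⊤ P :=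
    (cls_L_inv L (pL_cls L hφ)).mono_le fun p i _ => le_of_eq (by
      simp [ow])
  set A : Fm d X := fun p z t => P p z t • c z.2 t with hA
  set R : Fm d X := fun p z t => -(P p z t • Expand.dt c z.2 t) with hR
  have hA' : Cls (ow L 1) ⊤ A := hc.mul_ow (ContinuousLinearMap.lsmul ℝ ℝ).flip hL hP1
  have hR' : Cls (ow L 1) ⊤ R :=
    (hc.deriv.mul_ow (ContinuousLinearMap.lsmul ℝ ℝ).flip hL hP1).neg
  refine ⟨A, R, hA', hR', fun p hp z t => ?_⟩
  have hLp : (L p : ℝ) ≠ 0 := Nat.cast_ne_zero.2 (by have := hL p hp; omega)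
  have h1 : HasDerivAt (P p z) (deriv φ (L p * t)) t := hasDerivAt_invpL hφ hLp t
  have h2 : HasDerivAt (c z.2) (Expand.dt c z.2 t) t :=
    ((hc.js.hasDerivAt_fast z.2 t).differentiableAt).hasDerivAt
  rw [show dtF A p z t = _ from (h1.fun_smul h2).deriv, hR]
  simp [pL]

omit [CompleteSpace X] in
lemma Cls.congr_adm {wt : Ix → ℕ → ℝ} {N : ℕ∞} {Φ Φ' : Fm d X} (h : Cls wt N Φ)
    (hj : ∀ p, Js (Φ' p)) (hp : ∀ p, Per (Φ' p)) (e : ∀ p, Adm p → Φ' p = Φ p) : Cls wt N Φ' :=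
  ⟨hj, hp, fun a i hi => by
    obtain ⟨C, hC, hb⟩ := h.bd a i hi
    exact ⟨C, hC, fun p hp' z hz t => by rw [e p hp']; exact hb p hp' z hz t⟩⟩

lemma mean_ow {L : Ix → ℕ} {m : ℕ} {Φ : Fm d X} (h : Cls (ow L m) ⊤ Φ) :
    Cls (ow L m) ⊤ (meanF Φ) := Cls.mean h (fun p => ow_nonneg L m p 0) fun _ _ => le_rfl

/-- Primitives of oscillating families gain `1/L`. -/
theorem gain_prim {c : E2 → ℝ → X} (hc : Coef c) {L : Ix → ℕ} (hL : Freq L) {φ : ℝ → ℝ}
    (hφ : Profile φ) {R' : Fm d X} (hR' : Cls (ow L 1) ⊤ R')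
    (h0 : ∀ p z, Expand.mean ((fun z t => pL d L (deriv φ) p z t • c z.2 t) + R' p) z = 0) :
    Cls (ow L 1) ⊤ fun p =>
      Expand.prim ((fun z t => pL d L (deriv φ) p z t • c z.2 t) + R' p) := by
  set Φ : Fm d X := fun p => (fun z t => pL d L (deriv φ) p z t • c z.2 t) + R' p with hΦ
  have hΦj : ∀ p, Js (Φ p) := fun p =>
    ((pL_js L hφ.deriv p).smul (hc.js.pull (ContinuousLinearMap.snd ℝ (Fin d → ℝ) E2))).add (hR'.js p)
  have hΦp : ∀ p, Per (Φ p) := fun p z t => by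
    show pL d L (deriv φ) p z (t + 1) • c z.2 (t + 1) + R' p z (t + 1) = _
    rw [pL_per L hφ.deriv p z t, hc.per z.2 t, hR'.per p z t]
    rfl
  obtain ⟨A, R, hA, hR, e⟩ := gain_mean (d := d) hc hL hφ
  set T := R + R' with hTd
  have hT : Cls (ow L 1) ⊤ T := hR.add hR'
  have hTo : Cls (ow L 1) ⊤ (oscF T) := hT.sub (mean_ow hT)
  have hP : Cls (ow L 1) ⊤ (primF (oscF T)) :=
    Cls.prim hTo (mean_oscF hT.js) (fun p i => ow_nonneg L 1 p i) (fun _ _ => le_top)
      (fun _ _ => le_rfl) fun i _ => ⟨1, zero_le_one, fun p hp => by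
        rw [one_mul]; exact ow_mono hL 1 hp (by omega)⟩
  refine Cls.congr_adm ((hA.sub (mean_ow hA)).add hP) (fun p => (hΦj p).prim)
    (fun p => (hΦp p).prim (hΦj p) (h0 p)) fun p hp => ?_
  have e' : Φ p = dtF A p + T p := by
    funext z t
    simp only [hΦ, Pi.add_apply, e p hp z t, hTd, add_assoc]
  have hm : ∀ z, Expand.mean (T p) z = 0 := fun z => by
    have h1 : Expand.mean (Φ p) z = 0 := h0 p z
    rw [e', mean_add (Φ := dtF A p) ((hA.js p).dt) (hT.js p), Pi.add_apply,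
      show Expand.mean (dtF A p) z = 0 from mean_dt (hA.js p) (hA.per p) z, zero_add] at h1
    exact h1
  have eo : oscF T p = T p := by
    funext z t; simp [oscF, meanF, hm]
  show Expand.prim (Φ p) = (A - meanF A + primF (oscF T)) p
  rw [e', prim_add (Φ := dtF A p) ((hA.js p).dt) (hT.js p)]
  funext z t
  simp only [Pi.add_apply, Pi.sub_apply]
  show Expand.prim (Expand.dt (A p)) z t + Expand.prim (T p) z t = _
  rw [prim_dt (hA.js p)]
  simp only [primF, eo]
  rfl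

/-- Oscillating fields: a main term and a remainder of relative size `1/L`. -/
structure Osc (W : Wts d) (k : Fin d) (L : Ix → ℕ) (φ : ℝ → ℝ) (C : E2 → ℝ → R4)
    (s : Ix → E2 → ℝ → R4) (R : Fm d R4) : Prop where
  coef : Coef C
  rem : Cls (ow L 1) ⊤ R
  eq : ∀ p z t, sdF d s p z t =
    (eps p ^ W.Q * W.amp p k) • (pL d L (deriv φ) p z t • C z.2 t + R p z t)

theorem Osc.gain {L : Ix → ℕ} {φ : ℝ → ℝ} {C : E2 → ℝ → R4} {s : Ix → E2 → ℝ → R4}
    {R : Fm d R4} (h : Osc W k L φ C s R) (hL : Freq L) (hφ : Profile φ) :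
    Gain W k s fun p => ((L p : ℝ))⁻¹ := by
  intro i c hc
  set P : Fm d ℝ := fun p z t => ((L p : ℝ))⁻¹ • pL d L φ p z t with hP
  have hP1 : Cls (ow L 1) ⊤ P :=
    (cls_L_inv L (pL_cls L hφ)).mono_le fun p i _ => le_of_eq (by
      simp [ow])
  -- a field of the same shape
  have core : ∀ (C' : E2 → ℝ → R4) (R' : Fm d R4), Coef C' → Cls (ow L 1) ⊤ R' → ∀ S : Fm d R4,
      (∀ p, Js (S p)) → (∀ p, Per (S p)) → (∀ p z t, S p z t =
        (eps p ^ W.Q * W.amp p k) • (pL d L (deriv φ) p z t • C' z.2 t + R' p z t)) →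
      Cls (tw W k (i + W.Q) fun p => ((L p : ℝ))⁻¹) (12 : ℕ) (meanF (ip c S)) := by
    intro C' R' hC' hR' S hSj hSp hS
    obtain ⟨K, hK, h0⟩ := hC'.supp
    have hf : Cls (fun p _ => eps p ^ i) (2 : ℕ) (ip c (cf d C')) :=
      Cls.bilin ipL hc (Cls.coef hC'.js hC'.per hK h0) (fun p _ => pow_nonneg (eps_nonneg p) _)
        (fun _ _ => zero_le_one) le_rfl le_top fun p a b _ _ => by rw [mul_one]
    have hdf : Cls (fun p _ => eps p ^ i) (1 : ℕ) (dtF (ip c (cf d C'))) :=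
      Cls.deriv hf (fun a ha => WithTop.coe_le_coe.2 (Nat.succ_le_succ (WithTop.coe_le_coe.1 ha)))
        fun _ _ => ⟨1, zero_le_one, fun p _ => by rw [one_mul]⟩
    have w1 : ∀ p i', 0 ≤ eps p ^ i * ow L 1 p i' := fun p i' =>
      mul_nonneg (pow_nonneg (eps_nonneg p) _) (ow_nonneg L 1 p i')
    have hwt : ∀ (p : Ix) (a b : ℕ), Adm p → eps p ^ i * ow L 1 p b ≤ eps p ^ i * ow L 1 p (a + b) :=
      fun p a b hp =>
        mul_le_mul_of_nonneg_left (ow_mono hL 1 hp (by omega)) (pow_nonneg (eps_nonneg p) _)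
    have h1 : Cls (fun p i' => eps p ^ i * ow L 1 p i') (1 : ℕ)
        (-mulF (ContinuousLinearMap.mul ℝ ℝ) (dtF (ip c (cf d C'))) P +
          ip c R') :=
      (Cls.bilin _ hdf hP1 (fun p _ => pow_nonneg (eps_nonneg p) _) (ow_nonneg L 1) le_rfl le_top
        fun p a b hp _ => hwt p a b hp).neg.add
      (Cls.bilin _ (Cls.mono (N' := (1 : ℕ)) hc (WithTop.coe_le_coe.2 one_le_two) fun _ _ =>
          ⟨1, zero_le_one, fun p _ => by rw [one_mul]⟩) hR'
        (fun p _ => pow_nonneg (eps_nonneg p) _) (ow_nonneg L 1) le_rfl le_top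
        fun p a b hp _ => hwt p a b hp)
    set T := -mulF (ContinuousLinearMap.mul ℝ ℝ) (dtF (ip c (cf d C'))) P + ip c R' with hT
    have h2 := Cls.smul_ix h1 (fun p => eps p ^ W.Q * W.amp p k)
      (w₂ := fun p i' => eps p ^ W.Q * W.amp p k * (eps p ^ i * ow L 1 p i')) fun p i' _ => le_of_eq (by
        rw [abs_of_nonneg (mul_nonneg (pow_nonneg (eps_nonneg p) _) (W.amp_nonneg p k))])
    have hm0 : Cls (tw W k (i + W.Q) fun p => ((L p : ℝ))⁻¹) ⊤
        (meanF fun p z t => (eps p ^ W.Q * W.amp p k) • T p z t) :=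
      Cls.mean h2 (fun p => mul_nonneg (mul_nonneg (pow_nonneg (eps_nonneg p) _) (W.amp_nonneg p k))
        (w1 p 0)) fun p _ => le_of_eq (by simp [tw, ow, pow_add]; ring)
    refine Cls.mono (Cls.congr_adm hm0 (fun p => ?_) (fun p z t => rfl) fun p hp => ?_) le_top
      fun _ _ => ⟨1, zero_le_one, fun _ _ => by rw [one_mul]⟩
    · exact (mean_smooth (Js.bilin ipL (hc.js p) (hSj p))).comp contDiff_fst
    funext z t
    have hLp : (L p : ℝ) ≠ 0 := Nat.cast_ne_zero.2 (by have := hL p hp; omega)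
    have jf : Js (ip c (cf d C') p) := hf.js p
    have pf : Per (ip c (cf d C') p) := hf.per p
    -- integration by parts
    set A : Zv d → ℝ → ℝ := fun y s => P p y s * ip c (cf d C') p y s with hA
    have jA : Js A := ContDiff.mul (hP1.js p) jf
    have hA' : ∀ y s, dt A y s = pL d L (deriv φ) p y s * ip c (cf d C') p y s +
        P p y s * dtF (ip c (cf d C')) p y s := fun y s => by
      have q1 : HasDerivAt (P p y) (deriv φ (L p * s)) s := hasDerivAt_invpL hφ hLp s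
      have q2 := (jf.hasDerivAt_fast y s).differentiableAt.hasDerivAt
      refine (q1.mul q2).deriv.trans ?_
      rfl
    have e : ∀ y s, ip c S p y s = (eps p ^ W.Q * W.amp p k) * (dt A y s + T p y s) := fun y s => by
      rw [ip_apply, hS, inner_smul_right, inner_add_right, inner_smul_right, hA', hT]
      simp only [Pi.add_apply, Pi.neg_apply, mulF, ip_apply, cf, ContinuousLinearMap.mul_apply']
      ring
    show Expand.mean (ip c S p) z = ∫ u in (0 : ℝ)..1, (eps p ^ W.Q * W.amp p k) • T p z u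
    rw [intervalIntegral.integral_smul]
    show Expand.mean (ip c S p) z = (eps p ^ W.Q * W.amp p k) * Expand.mean (T p) z
    rw [show ip c S p = fun y s =>
        ((eps p ^ W.Q * W.amp p k) • ContinuousLinearMap.id ℝ ℝ) ((dt A + T p) y s) from by
      funext y s; simp [e y s],
      mean_clm (jA.dt.add (h1.js p)), mean_add jA.dt (h1.js p)]
    have pA : Per A := fun y s => by simp [hA, hP1.per p y s, pf y s]
    simp [mean_dt jA pA z]
  have hSj : ∀ p, Js (sdF d s p) := fun p => by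
    rw [show sdF d s p = _ from funext fun z => funext fun t => h.eq p z t]
    exact Js.clm (Φ := (fun z t => pL d L (deriv φ) p z t • C z.2 t) + R p)
      (((pL_js L hφ.deriv p).smul
        (h.coef.js.pull (ContinuousLinearMap.snd ℝ (Fin d → ℝ) E2))).add (h.rem.js p))
      ((eps p ^ W.Q * W.amp p k) • ContinuousLinearMap.id ℝ R4)
  have hSp : ∀ p, Per (sdF d s p) := fun p z t => by
    rw [h.eq, h.eq, pL_per L hφ.deriv p z t, h.coef.per z.2 t, h.rem.per p z t]
  refine ⟨core C R h.coef h.rem _ hSj hSp h.eq, fun m => ?_⟩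
  refine core (Expand.dir (ev m) C) (dx (ev m) R) (h.coef.dir _) (h.rem.dir _) _
    (fun p => (hSj p).dir _) (fun p => (hSp p).dir _) fun p z t => ?_
  have jm : Js fun (z : Zv d) t => pL d L (deriv φ) p z t • C z.2 t :=
    (pL_js L hφ.deriv p).smul (h.coef.js.pull (ContinuousLinearMap.snd ℝ (Fin d → ℝ) E2))
  show Expand.dir _ (sdF d s p) z t = _
  rw [show sdF d s p = fun z t => ((eps p ^ W.Q * W.amp p k) • ContinuousLinearMap.id ℝ R4)
      (((fun z t => pL d L (deriv φ) p z t • C z.2 t) + R p) z t) from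
      funext fun z => funext fun t => by simp [h.eq p z t]]
  rw [(jm.add (h.rem.js p)).dir_clm, jm.dir_add (h.rem.js p)]
  simp only [Pi.add_apply, smul_apply, ContinuousLinearMap.id_apply]
  congr 1
  congr 1
  show fderiv ℝ (fun y : Zv d => deriv φ (L p * t) • C y.2 t) z ((0 : Fin d → ℝ), ev m) =
    deriv φ (L p * t) • fderiv ℝ (fun y => C y t) z.2 (ev m)
  have hd : HasFDerivAt (fun y : Zv d => C y.2 t)
      ((fderiv ℝ (fun y => C y t) z.2).comp (ContinuousLinearMap.snd ℝ (Fin d → ℝ) E2)) z :=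
    (((h.coef.js.slow t).differentiable (by norm_num) z.2).hasFDerivAt).comp z hasFDerivAt_snd
  rw [(hd.fun_const_smul (deriv φ (L p * t))).fderiv]
  rfl

end Vale.Agent.P205F.Expand
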