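import Vale.Agent.P205F.Expand.Solve
import Vale.Agent.P205F.Expand.Point

/-!
# P205, expansions: the slow and fine parameters at one point

`Sol` is what the rows module gives. The slow parameters prescribe the free jets to order `3` and,
for a final twist, the absorber components of five jets instead of five line data.
-/

namespace Vale.Agent.P205F.Expand

open scoped ContDiff RealInnerProductSpace Topology
open Filter Set

variable {n : ℕ}

/-- What the rows module gives at a point. -/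
def Sol (m : ℕ) (hm : m ≤ 2) (F : E2 → R4) (Wvs : SIx n → E2 → R4) (s : Fin 2 → R4) (x : E2)
    (fr : Fin 2) (i₀ : Fin n) (Λ C : ℝ) : Prop :=
  ∃ Φ : (VIx m → ℝ) →ₗ[ℝ] SIx n → ℝ, (∀ U, ‖Φ U‖ ≤ C * ‖U‖) ∧
    (∀ U k, Φ U k ≠ 0 → (∃ r, k = .inl (fr, r)) ∨ ∃ r : Fin 2 × Fin 7, k = .inr (i₀, r)) ∧
    ∀ U, ‖U‖ ≤ C * ‖rowsOf F Wvs s hm x Λ (Φ U)‖

/-- The line data replaced by absorber components, and those components. -/
def gRow (kb : Fin 2 × Fin 4) : Option (ℕ × ℕ) :=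
  if kb.1 = 1 then
    (if kb.2 = 1 then some (0, 0) else if kb.2 = 2 then some (0, 1)
      else if kb.2 = 3 then some (0, 2) else none)
  else (if kb.2 = 2 then some (1, 0) else if kb.2 = 3 then some (1, 1) else none)

lemma gRow_bound {kb : Fin 2 × Fin 4} {a c : ℕ} (h : gRow kb = some (a, c)) :
    a + c ≤ 2 ∧ a ≤ 1 := by
  obtain ⟨k, b⟩ := kb
  fin_cases k <;> fin_cases b <;> simp [gRow] at h <;> omega

lemma gRow_surj {a c : ℕ} (h : a + c ≤ 2) (ha : a ≤ 1) : ∃ kb, gRow kb = some (a, c) := by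
  obtain ⟨rfl, rfl⟩ | ⟨rfl, rfl⟩ | ⟨rfl, rfl⟩ | ⟨rfl, rfl⟩ | ⟨rfl, rfl⟩ :
      (a = 0 ∧ c = 0) ∨ (a = 0 ∧ c = 1) ∨ (a = 0 ∧ c = 2) ∨ (a = 1 ∧ c = 0) ∨ (a = 1 ∧ c = 1) := by
    omega
  · exact ⟨(1, 1), rfl⟩
  · exact ⟨(1, 2), rfl⟩
  · exact ⟨(1, 3), rfl⟩
  · exact ⟨(0, 2), rfl⟩
  · exact ⟨(0, 3), rfl⟩

/-- The rows with absorber components. -/
noncomputable def rowsG {m : ℕ} (F : E2 → R4) (Wvs : SIx n → E2 → R4) (s : Fin 2 → R4) (hm : m ≤ 2)
    (x : E2) (Λ : ℝ) : (SIx n → ℝ) →ₗ[ℝ] VIx m → ℝ :=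
  LinearMap.pi fun r =>
    match r with
    | .inl i => (LinearMap.proj (R := ℝ) (φ := fun _ : VIx m => ℝ) (.inl i)).comp
        (rowsLin F Wvs s hm x Λ)
    | .inr kb => (gRow kb).elim
        ((LinearMap.proj (R := ℝ) (φ := fun _ : VIx m => ℝ) (.inr kb)).comp
          (rowsLin F Wvs s hm x Λ))
        fun ac => ∑ k, ⟪II F x (ev 1), jd ac.1 ac.2 (Wvs k) x⟫ •
          LinearMap.proj (R := ℝ) (φ := fun _ : SIx n => ℝ) k

lemma rowsG_inl {m : ℕ} (F : E2 → R4) (Wvs : SIx n → E2 → R4) (s : Fin 2 → R4) (hm : m ≤ 2) (x : E2)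
    (Λ : ℝ) (u : SIx n → ℝ) (i : Fin 11 × Fin 11 × Fin m) :
    rowsG F Wvs s hm x Λ u (.inl i) = rowsOf F Wvs s hm x Λ u (.inl i) := rfl

lemma rowsG_inr {m : ℕ} (F : E2 → R4) (Wvs : SIx n → E2 → R4) (hW : ∀ k, ContDiff ℝ ∞ (Wvs k))
    (s : Fin 2 → R4) (hm : m ≤ 2) (x : E2) (Λ : ℝ) (u : SIx n → ℝ) (kb : Fin 2 × Fin 4) :
    rowsG F Wvs s hm x Λ u (.inr kb) = (gRow kb).elim (rowsOf F Wvs s hm x Λ u (.inr kb))
      fun ac => ⟪II F x (ev 1), jd ac.1 ac.2 (fun y => ∑ k, u k • Wvs k y) x⟫ := by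
  rw [rowsG, LinearMap.pi_apply]
  dsimp only
  cases gRow kb with
  | none => rfl
  | some ac =>
    simp only [Option.elim_some, jd_sum u hW, inner_sum, real_inner_smul_right, LinearMap.sum_apply,
      LinearMap.smul_apply, LinearMap.proj_apply, smul_eq_mul]
    exact Finset.sum_congr rfl fun k _ => mul_comm _ _

/-- The slow parameters at a point. -/
theorem slow_at (hGamma : GammaStmt) : ∃ eG : ℕ, ∀ (b : Bool) (n : ℕ) (F : E2 → R4)
    (Wvs : SIx n → E2 → R4) (r : E2 → ℝ) (χ : ℝ) (s : Fin 2 → R4) (x : E2) (T Λ M C Z : ℝ)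
    (fr : Fin 2) (i₀ : Fin n) (τ : ℕ → ℕ → R4),
    PtEnv b F r χ s x T → (∀ y, b = true → r y = 0) → (b = true → s 1 = 0) →
    (b = true → ‖II F x (ev 1)‖ ≤ T) →
    (b = true → ∀ τ, nrm F x τ = τ → ∃ a c : ℝ, τ = a • s 0 + c • II F x (ev 1)) →
    (∀ k, ContDiff ℝ ∞ (Wvs k)) → Sol (nfree b) (nfree_le b) F Wvs s x fr i₀ Λ C →
    1 ≤ C → 1 ≤ M → M ≤ Λ → 0 ≤ Z →
    (∀ u : SIx n → ℝ, PtVar F r χ (fun y => ∑ k, u k • Wvs k y) x (Z * ‖u‖)) →
    C * (T ^ eG * (C * Z)) ≤ 1 / 2 →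
    (∀ i j, i + j ≤ 3 → Slow b F x i j (τ i j) ∧ ‖τ i j‖ ≤ M ^ i) →
    ∃ u : SIx n → ℝ, (∀ k, u k ≠ 0 → (∃ r, k = .inl (fr, r)) ∨ ∃ r : Fin 2 × Fin 7, k = .inr (i₀, r)) ∧
      ‖u‖ ≤ 4 * C ^ 2 * (T ^ (eG + 2) * Λ ^ 4) ∧
      (∀ i j, i + j ≤ 3 → ∀ σ, Slow b F x i j σ →
        ⟪pdm i j (fun y => ∑ k, u k • Wvs k y) x, σ⟫ = ⟪τ i j, σ⟫) ∧
      ((∀ i j, i + j ≤ 1 → τ i j = 0) → b = false →
        (∀ a c k, a + c ≤ 1 → ⟪jd a c (fun y => ∑ i, u i • Wvs i y) x, s k⟫ = 0) ∧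
        ∀ c ≤ 2, ∀ k : Fin 2,
          jd 0 c (fun y => ⟪pd k F y, ∑ i, u i • Wvs i y⟫) x = 0) := by
  obtain ⟨eG, hG⟩ := hGamma
  refine ⟨eG, fun b n F Wvs r χ s x T Λ M C Z fr i₀ τ hE hr0 hs1 hII hspan hW hSol hC hM hΛ hZ hV
    hz hτ => ?_⟩
  obtain ⟨Φ, hΦ, hsupp, hlow⟩ := hSol
  have hT : (1 : ℝ) ≤ T := by linarith [hE.hT]
  have hΛ1 : 1 ≤ Λ := hM.trans hΛ
  have hT0 : (0 : ℝ) ≤ T := by linarith
  have hC0 : (0 : ℝ) ≤ C := by linarith
  set R' : VIx (nfree b) → ℝ := fun q =>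
    match q with
    | .inl (a, c, k) => if (a : ℕ) + c ≤ 3 then ⟪τ a c, s (Fin.castLE (nfree_le b) k)⟫ / Λ ^ (a : ℕ)
        else 0
    | .inr kb => if b then (gRow kb).elim 0 fun ac => ⟪II F x (ev 1), τ ac.1 ac.2⟫ else 0 with hR'
  have hR'b : ‖R'‖ ≤ T * Λ := by
    refine (pi_norm_le_iff_of_nonneg (by positivity)).2 fun q => ?_
    rw [Real.norm_eq_abs]
    rcases q with ⟨a, c, k⟩ | kb
    · simp only [hR']
      split_ifs with h
      · rw [abs_div, abs_of_pos (pow_pos (lt_of_lt_of_le one_pos hΛ1) _),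
          div_le_iff₀ (pow_pos (lt_of_lt_of_le one_pos hΛ1) _)]
        refine (abs_real_inner_le_norm _ _).trans ?_
        calc ‖τ a c‖ * ‖s (Fin.castLE (nfree_le b) k)‖ ≤ M ^ (a : ℕ) * T :=
              mul_le_mul (hτ a c h).2 (hE.free _).2 (norm_nonneg _) (by positivity)
          _ ≤ T * Λ * Λ ^ (a : ℕ) := by
              rw [mul_comm (M ^ (a : ℕ))]
              exact mul_le_mul (le_mul_of_one_le_right hT0 hΛ1)
                (pow_le_pow_left₀ (by linarith) hΛ _) (by positivity) (by positivity)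
      · rw [abs_zero]; positivity
    · simp only [hR']
      cases hb : b with
      | false => simp; positivity
      | true =>
        simp only [if_true]
        cases hg : gRow kb with
        | none => simp; positivity
        | some ac =>
          obtain ⟨h2, h1⟩ := gRow_bound (a := ac.1) (c := ac.2) hg
          simp only [Option.elim_some]
          refine (abs_real_inner_le_norm _ _).trans (mul_le_mul (hII hb) ?_ (norm_nonneg _) hT0)
          calc ‖τ ac.1 ac.2‖ ≤ M ^ ac.1 := (hτ _ _ (by omega)).2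
            _ ≤ M ^ 1 := pow_le_pow_right₀ hM h1
            _ ≤ Λ := by rw [pow_one]; exact hΛ
  -- the operator and its lower bound
  set K := T ^ eG * (2 * Λ ^ 3) + 1 with hK
  have hKb : K ≤ 2 * (T ^ (eG + 1) * Λ ^ 3) := by
    have h1 : 1 ≤ T ^ eG * Λ ^ 3 :=
      one_le_mul_of_one_le_of_one_le (one_le_pow₀ hT) (one_le_pow₀ hΛ1)
    rw [hK, pow_succ T eG]
    nlinarith [hE.hT]
  set Top : (SIx n → ℝ) →ₗ[ℝ] VIx (nfree b) → ℝ :=
    if b then rowsG F Wvs s (nfree_le b) x Λ else rowsLin F Wvs s (nfree_le b) x Λ with hTop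
  have hTlow : ∀ U, ‖U‖ ≤ 2 * (C * K) * ‖Top (Φ U)‖ := by
    rcases Bool.eq_false_or_eq_true b with hb | hb
    swap
    · subst hb
      intro U
      refine (hlow U).trans ?_
      simp only [hTop, Bool.false_eq_true, if_false]
      refine mul_le_mul_of_nonneg_right ?_ (norm_nonneg _)
      have : 1 ≤ K := le_add_of_nonneg_left (by positivity)
      nlinarith
    · subst hb
      simp only [hTop, if_true]
      refine lower_change Φ (rowsLin F Wvs s _ x Λ) _ (z := T ^ eG * (C * Z)) hC0 hlow (fun U => ?_) hz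
      set u := Φ U with hu
      set w : E2 → R4 := fun y => ∑ k, u k • Wvs k y with hw
      have hws : ContDiff ℝ ∞ w := ContDiff.sum fun k _ => (hW k).const_smul (u k)
      set N' := ‖rowsG F Wvs s (nfree_le true) x Λ u‖ with hN'
      set Rr := 2 * Λ ^ 3 * N' + Z * ‖u‖ with hRr
      have hRr0 : 0 ≤ Rr := by positivity
      have hN1 : N' ≤ Rr := le_add_of_le_of_nonneg
        (le_mul_of_one_le_left (norm_nonneg _) (by nlinarith [one_le_pow₀ (n := 3) hΛ1])) (by positivity)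
      have hχ : χ = 1 := by rw [hE.hχ]; rfl
      have hsm : ∀ a c, a + c ≤ 3 → ‖jd a c (Lin F w) x‖ ≤ Rr := fun a c hac => by
        have hv := hV u
        have hle : Z * ‖u‖ ≤ Rr := le_add_of_nonneg_left (by positivity)
        have e0 : (fun y => Lin F w y 0 - r y ^ 2 * Lin F w y 2) = fun y => Lin F w y 0 := by
          funext y; rw [hr0 y rfl]; ring
        have e1 : (fun y => Lin F w y 1 - r y * Lin F w y 2) = fun y => Lin F w y 1 := by
          funext y; rw [hr0 y rfl]; ring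
        refine (pi_norm_le_iff_of_nonneg hRr0).2 fun i => ?_
        rw [Point.jd_Lin_apply hE.hF hws]
        refine le_trans ?_ hle
        fin_cases i
        · have := hv.small0 a c (by omega); rw [e0] at this; exact this
        · have := hv.small1 a c (by omega); rw [e1] at this; exact this
        · have := hv.small2 a c (by omega); rw [hχ, abs_one, one_mul] at this; exact this
      have hdata : AData 3 F w (fun v => |⟪s 0, v⟫| + |⟪s 1, v⟫|) (II F x (ev 1)) x T Rr :=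
        ⟨hE.hF, hws, hE.hT, hRr0, fun a c h => hE.bF a c (by omega),
          fun v => by simpa [hχ] using hE.frame v, hE.absorber rfl, hsm⟩
      obtain ⟨einl, einr⟩ := rowsOf_eq hE.hF hW s (nfree_le true) x Λ u
      have hrow : ∀ q, |rowsG F Wvs s (nfree_le true) x Λ u q| ≤ N' := fun q => by
        rw [← Real.norm_eq_abs]; exact norm_le_pi_norm _ q
      have hkeep : ∀ kb, gRow kb = none →
          |rowsOf F Wvs s (nfree_le true) x Λ u (.inr kb)| ≤ N' := fun kb h => by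
        have := hrow (.inr kb)
        rw [rowsG_inr F Wvs hW, h] at this
        exact this
      have hgam := hG F w (fun v => |⟪s 0, v⟫| + |⟪s 1, v⟫|) (II F x (ev 1)) x T Rr hdata
        (fun a c hac => ?_) ?_ ?_ ?_ (fun a c hac ha => ?_)
      · have hR2 : T ^ eG * Rr + N' ≤ K * N' + T ^ eG * (C * Z) * ‖U‖ := by
          have h3 : Z * ‖u‖ ≤ C * Z * ‖U‖ :=
            (mul_le_mul_of_nonneg_left (hΦ U) hZ).trans_eq (by ring)
          have h4 := mul_le_mul_of_nonneg_left h3 (pow_nonneg hT0 eG)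
          rw [hRr, hK]
          nlinarith
        refine ((pi_norm_le_iff_of_nonneg (by positivity)).2 fun q => ?_).trans hR2
        rw [Real.norm_eq_abs]
        rcases q with i | ⟨k, c⟩
        · refine (le_of_eq ?_).trans ((hrow (.inl i)).trans (le_add_of_nonneg_left (by positivity)))
          rfl
        · rw [show rowsLin F Wvs s (nfree_le true) x Λ u (.inr (k, c)) =
            rowsOf F Wvs s (nfree_le true) x Λ u (.inr (k, c)) from rfl, einr k c]
          exact (hgam c (by omega) k).trans (le_add_of_nonneg_right (norm_nonneg _))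
      · -- free jets
        have h1 : |⟪s 0, jd a c w x⟫| ≤ 2 * Λ ^ 3 * N' := by
          have h := hrow (.inl (⟨a, by omega⟩, ⟨c, by omega⟩, ⟨0, by simp [nfree]⟩))
          rw [rowsG_inl, einl, abs_div, abs_of_pos (pow_pos (lt_of_lt_of_le one_pos hΛ1) _),
            div_le_iff₀ (pow_pos (lt_of_lt_of_le one_pos hΛ1) _)] at h
          rw [real_inner_comm]
          refine h.trans ?_
          rw [mul_comm N']
          refine mul_le_mul_of_nonneg_right ?_ (norm_nonneg _)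
          have := pow_le_pow_right₀ hΛ1 (show a ≤ 3 by omega)
          have := pow_nonneg (zero_le_one.trans hΛ1) 3
          show Λ ^ a ≤ _
          linarith
        have h2 : |⟪s 1, jd a c w x⟫| = 0 := by rw [hs1 rfl]; simp
        show |⟪s 0, jd a c w x⟫| + |⟪s 1, jd a c w x⟫| ≤ Rr
        rw [h2, add_zero]
        exact h1.trans (le_add_of_nonneg_right (by positivity))
      · refine le_trans (le_of_eq ?_) ((hkeep (0, 0) rfl).trans hN1)
        rw [einr]; rfl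
      · refine le_trans (le_of_eq ?_) ((hkeep (1, 0) rfl).trans hN1)
        rw [einr]; rfl
      · refine le_trans (le_of_eq ?_) ((hkeep (0, 1) rfl).trans hN1)
        rw [einr]; rfl
      · obtain ⟨kb, hkb⟩ := gRow_surj hac ha
        have := hrow (.inr kb)
        rw [rowsG_inr F Wvs hW, hkb] at this
        exact this.trans hN1
  obtain ⟨U, hU, hUb, hub⟩ := solve_lin Φ Top hC0 hΦ hTlow R'
  set u := Φ U with hu
  set w : E2 → R4 := fun y => ∑ k, u k • Wvs k y with hw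
  obtain ⟨einl, einr⟩ := rowsOf_eq hE.hF hW s (nfree_le b) x Λ u
  have hpos : ∀ a : ℕ, (Λ : ℝ) ^ a ≠ 0 := fun a => pow_ne_zero _ (by linarith)
  -- the free rows
  have hfree : ∀ (a c : ℕ) (k : Fin (nfree b)), a + c ≤ 3 →
      ⟪jd a c w x, s (Fin.castLE (nfree_le b) k)⟫ = ⟪τ a c, s (Fin.castLE (nfree_le b) k)⟫ := by
    intro a c k hac
    have e : rowsOf F Wvs s (nfree_le b) x Λ u (.inl (⟨a, by omega⟩, ⟨c, by omega⟩, k)) =
        R' (.inl (⟨a, by omega⟩, ⟨c, by omega⟩, k)) := by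
      rw [← hU]; cases b <;> rfl
    rw [einl] at e
    simp only [hR', hac, if_true] at e
    exact (div_left_inj' (hpos a)).1 e
  have hs : ∀ (a c : ℕ) (k : Fin 2), a + c ≤ 3 → ⟪jd a c w x, s k⟫ = ⟪τ a c, s k⟫ := by
    intro a c k hac
    by_cases hk : (k : ℕ) < nfree b
    · simpa using hfree a c ⟨k, hk⟩ hac
    · cases b
      · simp [nfree] at hk; omega
      · have : k = 1 := by
          have := k.isLt; simp [nfree] at hk; exact Fin.ext (by simp; omega)
        rw [this, hs1 rfl]; simp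
  refine ⟨u, hsupp U, hub.trans ?_, fun i j hij σ hσ => ?_, fun h0 hb => ?_⟩
  · calc C * (2 * (C * K) * ‖R'‖) ≤ C * (2 * (C * (2 * (T ^ (eG + 1) * Λ ^ 3))) * (T * Λ)) := by
          have hK0 : 0 ≤ K := by positivity
          gcongr
      _ = 4 * C ^ 2 * (T ^ (eG + 2) * Λ ^ 4) := by ring
  · show ⟪jd i j w x, σ⟫ = _
    rcases Bool.eq_false_or_eq_true b with hb | hb
    swap
    · subst hb
      obtain ⟨α, β, rfl, -, -⟩ := hE.span σ ⟨hσ.1, fun h => (Bool.false_ne_true h).elim⟩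
      simp [inner_add_right, real_inner_smul_right, hs i j _ hij]
    · subst hb
      by_cases hfr : ⟪σ, II F x (ev 1)⟫ = 0
      · obtain ⟨α, β, rfl, -, -⟩ := hE.span σ ⟨hσ.1, fun _ => hfr⟩
        simp [inner_add_right, real_inner_smul_right, hs i j _ hij]
      obtain ⟨h2, h1⟩ := (hσ.2 rfl).resolve_right hfr
      obtain ⟨kb, hkb⟩ := gRow_surj h2 h1
      have e := congrFun hU (.inr kb)
      simp only [hTop, if_true, hR', rowsG_inr F Wvs hW, hkb, Option.elim_some] at e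
      obtain ⟨α, β, rfl⟩ := hspan rfl σ hσ.1
      simp only [inner_add_right, real_inner_smul_right, hs i j _ hij]
      rw [real_inner_comm (II F x (ev 1)) (jd i j w x), real_inner_comm (II F x (ev 1)) (τ i j), ← e]
  · subst hb
    refine ⟨fun a c k hac => ?_, fun c hc k => ?_⟩
    · rw [hs a c k (by omega), h0 a c hac, inner_zero_left]
    · have e := congrFun hU (.inr (k, ⟨c, by omega⟩))
      simp only [hTop, hR', Bool.false_eq_true, if_false] at e
      rw [show rowsLin F Wvs s (nfree_le false) x Λ u (.inr (k, ⟨c, by omega⟩)) =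
        rowsOf F Wvs s (nfree_le false) x Λ u (.inr (k, ⟨c, by omega⟩)) from rfl, einr] at e
      exact e

/-- One free top jet at a point. -/
theorem fine_at : ∀ (b : Bool) (n : ℕ) (F : E2 → R4) (Wvs : SIx n → E2 → R4) (r : E2 → ℝ) (χ : ℝ)
    (s : Fin 2 → R4) (x : E2) (T Λ C Ts : ℝ) (fr : Fin 2) (i₀ : Fin n) (N i : ℕ) (τ : R4),
    PtEnv b F r χ s x T → (b = true → s 1 = 0) → (∀ k, ‖s k‖ ≤ Ts) →
    (∀ k, ContDiff ℝ ∞ (Wvs k)) → Sol (nfree b) (nfree_le b) F Wvs s x fr i₀ Λ C →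
    0 ≤ C → 1 ≤ Λ → 0 ≤ Ts → N ≤ 10 → i ≤ N → ‖τ‖ ≤ 1 →
    ∃ u : SIx n → ℝ, (∀ k, u k ≠ 0 → (∃ r, k = .inl (fr, r)) ∨ ∃ r : Fin 2 × Fin 7, k = .inr (i₀, r)) ∧
      ‖u‖ ≤ C * (C * (Ts / Λ ^ i)) ∧
      ∀ a c k, a + c ≤ 10 → ⟪jd a c (fun y => ∑ j, u j • Wvs j y) x, s k⟫ =
        if a = i ∧ c = N - i then ⟪τ, s k⟫ else 0 := by
  intro b n F Wvs r χ s x T Λ C Ts fr i₀ N i τ hE hs1 hTs hW hSol hC hΛ hTs0 hN hi hτ
  obtain ⟨Φ, hΦ, hsupp, hlow⟩ := hSol
  have hpos : ∀ a : ℕ, (0 : ℝ) < Λ ^ a := fun a => pow_pos (by linarith) _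
  set R : VIx (nfree b) → ℝ := fun q =>
    match q with
    | .inl (a, c, k) => if (a : ℕ) = i ∧ (c : ℕ) = N - i then
        ⟪τ, s (Fin.castLE (nfree_le b) k)⟫ / Λ ^ i else 0
    | .inr _ => 0 with hR
  have hRb : ‖R‖ ≤ Ts / Λ ^ i := by
    refine (pi_norm_le_iff_of_nonneg (by positivity)).2 fun q => ?_
    rw [Real.norm_eq_abs]
    rcases q with ⟨a, c, k⟩ | kb <;> simp only [hR]
    · split_ifs
      · rw [abs_div, abs_of_pos (hpos i)]
        refine div_le_div_of_nonneg_right ?_ (hpos i).le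
        exact (abs_real_inner_le_norm _ _).trans
          ((mul_le_of_le_one_left (norm_nonneg _) hτ).trans (hTs _))
      · rw [abs_zero]; positivity
    · rw [abs_zero]; positivity
  obtain ⟨U, hU, -, hub⟩ := solve_lin Φ (rowsLin F Wvs s (nfree_le b) x Λ) hC hΦ hlow R
  obtain ⟨einl, -⟩ := rowsOf_eq hE.hF hW s (nfree_le b) x Λ (Φ U)
  refine ⟨Φ U, hsupp U, hub.trans (by gcongr), fun a c k hac => ?_⟩
  by_cases hk : (k : ℕ) < nfree b
  · have e : rowsOf F Wvs s (nfree_le b) x Λ (Φ U) (.inl (⟨a, by omega⟩, ⟨c, by omega⟩, ⟨k, hk⟩)) =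
        R (.inl (⟨a, by omega⟩, ⟨c, by omega⟩, ⟨k, hk⟩)) :=
      congrFun hU (.inl (⟨a, by omega⟩, ⟨c, by omega⟩, ⟨k, hk⟩))
    rw [einl] at e
    simp only [hR] at e
    rw [show Fin.castLE (nfree_le b) ⟨(k : ℕ), hk⟩ = k from Fin.ext rfl] at e
    split_ifs at e ⊢ with h
    · rw [h.1] at e ⊢
      exact (div_left_inj' (hpos i).ne').1 e
    · exact (div_eq_zero_iff.1 e).resolve_right (hpos a).ne'
  · cases b
    · simp [nfree] at hk; omega
    · have : k = 1 := by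
        have := k.isLt; simp [nfree] at hk; exact Fin.ext (by simp; omega)
      rw [this, hs1 rfl]; simp

end Vale.Agent.P205F.Expand
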