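import Vale.Agent.P205F.Expand.Prolong
import Vale.Agent.P205F.Expand.Alg

/-!
# P205, expansions: specification of the module of slow homogeneous fields

`Y0 B D α β` is the slow field with tangential components `α, β` in the span of `X0, X1, V`; when no
error along `ν` is allowed its third component makes the `yy` equation exact. Finitely many exact
solutions of the reduced linearised base are close to such fields along lines `x = const`.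
-/

namespace Vale.Agent.P205F.Expand

open scoped ContDiff RealInnerProductSpace Topology

/-- Fields dual to `X0, X1, V`. -/
structure Dual (B : Base) where
  /-- dual of `X0` -/
  D0 : E2 → R4
  /-- dual of `X1` -/
  D1 : E2 → R4
  /-- dual of `V` -/
  DV : E2 → R4
  smooth0 : ContDiff ℝ ∞ D0
  smooth1 : ContDiff ℝ ∞ D1
  smoothV : ContDiff ℝ ∞ DV
  eq0 : ∀ x ∈ B.N, ⟪B.X0 x, D0 x⟫ = 1 ∧ ⟪B.X1 x, D0 x⟫ = 0 ∧ ⟪B.V x, D0 x⟫ = 0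
  eq1 : ∀ x ∈ B.N, ⟪B.X0 x, D1 x⟫ = 0 ∧ ⟪B.X1 x, D1 x⟫ = 1 ∧ ⟪B.V x, D1 x⟫ = 0
  eqV : ∀ x ∈ B.N, ⟪B.X0 x, DV x⟫ = 0 ∧ ⟪B.X1 x, DV x⟫ = 0 ∧ ⟪B.V x, DV x⟫ = 1

/-- The model slow field. -/
noncomputable def Y0 (B : Base) (D : Dual B) (α β : E2 → ℝ) : E2 → R4 := fun x =>
  α x • D.D0 x + β x • D.D1 x +
    (B.χ * (pd 1 β x - ⟪pd 1 B.X1 x, B.X1 x⟫ / ⟪B.X1 x, B.X1 x⟫ * β x)) • D.DV x

/-- The data `(y^j, 0)` and `(0, y^j)`. -/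
def slowData (comp : Fin 2) (j : ℕ) : (E2 → ℝ) × (E2 → ℝ) :=
  if comp = 0 then (fun x => x 1 ^ j, fun _ => 0) else (fun _ => 0, fun x => x 1 ^ j)

/-- THE MODULE OF SLOW FIELDS. -/
def SlowFieldsStmt : Prop :=
  ∀ (B : Base) (D : Dual B) (K : Set E2), IsCompact K → K ⊆ interior B.S →
    (∀ x ∈ B.N, ⟪B.X1 x, B.V x⟫ = 0 ∧ 0 < ⟪B.X1 x, B.X1 x⟫) →
    ∀ η : ℝ, 0 < η → ∃ (n : ℕ) (Y : Fin n → Fin 2 → Fin 7 → E2 → R4),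
      (∀ i c j, ContDiff ℝ ∞ (Y i c j) ∧ (∀ x ∉ B.S, Y i c j x = 0) ∧ ∀ x,
        2 * ⟪B.X0 x, pd 0 (Y i c j) x⟫ -
          B.r x ^ 2 * (2 * ⟪B.X1 x, pd 1 (Y i c j) x⟫) = 0 ∧
        ⟪B.X0 x, pd 1 (Y i c j) x⟫ + ⟪B.X1 x, pd 0 (Y i c j) x⟫ -
          B.r x * (2 * ⟪B.X1 x, pd 1 (Y i c j) x⟫) = 0 ∧
        B.χ * ⟪B.X1 x, pd 1 (Y i c j) x⟫ = 0) ∧
      ∀ x ∈ K, ∃ i, ∀ (c : Fin 2) (j : Fin 7) (b : ℕ), b ≤ 6 →
        ‖jd 0 b (fun y => Y i c j y - Y0 B D (slowData c j).1 (slowData c j).2 y) x‖ ≤ η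

end Vale.Agent.P205F.Expand
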