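import Vale.Agent.P205F.Expand.FamParts
import Vale.Agent.P205F.Expand.Linalg

/-!
# P205, expansions: parameters from prescribed rows

A parameter vector is read from coefficients of the normalised variations; the rows are linear in
them and, composed with the map of the rows module, square with a lower bound, hence solvable.
-/

namespace Vale.Agent.P205F.Expand

open scoped ContDiff RealInnerProductSpace Topology
open Filter Set

section Jets

variable {X : Type} [NormedAddCommGroup X] [NormedSpace ℝ X]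

lemma jd_zero_fun (a b : ℕ) : jd a b (fun _ : E2 => (0 : X)) = fun _ => (0 : X) := by
  have h : ∀ (i : Fin 2) (n : ℕ), (pd i)^[n] (fun _ : E2 => (0 : X)) = fun _ => (0 : X) := fun i n => by
    induction n with
    | zero => rfl
    | succ n ih => rw [Function.iterate_succ_apply', ih]; funext y; simp [pd]
  rw [jd, h, h]

lemma jd_sum {ι : Type} [Fintype ι] (c : ι → ℝ) {g : ι → E2 → X} (h : ∀ i, ContDiff ℝ ∞ (g i))
    (a b : ℕ) (x : E2) : jd a b (fun y => ∑ i, c i • g i y) x = ∑ i, c i • jd a b (g i) x := by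
  classical
  induction (Finset.univ : Finset ι) using Finset.induction_on with
  | empty => simp [jd_zero_fun]
  | insert j s hj ih =>
    simp only [Finset.sum_insert hj]
    rw [show (fun y => c j • g j y + ∑ i ∈ s, c i • g i y) =
        (c j • g j) + fun y => ∑ i ∈ s, c i • g i y from rfl,
      jd_add (g := c j • g j) ((h j).const_smul (c j))
        (ContDiff.sum fun i _ => (h i).const_smul (c i)),
      Pi.add_apply, jd_smul (h j), Pi.smul_apply, ih]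

end Jets

variable {n : ℕ}

/-- Parameters from coefficients of the normalised variations. -/
noncomputable def vOf (W : Wts (dN n)) (p : Ix) (u : SIx n → ℝ) : Fin (dN n) → ℝ :=
  fun k => (eps p * (eps p ^ W.Q * W.amp p k))⁻¹ * u ((eS n).symm k)

lemma dlam_comb {f : E2 → R4} {G : Fm (dN n) R4} (hG : ∀ p, Js (G p)) (W : Wts (dN n)) {p : Ix}
    (hp : Adm p) (l : Fin (dN n) → ℝ) (u : SIx n → ℝ) :
    dlam (famF f G p) l (vOf W p u) = fun y => ∑ sx, u sx • Wv W G p l sx y := by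
  rw [dlam_famF hG]
  funext y
  have hε : eps p ≠ 0 := inv_ne_zero hp.M_pos.ne'
  simp only [rl, dirF, Finset.smul_sum, smul_smul]
  refine ((eS n).sum_comp _).symm.trans (Finset.sum_congr rfl fun sx _ => ?_)
  simp only [vOf, Wv, Equiv.symm_apply_apply, Pi.smul_apply, rl, smul_smul]
  congr 1
  field_simp

lemma Wv_smooth {G : Fm (dN n) R4} (hG : ∀ p, Js (G p)) (W : Wts (dN n)) (p : Ix)
    (l : Fin (dN n) → ℝ) (sx : SIx n) : ContDiff ℝ ∞ (Wv W G p l sx) :=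
  (rl_smooth (Φ := dk (eS n sx) G) (fun q => (hG q).dir (pv _)) p l).const_smul
    ((eps p ^ W.Q * W.amp p (eS n sx))⁻¹)

lemma vOf_bound {κ Q th : ℕ} {hth : 14 ≤ th} {p : Ix} (hp : Adm p) (fr : Fin 2) (i₀ : Fin n)
    {u : SIx n → ℝ}
    (hu : ∀ k, u k ≠ 0 → (∃ r, k = .inl (fr, r)) ∨ ∃ r : Fin 2 × Fin 7, k = .inr (i₀, r)) :
    ‖vOf (mkW n κ Q th hth) p u‖ ≤ (p.M : ℝ) ^ (Q + 1) * (LL κ fr p : ℝ) ^ (th + 1) * ‖u‖ := by
  have hL : (1 : ℝ) ≤ LL κ fr p := Nat.one_le_cast.2 (LL_freq κ fr p hp)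
  have h0 : 0 ≤ (p.M : ℝ) ^ (Q + 1) * (LL κ fr p : ℝ) ^ (th + 1) * ‖u‖ := by positivity
  refine (pi_norm_le_iff_of_nonneg h0).2 fun k => ?_
  obtain ⟨sx, rfl⟩ := (eS n).surjective k
  simp only [vOf, Equiv.symm_apply_apply]
  rcases eq_or_ne (u sx) 0 with h | h
  · rw [h, mul_zero, norm_zero]; exact h0
  have e : (eps p * (eps p ^ Q))⁻¹ = (p.M : ℝ) ^ (Q + 1) := by
    rw [← pow_succ', eps, inv_pow, inv_inv]
  rw [norm_mul]
  refine mul_le_mul ?_ (norm_le_pi_norm u sx) (norm_nonneg _) (by positivity)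
  show ‖(eps p * (eps p ^ Q * ampOf n κ th p ((eS n).symm (eS n sx))))⁻¹‖ ≤ _
  rw [Equiv.symm_apply_apply, ← mul_assoc, mul_inv, e]
  rcases hu sx h with ⟨r, rfl⟩ | ⟨r, rfl⟩
  · simp only [ampOf, inv_inv]
    rw [Real.norm_eq_abs, abs_of_nonneg (by positivity)]
  · simp only [ampOf, inv_one, mul_one]
    rw [Real.norm_eq_abs, abs_of_nonneg (by positivity)]
    exact le_mul_of_one_le_right (by positivity) (one_le_pow₀ hL)

/-- The rows as a linear map. -/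
noncomputable def rowsLin {m : ℕ} (F : E2 → R4) (Wvs : SIx n → E2 → R4) (s : Fin 2 → R4)
    (hm : m ≤ 2) (x : E2) (Λ : ℝ) : (SIx n → ℝ) →ₗ[ℝ] VIx m → ℝ where
  toFun := rowsOf F Wvs s hm x Λ
  map_add' u u' := by
    funext r
    rcases r with ⟨a, b, c⟩ | ⟨k, b⟩ <;>
      simp [rowsOf, add_smul, Finset.sum_add_distrib, inner_add_left, add_div, add_mul]
  map_smul' c u := by
    funext r
    rcases r with ⟨a, b, c'⟩ | ⟨k, b⟩
    · simp only [rowsOf, Pi.smul_apply, RingHom.id_apply, smul_eq_mul, ← smul_smul, ← Finset.smul_sum,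
        real_inner_smul_left, mul_div_assoc]
    · simp only [rowsOf, Pi.smul_apply, RingHom.id_apply, smul_eq_mul, mul_assoc, Finset.mul_sum]

/-- The rows of a combination. -/
lemma rowsOf_eq {m : ℕ} {F : E2 → R4} (hF : ContDiff ℝ ∞ F) {Wvs : SIx n → E2 → R4}
    (hW : ∀ k, ContDiff ℝ ∞ (Wvs k)) (s : Fin 2 → R4) (hm : m ≤ 2) (x : E2) (Λ : ℝ) (u : SIx n → ℝ) :
    (∀ (a b : Fin 11) (c : Fin m), rowsOf F Wvs s hm x Λ u (.inl (a, b, c)) =
      ⟪jd a b (fun y => ∑ k, u k • Wvs k y) x, s (Fin.castLE hm c)⟫ / Λ ^ (a : ℕ)) ∧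
    ∀ (k : Fin 2) (b : Fin 4), rowsOf F Wvs s hm x Λ u (.inr (k, b)) =
      jd 0 b (fun y => ⟪pd k F y, ∑ i, u i • Wvs i y⟫) x := by
  refine ⟨fun a b c => ?_, fun k b => ?_⟩
  · rw [rowsOf, jd_sum u hW]
  · simp only [inner_sum, real_inner_smul_right]
    rw [rowsOf]
    have h := jd_sum u (g := fun i y => ⟪pd k F y, Wvs i y⟫)
      (fun i => (smooth_pd hF k).inner ℝ (hW i)) 0 b x
    simp only [smul_eq_mul] at h
    exact h.symm

/-- Solvability of rows. -/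
theorem solve_lin {ι α : Type} [Fintype ι] [Fintype α] (Φ : (ι → ℝ) →ₗ[ℝ] α → ℝ)
    (T : (α → ℝ) →ₗ[ℝ] ι → ℝ) {C D : ℝ} (hC : 0 ≤ C) (hΦ : ∀ U, ‖Φ U‖ ≤ C * ‖U‖)
    (hT : ∀ U, ‖U‖ ≤ D * ‖T (Φ U)‖) (R : ι → ℝ) :
    ∃ U, T (Φ U) = R ∧ ‖U‖ ≤ D * ‖R‖ ∧ ‖Φ U‖ ≤ C * (D * ‖R‖) := by
  obtain ⟨U, hU, hb⟩ := solve_square (T.comp Φ) hT R
  exact ⟨U, hU, hb, (hΦ U).trans (mul_le_mul_of_nonneg_left hb hC)⟩

/-- A lower bound survives a change of the rows. -/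
theorem lower_change {ι α : Type} [Fintype ι] [Fintype α] (Φ : (ι → ℝ) →ₗ[ℝ] α → ℝ)
    (T T' : (α → ℝ) →ₗ[ℝ] ι → ℝ) {C K z : ℝ} (hC : 0 ≤ C) (hT : ∀ U, ‖U‖ ≤ C * ‖T (Φ U)‖)
    (h : ∀ U, ‖T (Φ U)‖ ≤ K * ‖T' (Φ U)‖ + z * ‖U‖) (hz : C * z ≤ 1 / 2) (U : ι → ℝ) :
    ‖U‖ ≤ 2 * (C * K) * ‖T' (Φ U)‖ := by
  have h1 := (hT U).trans (mul_le_mul_of_nonneg_left (h U) hC)
  have h2 : C * z * ‖U‖ ≤ 1 / 2 * ‖U‖ := mul_le_mul_of_nonneg_right hz (norm_nonneg _)
  nlinarith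

end Vale.Agent.P205F.Expand
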