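import Vale.Agent.P205F.Expand.Alg

/-!
# P205, expansions: one step of the iteration

A step removes, at one level, the means of the reduced errors (by the inverse of the linearised
base), then the oscillating parts of `r0, r1`, then the oscillating part of `r2`.
-/

namespace Vale.Agent.P205F.Expand

open scoped ContDiff RealInnerProductSpace Topology
open Filter Set

variable {d : ℕ} {W : Wts d} {i j : ℕ} {B : Base}
variable {X Y : Type} [NormedAddCommGroup X] [NormedSpace ℝ X] [NormedAddCommGroup Y]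
  [NormedSpace ℝ Y]

/-! ### Small tools -/

lemma Up.csmul {Φ : Fm d X} (h : Up W j Φ) (c : ℝ) : Up W j fun p z t => c • Φ p z t :=
  h.clm (c • ContinuousLinearMap.id ℝ X)

lemma Low.csmul {Φ : Fm d X} (h : Low W j Φ) (c : ℝ) : Low W j fun p z t => c • Φ p z t :=
  h.clm (c • ContinuousLinearMap.id ℝ X)

lemma pd_slice {Φ : Fm d X} (h : ∀ p, Js (Φ p)) (p : Ix) (l : Fin d → ℝ) (x : E2) (t : ℝ)
    (k : Fin 2) : pd k (fun y => Φ p (l, y) t) x = dx (ev k) Φ p (l, x) t := by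
  have h2 := (((h p).slow t).differentiable (by norm_num) (l, x)).hasFDerivAt.comp
    (f := fun y : E2 => (l, y)) x (hasFDerivAt_prodMk_right l x)
  rw [pd, show (fun y => Φ p (l, y) t) = (fun z => Φ p z t) ∘ fun y : E2 => (l, y) from rfl,
    h2.fderiv]
  rfl

variable [CompleteSpace X]

omit [NormedAddCommGroup Y] [NormedSpace ℝ Y] [CompleteSpace X] in
lemma prim_congr {Z : Type} {Φ Ψ : Z → ℝ → X} {z : Z} (h : Φ z = Ψ z) (t : ℝ) :
    prim Φ z t = prim Ψ z t := by
  simp [Expand.prim, int0, Expand.mean, h]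

lemma prim_clm [CompleteSpace Y] {Φ : Zv d → ℝ → X} (h : Js Φ) (L : X →L[ℝ] Y) (z : Zv d)
    (t : ℝ) : prim (fun z t => L (Φ z t)) z t = L (prim Φ z t) := by
  have e : int0 (fun z t => L (Φ z t)) = fun z t => L (int0 Φ z t) := by
    funext y s
    exact L.intervalIntegral_comp_comm ((h.fast y).continuous.intervalIntegrable 0 s)
  simp only [Expand.prim, e, map_sub]
  rw [mean_clm (int0_js h) L z]

lemma meanF_add {Φ Φ' : Fm d X} (h : ∀ p, Js (Φ p)) (h' : ∀ p, Js (Φ' p)) :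
    meanF (Φ + Φ') = meanF Φ + meanF Φ' := by
  funext p z t
  exact congrFun (mean_add (h p) (h' p)) z

omit [CompleteSpace X] in
lemma meanF_oscF [CompleteSpace X] {Φ : Fm d X} (h : ∀ p, Js (Φ p)) :
    meanF (oscF Φ) = 0 := by
  funext p z t; exact mean_oscF h p z

omit [CompleteSpace X] in
lemma meanF_meanF [CompleteSpace X] (Φ : Fm d X) : meanF (meanF Φ) = meanF Φ := by
  funext p z t; exact mean_meanF p z

/-- The mean of a fast derivative paired with a slow field vanishes. -/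
lemma meanF_ip_dt {G w : Fm d R4} (hG : ∀ p, Js (G p)) (hp : ∀ p, Per (G p))
    (hw : ∀ p z t, w p z t = w p z 0) : meanF (ip (dtF G) w) = 0 := by
  funext p z t
  show Expand.mean (ip (dtF G) w p) z = 0
  have e : ip (dtF G) w p z = fun s => (ipL.flip (w p z 0)) (dtF G p z s) := by
    funext s; rw [ip_apply, hw p z s]; rfl
  have : Expand.mean (ip (dtF G) w p) z =
      Expand.mean (fun y s => (ipL.flip (w p z 0)) (dtF G p y s)) z := by
    simp only [Expand.mean, e]
  rw [this, mean_clm (Φ := dtF G p) ((hG p).dt) _ z]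
  exact (congrArg _ (mean_dt (hG p) (hp p) z)).trans (map_zero _)

/-- The coefficient `ν₀/ν₁`. -/
def rF (d : ℕ) (B : Base) : Fm d ℝ := cf d fun x _ => B.r x

lemma Base.χ_r (B : Base) (x : E2) : B.χ * B.r x = 0 := by
  rcases B.χ_or with h | ⟨-, h⟩ <;> simp [h]

lemma Base.χ_mul_r2 (B : Base) (G : Fm d R4) (p : Ix) (z : Zv d) (t : ℝ) :
    B.χ * r2 B G p z t = r2 B G p z t := by
  rcases B.χ_or with h | ⟨h, -⟩ <;> simp [r2, h]

lemma Base.χ_mul_mean_r2 (B : Base) (G : Fm d R4) (p : Ix) (z : Zv d) (t : ℝ) :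
    B.χ * meanF (r2 B G) p z t = meanF (r2 B G) p z t := by
  rcases B.χ_or with h | ⟨h, -⟩ <;> simp [meanF, Expand.mean, r2, h]

lemma Base.r_mul_mean_r2 (B : Base) (G : Fm d R4) (p : Ix) (z : Zv d) (t : ℝ) :
    B.r z.2 * meanF (r2 B G) p z t = 0 := by
  rcases B.χ_or with h | ⟨-, h⟩ <;> simp [meanF, Expand.mean, r2, h]

/-! ### The state -/

/-- The state of the iteration: levels of the reduced errors, of the oscillation of `r2` and of
the means. -/
structure St (B : Base) (W : Wts d) (j k n m : ℕ) (G : Fm d R4) : Prop where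
  up : Up W 0 G
  g : Low W 1 (dtF G - gF d B)
  off : Off B.S G
  l0 : Low W j (r0 B G)
  l1 : Low W j (r1 B G)
  u2 : Up W k (r2 B G)
  o2 : Up W n (oscF (r2 B G))
  m0 : Up W m (meanF (r0 B G))
  m1 : Up W m (meanF (r1 B G))
  m2 : Up W m (meanF (r2 B G))

/-! ### The means -/

/-- `-(mean r0, mean r1, mean r2)`. -/
noncomputable def meanRhs (B : Base) (G : Fm d R4) : Fm d S3 := -(
  (fun p z t => ContinuousLinearMap.single ℝ (fun _ : Fin 3 => ℝ) 0 (meanF (r0 B G) p z t)) +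
  (fun p z t => ContinuousLinearMap.single ℝ (fun _ : Fin 3 => ℝ) 1 (meanF (r1 B G) p z t)) +
  fun p z t => ContinuousLinearMap.single ℝ (fun _ : Fin 3 => ℝ) 2 (meanF (r2 B G) p z t))

theorem step_mean {k n : ℕ} {G : Fm d R4} (h : St B W j k n (i + 1) G) (hji : j ≤ i + 1)
    (hn : j + 1 ≤ n) (hQ : W.Q ≤ i) :
    ∃ G', St B W j (j + 1) (j + 1) (j + 1) G' ∧ Up W i (G' - G) ∧ dtF (G' - G) = 0 ∧
      G' - G = fun p z t => (p.M : ℝ) • B.R.fam (meanRhs B G) p z t := by
  set q := meanRhs B G with hq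
  have hqU : Up W (i + 1) q := (((h.m0.clm _).add (h.m1.clm _)).add (h.m2.clm _)).neg
  set w := B.R.fam q with hwd
  have hw : Up W (i + 1) w := hqU.sop B.R
  set D : Fm d R4 := fun p z t => (p.M : ℝ) • w p z t with hD
  have hDU : Up W i D := hw.M_smul hQ
  have hD0 : dtF D = 0 := by
    funext p z t; exact deriv_const t ((p.M : ℝ) • w p z 0)
  have hqo : Off B.S q := fun p z t hz => by
    simp [hq, meanRhs, h.off.r0.mean p z t hz, h.off.r1.mean p z t hz, h.off.r2.mean p z t hz]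
  have hwo : Off B.S w := fun p z t hz => SOp.app_eq_zero _ (by
    filter_upwards [B.S_closed.isOpen_compl.mem_nhds hz] with y hy using hqo p (z.1, y) t hy)
  have hDo : Off B.S D := hwo.smul fun p _ _ => (p.M : ℝ)
  have hk0 : h0 D = dx (ev 0) w := by
    rw [h0, hD0, zero_add]
    funext p z t
    simp only [dx, hD]
    rw [show (fun z t => (p.M : ℝ) • w p z t) =
        fun z t => ((p.M : ℝ) • ContinuousLinearMap.id ℝ R4) (w p z t) from rfl, (hw.val.js p).dir_clm]
    simp [smul_smul, eps, p.M_ne]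
  have hk1 : h1 D = dx (ev 1) w := by
    funext p z t
    simp only [h1, dx, hD]
    rw [show (fun z t => (p.M : ℝ) • w p z t) =
        fun z t => ((p.M : ℝ) • ContinuousLinearMap.id ℝ R4) (w p z t) from rfl, (hw.val.js p).dir_clm]
    simp [smul_smul, eps, p.M_ne]
  have hlin : ∀ p z t, 2 * ⟪B.X0 z.2, h0 D p z t⟫ = -meanF (r0 B G) p z t ∧
      ⟪B.X0 z.2, h1 D p z t⟫ + ⟪B.X1 z.2, h0 D p z t⟫ = -meanF (r1 B G) p z t ∧
      2 * ⟪B.X1 z.2, h1 D p z t⟫ = -meanF (r2 B G) p z t := by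
    intro p z t
    have hs : ContDiff ℝ ∞ fun y => q p (z.1, y) t :=
      ((hqU.val.js p).slow t).comp (contDiff_const.prodMk contDiff_id)
    have e := B.rop _ hs (fun y hy => hqo p (z.1, y) t hy) z.2
    have es : ∀ k, pd k (B.R.app fun y => q p (z.1, y) t) z.2 = dx (ev k) w p z t := fun k =>
      pd_slice hw.val.js p z.1 z.2 t k
    rw [es, es] at e
    rw [hk0, hk1]
    refine ⟨?_, ?_, ?_⟩
    · simpa [hq, meanRhs] using congrFun e 0
    · simpa [hq, meanRhs] using congrFun e 1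
    · simpa [hq, meanRhs] using congrFun e 2
  set wx := dx (ev 0) w
  set wy := dx (ev 1) w
  set B2 : Fm d ℝ := ip (h1 G) wy + ip (h1 G) wy + ip wy wy with hB2
  set gx : Fm d R4 := fun p z t => eps p • dx (ev 0) G p z t with hgx
  set F0 : Fm d ℝ := ip gx wx + ip gx wx + ip wx wx - sm (sm (rF d B) (rF d B)) B2 with hF0
  set F1 : Fm d ℝ := ip gx wy + ip (h1 G) wx + ip wx wy - sm (rF d B) B2 with hF1
  have hwx : Up W (i + 1) wx := hw.dx _
  have hwy : Up W (i + 1) wy := hw.dx _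
  have hB2U : Up W (i + 2) B2 :=
    (((h.up.h1.ip hwy).mono (by omega)).add ((h.up.h1.ip hwy).mono (by omega))).add
      ((hwy.ip hwy).mono (by omega))
  have hr : Up W 0 (rF d B) := Up.cf B.r_coef
  have hgxU : Up W 1 gx := h.up.dx0_smul
  have hF0U : Up W (i + 2) F0 :=
    ((((hgxU.ip hwx).mono (by omega)).add ((hgxU.ip hwx).mono (by omega))).add
      ((hwx.ip hwx).mono (by omega))).sub (((hr.sm hr).sm hB2U).mono (by omega))
  have hF1U : Up W (i + 2) F1 :=
    ((((hgxU.ip hwy).mono (by omega)).add ((h.up.h1.ip hwx).mono (by omega))).add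
      ((hwx.ip hwy).mono (by omega))).sub ((hr.sm hB2U).mono (by omega))
  have hA0 : Low W (i + 1) (ip (dtF G) wx + ip (dtF G) wx) := by
    have := h.up.dt.ip hwx.low
    exact (this.mono (by omega)).add (this.mono (by omega))
  have hA1 : Low W (i + 1) (ip (dtF G) wy) := (h.up.dt.ip hwy.low).mono (by omega)
  have hwc : ∀ p z t, wx p z t = wx p z 0 ∧ wy p z t = wy p z 0 := fun p z t => ⟨rfl, rfl⟩
  have hz0 : meanF (ip (dtF G) wx + ip (dtF G) wx) = 0 := by
    have := meanF_ip_dt (w := wx) h.up.val.js h.up.val.per fun p z t => (hwc p z t).1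
    rw [meanF_add (fun p => (h.up.dt.ip hwx.low).val.js p) (fun p => (h.up.dt.ip hwx.low).val.js p),
      this, add_zero]
  have hz1 : meanF (ip (dtF G) wy) = 0 :=
    meanF_ip_dt (w := wy) h.up.val.js h.up.val.per fun p z t => (hwc p z t).2
  have hGj := h.up.val.js
  have hDj := hDU.val.js
  have e2' : ∀ p z t, e2 B (G + D) p z t =
      e2 B G p z t + (-meanF (r2 B G) p z t + B2 p z t) := fun p z t => by
    rw [e2_add hGj hDj, (hlin p z t).2.2, hk1]
    simp only [hB2, Pi.add_apply, ip_apply]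
    ring
  have er0 : r0 B (G + D) = oscF (r0 B G) + (ip (dtF G) wx + ip (dtF G) wx) + F0 := by
    funext p z t
    have hm := B.r_mul_mean_r2 G p z t
    have he : h0 G p z t = dtF G p z t + gx p z t := rfl
    simp only [r0, oscF, hF0, Pi.add_apply, Pi.sub_apply, ip_apply, sm_apply, rF, cf, smul_eq_mul,
      e2' p z t, e0_add hGj hDj, (hlin p z t).1]
    rw [hk0, he, inner_add_left]
    linear_combination (B.r z.2) * hm
  have er1 : r1 B (G + D) = oscF (r1 B G) + ip (dtF G) wy + F1 := by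
    funext p z t
    have hm := B.r_mul_mean_r2 G p z t
    have he : h0 G p z t = dtF G p z t + gx p z t := rfl
    simp only [r1, oscF, hF1, Pi.add_apply, Pi.sub_apply, ip_apply, sm_apply, rF, cf, smul_eq_mul,
      e2' p z t, e1_add hGj hDj]
    rw [show meanF (r1 B G) p z t = meanF (r1 B G) p z t from rfl]
    have h1' := (hlin p z t).2.1
    rw [hk0, hk1] at h1' ⊢
    rw [he, inner_add_left]
    linear_combination hm + h1'
  have er2 : r2 B (G + D) = oscF (r2 B G) + fun p z t => B.χ • B2 p z t := by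
    funext p z t
    simp only [r2, oscF, Pi.add_apply, Pi.sub_apply, smul_eq_mul, e2' p z t]
    linear_combination -(B.χ_mul_mean_r2 G p z t)
  refine ⟨G + D, ⟨h.up.add (hDU.mono (Nat.zero_le _)), ?_, h.off.add hDo, ?_, ?_, ?_, ?_, ?_, ?_, ?_⟩,
    by simpa using hDU, by simpa using hD0, by rw [add_sub_cancel_left]⟩
  · rw [dtF_add hGj hDj, hD0, add_zero]; exact h.g
  · rw [er0]; exact (h.l0.osc.add (hA0.mono hji)).add (hF0U.low.mono (by omega))
  · rw [er1]; exact (h.l1.osc.add (hA1.mono hji)).add (hF1U.low.mono (by omega))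
  · rw [er2]; exact (h.o2.mono hn).add ((hB2U.csmul _).mono (by omega))
  · have : Up W (j + 1) (r2 B (G + D)) := by
      rw [er2]; exact (h.o2.mono hn).add ((hB2U.csmul _).mono (by omega))
    exact this.sub this.low.mean
  · rw [er0, meanF_add (Φ := oscF (r0 B G) + (ip (dtF G) wx + ip (dtF G) wx)) (fun p => (h.l0.osc.val.js p).add ((hA0.val.js p))) hF0U.val.js,
      meanF_add h.l0.osc.val.js hA0.val.js, meanF_oscF h.l0.val.js, hz0, zero_add, zero_add]
    exact hF0U.low.mean.mono (by omega)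
  · rw [er1, meanF_add (Φ := oscF (r1 B G) + ip (dtF G) wy) (fun p => (h.l1.osc.val.js p).add ((hA1.val.js p))) hF1U.val.js,
      meanF_add h.l1.osc.val.js hA1.val.js, meanF_oscF h.l1.val.js, hz1, zero_add, zero_add]
    exact hF1U.low.mean.mono (by omega)
  · rw [er2, meanF_add h.o2.val.js (hB2U.csmul _).val.js, meanF_oscF h.u2.val.js, zero_add]
    exact (hB2U.csmul _).low.mean.mono (by omega)

/-! ### The oscillating parts -/

/-- The solver applied to families. -/
noncomputable def solveF (B : Base) (R : Fin 3 → Fm d ℝ) : Fm d R4 :=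
  (∑ k, sm (R k) (cf d (B.A k))) +
    ∑ c, sm (meanF (∑ k, sm (R k) (cf d (B.Dm c k)))) (cf d (B.Cv c))

lemma Low.sum {ι : Type} {X : Type} [NormedAddCommGroup X] [NormedSpace ℝ X] (s : Finset ι)
    {Φ : ι → Fm d X} (h : ∀ k ∈ s, Low W j (Φ k)) : Low W j (∑ k ∈ s, Φ k) :=
  Finset.sum_induction _ (fun g => Low W j g) (fun _ _ => Low.add) Up.zero.low h

theorem Low.solve {R : Fin 3 → Fm d ℝ} (h : ∀ k, Low W j (R k)) : Low W j (solveF B R) := by
  refine (Low.sum _ fun k _ => ?_).add (Low.sum _ fun c _ => ?_)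
  · simpa using (h k).sm (Up.cf (B.A_coef k)).low
  · have h1 : Low W j (∑ k, Expand.sm (R k) (cf d (B.Dm c k))) :=
      Low.sum _ fun k _ => by simpa using (h k).sm (Up.cf (B.Dm_coef c k)).low
    simpa using h1.mean.low.sm (Up.cf (B.Cv_coef c)).low

theorem solveF_spec {R : Fin 3 → Fm d ℝ} (hj : ∀ k p, Js (R k p)) (hp : ∀ k p, Per (R k p))
    (h0 : ∀ k p z, Expand.mean (R k p) z = 0) (ho : ∀ k, Off B.S (R k)) :
    Off B.S (solveF B R) ∧ (∀ p z, Expand.mean (solveF B R p) z = 0) ∧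
      ∀ p z t, ⟪B.X0 z.2 + B.g0 z.2 t, solveF B R p z t⟫ = R 0 p z t ∧
        ⟪B.X1 z.2, solveF B R p z t⟫ = R 1 p z t ∧ ⟪B.V z.2, solveF B R p z t⟫ = R 2 p z t := by
  have e : ∀ p z t, solveF B R p z t = (∑ k, R k p z t • B.A k z.2 t) +
      ∑ c, (∫ s in (0 : ℝ)..1, ∑ k, R k p z s * B.Dm c k z.2 s) • B.Cv c z.2 t := fun p z t => by
    simp [solveF, sm_apply, cf, meanF, Expand.mean]
  have hoff : Off B.S (solveF B R) := fun p z t hz => by
    simp [e, ho _ p z _ hz]
  refine ⟨hoff, fun p z => ?_, fun p z t => ?_⟩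
  · by_cases hz : z.2 ∈ B.N
    · have := (B.solve z.2 hz (fun k => R k p z) (fun k => ((hj k p).fast z).continuous)
        (fun k => hp k p z) fun k => h0 k p z).1
      simpa [Expand.mean, e] using this
    · have hzS : z.2 ∉ B.S := fun h => hz (B.S_sub h)
      simp [Expand.mean, hoff p z _ hzS]
  · by_cases hz : z.2 ∈ B.N
    · rw [e]
      exact (B.solve z.2 hz (fun k => R k p z) (fun k => ((hj k p).fast z).continuous)
        (fun k => hp k p z) fun k => h0 k p z).2 t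
    · have hzS : z.2 ∉ B.S := fun h => hz (B.S_sub h)
      simp [hoff p z t hzS, ho _ p z t hzS]

/-- Effect of adding `U` on the reduced errors. -/
theorem perturb {G U : Fm d R4} (hG : Up W 0 G) (hg : Low W 1 (dtF G - gF d B)) (hUU : Up W j U)
    (hj : 1 ≤ j) :
    ∃ (E0 E1 B2 : Fm d ℝ), Low W (j + 1) E0 ∧ Low W (j + 1) E1 ∧ Up W (j + 2) B2 ∧
      (∀ p z t, r0 B (G + U) p z t =
        r0 B G p z t + 2 * ⟪B.X0 z.2 + B.g0 z.2 t, dtF U p z t⟫ + E0 p z t) ∧
      (∀ p z t, r1 B (G + U) p z t = r1 B G p z t + ⟪B.X1 z.2, dtF U p z t⟫ + E1 p z t) ∧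
      ∀ p z t, r2 B (G + U) p z t =
        r2 B G p z t + 2 * eps p * (B.χ * ⟪B.X1 z.2, dx (ev 1) U p z t⟫) + B.χ * B2 p z t := by
  set u := dtF U with hu
  have huL : Low W j u := hUU.dt
  set ux : Fm d R4 := fun p z t => eps p • dx (ev 0) U p z t with hux
  have hk0 : h0 U = u + ux := rfl
  have huxU : Up W (j + 1) ux := hUU.dx0_smul
  have hk1U : Up W (j + 1) (h1 U) := hUU.h1
  have hk0L : Low W j (h0 U) := hUU.h0
  set X0F : Fm d R4 := cf d fun x _ => B.X0 x with hX0F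
  set X1F : Fm d R4 := cf d fun x _ => B.X1 x with hX1F
  have hX0U : Up W 0 X0F := Up.cf B.X0_coef
  have hX1U : Up W 0 X1F := Up.cf B.X1_coef
  have hr : Up W 0 (rF d B) := Up.cf B.r_coef
  set gx : Fm d R4 := fun p z t => eps p • dx (ev 0) G p z t with hgx
  set B2 : Fm d ℝ := ip (h1 G) (h1 U) + ip (h1 G) (h1 U) + ip (h1 U) (h1 U) with hB2
  set D2 : Fm d ℝ := ip X1F (h1 U) + ip X1F (h1 U) + B2 with hD2
  have hB2U : Up W (j + 2) B2 :=
    (((hG.h1.ip hk1U).mono (by omega)).add ((hG.h1.ip hk1U).mono (by omega))).add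
      ((hk1U.ip hk1U).mono (by omega))
  have hD2U : Up W (j + 1) D2 :=
    (((hX1U.ip hk1U).mono (by omega)).add ((hX1U.ip hk1U).mono (by omega))).add
      (hB2U.mono (by omega))
  set dg : Fm d R4 := dtF G - gF d B + gx with hdg
  have hdgL : Low W 1 dg := hg.add hG.dx0_smul.low
  set E0 : Fm d ℝ := ip dg u + ip dg u + (ip X0F ux + ip X0F ux) + (ip (h0 G) ux + ip (h0 G) ux) +
    ip (h0 U) (h0 U) - sm (sm (rF d B) (rF d B)) D2 with hE0
  set E1 : Fm d ℝ := ip (h1 G) u + ip X1F ux + ip (h1 G) ux + ip X0F (h1 U) + ip (h0 G) (h1 U) +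
    ip (h0 U) (h1 U) - sm (rF d B) D2 with hE1
  have hE0L : Low W (j + 1) E0 :=
    (((((hdgL.ip huL).mono (by omega)).add ((hdgL.ip huL).mono (by omega))).add
      (((hX0U.ip huxU).low.mono (by omega)).add ((hX0U.ip huxU).low.mono (by omega)))).add
      (((hG.h0.ip huxU.low).mono (by omega)).add ((hG.h0.ip huxU.low).mono (by omega)))).add
      ((hk0L.ip hk0L).mono (by omega)) |>.sub (((hr.sm hr).sm hD2U).low.mono (by omega))
  have hE1L : Low W (j + 1) E1 :=
    ((((((hG.h1.low.ip huL).mono (by omega)).add ((hX1U.ip huxU).low.mono (by omega))).add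
      ((hG.h1.low.ip huxU.low).mono (by omega))).add ((hX0U.ip hk1U).low.mono (by omega))).add
      ((hG.h0.ip hk1U.low).mono (by omega))).add ((hk0L.ip hk1U.low).mono (by omega))
      |>.sub ((hr.sm hD2U).low.mono (by omega))
  have hGj := hG.val.js
  have hUj := hUU.val.js
  have e2' : ∀ p z t, e2 B (G + U) p z t = e2 B G p z t + D2 p z t := fun p z t => by
    rw [e2_add hGj hUj]
    simp only [hD2, hB2, Pi.add_apply, ip_apply, hX1F, cf]
    ring
  have hsplit : ∀ p z t, h0 G p z t = B.g0 z.2 t + dg p z t := fun p z t => by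
    simp [hdg, hgx, h0, gF, cf]
    abel
  refine ⟨E0, E1, B2, hE0L, hE1L, hB2U, fun p z t => ?_, fun p z t => ?_, fun p z t => ?_⟩
  · simp only [r0, hE0, Pi.add_apply, Pi.sub_apply, ip_apply, sm_apply, rF, cf, smul_eq_mul,
      e2' p z t, e0_add hGj hUj]
    simp only [hk0, Pi.add_apply, inner_add_left, inner_add_right, hsplit p z t, hX0F, cf]
    ring
  · simp only [r1, hE1, Pi.add_apply, Pi.sub_apply, ip_apply, sm_apply, rF, cf, smul_eq_mul,
      e2' p z t, e1_add hGj hUj]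
    simp only [hk0, Pi.add_apply, inner_add_left, inner_add_right, hX0F, hX1F, cf]
    ring
  · simp only [r2, e2' p z t, hD2, Pi.add_apply, ip_apply, hX1F, cf, h1, inner_smul_right]
    ring

theorem step_osc {G : Fm d R4} (h : St B W j (j + 1) (j + 1) (j + 1) G) (hj : 1 ≤ j) :
    ∃ G', St B W (j + 1) (j + 1) (j + 1) (j + 1) G' ∧ Up W j (G' - G) ∧
      ∀ p z t, ⟪B.V z.2, dtF (G' - G) p z t⟫ = 0 := by
  set R : Fin 3 → Fm d ℝ := ![fun p z t => (-1 / 2 : ℝ) • oscF (r0 B G) p z t,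
    fun p z t => (-1 : ℝ) • oscF (r1 B G) p z t, 0] with hR
  have hRL : ∀ k, Low W j (R k) := Fin.forall_fin_succ.2 ⟨h.l0.osc.csmul _,
    Fin.forall_fin_succ.2 ⟨h.l1.osc.csmul _, Fin.forall_fin_one.2 Up.zero.low⟩⟩
  have hR0 : ∀ k p z, Expand.mean (R k p) z = 0 := Fin.forall_fin_succ.2 ⟨fun p z => by
      show ∫ s in (0 : ℝ)..1, (-1 / 2 : ℝ) • oscF (r0 B G) p z s = 0
      rw [intervalIntegral.integral_smul]
      exact smul_eq_zero_of_right _ (mean_oscF h.l0.val.js p z),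
    Fin.forall_fin_succ.2 ⟨fun p z => by
      show ∫ s in (0 : ℝ)..1, (-1 : ℝ) • oscF (r1 B G) p z s = 0
      rw [intervalIntegral.integral_smul]
      exact smul_eq_zero_of_right _ (mean_oscF h.l1.val.js p z),
    Fin.forall_fin_one.2 fun p z => by simp [hR, Expand.mean]⟩⟩
  have hRo : ∀ k, Off B.S (R k) := Fin.forall_fin_succ.2
    ⟨(h.off.r0.sub h.off.r0.mean).smul fun _ _ _ => (-1 / 2 : ℝ),
      Fin.forall_fin_succ.2 ⟨(h.off.r1.sub h.off.r1.mean).smul fun _ _ _ => (-1 : ℝ),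
        Fin.forall_fin_one.2 fun p z t _ => rfl⟩⟩
  obtain ⟨huo, hu0, hus⟩ := solveF_spec (fun k => (hRL k).val.js) (fun k => (hRL k).val.per) hR0 hRo
  set u := solveF B R with hu
  have huL : Low W j u := Low.solve hRL
  set U := primF u with hU
  have hUU : Up W j U := huL.prim hu0
  have hdU : dtF U = u := dtF_primF huL.val.js
  obtain ⟨E0, E1, B2, hE0L, hE1L, hB2U, q0, q1, q2⟩ := perturb (B := B) h.up h.g hUU hj
  rw [hdU] at q0 q1
  have er0 : r0 B (G + U) = meanF (r0 B G) + E0 := by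
    funext p z t
    rw [q0, (hus p z t).1]
    simp only [hR, Matrix.cons_val_zero, smul_eq_mul, oscF, Pi.sub_apply, Pi.add_apply]
    ring
  have er1 : r1 B (G + U) = meanF (r1 B G) + E1 := by
    funext p z t
    rw [q1, (hus p z t).2.1]
    simp only [hR, Matrix.cons_val_one, Matrix.cons_val_zero, smul_eq_mul, oscF, Pi.sub_apply,
      Pi.add_apply]
    ring
  set D2 : Fm d ℝ := ip (cf d fun x _ => B.X1 x) (h1 U) + ip (cf d fun x _ => B.X1 x) (h1 U) + B2
    with hD2
  have hD2U : Up W (j + 1) D2 :=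
    ((((Up.cf B.X1_coef).ip hUU.h1).mono (by omega)).add
      (((Up.cf B.X1_coef).ip hUU.h1).mono (by omega))).add (hB2U.mono (by omega))
  have er2 : r2 B (G + U) = r2 B G + fun p z t => B.χ • D2 p z t := by
    funext p z t
    rw [q2]
    simp only [Pi.add_apply, hD2, ip_apply, cf, h1, inner_smul_right, smul_eq_mul]
    ring
  have hr2U : Up W (j + 1) (r2 B (G + U)) := by rw [er2]; exact h.u2.add (hD2U.csmul _)
  have hr0L : Low W (j + 1) (r0 B (G + U)) := by rw [er0]; exact h.m0.low.add hE0L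
  have hr1L : Low W (j + 1) (r1 B (G + U)) := by rw [er1]; exact h.m1.low.add hE1L
  refine ⟨G + U, ⟨h.up.add (hUU.mono (Nat.zero_le _)), ?_, h.off.add huo.prim, hr0L, hr1L, hr2U,
    hr2U.sub hr2U.low.mean, hr0L.mean, hr1L.mean, hr2U.low.mean⟩, by simpa using hUU, ?_⟩
  · rw [dtF_add h.up.val.js hUU.val.js, hdU, add_sub_right_comm]
    exact h.g.add (huL.mono hj)
  · intro p z t
    rw [add_sub_cancel_left, hdU, (hus p z t).2.2]
    rfl

theorem step_abs {n : ℕ} {G : Fm d R4} (h : St B W (j + 1) (j + 1) n (j + 1) G) (hj : 1 ≤ j)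
    (hn : j + 1 ≤ n) (hQ : W.Q ≤ j) :
    ∃ G', St B W (j + 1) (j + 1) (j + 2) (j + 1) G' ∧ Up W j (G' - G) ∧
      (B.χ = 0 → ∀ p z t, ⟪B.V z.2, dtF (G' - G) p z t⟫ = 0) := by
  set φ : Fm d ℝ := fun p z t => (p.M : ℝ) • ((1 / 2 : ℝ) • oscF (r2 B G) p z t) with hφ
  have hφU : Up W j φ := ((h.o2.mono hn).csmul _).M_smul hQ
  have hφ0 : ∀ p z, Expand.mean (φ p) z = 0 := fun p z => by
    show ∫ s in (0 : ℝ)..1, (p.M : ℝ) • ((1 / 2 : ℝ) • oscF (r2 B G) p z s) = 0
    rw [intervalIntegral.integral_smul, intervalIntegral.integral_smul]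
    have e := mean_oscF h.u2.val.js p z
    rw [Expand.mean] at e
    rw [e]
    simp
  have hφo : Off B.S φ := ((h.off.r2.sub h.off.r2.mean).smul fun _ _ _ => (1 / 2 : ℝ)).smul
    fun p _ _ => (p.M : ℝ)
  set R : Fin 3 → Fm d ℝ := ![0, 0, dtF φ] with hR
  have hRL : ∀ k, Low W j (R k) := Fin.forall_fin_succ.2 ⟨Up.zero.low,
    Fin.forall_fin_succ.2 ⟨Up.zero.low, Fin.forall_fin_one.2 hφU.dt⟩⟩
  have hR0 : ∀ k p z, Expand.mean (R k p) z = 0 := Fin.forall_fin_succ.2 ⟨fun p z => by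
      simp [hR, Expand.mean],
    Fin.forall_fin_succ.2 ⟨fun p z => by simp [hR, Expand.mean],
      Fin.forall_fin_one.2 fun p z => mean_dt (hφU.val.js p) (hφU.val.per p) z⟩⟩
  have hRo : ∀ k, Off B.S (R k) := Fin.forall_fin_succ.2 ⟨fun p z t _ => rfl,
    Fin.forall_fin_succ.2 ⟨fun p z t _ => rfl, Fin.forall_fin_one.2 hφo.dt⟩⟩
  obtain ⟨huo, hu0, hus⟩ := solveF_spec (fun k => (hRL k).val.js) (fun k => (hRL k).val.per) hR0 hRo
  set u := solveF B R with hu
  have huL : Low W j u := Low.solve hRL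
  set U := primF u with hU
  have hUU : Up W j U := huL.prim hu0
  have hdU : dtF U = u := dtF_primF huL.val.js
  have hUo : Off B.S U := huo.prim
  have hUV : ∀ p z t, ⟪B.X1 z.2, U p z t⟫ = 0 ∧ ⟪B.V z.2, U p z t⟫ = φ p z t := by
    intro p z t
    have h1' := prim_clm (Φ := u p) (huL.val.js p) (ipL (B.X1 z.2)) z t
    have h2' := prim_clm (Φ := u p) (huL.val.js p) (ipL (B.V z.2)) z t
    refine ⟨h1'.symm.trans ?_, h2'.symm.trans ?_⟩
    · rw [prim_congr (Ψ := fun (_ : Zv d) (_ : ℝ) => (0 : ℝ)) (funext fun s => by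
        show ⟪B.X1 z.2, u p z s⟫ = 0
        rw [(hus p z s).2.1]; rfl)]
      simp [Expand.prim, int0, Expand.mean]
    · rw [prim_congr (Ψ := dtF φ p) (funext fun s => by
        show ⟪B.V z.2, u p z s⟫ = _
        rw [(hus p z s).2.2]; rfl)]
      show Expand.prim (Expand.dt (φ p)) z t = _
      rw [prim_dt (hφU.val.js p), hφ0, sub_zero]
  have hY : ∀ p z t, B.χ * ⟪B.X1 z.2, dx (ev 1) U p z t⟫ = -(B.χ * φ p z t) := by
    intro p z t
    by_cases hz : z.2 ∈ B.N
    · by_cases hχ : B.χ = 0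
      · simp [hχ]
      obtain ⟨c, hc⟩ := B.V_eq hχ z.2 hz
      have hs : ContDiff ℝ ∞ fun y => U p (z.1, y) t :=
        ((hUU.val.js p).slow t).comp (contDiff_const.prodMk contDiff_id)
      have hX : ContDiff ℝ ∞ B.X1 := B.X1_coef.js.comp (contDiff_id.prodMk (contDiff_const (c := (0 : ℝ))))
      have h0' : fderiv ℝ (fun y => ⟪B.X1 y, U p (z.1, y) t⟫) z.2 (ev 1) = 0 := by
        rw [show (fun y => ⟪B.X1 y, U p (z.1, y) t⟫) = fun _ => (0 : ℝ) from
          funext fun y => (hUV p (z.1, y) t).1]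
        simp
      rw [fderiv_inner_apply ℝ (hX.differentiable (by norm_num) _)
        (hs.differentiable (by norm_num) _)] at h0'
      have e : fderiv ℝ (fun y => U p (z.1, y) t) z.2 (ev 1) = dx (ev 1) U p z t :=
        pd_slice hUU.val.js p z.1 z.2 t 1
      rw [e, show fderiv ℝ B.X1 z.2 (ev 1) = pd 1 B.X1 z.2 from rfl, hc, inner_add_left,
        inner_smul_left, (hUV p z t).1, (hUV p z t).2] at h0'
      simp at h0'
      linear_combination B.χ * h0'
    · have hzS : z.2 ∉ B.S := fun h => hz (B.S_sub h)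
      simp [(hUo.dx B.S_closed (ev 1)) p z t hzS, hφo p z t hzS]
  obtain ⟨E0, E1, B2, hE0L, hE1L, hB2U, q0, q1, q2⟩ := perturb (B := B) h.up h.g hUU hj
  rw [hdU] at q0 q1
  have er0 : r0 B (G + U) = r0 B G + E0 := by
    funext p z t
    rw [q0, (hus p z t).1]
    simp only [hR, Matrix.cons_val_zero, Pi.zero_apply, Pi.add_apply]
    ring
  have er1 : r1 B (G + U) = r1 B G + E1 := by
    funext p z t
    rw [q1, (hus p z t).2.1]
    simp only [hR, Matrix.cons_val_one, Matrix.cons_val_zero, Pi.zero_apply, Pi.add_apply]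
    ring
  have hGj := h.up.val.js
  have hUj := hUU.val.js
  have er2 : r2 B (G + U) = meanF (r2 B G) + fun p z t => B.χ • B2 p z t := by
    funext p z t
    have hm := hY p z t
    have hc := B.χ_mul_r2 G p z t
    have hc' := B.χ_mul_mean_r2 G p z t
    have he : eps p * (p.M : ℝ) = 1 := inv_mul_cancel₀ (Nat.cast_ne_zero.2 p.M_ne)
    have hφv : φ p z t = (p.M : ℝ) * ((1 / 2) * (r2 B G p z t - meanF (r2 B G) p z t)) := rfl
    rw [q2, hm]
    simp only [Pi.add_apply, smul_eq_mul]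
    linear_combination -2 * eps p * B.χ * hφv -
      B.χ * (r2 B G p z t - meanF (r2 B G) p z t) * he - hc + hc'
  have hr2U : Up W (j + 1) (r2 B (G + U)) := by
    rw [er2]; exact h.m2.add ((hB2U.csmul _).mono (by omega))
  have hr0L : Low W (j + 1) (r0 B (G + U)) := by rw [er0]; exact h.l0.add hE0L
  have hr1L : Low W (j + 1) (r1 B (G + U)) := by rw [er1]; exact h.l1.add hE1L
  refine ⟨G + U, ⟨h.up.add (hUU.mono (Nat.zero_le _)), ?_, h.off.add hUo, hr0L, hr1L, hr2U,
    ?_, hr0L.mean, hr1L.mean, hr2U.low.mean⟩, by simpa using hUU, fun hχ p z t => ?_⟩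
  · rw [dtF_add hGj hUj, hdU, add_sub_right_comm]
    exact h.g.add (huL.mono hj)
  · have e : oscF (r2 B (G + U)) = oscF fun p z t => B.χ • B2 p z t := by
      rw [oscF, oscF, er2, meanF_add h.m2.val.js (hB2U.csmul B.χ).val.js, meanF_meanF]
      abel
    rw [e]
    exact (hB2U.csmul B.χ).sub (hB2U.csmul B.χ).low.mean
  · rw [add_sub_cancel_left, hdU, (hus p z t).2.2]
    have hφ' : φ p = 0 := by
      funext y s; simp [hφ, r2, hχ, oscF, meanF, Expand.mean]
    show dt (φ p) z t = 0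
    rw [hφ', show dt (0 : Zv d → ℝ → ℝ) = 0 from zero_dt_iter 1]
    rfl

/-- One step. -/
theorem step {G : Fm d R4} (h : St B W j j (j + 1) (i + 1) G) (hj : 1 ≤ j) (hji : j ≤ i + 1)
    (hQi : W.Q ≤ i) (hQj : W.Q ≤ j) :
    ∃ G', St B W (j + 1) (j + 1) (j + 2) (j + 1) G' ∧ Up W (min i j) (G' - G) ∧
      (B.χ = 0 → ∀ p z t, ⟪B.V z.2, dtF (G' - G) p z t⟫ = 0) := by
  obtain ⟨G1, h1, hd1, ht1, -⟩ := step_mean h hji le_rfl hQi
  obtain ⟨G2, h2, hd2, hv2⟩ := step_osc h1 hj
  obtain ⟨G3, h3, hd3, hv3⟩ := step_abs h2 hj le_rfl hQj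
  have e : G3 - G = (G3 - G2) + ((G2 - G1) + (G1 - G)) := by abel
  refine ⟨G3, h3, ?_, fun hχ p z t => ?_⟩
  · rw [e]
    exact (hd3.mono (min_le_right _ _)).add
      ((hd2.mono (min_le_right _ _)).add (hd1.mono (min_le_left _ _)))
  · rw [e, dtF_add (Φ' := (G2 - G1) + (G1 - G)) hd3.val.js (fun p => (hd2.val.js p).add (hd1.val.js p)),
      dtF_add hd2.val.js hd1.val.js, ht1, add_zero]
    simp only [Pi.add_apply, inner_add_right, hv3 hχ p z t, hv2 p z t, add_zero]

end Vale.Agent.P205F.Expand
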